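import Crest.Agent.R20.Tauber

/-!
# R20: the prime number theorem

Apply `tauber` to `f(t) = ψ(e^t) e^{-t} - 1` (bounded by `Chebyshev.psi_le_const_mul_self`,
measurable since `ψ` is monotone, slowly decreasing since `ψ` is monotone:
`f(s) + 1 ≥ (f(t) + 1) e^{-δ}`).  For `Re z > 0`,
`∫_0^∞ ψ(e^t) e^{-(1+z)t} dt = ∫_1^∞ ψ(x) x^{-(2+z)} dx = L(Λ, 1+z)/(1+z)`
(`LSeries_eq_mul_integral` in `Mathlib/NumberTheory/LSeries/SumCoeff.lean`, substitution `x = e^t`;
or directly `∑_n Λ(n) ∫_{log n}^∞ e^{-(1+z)t} dt` by Fubini/`integral_tsum`), and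
`∫_0^∞ e^{-zt} dt = 1/z`.  With `aux(s) = L(Λ,s) - 1/(s-1)`, continuous on `Re s ≥ 1`
(`ArithmeticFunction.vonMangoldt.LFunctionResidueClassAux` for `q = 1`, `a = 1`:
`continuousOn_LFunctionResidueClassAux`, `eqOn_LFunctionResidueClassAux`), the Laplace transform
of `f` is `G(z) = (aux(1+z) + 1/z)/(1+z) - 1/z = (aux(1+z) - 1)/(1+z)`.
Then `θ ∼ ψ` (`Chebyshev.isBigO_psi_sub_theta_sqrt`) and `π(x) ∼ θ(x)/log x`
(`Chebyshev.primeCounting_sub_theta_div_log_isBigO`).
-/

set_option autoImplicit false

open Filter Topology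

noncomputable section

namespace Crest.Agent.R20

open MeasureTheory ArithmeticFunction in
private theorem pnt_lseries {z : ℂ} (hz : 0 < z.re) :
    LSeries (fun n => (vonMangoldt n : ℂ)) (1 + z) =
      (1 + z) * ∫ t in Set.Ioi (0 : ℝ),
        ((Chebyshev.psi (Real.exp t) * Real.exp (-t) : ℝ) : ℂ) * Complex.exp (-(z * t)) := by
  have hs : (1 : ℝ) < (1 + z).re := by simpa using hz
  have hpsi : ∀ x : ℝ, Chebyshev.psi x = ∑ k ∈ Finset.Icc 1 ⌊x⌋₊, vonMangoldt k := by
    intro x
    rw [Chebyshev.psi]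
    rfl
  have hO : (fun n : ℕ => ∑ k ∈ Finset.Icc 1 n, vonMangoldt k) =O[atTop]
      fun n : ℕ => (n : ℝ) ^ (1 : ℝ) := by
    refine Asymptotics.IsBigO.of_bound (Real.log 4 + 4) (Eventually.of_forall fun n => ?_)
    have h1 := Chebyshev.psi_le_const_mul_self (x := (n : ℝ)) (Nat.cast_nonneg n)
    have h2 := Chebyshev.psi_nonneg (n : ℝ)
    rw [hpsi, Nat.floor_natCast] at h1 h2
    rw [Real.rpow_one, Real.norm_of_nonneg h2, Real.norm_of_nonneg (Nat.cast_nonneg n)]
    exact h1
  rw [LSeries_eq_mul_integral_of_nonneg (fun n => vonMangoldt n) zero_le_one hs hO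
    (fun n => vonMangoldt_nonneg)]
  congr 1
  have h := integral_comp_exp_Ioi (fun t : ℝ =>
    (∑ k ∈ Finset.Icc 1 ⌊t⌋₊, ((vonMangoldt k : ℝ) : ℂ)) * (t : ℂ) ^ (-(1 + z + 1))) 0
  rw [Real.exp_zero] at h
  rw [← h]
  refine setIntegral_congr_fun measurableSet_Ioi fun t _ => ?_
  rw [hpsi, Complex.real_smul]
  have e1 : ((Real.exp t : ℝ) : ℂ) ^ (-(1 + z + 1)) = Complex.exp (t * (-(1 + z + 1))) := by
    rw [Complex.cpow_def_of_ne_zero (by simp), ← Complex.ofReal_log (Real.exp_pos t).le,
      Real.log_exp]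
  rw [e1]
  push_cast
  have e2 : Complex.exp (t : ℂ) * Complex.exp (t * (-(1 + z + 1))) =
      Complex.exp (-t) * Complex.exp (-(z * t)) := by
    rw [← Complex.exp_add, ← Complex.exp_add]
    congr 1
    ring
  linear_combination (∑ k ∈ Finset.Icc 1 ⌊Real.exp t⌋₊, ((vonMangoldt k : ℝ) : ℂ)) * e2

private theorem pnt_bd (t : ℝ) :
    0 ≤ Chebyshev.psi (Real.exp t) * Real.exp (-t) ∧
      Chebyshev.psi (Real.exp t) * Real.exp (-t) ≤ Real.log 4 + 4 := by
  refine ⟨mul_nonneg (Chebyshev.psi_nonneg _) (Real.exp_pos _).le, ?_⟩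
  have h1 := Chebyshev.psi_le_const_mul_self (x := Real.exp t) (Real.exp_pos t).le
  have h2 : Real.exp t * Real.exp (-t) = 1 := by rw [← Real.exp_add]; simp
  calc _ ≤ (Real.log 4 + 4) * Real.exp t * Real.exp (-t) :=
        mul_le_mul_of_nonneg_right h1 (Real.exp_pos _).le
    _ = _ := by rw [mul_assoc, h2, mul_one]

private theorem pnt_meas :
    Measurable (fun t : ℝ => Chebyshev.psi (Real.exp t) * Real.exp (-t)) :=
  (Chebyshev.psi_mono.measurable.comp Real.measurable_exp).mul
    (Real.measurable_exp.comp measurable_neg)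

open MeasureTheory ArithmeticFunction ArithmeticFunction.vonMangoldt in
private theorem pnt_exp :
    Tendsto (fun t : ℝ => Chebyshev.psi (Real.exp t) * Real.exp (-t) - 1) atTop (𝓝 0) := by
  have hC : (0 : ℝ) < Real.log 4 + 4 := by
    have := Real.log_nonneg (show (1 : ℝ) ≤ 4 by norm_num)
    linarith
  refine tauber _ (Real.log 4 + 4 + 1) (pnt_meas.sub measurable_const) (fun t _ => ?_)
    (fun z => (LFunctionResidueClassAux (q := 1) 1 (1 + z) - 1) / (1 + z)) ?_ (fun z hz => ?_)
    (fun ε hε => ?_)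
  · obtain ⟨h1, h2⟩ := pnt_bd t
    rw [abs_le]
    constructor <;> linarith
  · refine ContinuousOn.div (ContinuousOn.sub ?_ continuousOn_const) (by fun_prop) ?_
    · refine (continuousOn_LFunctionResidueClassAux (q := 1) 1).comp (by fun_prop) ?_
      intro z hz
      simpa using hz
    · intro z hz h
      have h1 : (1 + z).re = 0 := by rw [h]; simp
      have h2 : 0 ≤ z.re := hz
      simp at h1
      linarith
  · have hs : (1 : ℝ) < (1 + z).re := by simpa using hz
    have hz0 : z ≠ 0 := by
      rintro rfl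
      simp at hz
    have hz1 : 1 + z ≠ 0 := by
      intro h
      rw [h] at hs
      norm_num at hs
    have h1 := eqOn_LFunctionResidueClassAux (q := 1) (a := 1) isUnit_one hs
    have h2 : (fun n => ((residueClass (q := 1) 1 n : ℝ) : ℂ)) =
        fun n => (vonMangoldt n : ℂ) := by
      funext n
      rw [residueClass, Set.indicator_of_mem]
      exact Subsingleton.elim _ _
    simp only [h2, Nat.totient_one, Nat.cast_one, inv_one, add_sub_cancel_left] at h1
    have hint : IntegrableOn (fun t : ℝ => Complex.exp (-(z * t))) (Set.Ioi 0) := by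
      have := integrableOn_exp_mul_complex_Ioi (a := -z) (by simpa using hz) 0
      simpa using this
    have hval : ∫ t in Set.Ioi (0 : ℝ), Complex.exp (-(z * t)) = 1 / z := by
      have := integral_exp_mul_complex_Ioi (a := -z) (by simpa using hz) 0
      simpa using this
    have hint2 : IntegrableOn (fun t : ℝ =>
        ((Chebyshev.psi (Real.exp t) * Real.exp (-t) : ℝ) : ℂ) * Complex.exp (-(z * t)))
        (Set.Ioi 0) := by
      refine Integrable.bdd_mul (c := Real.log 4 + 4) hint ?_ (Eventually.of_forall fun t => ?_)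
      · exact (Complex.measurable_ofReal.comp pnt_meas).aestronglyMeasurable
      · obtain ⟨h1, h2⟩ := pnt_bd t
        rw [Complex.norm_real, Real.norm_of_nonneg h1]
        exact h2
    have h3 : ∫ t in Set.Ioi (0 : ℝ),
        ((Chebyshev.psi (Real.exp t) * Real.exp (-t) - 1 : ℝ) : ℂ) * Complex.exp (-(z * t)) =
        (∫ t in Set.Ioi (0 : ℝ),
          ((Chebyshev.psi (Real.exp t) * Real.exp (-t) : ℝ) : ℂ) * Complex.exp (-(z * t))) -
        ∫ t in Set.Ioi (0 : ℝ), Complex.exp (-(z * t)) := by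
      rw [← integral_sub hint2 hint]
      refine setIntegral_congr_fun measurableSet_Ioi fun t _ => ?_
      push_cast
      ring
    rw [h3, hval, h1, pnt_lseries hz]
    field_simp
    ring
  · refine ⟨ε / (Real.log 4 + 4), div_pos hε hC, fun t s _ hts hs => ?_⟩
    obtain ⟨h1, h2⟩ := pnt_bd t
    have h3 : Chebyshev.psi (Real.exp t) ≤ Chebyshev.psi (Real.exp s) :=
      Chebyshev.psi_mono (Real.exp_le_exp.2 hts)
    have h4 : Real.exp (-s) = Real.exp (-t) * Real.exp (t - s) := by
      rw [← Real.exp_add]; congr 1; ring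
    have h5 : 1 - ε / (Real.log 4 + 4) ≤ Real.exp (t - s) := by
      have := Real.add_one_le_exp (t - s)
      linarith
    have h6 : Chebyshev.psi (Real.exp t) * Real.exp (-t) * Real.exp (t - s) ≤
        Chebyshev.psi (Real.exp s) * Real.exp (-s) := by
      rw [h4, mul_assoc]
      exact mul_le_mul_of_nonneg_right h3 (by positivity)
    have h7 : Chebyshev.psi (Real.exp t) * Real.exp (-t) * (ε / (Real.log 4 + 4)) ≤ ε := by
      calc _ ≤ (Real.log 4 + 4) * (ε / (Real.log 4 + 4)) :=
            mul_le_mul_of_nonneg_right h2 (div_pos hε hC).le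
        _ = ε := by field_simp
    have h8 := mul_le_mul_of_nonneg_left h5 h1
    nlinarith

theorem psi_tendsto : Tendsto (fun x : ℝ => Chebyshev.psi x / x) atTop (𝓝 1) := by
  have h := (pnt_exp.comp Real.tendsto_log_atTop).add_const 1
  rw [zero_add] at h
  refine h.congr' ?_
  filter_upwards [eventually_gt_atTop 0] with x hx
  simp only [Function.comp, Real.exp_neg, Real.exp_log hx]
  ring

theorem theta_tendsto : Tendsto (fun x : ℝ => Chebyshev.theta x / x) atTop (𝓝 1) := by
  have h1 : (fun x : ℝ => Real.sqrt x) =o[atTop] (fun x : ℝ => x) := by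
    refine Asymptotics.isLittleO_of_tendsto' ?_ ?_
    · filter_upwards [eventually_gt_atTop 0] with x hx h
      exact absurd h hx.ne'
    · refine (Real.tendsto_sqrt_atTop.inv_tendsto_atTop).congr' ?_
      filter_upwards [eventually_gt_atTop 0] with x hx
      simp only [Pi.inv_apply]
      rw [Real.sqrt_div_self', one_div]
  have h2 := (Chebyshev.isBigO_psi_sub_theta_sqrt.trans_isLittleO h1).tendsto_div_nhds_zero
  have h3 := psi_tendsto.sub h2
  rw [sub_zero] at h3
  refine h3.congr fun x => ?_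
  simp only [Pi.sub_apply]
  ring

/-- The prime number theorem. -/
theorem pnt : Tendsto (fun x : ℝ => (Nat.primeCounting ⌊x⌋₊ : ℝ) / (x / Real.log x))
    atTop (𝓝 1) := by
  have h1 : (fun x : ℝ => x / Real.log x ^ 2) =o[atTop] (fun x : ℝ => x / Real.log x) := by
    refine Asymptotics.isLittleO_of_tendsto' ?_ ?_
    · filter_upwards [eventually_gt_atTop 1] with x hx h
      have := Real.log_pos hx
      have : 0 < x / Real.log x := by positivity
      exact absurd h this.ne'
    · refine (Real.tendsto_log_atTop.inv_tendsto_atTop).congr' ?_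
      filter_upwards [eventually_gt_atTop 1] with x hx
      have := Real.log_pos hx
      simp only [Pi.inv_apply]
      field_simp
  have h2 := (Chebyshev.primeCounting_sub_theta_div_log_isBigO.trans_isLittleO
    h1).tendsto_div_nhds_zero
  have h3 := h2.add theta_tendsto
  rw [zero_add] at h3
  refine h3.congr' ?_
  filter_upwards [eventually_gt_atTop 1] with x hx
  have := Real.log_pos hx
  field_simp
  ring

end Crest.Agent.R20
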