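import Crest.Agent.R20.Defs

/-!
# R20: elementary API for `ell`, `gpf`, `top`, `rest`, `tail`, `lev`, `ht`, `Om`, `OmB`, `cm`,
`tup`, `obj` (all proofs elementary; `rest n = ordCompl[gpf n] n`).
-/

set_option autoImplicit false

open Finset Filter Topology
open Crest.NumberTheoryR.TotientScale

noncomputable section

namespace Crest.Agent.R20

/-! ### `ell`, `win`, `EE` -/

theorem ell_nonneg (p : ℕ) : 0 ≤ ell p := le_max_left _ _

theorem ell_one : ell 1 = 0 := by simp [ell]

theorem ell_of_le_two {p : ℕ} (hp : p ≤ 2) : ell p = 0 := by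
  interval_cases p
  · simp [ell]
  · simp [ell]
  · have h1 : Real.log 2 < 1 := by have := Real.log_two_lt_d9; linarith
    have h2 : 0 < Real.log 2 := Real.log_pos (by norm_num)
    exact max_eq_left (by simpa using (Real.log_neg h2 h1).le)

private theorem one_lt_log_of_three_le {p : ℕ} (hp : 3 ≤ p) : 1 < Real.log p := by
  have h1 : (3 : ℝ) ≤ p := by exact_mod_cast hp
  rw [Real.lt_log_iff_exp_lt (by linarith)]
  have := Real.exp_one_lt_d9
  linarith

theorem ell_of_three_le {p : ℕ} (hp : 3 ≤ p) : ell p = Real.log (Real.log p) := by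
  exact max_eq_right (Real.log_pos (one_lt_log_of_three_le hp)).le

theorem ell_pos {p : ℕ} (hp : 3 ≤ p) : 0 < ell p := by
  rw [ell_of_three_le hp]
  exact Real.log_pos (one_lt_log_of_three_le hp)

theorem ell_mono : Monotone ell := by
  intro p q hpq
  rcases le_or_gt p 2 with h | h
  · rw [ell_of_le_two h]; exact ell_nonneg q
  · have h1 := one_lt_log_of_three_le h
    have h2 : (0 : ℝ) < p := by exact_mod_cast (by omega : 0 < p)
    rw [ell_of_three_le h, ell_of_three_le (h.trans_le hpq)]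
    exact Real.log_le_log (by linarith) (Real.log_le_log h2 (by exact_mod_cast hpq))

theorem lt_of_ell_lt {p q : ℕ} (h : ell p < ell q) : p < q := by
  exact ell_mono.reflect_lt h

theorem EE_pos (Y : ℝ) : 0 < EE Y := Real.exp_pos _

theorem log_EE (Y : ℝ) : Real.log (EE Y) = Real.exp Y := Real.log_exp _

theorem EE_mono : Monotone EE := by
  exact fun _ _ h => Real.exp_le_exp.2 (Real.exp_le_exp.2 h)

theorem ell_le_iff {p : ℕ} {Y : ℝ} (hY : 0 ≤ Y) : ell p ≤ Y ↔ (p : ℝ) ≤ EE Y := by
  rcases le_or_gt p 2 with h | h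
  · rw [ell_of_le_two h]
    refine iff_of_true hY ?_
    have h1 : (p : ℝ) ≤ 2 := by exact_mod_cast h
    have h2 := Real.add_one_le_exp (Real.exp Y)
    have h3 := Real.one_le_exp hY
    unfold EE
    linarith
  · have h1 := one_lt_log_of_three_le h
    have h2 : (0 : ℝ) < p := by exact_mod_cast (by omega : 0 < p)
    rw [ell_of_three_le h, Real.log_le_iff_le_exp (by linarith), Real.log_le_iff_le_exp h2, EE]

theorem lt_ell_iff {p : ℕ} {Y : ℝ} (hY : 0 ≤ Y) : Y < ell p ↔ EE Y < (p : ℝ) := by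
  rw [← not_le, ← not_le, ell_le_iff hY]

/-- `log p ≤ exp (ell p)`, with equality for `p ≥ 3`. -/
theorem log_le_exp_ell (p : ℕ) : Real.log p ≤ Real.exp (ell p) := by
  rcases le_or_gt p 2 with h | h
  · rw [ell_of_le_two h, Real.exp_zero]
    have h1 : Real.log 2 < 1 := by have := Real.log_two_lt_d9; linarith
    interval_cases p
    · simp
    · simp
    · simpa using h1.le
  · have h1 := one_lt_log_of_three_le h
    rw [ell_of_three_le h, Real.exp_log (by linarith)]

theorem win_le_iff {p b : ℕ} : win p ≤ b ↔ ell p ≤ b := Nat.ceil_le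

theorem lt_win_iff {p b : ℕ} : b < win p ↔ (b : ℝ) < ell p := Nat.lt_ceil

theorem win_mono : Monotone win := by
  exact fun _ _ h => Nat.ceil_mono (ell_mono h)

theorem ell_le_win (p : ℕ) : ell p ≤ win p := Nat.le_ceil _

theorem win_lt_ell_add_one (p : ℕ) : (win p : ℝ) < ell p + 1 :=
  Nat.ceil_lt_add_one (ell_nonneg p)

/-! ### `gpf` -/

theorem one_le_gpf (n : ℕ) : 1 ≤ gpf n := le_max_left _ _

theorem gpf_one : gpf 1 = 1 := by simp [gpf]

private theorem gpf_zero : gpf 0 = 1 := by simp [gpf]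

private theorem gpf_of_le_one {n : ℕ} (hn : n ≤ 1) : gpf n = 1 := by
  interval_cases n
  · exact gpf_zero
  · exact gpf_one

private theorem gpf_mem {n : ℕ} (hn : 1 < n) : gpf n ∈ n.primeFactors := by
  obtain ⟨p, hp, h⟩ := Finset.exists_mem_eq_sup n.primeFactors (Nat.nonempty_primeFactors.2 hn) id
  have := (Nat.prime_of_mem_primeFactors hp).one_lt
  rw [gpf, h, max_eq_right (by simpa using this.le)]
  exact hp

theorem gpf_prime {n : ℕ} (hn : 1 < n) : (gpf n).Prime := by
  exact Nat.prime_of_mem_primeFactors (gpf_mem hn)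

theorem gpf_dvd (n : ℕ) : gpf n ∣ n := by
  rcases le_or_gt n 1 with h | h
  · rw [gpf_of_le_one h]; exact one_dvd _
  · exact Nat.dvd_of_mem_primeFactors (gpf_mem h)

theorem gpf_le {n : ℕ} (hn : 0 < n) : gpf n ≤ n := by
  exact Nat.le_of_dvd hn (gpf_dvd n)

theorem le_gpf {n p : ℕ} (hn : 0 < n) (hp : p.Prime) (hd : p ∣ n) : p ≤ gpf n := by
  exact le_max_of_le_right (Finset.le_sup (f := id) (Nat.mem_primeFactors.2 ⟨hp, hd, hn.ne'⟩))

theorem gpf_le_of {n z : ℕ} (hz : 1 ≤ z) (h : ∀ p : ℕ, p.Prime → p ∣ n → p ≤ z) : gpf n ≤ z := by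
  rcases le_or_gt n 1 with h' | h'
  · rwa [gpf_of_le_one h']
  · exact h _ (gpf_prime h') (gpf_dvd n)

theorem gpf_eq_one_iff {n : ℕ} (hn : 0 < n) : gpf n = 1 ↔ n = 1 := by
  refine ⟨fun h => ?_, fun h => h ▸ gpf_one⟩
  by_contra h'
  exact (gpf_prime (n := n) (by omega)).ne_one h

theorem gpf_of_prime {p : ℕ} (hp : p.Prime) : gpf p = p := by
  exact le_antisymm (gpf_le hp.pos) (le_gpf hp.pos hp dvd_rfl)

theorem gpf_prime_pow {p e : ℕ} (hp : p.Prime) (he : 0 < e) : gpf (p ^ e) = p := by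
  refine le_antisymm (gpf_le_of hp.pos fun q hq hd => ?_)
    (le_gpf (pow_pos hp.pos _) hp (dvd_pow_self _ he.ne'))
  exact Nat.le_of_dvd hp.pos (hq.dvd_of_dvd_pow hd)

theorem gpf_le_of_dvd {a b : ℕ} (hb : 0 < b) (h : a ∣ b) : gpf a ≤ gpf b := by
  exact gpf_le_of (one_le_gpf b) fun p hp hd => le_gpf hb hp (hd.trans h)

theorem gpf_mul {a b : ℕ} (ha : 0 < a) (hb : 0 < b) : gpf (a * b) = max (gpf a) (gpf b) := by
  refine le_antisymm (gpf_le_of (le_max_of_le_left (one_le_gpf a)) fun p hp hd => ?_)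
    (max_le (gpf_le_of_dvd (Nat.mul_pos ha hb) (dvd_mul_right _ _))
      (gpf_le_of_dvd (Nat.mul_pos ha hb) (dvd_mul_left _ _)))
  rcases (Nat.Prime.dvd_mul hp).1 hd with h | h
  · exact le_max_of_le_left (le_gpf ha hp h)
  · exact le_max_of_le_right (le_gpf hb hp h)

/-- Every prime factor of `φ(n)` is at most the greatest prime factor of `n`. -/
theorem gpf_totient_le {n : ℕ} (hn : 0 < n) : gpf (Nat.totient n) ≤ gpf n := by
  refine gpf_le_of (one_le_gpf n) fun p hp hd => ?_
  rw [Nat.totient_eq_prod_factorization hn.ne', Finsupp.prod, hp.prime.dvd_finsetProd_iff] at hd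
  obtain ⟨q, hq, hd⟩ := hd
  have hq' : q ∈ n.primeFactors := by simpa using hq
  have h1 := Nat.prime_of_mem_primeFactors hq'
  have h2 := le_gpf hn h1 (Nat.dvd_of_mem_primeFactors hq')
  rcases (Nat.Prime.dvd_mul hp).1 hd with h | h
  · exact (Nat.le_of_dvd h1.pos (hp.dvd_of_dvd_pow h)).trans h2
  · have := Nat.le_of_dvd (Nat.sub_pos_of_lt h1.one_lt) h
    omega

theorem hq_nonneg (n : ℕ) : 0 ≤ hq n := ell_nonneg _

theorem hq_one : hq 1 = 0 := by simp [hq, gpf_one, ell_one]

theorem hq_of_prime {p : ℕ} (hp : p.Prime) : hq p = ell p := by rw [hq, gpf_of_prime hp]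

theorem ell_le_hq {n p : ℕ} (hn : 0 < n) (hp : p.Prime) (hd : p ∣ n) : ell p ≤ hq n :=
  ell_mono (le_gpf hn hp hd)

theorem hq_le_iff {n : ℕ} {Y : ℝ} (hn : 0 < n) (hY : 0 ≤ Y) :
    hq n ≤ Y ↔ ∀ p : ℕ, p.Prime → p ∣ n → ell p ≤ Y := by
  refine ⟨fun h p hp hd => (ell_le_hq hn hp hd).trans h, fun h => ?_⟩
  rcases le_or_gt n 1 with h' | h'
  · rwa [hq, gpf_of_le_one h', ell_one]
  · exact h _ (gpf_prime h') (gpf_dvd n)

theorem hq_le_of_dvd {a b : ℕ} (hb : 0 < b) (h : a ∣ b) : hq a ≤ hq b :=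
  ell_mono (gpf_le_of_dvd hb h)

theorem hq_le_ell {n : ℕ} (hn : 0 < n) : hq n ≤ ell n := ell_mono (gpf_le hn)

theorem hq_totient_le {n : ℕ} (hn : 0 < n) : hq (Nat.totient n) ≤ hq n :=
  ell_mono (gpf_totient_le hn)

/-! ### `top`, `rest` -/

theorem top_mul_rest (n : ℕ) : top n * rest n = n := by
  exact Nat.ordProj_mul_ordCompl_eq_self n (gpf n)

theorem top_pos (n : ℕ) : 0 < top n := by
  exact pow_pos (one_le_gpf n) _

theorem rest_pos {n : ℕ} (hn : 0 < n) : 0 < rest n := by
  exact Nat.pos_of_mul_pos_left (a := top n) (by rwa [top_mul_rest])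

private theorem top_of_le_one {n : ℕ} (hn : n ≤ 1) : top n = 1 := by rw [top, gpf_of_le_one hn, one_pow]

private theorem rest_of_le_one {n : ℕ} (hn : n ≤ 1) : rest n = n := by
  rw [rest, top_of_le_one hn, Nat.div_one]

private theorem factorization_gpf_pos {n : ℕ} (hn : 1 < n) : 0 < n.factorization (gpf n) :=
  (gpf_prime hn).factorization_pos_of_dvd (by omega) (gpf_dvd n)

private theorem rest_dvd (n : ℕ) : rest n ∣ n := Dvd.intro_left _ (top_mul_rest n)

private theorem top_dvd (n : ℕ) : top n ∣ n := Dvd.intro _ (top_mul_rest n)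

private theorem gpf_dvd_top (n : ℕ) : gpf n ∣ top n := by
  rcases le_or_gt n 1 with h | h
  · rw [gpf_of_le_one h]; exact one_dvd _
  · exact dvd_pow_self _ (factorization_gpf_pos h).ne'

private theorem not_gpf_dvd_rest {n : ℕ} (hn : 1 < n) : ¬ gpf n ∣ rest n :=
  Nat.not_dvd_ordCompl (gpf_prime hn) (by omega)

private theorem factorization_rest (n p : ℕ) :
    (rest n).factorization p = if p = gpf n then 0 else n.factorization p := by
  have := Nat.factorization_ordCompl n (gpf n)
  rw [rest, top, this, Finsupp.erase_apply]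

private theorem factorization_eq_zero_of_gpf_lt {n p : ℕ} (h : gpf n < p) : n.factorization p = 0 := by
  by_contra h'
  have h1 : p ∈ n.primeFactors := by simpa using Finsupp.mem_support_iff.2 h'
  have h2 := Nat.mem_primeFactors.1 h1
  have := le_gpf (Nat.pos_of_ne_zero h2.2.2) h2.1 h2.2.1
  omega

theorem isPP_top (n : ℕ) : IsPP (top n) := by
  rcases le_or_gt n 1 with h | h
  · exact Or.inl (top_of_le_one h)
  · exact Or.inr ((gpf_prime h).isPrimePow.pow (factorization_gpf_pos h).ne')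

theorem coprime_top_rest {n : ℕ} (hn : 0 < n) : Nat.Coprime (top n) (rest n) := by
  rcases le_or_gt n 1 with h | h
  · rw [top_of_le_one h]; exact Nat.coprime_one_left _
  · exact Nat.Coprime.pow_left _ (((gpf_prime h).coprime_iff_not_dvd).2 (not_gpf_dvd_rest h))

theorem gpf_top (n : ℕ) : gpf (top n) = gpf n := by
  rcases le_or_gt n 1 with h | h
  · rw [top_of_le_one h, gpf_of_le_one h, gpf_one]
  · exact gpf_prime_pow (gpf_prime h) (factorization_gpf_pos h)

theorem gpf_le_top (n : ℕ) : gpf n ≤ top n := by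
  exact Nat.le_of_dvd (top_pos n) (gpf_dvd_top n)

theorem gpf_rest_lt {n : ℕ} (hn : 1 < n) : gpf (rest n) < gpf n := by
  refine lt_of_le_of_ne (gpf_le_of_dvd (by omega) (rest_dvd n)) fun h => ?_
  exact not_gpf_dvd_rest hn (h ▸ gpf_dvd (rest n))

theorem gpf_rest_le (n : ℕ) : gpf (rest n) ≤ gpf n := by
  rcases le_or_gt n 1 with h | h
  · rw [rest_of_le_one h]
  · exact (gpf_rest_lt h).le

theorem top_one : top 1 = 1 := by simp [top, gpf_one]

theorem rest_one : rest 1 = 1 := by simp [rest, top_one]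

theorem totient_top_rest {n : ℕ} (hn : 0 < n) :
    Nat.totient n = Nat.totient (top n) * Nat.totient (rest n) := by
  rw [← Nat.totient_mul (coprime_top_rest hn), top_mul_rest]

/-- If the greatest prime divides only once, `top n` is that prime. -/
theorem top_eq_gpf {n : ℕ} (hn : 1 < n) (h : ¬ (gpf n) ^ 2 ∣ n) : top n = gpf n := by
  have h1 := factorization_gpf_pos hn
  rw [(gpf_prime hn).pow_dvd_iff_le_factorization (by omega)] at h
  rw [top, show n.factorization (gpf n) = 1 by omega, pow_one]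

theorem top_prime_mul {q s : ℕ} (hq : q.Prime) (hs : 0 < s) (h : gpf s < q) :
    gpf (q * s) = q ∧ top (q * s) = q ∧ rest (q * s) = s := by
  have h1 : gpf (q * s) = q := by rw [gpf_mul hq.pos hs, gpf_of_prime hq, max_eq_left h.le]
  have h2 : top (q * s) = q := by
    rw [top, h1, Nat.factorization_mul hq.ne_zero hs.ne', Finsupp.add_apply,
      factorization_eq_zero_of_gpf_lt h, hq.factorization_self, add_zero, pow_one]
  exact ⟨h1, h2, by rw [rest, h2, Nat.mul_div_cancel_left _ hq.pos]⟩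

theorem IsPP.pos {Q : ℕ} (h : IsPP Q) : 0 < Q := by
  rcases h with h | h
  · omega
  · exact h.pos

theorem IsPP.of_prime {p : ℕ} (hp : p.Prime) : IsPP p := Or.inr hp.isPrimePow

theorem wq_nonneg (Q : ℕ) : 0 ≤ wq Q := by unfold wq; positivity

theorem wq_le_one (Q : ℕ) : wq Q ≤ 1 := by
  unfold wq
  rcases Nat.eq_zero_or_pos Q with h | h
  · simp [h]
  · have : (1 : ℝ) ≤ Nat.totient Q := by exact_mod_cast Nat.totient_pos.2 h
    exact (div_le_one (by linarith)).2 this

theorem wq_prime {p : ℕ} (hp : p.Prime) : wq p = 1 / ((p : ℝ) - 1) := by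
  rw [wq, Nat.totient_prime hp, Nat.cast_sub hp.one_le, Nat.cast_one]

theorem wt_nonneg (d : ℕ) (τ : ℕ → ℕ) : 0 ≤ wt d τ := prod_nonneg fun _ _ => wq_nonneg _

/-! ### `tail`, `lev`, `ht` -/

@[simp] theorem tail_zero (n : ℕ) : tail n 0 = n := rfl

theorem tail_succ (n j : ℕ) : tail n (j + 1) = rest (tail n j) := Function.iterate_succ_apply' _ _ _

theorem tail_succ' (n j : ℕ) : tail n (j + 1) = tail (rest n) j := rfl

theorem tail_tail (n i j : ℕ) : tail (tail n i) j = tail n (i + j) := by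
  rw [tail, tail, tail, ← Function.iterate_add_apply, add_comm]

theorem tail_one (j : ℕ) : tail 1 j = 1 := by
  exact Function.iterate_fixed rest_one j

theorem tail_pos {n : ℕ} (hn : 0 < n) (j : ℕ) : 0 < tail n j := by
  induction j with
  | zero => exact hn
  | succ j ih => rw [tail_succ]; exact rest_pos ih

theorem tail_dvd (n j : ℕ) : tail n j ∣ n := by
  induction j with
  | zero => exact dvd_rfl
  | succ j ih => rw [tail_succ]; exact (rest_dvd _).trans ih

theorem tail_dvd_tail (n : ℕ) {i j : ℕ} (h : i ≤ j) : tail n j ∣ tail n i := by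
  obtain ⟨k, rfl⟩ := Nat.exists_eq_add_of_le h
  rw [← tail_tail]
  exact tail_dvd _ _

theorem lev_tail (n i j : ℕ) : lev (tail n i) j = lev n (i + j) := by rw [lev, lev, tail_tail]

theorem ht_tail (n i j : ℕ) : ht (tail n i) j = ht n (i + j) := by rw [ht, ht, tail_tail]

theorem ht_zero (n : ℕ) : ht n 0 = hq n := rfl

theorem ht_nonneg (n j : ℕ) : 0 ≤ ht n j := hq_nonneg _

theorem gpf_tail_anti (n : ℕ) : Antitone fun j => gpf (tail n j) := by
  refine antitone_nat_of_succ_le fun j => ?_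
  rw [tail_succ]
  exact gpf_rest_le _

theorem ht_anti (n : ℕ) : Antitone (ht n) := by
  exact fun _ _ h => ell_mono (gpf_tail_anti n h)

/-- The primes of the levels are strictly decreasing as long as they exist. -/
theorem gpf_tail_lt {n i j : ℕ} (hij : i < j) (h : 1 < tail n i) :
    gpf (tail n j) < gpf (tail n i) := by
  refine lt_of_le_of_lt (gpf_tail_anti n (Nat.succ_le_of_lt hij)) ?_
  show gpf (tail n (i + 1)) < _
  rw [tail_succ]
  exact gpf_rest_lt h

theorem isPP_lev (n j : ℕ) : IsPP (lev n j) := isPP_top _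

theorem gpf_lev (n j : ℕ) : gpf (lev n j) = gpf (tail n j) := gpf_top _

theorem hq_lev (n j : ℕ) : hq (lev n j) = ht n j := by rw [hq, gpf_lev]; rfl

theorem lev_mul_tail (n j : ℕ) : lev n j * tail n (j + 1) = tail n j := by
  rw [tail_succ]; exact top_mul_rest _

theorem prod_lev_mul_tail (n d : ℕ) : (∏ i ∈ range d, lev n i) * tail n d = n := by
  induction d with
  | zero => simp
  | succ d ih => rw [prod_range_succ, mul_assoc, lev_mul_tail, ih]

theorem totient_tail {n : ℕ} (hn : 0 < n) (j : ℕ) :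
    Nat.totient (tail n j) = Nat.totient (lev n j) * Nat.totient (tail n (j + 1)) := by
  rw [tail_succ]; exact totient_top_rest (tail_pos hn j)

theorem totient_eq_prod_lev {n : ℕ} (hn : 0 < n) (d : ℕ) :
    Nat.totient n = (∏ i ∈ range d, Nat.totient (lev n i)) * Nat.totient (tail n d) := by
  induction d with
  | zero => simp
  | succ d ih => rw [prod_range_succ, mul_assoc, ← totient_tail hn, ← ih]

theorem factorization_tail {n : ℕ} (hn : 0 < n) (j p : ℕ) :
    (tail n j).factorization p = if p ≤ gpf (tail n j) then n.factorization p else 0 := by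
  split_ifs with h
  swap
  · exact factorization_eq_zero_of_gpf_lt (by omega)
  induction j with
  | zero => rfl
  | succ j ih =>
    have h1 := ih (h.trans (gpf_tail_anti n (Nat.le_succ j)))
    rw [tail_succ] at h ⊢
    rcases le_or_gt (tail n j) 1 with h2 | h2
    · rwa [rest_of_le_one h2]
    · have := gpf_rest_lt h2
      rw [factorization_rest, if_neg (by omega), h1]

theorem prime_dvd_tail_iff {n p : ℕ} (hn : 0 < n) (hp : p.Prime) (j : ℕ) :
    p ∣ tail n j ↔ p ∣ n ∧ p ≤ gpf (tail n j) := by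
  refine ⟨fun h => ⟨h.trans (tail_dvd n j), le_gpf (tail_pos hn j) hp h⟩, fun h => ?_⟩
  apply Nat.dvd_of_factorization_pos
  rw [factorization_tail hn, if_pos h.2]
  exact (hp.factorization_pos_of_dvd hn.ne' h.1).ne'

/-- Every prime factor of `n` is the prime of some level; if `p` exceeds the prime of level `d`,
of a level `< d`. -/
theorem exists_level {n p d : ℕ} (hn : 0 < n) (hp : p.Prime) (hd : p ∣ n)
    (h : gpf (tail n d) < p) : ∃ j < d, gpf (tail n j) = p := by
  induction d with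
  | zero => exact absurd (le_gpf hn hp hd) (not_le.2 h)
  | succ d ih =>
    rcases lt_trichotomy (gpf (tail n d)) p with h1 | h1 | h1
    · obtain ⟨j, hj, e⟩ := ih h1
      exact ⟨j, by omega, e⟩
    · exact ⟨d, by omega, h1⟩
    · have h2 := factorization_eq_zero_of_gpf_lt h
      rw [tail_succ, factorization_rest, if_neg h1.ne, factorization_tail hn, if_pos h1.le] at h2
      exact absurd h2 (hp.factorization_pos_of_dvd hn.ne' hd).ne'

/-- `∏_{i<d} (q_i - 1)` over the existing levels divides `φ(n)`; here `φ(gpf) = q - 1` or `1`. -/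
theorem prod_totient_gpf_dvd {n : ℕ} (hn : 0 < n) (d : ℕ) :
    (∏ i ∈ range d, Nat.totient (gpf (tail n i))) ∣ Nat.totient n := by
  rw [totient_eq_prod_lev hn d]
  exact (prod_dvd_prod_of_dvd _ _ fun i _ => Nat.totient_dvd_of_dvd (gpf_dvd_top _)).mul_right _

/-- Building an integer from a strictly decreasing tuple of primes and a lower part. -/
theorem build {M s₀ : ℕ} {τ : ℕ → ℕ} (hs : 0 < s₀) (hp : ∀ l ∈ Icc 1 M, (τ l).Prime)
    (hdec : ∀ l, 1 ≤ l → l < M → τ (l + 1) < τ l) (hlow : 1 ≤ M → gpf s₀ < τ M) :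
    (∀ l ∈ Icc 1 M, lev ((∏ l ∈ Icc 1 M, τ l) * s₀) (l - 1) = τ l) ∧
      (∀ j ≤ M, tail ((∏ l ∈ Icc 1 M, τ l) * s₀) j = (∏ l ∈ Icc (j + 1) M, τ l) * s₀) := by
  have hpos : ∀ j, 0 < (∏ l ∈ Icc (j + 1) M, τ l) * s₀ := fun j =>
    Nat.mul_pos (prod_pos fun l hl => (hp l (by
      rw [mem_Icc] at hl ⊢; omega)).pos) hs
  have hstep : ∀ j < M, (∏ l ∈ Icc (j + 1) M, τ l) * s₀ =
      τ (j + 1) * ((∏ l ∈ Icc (j + 1 + 1) M, τ l) * s₀) := by
    intro j hj
    rw [← mul_assoc, ← Finset.insert_Icc_add_one_left_eq_Icc (by omega : j + 1 ≤ M),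
      prod_insert (by simp)]
  have hg : ∀ k j, j + 1 + k = M → gpf ((∏ l ∈ Icc (j + 1 + 1) M, τ l) * s₀) < τ (j + 1) := by
    intro k
    induction k with
    | zero =>
      intro j hj
      rw [Icc_eq_empty (by omega), prod_empty, one_mul, show j + 1 = M by omega]
      exact hlow (by omega)
    | succ k ih =>
      intro j hj
      rw [hstep (j + 1) (by omega), (top_prime_mul (hp _ (by rw [mem_Icc]; omega)) (hpos _)
        (ih (j + 1) (by omega))).1]
      exact hdec _ (by omega) (by omega)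
  have key := fun j (hj : j < M) => top_prime_mul (hp (j + 1) (by rw [mem_Icc]; omega)) (hpos _)
    (hg (M - (j + 1)) j (by omega))
  have ht : ∀ j ≤ M, tail ((∏ l ∈ Icc 1 M, τ l) * s₀) j = (∏ l ∈ Icc (j + 1) M, τ l) * s₀ := by
    intro j hj
    induction j with
    | zero => rfl
    | succ j ih => rw [tail_succ, ih (by omega), hstep j (by omega), (key j (by omega)).2.2]
  refine ⟨fun l hl => ?_, ht⟩
  rw [mem_Icc] at hl
  obtain ⟨j, rfl⟩ : ∃ j, l = j + 1 := ⟨l - 1, by omega⟩
  rw [Nat.add_sub_cancel, lev, ht j (by omega), hstep j (by omega), (key j (by omega)).2.1]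

end Crest.Agent.R20
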