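import Crest.Agent.R20.Basic

/-!
# R20: elementary API for `Om`, `OmB`, `cm`, `Normal`, `NoSq`
-/

set_option autoImplicit false

open Finset Filter Topology
open Crest.NumberTheoryR.TotientScale

noncomputable section

namespace Crest.Agent.R20

/-! ### `Om`, `OmB`, `cm` -/

theorem OmB_eq_sum (b n : ℕ) :
    OmB b n = n.factorization.sum fun p k => if win p ≤ b then k else 0 := by
  unfold OmB
  rw [sum_filter]
  rfl

theorem cm_eq_prod (f : ℕ → ℝ) (n : ℕ) : cm f n = n.factorization.prod fun p k => f p ^ k := rfl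

theorem Om_eq_cardFactors (n : ℕ) : Om n = ArithmeticFunction.cardFactors n := by
  rw [ArithmeticFunction.cardFactors_eq_sum_factorization]
  rfl

theorem Om_one : Om 1 = 0 := by simp [Om]

theorem Om_mul {a b : ℕ} (ha : 0 < a) (hb : 0 < b) : Om (a * b) = Om a + Om b := by
  simp only [Om_eq_cardFactors]
  exact ArithmeticFunction.cardFactors_mul ha.ne' hb.ne'

theorem Om_prime {p : ℕ} (hp : p.Prime) : Om p = 1 := by
  rw [Om_eq_cardFactors, ArithmeticFunction.cardFactors_apply_prime hp]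

theorem Om_le_of_dvd {a b : ℕ} (hb : 0 < b) (h : a ∣ b) : Om a ≤ Om b := by
  obtain ⟨c, rfl⟩ := h
  rw [Om_mul (Nat.pos_of_mul_pos_right hb) (Nat.pos_of_mul_pos_left hb)]
  exact Nat.le_add_right _ _

theorem le_gpf_pow_Om {n : ℕ} (hn : 0 < n) : n ≤ gpf n ^ Om n := by
  unfold Om
  rw [← prod_pow_eq_pow_sum]
  conv_lhs => rw [← Nat.prod_factorization_pow_eq_self hn.ne']
  refine prod_le_prod' fun p hp => Nat.pow_le_pow_left ?_ _
  have hp' : p ∈ n.primeFactors := hp
  exact le_gpf hn (Nat.prime_of_mem_primeFactors hp') (Nat.dvd_of_mem_primeFactors hp')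

/-- `log n ≤ Ω(n) · exp (hq n)`. -/
theorem log_le_Om_mul {n : ℕ} (hn : 0 < n) : Real.log n ≤ Om n * Real.exp (hq n) := by
  have h1 : (n : ℝ) ≤ (gpf n : ℝ) ^ Om n := by exact_mod_cast le_gpf_pow_Om hn
  refine (Real.log_le_log (by exact_mod_cast hn) h1).trans ?_
  rw [Real.log_pow]
  exact mul_le_mul_of_nonneg_left (log_le_exp_ell _) (Nat.cast_nonneg _)

theorem OmB_one (b : ℕ) : OmB b 1 = 0 := by simp [OmB]

theorem OmB_mul (b : ℕ) {m n : ℕ} (hm : 0 < m) (hn : 0 < n) :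
    OmB b (m * n) = OmB b m + OmB b n := by
  simp only [OmB_eq_sum]
  rw [Nat.factorization_mul hm.ne' hn.ne', Finsupp.sum_add_index']
  · intro p; simp
  · intro p k l; split_ifs <;> simp

theorem OmB_prod {ι : Type*} (b : ℕ) (I : Finset ι) (f : ι → ℕ) (hf : ∀ i ∈ I, 0 < f i) :
    OmB b (∏ i ∈ I, f i) = ∑ i ∈ I, OmB b (f i) := by
  classical
  induction I using Finset.induction_on with
  | empty => simp [OmB_one]
  | insert i I hi ih =>
    rw [prod_insert hi, sum_insert hi, OmB_mul b (hf i (mem_insert_self _ _))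
      (prod_pos fun j hj => hf j (mem_insert_of_mem hj)), ih fun j hj => hf j (mem_insert_of_mem hj)]

theorem OmB_prime (b : ℕ) {p : ℕ} (hp : p.Prime) : OmB b p = if win p ≤ b then 1 else 0 := by
  rw [OmB_eq_sum, hp.factorization, Finsupp.sum_single_index]
  simp

theorem OmB_le_Om (b n : ℕ) : OmB b n ≤ Om n := by
  exact sum_le_sum_of_subset (filter_subset _ _)

theorem OmB_mono (n : ℕ) {b b' : ℕ} (h : b ≤ b') : OmB b n ≤ OmB b' n := by
  exact sum_le_sum_of_subset (monotone_filter_right _ fun p _ hp => hp.trans h)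

theorem OmB_le_of_dvd (b : ℕ) {m n : ℕ} (hn : 0 < n) (h : m ∣ n) : OmB b m ≤ OmB b n := by
  obtain ⟨c, rfl⟩ := h
  rw [OmB_mul b (Nat.pos_of_mul_pos_right hn) (Nat.pos_of_mul_pos_left hn)]
  exact Nat.le_add_right _ _

theorem OmB_eq_Om {b n : ℕ} (h : ∀ p : ℕ, p.Prime → p ∣ n → win p ≤ b) : OmB b n = Om n := by
  unfold OmB Om
  rw [filter_true_of_mem fun p hp =>
    h p (Nat.prime_of_mem_primeFactors hp) (Nat.dvd_of_mem_primeFactors hp)]

theorem OmB_eq_zero {b n : ℕ} (h : ∀ p : ℕ, p.Prime → p ∣ n → b < win p) : OmB b n = 0 := by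
  unfold OmB
  rw [filter_false_of_mem fun p hp =>
    (h p (Nat.prime_of_mem_primeFactors hp) (Nat.dvd_of_mem_primeFactors hp)).not_ge, sum_empty]

theorem cm_one (f : ℕ → ℝ) : cm f 1 = 1 := by simp [cm]

theorem cm_mul (f : ℕ → ℝ) {m n : ℕ} (hm : 0 < m) (hn : 0 < n) :
    cm f (m * n) = cm f m * cm f n := by
  simp only [cm_eq_prod]
  rw [Nat.factorization_mul hm.ne' hn.ne', Finsupp.prod_add_index']
  · intro p; simp
  · intro p k l; exact pow_add _ _ _

theorem cm_prime (f : ℕ → ℝ) {p : ℕ} (hp : p.Prime) : cm f p = f p := by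
  rw [cm_eq_prod, hp.factorization, Finsupp.prod_single_index] <;> simp

theorem cm_nonneg {f : ℕ → ℝ} (hf : ∀ p, 0 ≤ f p) (n : ℕ) : 0 ≤ cm f n :=
  prod_nonneg fun p _ => pow_nonneg (hf p) _

theorem cm_const (z : ℝ) (n : ℕ) : cm (fun _ => z) n = z ^ Om n := by
  unfold cm Om
  rw [prod_pow_eq_pow_sum]

theorem cm_ite (z : ℝ) (b n : ℕ) :
    cm (fun p => if win p ≤ b then z else 1) n = z ^ OmB b n := by
  unfold cm OmB
  rw [← prod_pow_eq_pow_sum, prod_filter]
  refine prod_congr rfl fun p _ => ?_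
  by_cases h : win p ≤ b <;> simp [h]

theorem cm_mul_fun (f g : ℕ → ℝ) (n : ℕ) : cm (fun p => f p * g p) n = cm f n * cm g n := by
  unfold cm
  rw [← prod_mul_distrib]
  exact prod_congr rfl fun p _ => mul_pow _ _ _

theorem cm_inv {n : ℕ} (hn : 0 < n) : cm (fun p => 1 / (p : ℝ)) n = 1 / (n : ℝ) := by
  unfold cm
  conv_rhs => rw [← Nat.prod_factorization_pow_eq_self hn.ne']
  simp [Finsupp.prod]

/-! ### Monotonicity of the conditions -/

theorem Normal.mono {E E' : ℝ} {p : ℕ} (h : Normal E p) (hE : E ≤ E') : Normal E' p := by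
  exact h.imp (fun h => h.trans hE) fun h b => (h b).trans hE

theorem AllNormal.mono {E E' : ℝ} {s : ℕ} (h : AllNormal E s) (hE : E ≤ E') : AllNormal E' s :=
  fun p hp hd => (h p hp hd).mono hE

theorem AllNormal.of_dvd {E : ℝ} {s s' : ℕ} (h : AllNormal E s) (hd : s' ∣ s) : AllNormal E s' :=
  fun p hp hd' => h p hp (hd'.trans hd)

theorem NoSq.mono {E E' : ℝ} {s : ℕ} (h : NoSq E s) (hE : E ≤ E') : NoSq E' s :=
  fun p hp hd => (h p hp hd).trans hE

theorem NoSq.of_dvd {E : ℝ} {s s' : ℕ} (h : NoSq E s) (hd : s' ∣ s) : NoSq E s' :=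
  fun p hp hd' => h p hp (hd'.trans hd)

/-- A level of height `> E` of a `NoSq E` integer is a prime. -/
theorem NoSq.lev_eq {E : ℝ} {s j : ℕ} (h : NoSq E s) (hs : 0 < s) (hE : 0 ≤ E) (hj : E < ht s j) :
    (gpf (tail s j)).Prime ∧ lev s j = gpf (tail s j) := by
  have h1 : 1 < tail s j := by
    by_contra hc
    have h2 : tail s j = 1 := by have := tail_pos hs j; omega
    rw [ht, h2, hq_one] at hj
    linarith
  refine ⟨gpf_prime h1, top_eq_gpf h1 fun hd => ?_⟩
  exact absurd (h _ (gpf_prime h1) (hd.trans (tail_dvd s j))) (not_le.2 hj)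

end Crest.Agent.R20
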