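import Crest.Agent.R20.Defs

/-!
# R20: the `SumBd` calculus (all proofs are elementary `Finset` manipulations)
-/

set_option autoImplicit false

open Finset Filter Topology

noncomputable section

namespace Crest.Agent.R20

variable {α β : Type*}

theorem SumBd.nonneg {A : Set α} {f : α → ℝ} {b : ℝ} (h : SumBd A f b) : 0 ≤ b := by
  simpa using h ∅ (by simp)

theorem SumBd.mono_set {A A' : Set α} {f : α → ℝ} {b : ℝ} (h : SumBd A f b) (hA : A' ⊆ A) :
    SumBd A' f b := by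
  exact fun S hS => h S (hS.trans hA)

theorem SumBd.mono_bd {A : Set α} {f : α → ℝ} {b b' : ℝ} (h : SumBd A f b) (hb : b ≤ b') :
    SumBd A f b' := by
  exact fun S hS => (h S hS).trans hb

theorem SumBd.mono_fun {A : Set α} {f f' : α → ℝ} {b : ℝ} (h : SumBd A f b)
    (hf : ∀ a ∈ A, f' a ≤ f a) : SumBd A f' b := by
  exact fun S hS => (Finset.sum_le_sum fun a ha => hf a (hS ha)).trans (h S hS)

theorem SumBd.empty (f : α → ℝ) {b : ℝ} (hb : 0 ≤ b) : SumBd (∅ : Set α) f b := by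
  intro S hS
  have : S = ∅ := by simpa using hS
  simpa [this] using hb

/-- Split `S` into `S ∩ A` and `S \ A`. -/
theorem SumBd.union {A A' : Set α} {f : α → ℝ} {b b' : ℝ} (h : SumBd A f b) (h' : SumBd A' f b') :
    SumBd (A ∪ A') f (b + b') := by
  classical
  intro S hS
  rw [← Finset.sum_filter_add_sum_filter_not S (fun a => a ∈ A)]
  refine add_le_add (h _ fun a ha => ?_) (h' _ fun a ha => ?_)
  · exact (Finset.mem_filter.1 ha).2
  · have := Finset.mem_filter.1 ha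
    exact (hS this.1).resolve_left this.2

theorem SumBd.biUnion {ι : Type*} (I : Finset ι) {A : ι → Set α} {f : α → ℝ} {b : ι → ℝ}
    (h : ∀ i ∈ I, SumBd (A i) f (b i)) : SumBd (⋃ i ∈ I, A i) f (∑ i ∈ I, b i) := by
  classical
  induction I using Finset.induction_on with
  | empty => simpa using SumBd.empty f le_rfl
  | insert i I hi ih =>
    rw [Finset.sum_insert hi, Finset.set_biUnion_insert]
    exact (h i (Finset.mem_insert_self _ _)).union
      (ih fun j hj => h j (Finset.mem_insert_of_mem hj))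

/-- Cover by finitely many sets. -/
theorem SumBd.of_cover {ι : Type*} (I : Finset ι) {A : ι → Set α} {f : α → ℝ} {b : ι → ℝ}
    (h : ∀ i ∈ I, SumBd (A i) f (b i)) {A' : Set α} (hA : ∀ a ∈ A', ∃ i ∈ I, a ∈ A i) :
    SumBd A' f (∑ i ∈ I, b i) := by
  refine (SumBd.biUnion I h).mono_set fun a ha => ?_
  obtain ⟨i, hi, hai⟩ := hA a ha
  exact Set.mem_biUnion (x := i) hi hai

theorem SumBd.const_mul {A : Set α} {f : α → ℝ} {b : ℝ} (h : SumBd A f b) {c : ℝ} (hc : 0 ≤ c) :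
    SumBd A (fun a => c * f a) (c * b) := by
  intro S hS
  rw [← Finset.mul_sum]
  exact mul_le_mul_of_nonneg_left (h S hS) hc

theorem SumBd.mul_const {A : Set α} {f : α → ℝ} {b : ℝ} (h : SumBd A f b) {c : ℝ} (hc : 0 ≤ c) :
    SumBd A (fun a => f a * c) (b * c) := by
  intro S hS
  rw [← Finset.sum_mul]
  exact mul_le_mul_of_nonneg_right (h S hS) hc

/-- Choose for every `a ∈ A` a witness `b ∈ B` that determines `a` (`Ψ b = a`). -/
theorem SumBd.of_map {A : Set α} {B : Set β} {f : α → ℝ} {g : β → ℝ} {c : ℝ} (h : SumBd B g c)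
    (Ψ : β → α) (hΨ : ∀ a ∈ A, ∃ b ∈ B, Ψ b = a ∧ f a ≤ g b) : SumBd A f c := by
  classical
  intro S hS
  choose Φ hΦ using hΨ
  have hinj : Set.InjOn (fun a : {a // a ∈ S} => Φ a.1 (hS a.2)) ↑S.attach := by
    intro a _ a' _ e
    apply Subtype.ext
    rw [← (hΦ a.1 (hS a.2)).2.1, ← (hΦ a'.1 (hS a'.2)).2.1]
    exact congrArg Ψ e
  calc ∑ a ∈ S, f a = ∑ a ∈ S.attach, f a.1 := (Finset.sum_attach S f).symm
    _ ≤ ∑ a ∈ S.attach, g (Φ a.1 (hS a.2)) :=
        Finset.sum_le_sum fun a _ => (hΦ a.1 (hS a.2)).2.2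
    _ = ∑ b ∈ S.attach.image (fun a : {a // a ∈ S} => Φ a.1 (hS a.2)), g b :=
        (Finset.sum_image hinj).symm
    _ ≤ c := by
        refine h _ fun b hb => ?_
        obtain ⟨a, _, rfl⟩ := Finset.mem_image.1 hb
        exact (hΦ a.1 (hS a.2)).1

/-- Injective map from `A` into `B`. -/
theorem SumBd.of_injOn {A : Set α} {B : Set β} {f : α → ℝ} {g : β → ℝ} {c : ℝ} (h : SumBd B g c)
    (Φ : α → β) (hinj : Set.InjOn Φ A) (hΦ : ∀ a ∈ A, Φ a ∈ B ∧ f a ≤ g (Φ a)) :
    SumBd A f c := by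
  classical
  intro S hS
  calc ∑ a ∈ S, f a ≤ ∑ a ∈ S, g (Φ a) := Finset.sum_le_sum fun a ha => (hΦ a (hS ha)).2
    _ = ∑ b ∈ S.image Φ, g b := (Finset.sum_image (hinj.mono hS)).symm
    _ ≤ c := by
        refine h _ fun b hb => ?_
        obtain ⟨a, ha, rfl⟩ := Finset.mem_image.1 hb
        exact (hΦ a (hS ha)).1

/-- Fibrewise bound along a projection `π` (`Finset.sum_fiberwise_of_maps_to` on `S.image π`). -/
theorem SumBd.fiber {A : Set α} {B : Set β} {f : α → ℝ} {g : β → ℝ} {c : ℝ} (π : α → β)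
    (hπ : ∀ a ∈ A, π a ∈ B) (hf : ∀ b ∈ B, SumBd {a | a ∈ A ∧ π a = b} f (g b))
    (h : SumBd B g c) : SumBd A f c := by
  classical
  intro S hS
  have hsub : (↑(S.image π) : Set β) ⊆ B := fun b hb => by
    obtain ⟨a, ha, rfl⟩ := Finset.mem_image.1 hb
    exact hπ a (hS ha)
  rw [← Finset.sum_fiberwise_of_maps_to (g := π) (t := S.image π)
    fun a ha => Finset.mem_image_of_mem π ha]
  refine (Finset.sum_le_sum fun b hb => hf b (hsub hb) _ fun a ha => ?_).trans (h _ hsub)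
  have := Finset.mem_filter.1 ha
  exact ⟨hS this.1, this.2⟩

/-- Iterated sum over pairs. -/
theorem SumBd.sigma {A : Set (α × β)} {B : Set α} {f : α × β → ℝ} {g : α → ℝ} {c : ℝ}
    (hπ : ∀ p ∈ A, p.1 ∈ B) (hf : ∀ a ∈ B, SumBd {b | (a, b) ∈ A} (fun b => f (a, b)) (g a))
    (h : SumBd B g c) : SumBd A f c := by
  refine SumBd.fiber Prod.fst hπ (fun a ha => ?_) h
  refine (hf a ha).of_injOn Prod.snd ?_ ?_
  · rintro ⟨a₁, b₁⟩ ⟨_, h₁⟩ ⟨a₂, b₂⟩ ⟨_, h₂⟩ e
    exact Prod.ext (h₁.trans h₂.symm) e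
  · rintro ⟨a₁, b₁⟩ ⟨h₀, h₁⟩
    obtain rfl : a₁ = a := h₁
    exact ⟨h₀, le_rfl⟩

theorem SumBd.prod {A : Set α} {B : Set β} {f : α → ℝ} {g : β → ℝ} {b c : ℝ} (hA : SumBd A f b)
    (hB : SumBd B g c) (hf : ∀ a ∈ A, 0 ≤ f a) :
    SumBd (A ×ˢ B) (fun p => f p.1 * g p.2) (b * c) := by
  refine SumBd.sigma (B := A) (g := fun a => f a * c) (fun p hp => hp.1) (fun a ha => ?_)
    (hA.mul_const hB.nonneg)
  exact (hB.const_mul (hf a ha)).mono_set fun b hb => hb.2

/-- Product over independent coordinates of normalised functions (induction on `I`, using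
`SumBd.fiber` along `τ ↦ τ i` and `Function.update τ i a₀`). -/
theorem SumBd.pi {ι : Type*} (I : Finset ι) (a₀ : α) {A : ι → Set α} {f : ι → α → ℝ} {b : ι → ℝ}
    (h : ∀ i ∈ I, SumBd (A i) (f i) (b i)) (hf : ∀ i ∈ I, ∀ a ∈ A i, 0 ≤ f i a) :
    SumBd {τ : ι → α | (∀ i ∈ I, τ i ∈ A i) ∧ ∀ i, i ∉ I → τ i = a₀}
      (fun τ => ∏ i ∈ I, f i (τ i)) (∏ i ∈ I, b i) := by
  classical
  induction I using Finset.induction_on with
  | empty =>
    intro S hS
    have hc : S.card ≤ 1 := Finset.card_le_one.2 fun τ hτ σ hσ =>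
      funext fun i => ((hS hτ).2 i (by simp)).trans ((hS hσ).2 i (by simp)).symm
    simpa using hc
  | insert i I hi ih =>
    have h1 := (h i (Finset.mem_insert_self _ _)).prod
      (ih (fun j hj => h j (Finset.mem_insert_of_mem hj))
        fun j hj => hf j (Finset.mem_insert_of_mem hj)) (hf i (Finset.mem_insert_self _ _))
    rw [Finset.prod_insert hi]
    refine h1.of_injOn (fun τ => (τ i, Function.update τ i a₀)) ?_ ?_
    · intro τ _ σ _ e
      have e1 : τ i = σ i := congrArg Prod.fst e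
      have e2 : Function.update τ i a₀ = Function.update σ i a₀ := congrArg Prod.snd e
      funext j
      by_cases hj : j = i
      · rw [hj, e1]
      · have := congrFun e2 j
        rwa [Function.update_of_ne hj, Function.update_of_ne hj] at this
    · intro τ hτ
      have hne : ∀ j ∈ I, j ≠ i := fun j hj e => hi (e ▸ hj)
      refine ⟨⟨hτ.1 i (Finset.mem_insert_self _ _), fun j hj => ?_, fun j hj => ?_⟩, ?_⟩
      · show Function.update τ i a₀ j ∈ A j
        rw [Function.update_of_ne (hne j hj)]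
        exact hτ.1 j (Finset.mem_insert_of_mem hj)
      · show Function.update τ i a₀ j = a₀
        by_cases e : j = i
        · rw [e, Function.update_self]
        · rw [Function.update_of_ne e]
          exact hτ.2 j (by simp [e, hj])
      · rw [Finset.prod_insert hi]
        refine le_of_eq (congrArg _ (Finset.prod_congr rfl fun j hj => ?_))
        show _ = f j (Function.update τ i a₀ j)
        rw [Function.update_of_ne (hne j hj)]

theorem SumBd.of_finset (T : Finset α) {A : Set α} {f : α → ℝ} (hA : A ⊆ ↑T)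
    (hf : ∀ a ∈ T, 0 ≤ f a) : SumBd A f (∑ a ∈ T, f a) := by
  intro S hS
  exact Finset.sum_le_sum_of_subset_of_nonneg (fun a ha => hA (hS ha)) fun a ha _ => hf a ha

theorem SumBd.of_card (T : Finset α) {A : Set α} {f : α → ℝ} {M : ℝ} (hA : A ⊆ ↑T) (hM : 0 ≤ M)
    (hf : ∀ a ∈ A, f a ≤ M) : SumBd A f (T.card * M) := by
  intro S hS
  have h1 : S.card ≤ T.card := Finset.card_le_card fun a ha => hA (hS ha)
  calc ∑ a ∈ S, f a ≤ ∑ _a ∈ S, M := Finset.sum_le_sum fun a ha => hf a (hS ha)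
    _ = S.card * M := by simp
    _ ≤ T.card * M := mul_le_mul_of_nonneg_right (by exact_mod_cast h1) hM

theorem SumBd.of_subsingleton {A : Set α} {f : α → ℝ} {M : ℝ} (hA : A.Subsingleton) (hM : 0 ≤ M)
    (hf : ∀ a ∈ A, f a ≤ M) : SumBd A f M := by
  intro S hS
  have h1 : S.card ≤ 1 := Finset.card_le_one.2 fun a ha b hb => hA (hS ha) (hS hb)
  calc ∑ a ∈ S, f a ≤ ∑ _a ∈ S, M := Finset.sum_le_sum fun a ha => hf a (hS ha)
    _ = S.card * M := by simp
    _ ≤ 1 * M := mul_le_mul_of_nonneg_right (by exact_mod_cast h1) hM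
    _ = M := one_mul M

theorem CntBd.mul {A : Set α} {f : α → ℝ} {b M : ℝ} (h : CntBd A b) (hM : 0 ≤ M)
    (hf : ∀ a ∈ A, f a ≤ M) : SumBd A f (b * M) := by
  exact (SumBd.mul_const h hM).mono_fun fun a ha => by simpa using hf a ha

theorem CntBd.ncard_le {A : Set α} {b : ℝ} (h : CntBd A b) : (A.ncard : ℝ) ≤ b := by
  by_cases hA : A.Finite
  · have := h hA.toFinset (by simp)
    rw [Set.ncard_eq_toFinset_card A hA]
    simpa using this
  · rw [Set.Infinite.ncard hA]
    simpa using SumBd.nonneg h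

theorem CntBd.of_finite {A : Set α} (hA : A.Finite) : CntBd A A.ncard := by
  have := SumBd.of_card hA.toFinset (A := A) (f := fun _ => (1 : ℝ)) (M := 1) (by simp)
    zero_le_one fun _ _ => le_rfl
  rw [Set.ncard_eq_toFinset_card A hA]
  simpa using this

theorem CntBd.card_le {A : Set α} {b : ℝ} (h : CntBd A b) (S : Finset α) (hS : (↑S : Set α) ⊆ A) :
    (S.card : ℝ) ≤ b := by
  simpa using h S hS

/-- The least bound (`sSup` of the partial sums); used for self-referential recursions. -/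
theorem SumBd.exists_least {A : Set α} {f : α → ℝ} {b₀ : ℝ} (h : SumBd A f b₀) :
    ∃ b, SumBd A f b ∧ ∀ b', SumBd A f b' → b ≤ b' := by
  have hbdd : BddAbove {x : ℝ | ∃ S : Finset α, (↑S : Set α) ⊆ A ∧ ∑ a ∈ S, f a = x} :=
    ⟨b₀, by rintro x ⟨S, hS, rfl⟩; exact h S hS⟩
  refine ⟨sSup {x : ℝ | ∃ S : Finset α, (↑S : Set α) ⊆ A ∧ ∑ a ∈ S, f a = x},
    fun S hS => le_csSup hbdd ⟨S, hS, rfl⟩, fun b' hb' => csSup_le ⟨0, ∅, by simp, by simp⟩ ?_⟩
  rintro x ⟨S, hS, rfl⟩
  exact hb' S hS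

/-- Reciprocal sums are submultiplicative. -/
theorem RecBd.mul {A A₁ A₂ : Set ℕ} {b₁ b₂ : ℝ} (h₁ : RecBd A₁ b₁) (h₂ : RecBd A₂ b₂)
    (hA : ∀ w ∈ A, ∃ w₁ ∈ A₁, ∃ w₂ ∈ A₂, w = w₁ * w₂) : RecBd A (b₁ * b₂) := by
  refine (SumBd.prod h₁ h₂ fun a _ => by positivity).of_map (fun p => p.1 * p.2) fun w hw => ?_
  obtain ⟨w₁, h1, w₂, h2, rfl⟩ := hA w hw
  refine ⟨(w₁, w₂), ⟨h1, h2⟩, rfl, le_of_eq ?_⟩
  push_cast
  rw [one_div_mul_one_div]

/-- Counting from reciprocal sums: `1 ≤ x / w` for `1 ≤ w ≤ x`. -/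
theorem RecBd.cnt {A : Set ℕ} {b x : ℝ} (h : RecBd A b) (hx : 0 ≤ x) :
    CntBd {w | w ∈ A ∧ 0 < w ∧ (w : ℝ) ≤ x} (x * b) := by
  refine ((SumBd.const_mul h hx).mono_set fun w hw => hw.1).mono_fun fun w hw => ?_
  have h0 : (0 : ℝ) < w := by exact_mod_cast hw.2.1
  rw [mul_one_div, le_div_iff₀ h0, one_mul]
  exact hw.2.2

/-- Fibres of a map with a key that is injective on fibres: all elements but the key-minimal one of
each fibre have a partner with smaller key. -/
theorem card_le_card_image_add {γ : Type*} [DecidableEq γ] (S : Finset α) (f : α → γ)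
    (key : α → ℕ) (hkey : ∀ a ∈ S, ∀ a' ∈ S, f a = f a' → key a = key a' → a = a')
    {b : ℝ} (hb : CntBd {a | a ∈ S ∧ ∃ a' ∈ S, f a' = f a ∧ key a' < key a} b) :
    (S.card : ℝ) ≤ (S.image f).card + b := by
  classical
  have h1 := Finset.card_filter_add_card_filter_not (s := S)
    (fun a => ∃ a' ∈ S, f a' = f a ∧ key a' < key a)
  have h2 := hb.card_le (S.filter fun a => ∃ a' ∈ S, f a' = f a ∧ key a' < key a)
    fun a ha => Finset.mem_filter.1 ha
  have h3 : (S.filter fun a => ¬∃ a' ∈ S, f a' = f a ∧ key a' < key a).card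
      ≤ (S.image f).card := by
    refine Finset.card_le_card_of_injOn f
      (fun a ha => Finset.mem_image_of_mem f (Finset.mem_filter.1 ha).1) fun a ha a' ha' e => ?_
    have ha := Finset.mem_filter.1 ha
    have ha' := Finset.mem_filter.1 ha'
    refine hkey a ha.1 a' ha'.1 e (le_antisymm (not_lt.1 fun hlt => ?_) (not_lt.1 fun hlt => ?_))
    · exact ha.2 ⟨a', ha'.1, e.symm, hlt⟩
    · exact ha'.2 ⟨a, ha.1, e, hlt⟩
  have h4 : ((S.filter fun a => ¬∃ a' ∈ S, f a' = f a ∧ key a' < key a).card : ℝ)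
      ≤ (S.image f).card := by exact_mod_cast h3
  rw [← h1]
  push_cast
  linarith

end Crest.Agent.R20
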