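import Crest.Agent.R20.BasicOm
import Crest.Agent.R20.SumBd

/-!
# R20: the coefficients `a_j`, `g_j`; tuples of integers; `pp`, `GG`
-/

set_option autoImplicit false

open Finset Filter Topology
open Crest.NumberTheoryR.TotientScale

noncomputable section

namespace Crest.Agent.R20

/-! ### `a_j = ∫_j^{j+1} log`.  Use `log j ≤ a_j ≤ log (j+1)`, from
`1 - 1/x ≤ log x ≤ x - 1` applied to `x = (j+1)/j`:
`a_j = log (j+1) + j log ((j+1)/j) - 1 = log j + (j+1) log ((j+1)/j) - 1`. -/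

theorem log_le_aCoef {j : ℕ} (hj : 1 ≤ j) : Real.log j ≤ aCoef j := by
  have h0 : (0 : ℝ) < j := by exact_mod_cast hj
  have h1 := Real.one_sub_inv_le_log_of_pos (x := ((j : ℝ) + 1) / j) (by positivity)
  rw [Real.log_div (by positivity) h0.ne', inv_div] at h1
  have h2 : ((j : ℝ) + 1) * (1 - j / (j + 1)) = 1 := by field_simp; ring
  have h3 := mul_le_mul_of_nonneg_left h1 (show (0 : ℝ) ≤ j + 1 by positivity)
  unfold aCoef
  nlinarith

theorem aCoef_le_log {j : ℕ} (hj : 1 ≤ j) : aCoef j ≤ Real.log (j + 1) := by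
  have h0 : (0 : ℝ) < j := by exact_mod_cast hj
  have h1 := Real.log_le_sub_one_of_pos (x := ((j : ℝ) + 1) / j) (by positivity)
  rw [Real.log_div (by positivity) h0.ne'] at h1
  have h2 : (j : ℝ) * ((j + 1) / j - 1) = 1 := by field_simp; ring
  have h3 := mul_le_mul_of_nonneg_left h1 h0.le
  unfold aCoef
  nlinarith

theorem aCoef_one : aCoef 1 = 2 * Real.log 2 - 1 := by
  unfold aCoef
  norm_num

theorem aCoef_one_bounds : 0.38 < aCoef 1 ∧ aCoef 1 < 0.39 := by
  rw [aCoef_one]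
  have h1 := Real.log_two_gt_d9
  have h2 := Real.log_two_lt_d9
  constructor <;> linarith

theorem aCoef_mono {i j : ℕ} (hi : 1 ≤ i) (hij : i ≤ j) : aCoef i ≤ aCoef j := by
  induction j, hij using Nat.le_induction with
  | base => exact le_rfl
  | succ j hj ih =>
    have h1 := aCoef_le_log (hi.trans hj)
    have h2 := log_le_aCoef (j := j + 1) (by omega)
    push_cast at h2
    linarith

theorem aCoef_pos {j : ℕ} (hj : 1 ≤ j) : 0 < aCoef j := by
  have := aCoef_mono le_rfl hj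
  linarith [aCoef_one_bounds.1]

theorem aCoef_le_self {j : ℕ} (hj : 1 ≤ j) : aCoef j ≤ j := by
  have h1 := aCoef_le_log hj
  have h2 := Real.log_le_sub_one_of_pos (x := (j : ℝ) + 1) (by positivity)
  linarith

theorem sum_aCoef (K : ℕ) :
    ∑ i ∈ Icc 1 K, aCoef i = ((K : ℝ) + 1) * Real.log ((K : ℝ) + 1) - K := by
  induction K with
  | zero => simp
  | succ K ih =>
    rw [Finset.sum_Icc_succ_top (by omega), ih]
    unfold aCoef
    push_cast
    ring

theorem sum_aCoef_le (K : ℕ) : ∑ i ∈ Icc 1 K, aCoef i ≤ (K : ℝ) ^ 2 := by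
  rw [sum_aCoef]
  have h2 := Real.log_le_sub_one_of_pos (x := (K : ℝ) + 1) (by positivity)
  have h3 := mul_le_mul_of_nonneg_left h2 (show (0 : ℝ) ≤ K + 1 by positivity)
  nlinarith

theorem coef_log_three : (1.097 : ℝ) < Real.log 3 := by
  have h1 : Real.log ((2 : ℝ) ^ 19) ≤ Real.log ((3 : ℝ) ^ 12) :=
    Real.log_le_log (by positivity) (by norm_num)
  rw [Real.log_pow, Real.log_pow] at h1
  have h2 := Real.log_two_gt_d9
  push_cast at h1
  linarith

theorem aCoef_two : aCoef 2 = 3 * Real.log 3 - 2 * Real.log 2 - 1 := by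
  unfold aCoef
  norm_num

/-- `a₁ + a₂ = 3 log 3 - 2 = 1.2958…` (`log 3 > 1.0986`; e.g. `3^5 = 243 > 2^7 · 1.89`, or
`log 3 = log 2 + log (3/2)` with a series bound; `log 3 > 1.097` suffices). -/
theorem aCoef_one_add_two : 1.29 ≤ aCoef 1 + aCoef 2 := by
  rw [aCoef_one, aCoef_two]
  linarith [coef_log_three]

/-- `g₂ = a₁² + a₂ = 1.0587…`. -/
theorem one_lt_g_two : 1 < aCoef 1 ^ 2 + aCoef 2 := by
  have h1 := aCoef_one_bounds.1
  have h2 := coef_log_three
  have h3 := Real.log_two_lt_d9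
  rw [aCoef_two]
  nlinarith

theorem one_le_aCoef {j : ℕ} (hj : 3 ≤ j) : 1 ≤ aCoef j := by
  have h1 := log_le_aCoef (j := j) (by omega)
  have h2 : Real.log 3 ≤ Real.log j := Real.log_le_log (by norm_num) (by exact_mod_cast hj)
  linarith [coef_log_three]

/-- `∑_{i ≤ 5} a_i = 6 log 6 - 5 ≥ 4`. -/
theorem four_le_sum_aCoef : 4 ≤ ∑ i ∈ Icc 1 5, aCoef i := by
  rw [sum_aCoef]
  have h : Real.log (((5 : ℕ) : ℝ) + 1) = Real.log 2 + Real.log 3 := by
    rw [← Real.log_mul (by norm_num) (by norm_num)]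
    norm_num
  rw [h]
  have h2 := Real.log_two_gt_d9
  have h3 := coef_log_three
  push_cast
  linarith

theorem astd_nonneg {l l' : ℕ} (h : l < l') : 0 ≤ astd l l' :=
  (aCoef_pos (by omega)).le

/-! ### `g_j` -/

theorem gSeq_zero : gSeq 0 = 1 := by
  rfl

theorem gList_getD (j : ℕ) : ∀ d ≤ j, (gList j).getD d 0 = gSeq (j - d) := by
  induction j with
  | zero =>
    intro d hd
    obtain rfl : d = 0 := by omega
    rfl
  | succ j ih =>
    intro d hd
    cases d with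
    | zero => rfl
    | succ d =>
      rw [Nat.add_sub_add_right, ← ih d (by omega)]
      rfl

/-- The renewal recursion (prove `(gList j).getD d 0 = gSeq (j - d)` for `d ≤ j` by induction). -/
theorem gSeq_rec {j : ℕ} (hj : 1 ≤ j) : gSeq j = ∑ s ∈ range j, gSeq s * aCoef (j - s) := by
  obtain ⟨j, rfl⟩ : ∃ k, j = k + 1 := ⟨j - 1, by omega⟩
  have e : gSeq (j + 1) = ∑ d ∈ range (j + 1), aCoef (d + 1) * (gList j).getD d 0 := rfl
  rw [e, ← Finset.sum_range_reflect]
  refine Finset.sum_congr rfl fun s hs => ?_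
  have hs' := Finset.mem_range.1 hs
  rw [gList_getD j _ (by omega), mul_comm]
  congr 2 <;> omega

theorem gSeq_rec_astd {j : ℕ} (hj : 1 ≤ j) : gSeq j = ∑ s ∈ range j, gSeq s * astd s j :=
  gSeq_rec hj

theorem gSeq_pos (j : ℕ) : 0 < gSeq j := by
  induction j using Nat.strong_induction_on with
  | _ j ih =>
    rcases Nat.eq_zero_or_pos j with rfl | hj
    · rw [gSeq_zero]; exact one_pos
    · rw [gSeq_rec hj]
      refine Finset.sum_pos (fun s hs => ?_) ⟨0, Finset.mem_range.2 hj⟩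
      have hs' := Finset.mem_range.1 hs
      exact mul_pos (ih s hs') (aCoef_pos (by omega))

theorem gSeq_one : gSeq 1 = aCoef 1 := by
  rw [gSeq_rec le_rfl]
  simp [gSeq_zero]

/-! ### `pp`, `GG` -/

theorem pp_nonneg (A : ℝ) (e : ℕ) : 0 ≤ pp A e := by
  unfold pp
  split_ifs with h
  · positivity
  · exact le_rfl

theorem pp_mono (e : ℕ) {A A' : ℝ} (h : A ≤ A') : pp A e ≤ pp A' e := by
  by_cases hA : 0 ≤ A
  · unfold pp
    rw [if_pos hA, if_pos (hA.trans h)]
    exact pow_le_pow_left₀ hA h e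
  · have := pp_nonneg A' e
    unfold pp at this ⊢
    rwa [if_neg hA]

theorem pp_of_neg {A : ℝ} (h : A < 0) (e : ℕ) : pp A e = 0 := by
  unfold pp
  rw [if_neg (not_le.2 h)]

theorem pp_of_nonneg {A : ℝ} (h : 0 ≤ A) (e : ℕ) : pp A e = A ^ e := by
  unfold pp
  rw [if_pos h]

/-- `(B + z)_+^e ≤ B^e exp (e z / B)`. -/
theorem pp_le_exp {B : ℝ} (hB : 0 < B) (z : ℝ) (e : ℕ) :
    pp (B + z) e ≤ B ^ e * Real.exp (e * z / B) := by
  by_cases h : 0 ≤ B + z
  · rw [pp_of_nonneg h, mul_div_assoc, Real.exp_nat_mul, ← mul_pow]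
    refine pow_le_pow_left₀ h ?_ e
    have h1 := mul_le_mul_of_nonneg_left (Real.add_one_le_exp (z / B)) hB.le
    have h2 : B * (z / B + 1) = B + z := by field_simp; ring
    linarith
  · rw [pp_of_neg (not_le.1 h)]
    positivity

/-- `(B - z)^e ≥ B^e exp (-2 e z / B)` for `0 ≤ z ≤ B/2`. -/
theorem exp_le_pp {B z : ℝ} (hB : 0 < B) (hz : 0 ≤ z) (hzB : z ≤ B / 2) (e : ℕ) :
    B ^ e * Real.exp (-(2 * e * z / B)) ≤ pp (B - z) e := by
  have e1 : -(2 * e * z / B) = e * -(2 * (z / B)) := by ring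
  rw [pp_of_nonneg (by linarith), e1, Real.exp_nat_mul, ← mul_pow]
  refine pow_le_pow_left₀ (by positivity) ?_ e
  set u := z / B with hu
  have hu0 : 0 ≤ u := by positivity
  have hu1 : u ≤ 1 / 2 := by rw [hu, div_le_iff₀ hB]; linarith
  have hz' : z = B * u := by rw [hu]; field_simp
  have h1 := Real.add_one_le_exp (2 * u)
  have h2 : Real.exp (-(2 * u)) ≤ 1 - u := by
    rw [Real.exp_neg, inv_le_comm₀ (Real.exp_pos _) (by linarith)]
    refine le_trans ?_ h1
    rw [inv_le_iff_one_le_mul₀ (by linarith)]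
    nlinarith
  rw [hz']
  nlinarith

theorem coef_prod_range_succ {M : Type*} [CommMonoid M] (f : ℕ → M) (D : ℕ) :
    ∏ i ∈ range D, f (i + 1) = ∏ l ∈ Icc 1 D, f l := by
  induction D with
  | zero => simp
  | succ D ih => rw [Finset.prod_range_succ, Finset.prod_Icc_succ_top (by omega), ih]

theorem GG_eq (B : ℝ) (D : ℕ) :
    GG B D = B ^ D / ((D.factorial : ℝ) * ∏ l ∈ Icc 1 D, gSeq l) := by
  rw [GG, coef_prod_range_succ gSeq]

theorem GG_pos {B : ℝ} (hB : 0 < B) (D : ℕ) : 0 < GG B D := by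
  have : 0 < ∏ i ∈ range D, gSeq (i + 1) := Finset.prod_pos fun i _ => gSeq_pos _
  unfold GG
  positivity

theorem GG_zero (B : ℝ) : GG B 0 = 1 := by simp [GG]

theorem GG_succ (B : ℝ) (D : ℕ) : GG B (D + 1) = GG B D * (B / ((D + 1) * gSeq (D + 1))) := by
  have h1 : 0 < ∏ i ∈ range D, gSeq (i + 1) := Finset.prod_pos fun i _ => gSeq_pos _
  have h2 := gSeq_pos (D + 1)
  unfold GG
  rw [Finset.prod_range_succ, Nat.factorial_succ, pow_succ]
  push_cast
  field_simp

/-! ### Tuples and objects of integers -/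

theorem slack_anti (s : ℕ) {K K' : ℕ} (h : K ≤ K') : slack K' s ≤ slack K s := by
  unfold slack
  refine sub_le_sub_left (Finset.sum_le_sum_of_subset_of_nonneg
    (Finset.Icc_subset_Icc_right h) fun i hi _ => ?_) _
  exact mul_nonneg (aCoef_pos (Finset.mem_Icc.1 hi).1).le (ht_nonneg _ _)

theorem slack_le_ht (K s : ℕ) : slack K s ≤ ht s 0 := by
  have := slack_anti s (Nat.zero_le K)
  simpa [slack] using this

theorem tup_Tup (d s : ℕ) : Tup d (tup d s) := by
  refine ⟨fun l hl => ?_, fun l hl => ?_⟩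
  · simp only [tup, hl, if_false]
  · rw [tup, if_pos hl]
    exact isPP_lev _ _

theorem tup_apply {d l : ℕ} (s : ℕ) (hl : l ∈ Icc 1 d) : tup d s l = lev s (l - 1) := by
  simp only [tup, hl, if_true]

theorem hq_tup {d l : ℕ} (s : ℕ) (hl : l ∈ Icc 1 d) : hq (tup d s l) = ht s (l - 1) := by
  rw [tup_apply s hl, hq_lev]

theorem psl_tup_zero (B : ℝ) (d s : ℕ) :
    psl astd B d (tup d s) 0 = B - ∑ i ∈ Icc 1 d, aCoef i * ht s (i - 1) := by
  unfold psl yv
  rw [if_pos rfl]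
  have e : Ioc 0 d = Icc 1 d := by ext i; simp; omega
  rw [e]
  congr 1
  refine Finset.sum_congr rfl fun i hi => ?_
  rw [hq_tup s hi]
  rfl

theorem psl_tup {d l : ℕ} (B : ℝ) (s : ℕ) (hl : l ∈ Icc 1 d) :
    psl astd B d (tup d s) l = slack (d - l) (tail s (l - 1)) := by
  have hl' := Finset.mem_Icc.1 hl
  unfold psl yv slack
  rw [if_neg (by omega), hq_tup s hl, ht_tail]
  congr 1
  refine Finset.sum_nbij' (fun l' => l' - l) (fun i => l + i) ?_ ?_ ?_ ?_ ?_
  · intro a ha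
    simp only [Finset.mem_Ioc, Finset.mem_Icc] at ha ⊢
    omega
  · intro a ha
    simp only [Finset.mem_Ioc, Finset.mem_Icc] at ha ⊢
    omega
  · intro a ha
    simp only [Finset.mem_Ioc] at ha
    omega
  · intro a _
    omega
  · intro a ha
    simp only [Finset.mem_Ioc] at ha
    rw [hq_tup s (Finset.mem_Icc.2 ⟨by omega, ha.2⟩), ht_tail, astd]
    congr 2
    omega

theorem oval_obj {s : ℕ} (hs : 0 < s) (d : ℕ) : oval d (obj d s) = Nat.totient s := by
  rw [totient_eq_prod_lev hs d, oval, ← coef_prod_range_succ]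
  congr 1
  refine Finset.prod_congr rfl fun i hi => ?_
  have hi' := Finset.mem_range.1 hi
  show Nat.totient (tup d s (i + 1)) = _
  rw [tup_apply s (Finset.mem_Icc.2 ⟨by omega, by omega⟩), Nat.add_sub_cancel]

theorem owt_eq_inv_oval (d : ℕ) (o : (ℕ → ℕ) × ℕ) : owt d o = 1 / (oval d o : ℝ) := by
  unfold owt oval wt wq
  push_cast
  simp only [one_div, mul_inv, Finset.prod_inv_distrib]

theorem owt_obj {s : ℕ} (hs : 0 < s) (d : ℕ) : owt d (obj d s) = 1 / (Nat.totient s : ℝ) := by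
  rw [owt_eq_inv_oval, oval_obj hs]

theorem owt_nonneg (d : ℕ) (o : (ℕ → ℕ) × ℕ) : 0 ≤ owt d o := by
  rw [owt_eq_inv_oval]
  positivity

/-- The basic "object" bound: totient values whose first `d` levels lie in a set of tuples of total
weight `≤ Λ` and whose remaining totient lies in a set of reciprocal sum `≤ β`
(`SumBd.prod` and `SumBd.of_map` with `Ψ = oval d`). -/
theorem recBd_of_obj {P : ℕ → Prop} {d : ℕ} {𝒜 : Set (ℕ → ℕ)} {ℬ : Set ℕ} {Λ β : ℝ}
    (h𝒜 : SumBd 𝒜 (wt d) Λ) (hℬ : RecBd ℬ β)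
    (h : ∀ s, 0 < s → P s → tup d s ∈ 𝒜 ∧ Nat.totient (tail s d) ∈ ℬ) :
    RecBd (phiSet P) (Λ * β) := by
  refine (SumBd.prod h𝒜 hℬ fun τ _ => wt_nonneg d τ).of_map (oval d) ?_
  rintro w ⟨s, hs, hP, rfl⟩
  refine ⟨obj d s, h s hs hP, oval_obj hs d, le_of_eq ?_⟩
  exact (owt_obj hs d).symm

end Crest.Agent.R20
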