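import Crest.Agent.R20.Mertens

/-!
# R20: Euler products (Rankin-type bounds)
-/

set_option autoImplicit false

open Finset Filter Topology

noncomputable section

namespace Crest.Agent.R20

/-- `∑_{n : primes in P} ∏ h(p)^{v_p(n)} ≤ ∏_{p ∈ P} (1 - h p)⁻¹ ≤ exp ∑ (h + 4 h²)` since
`(1-h)⁻¹ = 1 + h/(1-h) ≤ exp (h/(1-h))` and `h/(1-h) = h + h²/(1-h) ≤ h + 4h²`.
Either use `EulerProduct.summable_and_hasSum_factoredNumbers_prod_filter_prime_geometric`
(with the monoid hom `n ↦ cm h' n` for `n ≠ 0`, `0 ↦ 0`, `h' = h` on `P`, `0` elsewhere), or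
induct on `P` with `SumBd.prod`/`SumBd.of_map` (`n = p^a · n'`), or use `SumBd.pi` on exponent
vectors. -/
theorem euler_bound (h : ℕ → ℝ) (P : Finset ℕ) (h0 : ∀ p ∈ P, 0 ≤ h p) (h1 : ∀ p ∈ P, h p ≤ 3 / 4) :
    SumBd {n : ℕ | 0 < n ∧ ∀ p : ℕ, p.Prime → p ∣ n → p ∈ P} (cm h)
      (Real.exp (∑ p ∈ P, (h p + 4 * h p ^ 2))) := by
  classical
  have hgeo : ∀ p ∈ P, SumBd (Set.univ : Set ℕ) (fun a => h p ^ a) (1 - h p)⁻¹ := by
    intro p hp S _
    exact sum_le_hasSum S (fun a _ => pow_nonneg (h0 p hp) a)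
      (hasSum_geometric_of_lt_one (h0 p hp) (by linarith [h1 p hp]))
  have hpi := SumBd.pi P (0 : ℕ) (A := fun _ => Set.univ) (f := fun p a => h p ^ a) hgeo
    (fun p hp a _ => pow_nonneg (h0 p hp) a)
  have hbd : ∏ p ∈ P, (1 - h p)⁻¹ ≤ Real.exp (∑ p ∈ P, (h p + 4 * h p ^ 2)) := by
    rw [Real.exp_sum]
    refine Finset.prod_le_prod (fun p hp => ?_) fun p hp => ?_
    · exact inv_nonneg.2 (by linarith [h1 p hp])
    · have a0 := h0 p hp
      have a1 := h1 p hp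
      refine le_trans ?_ (Real.add_one_le_exp _)
      rw [inv_le_iff_one_le_mul₀ (by linarith)]
      nlinarith [mul_nonneg (sq_nonneg (h p)) (show 0 ≤ 3 - 4 * h p by linarith)]
  refine (hpi.mono_bd hbd).of_injOn (fun n => (n.factorization : ℕ → ℕ)) ?_ ?_
  · intro a ha b hb hab
    exact Nat.eq_of_factorization_eq ha.1.ne' hb.1.ne' fun p => congrFun hab p
  · rintro n ⟨hn, hP⟩
    have hsub : n.primeFactors ⊆ P := fun p hp =>
      hP p (Nat.prime_of_mem_primeFactors hp) (Nat.dvd_of_mem_primeFactors hp)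
    refine ⟨⟨fun _ _ => Set.mem_univ _, fun i hi => ?_⟩, le_of_eq ?_⟩
    · exact Finsupp.notMem_support_iff.1 fun hi' => hi (hsub hi')
    · refine Finset.prod_subset hsub fun p _ hp => ?_
      rw [show n.factorization p = 0 from Finsupp.notMem_support_iff.1 hp, pow_zero]

theorem Euler_sum_exp (N : ℕ) : ∑ n ∈ Icc 1 N, Real.exp (-(n : ℝ)) ≤ 1 := by
  have key : ∀ N : ℕ, ∑ n ∈ Icc 1 N, Real.exp (-(n : ℝ)) ≤ 1 - Real.exp (-(N : ℝ)) := by
    intro N
    induction N with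
    | zero => simp
    | succ N ih =>
      rw [Finset.sum_Icc_succ_top (by omega)]
      have e : Real.exp (-(N : ℝ)) = Real.exp 1 * Real.exp (-((N + 1 : ℕ) : ℝ)) := by
        rw [← Real.exp_add]
        congr 1
        push_cast
        ring
      have h2 : (2 : ℝ) ≤ Real.exp 1 := by
        have := Real.add_one_le_exp (1 : ℝ)
        linarith
      have h3 := Real.exp_pos (-((N + 1 : ℕ) : ℝ))
      nlinarith
  have := Real.exp_pos (-(N : ℝ))
  linarith [key N]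

theorem Euler_sum_inv_sq (P : Finset ℕ) (hP : ∀ p ∈ P, p.Prime) :
    ∑ p ∈ P, ((p : ℝ) ^ 2)⁻¹ ≤ 1 := by
  have h := sum_Ioo_inv_sq_le (α := ℝ) 1 (P.sup id + 1)
  refine le_trans (Finset.sum_le_sum_of_subset_of_nonneg (fun p hp => ?_)
    fun _ _ _ => by positivity) (h.trans (by norm_num))
  have h1 : p ≤ P.sup id := Finset.le_sup (f := id) hp
  exact Finset.mem_Ioo.2 ⟨(hP p hp).one_lt, by omega⟩

/-- Weights depending on the window. Take `P` = primes `≤ EE N`, `h p = fw (win p) / p`;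
`∑_p h p ≤ fw 0 / 2 + ∑_{n=1}^N fw n (1 + C e^{-n})` by `recBd_win` (the only prime with `win = 0`
is `2`), and `∑ h² ≤ F² ∑ 1/p²`. -/
theorem euler_win : ∃ C : ℝ, 0 < C ∧ ∀ (fw : ℕ → ℝ) (F : ℝ) (N : ℕ), 1 ≤ F →
    (∀ n, 0 ≤ fw n) → (∀ n, fw n ≤ F) → (∀ p : ℕ, p.Prime → fw (win p) ≤ 3 / 4 * p) →
    SumBd {n : ℕ | 0 < n ∧ ∀ p : ℕ, p.Prime → p ∣ n → win p ≤ N}
      (fun n => cm (fun p => fw (win p)) n / n)
      (Real.exp (∑ n ∈ Icc 1 N, fw n + C * F ^ 2)) := by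
  classical
  obtain ⟨C, hC, hwin⟩ := recBd_win
  refine ⟨C + 5, by linarith, fun fw F N hF hf0 hfF hfp => ?_⟩
  set P : Finset ℕ := (range (⌊EE N⌋₊ + 1)).filter fun p => p.Prime ∧ win p ≤ N with hP
  have hPp : ∀ p ∈ P, p.Prime := fun p hp => (Finset.mem_filter.1 hp).2.1
  have hPw : ∀ p ∈ P, win p ≤ N := fun p hp => (Finset.mem_filter.1 hp).2.2
  have hE := euler_bound (fun p => fw (win p) * (1 / (p : ℝ))) P
    (fun p _ => mul_nonneg (hf0 _) (by positivity)) (fun p hp => by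
      have h0 : (0 : ℝ) < p := by exact_mod_cast (hPp p hp).pos
      rw [mul_one_div, div_le_iff₀ h0]
      exact hfp p (hPp p hp))
  have hF2 : F ≤ F ^ 2 := by nlinarith
  have hs1 : ∑ p ∈ P, fw (win p) * (1 / (p : ℝ)) ≤ ∑ n ∈ Icc 1 N, fw n + (C + 1) * F ^ 2 := by
    rw [← Finset.sum_fiberwise_of_maps_to (t := range (N + 1)) (g := win)
      (fun p hp => Finset.mem_range.2 (Nat.lt_succ_of_le (hPw p hp)))]
    have hr : range (N + 1) = insert 0 (Icc 1 N) := by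
      ext n
      simp only [Finset.mem_range, Finset.mem_insert, Finset.mem_Icc]
      omega
    rw [hr, Finset.sum_insert (by simp)]
    have h0 : ∑ p ∈ P with win p = 0, fw (win p) * (1 / (p : ℝ)) ≤ F := by
      have hsub : P.filter (fun p => win p = 0) ⊆ {2} := by
        intro p hp
        obtain ⟨hp1, hp2⟩ := Finset.mem_filter.1 hp
        have h2 := (hPp p hp1).two_le
        rw [Finset.mem_singleton]
        by_contra hne
        have h3 : 0 < ell p := ell_pos (by omega)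
        have h4 : ell p ≤ ((0 : ℕ) : ℝ) := win_le_iff.1 hp2.le
        simp only [Nat.cast_zero] at h4
        linarith
      refine (Finset.sum_le_sum_of_subset_of_nonneg hsub
        fun p _ _ => mul_nonneg (hf0 _) (by positivity)).trans ?_
      rw [Finset.sum_singleton]
      have := hfF (win 2)
      have := hf0 (win 2)
      push_cast
      linarith
    have h1 : ∀ n ∈ Icc 1 N, ∑ p ∈ P with win p = n, fw (win p) * (1 / (p : ℝ)) ≤
        fw n + C * F * Real.exp (-(n : ℝ)) := by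
      intro n hn
      have hb := hwin n (Finset.mem_Icc.1 hn).1 (P.filter fun p => win p = n) fun p hp => by
        obtain ⟨hp1, hp2⟩ := Finset.mem_filter.1 (Finset.mem_coe.1 hp)
        exact ⟨hPp p hp1, hp2⟩
      calc ∑ p ∈ P with win p = n, fw (win p) * (1 / (p : ℝ))
          = fw n * ∑ p ∈ P with win p = n, (1 / (p : ℝ)) := by
            rw [Finset.mul_sum]
            exact Finset.sum_congr rfl fun p hp => by rw [(Finset.mem_filter.1 hp).2]
        _ ≤ fw n * (1 + C * Real.exp (-(n : ℝ))) := mul_le_mul_of_nonneg_left hb (hf0 n)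
        _ ≤ fw n + C * F * Real.exp (-(n : ℝ)) := by
            have := mul_le_mul_of_nonneg_right (hfF n)
              (show 0 ≤ C * Real.exp (-(n : ℝ)) by positivity)
            nlinarith
    have h2 := Finset.sum_le_sum h1
    rw [Finset.sum_add_distrib, ← Finset.mul_sum] at h2
    have h3 := mul_le_mul_of_nonneg_left (Euler_sum_exp N) (show 0 ≤ C * F by positivity)
    have h4 := mul_le_mul_of_nonneg_left hF2 hC.le
    nlinarith
  have hs2 : ∑ p ∈ P, 4 * (fw (win p) * (1 / (p : ℝ))) ^ 2 ≤ 4 * F ^ 2 := by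
    calc ∑ p ∈ P, 4 * (fw (win p) * (1 / (p : ℝ))) ^ 2
        ≤ ∑ p ∈ P, 4 * F ^ 2 * ((p : ℝ) ^ 2)⁻¹ := by
          refine Finset.sum_le_sum fun p _ => ?_
          have : fw (win p) ^ 2 ≤ F ^ 2 := pow_le_pow_left₀ (hf0 _) (hfF _) 2
          rw [mul_pow, one_div, inv_pow, ← mul_assoc]
          gcongr
      _ ≤ 4 * F ^ 2 := by
          rw [← Finset.mul_sum]
          exact mul_le_of_le_one_right (by positivity) (Euler_sum_inv_sq P hPp)
  refine ((hE.mono_bd (Real.exp_le_exp.2 ?_)).mono_set ?_).mono_fun ?_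
  · rw [Finset.sum_add_distrib]
    linarith
  · rintro n ⟨hn, hw⟩
    refine ⟨hn, fun p hp hd => Finset.mem_filter.2 ⟨?_, hp, hw p hp hd⟩⟩
    have h1 : (p : ℝ) ≤ EE N := (ell_le_iff (Nat.cast_nonneg N)).1 (win_le_iff.1 (hw p hp hd))
    exact Finset.mem_range.2 (Nat.lt_succ_of_le (Nat.le_floor h1))
  · rintro n ⟨hn, -⟩
    rw [cm_mul_fun, cm_inv hn, mul_one_div]

/-- `euler_win` with constant weight, `N = ⌈Y⌉`. -/
theorem euler_Om : ∃ C : ℝ, 0 < C ∧ ∀ z : ℝ, 0 ≤ z → z ≤ 3 / 2 → ∀ Y : ℝ, 0 ≤ Y →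
    SumBd {n : ℕ | 0 < n ∧ hq n ≤ Y} (fun n => z ^ Om n / n) (C * Real.exp (z * Y)) := by
  obtain ⟨C, hC, hE⟩ := euler_win
  refine ⟨Real.exp (3 / 2 + C * (3 / 2) ^ 2), Real.exp_pos _, fun z hz0 hz Y hY => ?_⟩
  have h := hE (fun _ => z) (3 / 2) ⌈Y⌉₊ (by norm_num) (fun _ => hz0) (fun _ => hz)
    (fun p hp => by
      have : (2 : ℝ) ≤ p := by exact_mod_cast hp.two_le
      linarith)
  refine ((h.mono_bd ?_).mono_set ?_).mono_fun ?_
  · rw [← Real.exp_add, Real.exp_le_exp]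
    have h1 : (⌈Y⌉₊ : ℝ) ≤ Y + 1 := (Nat.ceil_lt_add_one hY).le
    simp only [Finset.sum_const, Nat.card_Icc, Nat.add_sub_cancel, nsmul_eq_mul]
    nlinarith [mul_le_mul_of_nonneg_right h1 hz0]
  · rintro n ⟨hn, hq'⟩
    exact ⟨hn, fun p hp hd => Nat.ceil_mono ((ell_le_hq hn hp hd).trans hq')⟩
  · rintro n -
    rw [cm_const]

/-- `euler_win` with weight `z` on windows `≤ b` and `1` above. -/
theorem euler_OmB : ∃ C : ℝ, 0 < C ∧ ∀ z : ℝ, 0 ≤ z → z ≤ 3 / 2 → ∀ b N : ℕ, b ≤ N →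
    SumBd {n : ℕ | 0 < n ∧ hq n ≤ N} (fun n => z ^ OmB b n / n)
      (C * Real.exp (N + (z - 1) * b)) := by
  obtain ⟨C, hC, hE⟩ := euler_win
  refine ⟨Real.exp (C * (3 / 2) ^ 2), Real.exp_pos _, fun z hz0 hz b N hb => ?_⟩
  have hle : ∀ n : ℕ, (if n ≤ b then z else 1) ≤ 3 / 2 := fun n => by
    split_ifs
    · exact hz
    · norm_num
  have h := hE (fun n => if n ≤ b then z else 1) (3 / 2) N (by norm_num)
    (fun n => by split_ifs; exacts [hz0, zero_le_one]) hle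
    (fun p hp => by
      have : (2 : ℝ) ≤ p := by exact_mod_cast hp.two_le
      linarith [hle (win p)])
  refine ((h.mono_bd (le_of_eq ?_)).mono_set ?_).mono_fun ?_
  · rw [← Real.exp_add, add_comm]
    congr 2
    have e : ∀ n : ℕ, (if n ≤ b then z else 1) = 1 + (z - 1) * (if n ≤ b then 1 else 0) := by
      intro n
      split_ifs <;> ring
    simp only [e]
    rw [Finset.sum_add_distrib, ← Finset.mul_sum, Finset.sum_boole]
    have : (Icc 1 N).filter (fun n => n ≤ b) = Icc 1 b := by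
      ext n
      simp only [Finset.mem_filter, Finset.mem_Icc]
      omega
    rw [this]
    simp
  · rintro n ⟨hn, hq'⟩
    exact ⟨hn, fun p hp hd => win_le_iff.2 ((ell_le_hq hn hp hd).trans hq')⟩
  · rintro n -
    rw [cm_ite]

theorem recBd_smooth : ∃ C : ℝ, 1 ≤ C ∧ ∀ Y : ℝ, 0 ≤ Y →
    RecBd {n : ℕ | 0 < n ∧ hq n ≤ Y} (C * Real.exp Y) := by
  obtain ⟨C, hC, hE⟩ := euler_Om
  refine ⟨max 1 C, le_max_left _ _, fun Y hY => ?_⟩
  refine ((hE 1 zero_le_one (by norm_num) Y hY).mono_bd ?_).mono_fun fun n _ => by simp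
  rw [one_mul]
  exact mul_le_mul_of_nonneg_right (le_max_right _ _) (Real.exp_pos _).le

/-- Rankin with `z = 3/2`: `(3/2)^{-10 Y} exp (3Y/2) ≤ exp (-2Y)` as `log (3/2) > 0.35`. -/
theorem recBd_Om_large : ∃ C : ℝ, 1 ≤ C ∧ ∀ Y : ℝ, 0 ≤ Y →
    RecBd {n : ℕ | 0 < n ∧ hq n ≤ Y ∧ 10 * Y < Om n} (C * Real.exp (-(2 * Y))) := by
  obtain ⟨C, hC, hE⟩ := euler_Om
  refine ⟨max 1 C, le_max_left _ _, fun Y hY => ?_⟩
  have h := (hE (3 / 2) (by norm_num) le_rfl Y hY).mul_const (Real.exp_pos (-(7 / 2 * Y))).le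
  have h35 : Real.exp (7 / 20) ≤ 3 / 2 := by
    have h1 := Real.exp_bound_div_one_sub_of_interval (x := 7 / 40) (by norm_num) (by norm_num)
    have h2 : Real.exp (7 / 20) = Real.exp (7 / 40) ^ 2 := by
      rw [← Real.exp_nat_mul]
      norm_num
    rw [h2]
    exact (pow_le_pow_left₀ (Real.exp_pos _).le h1 2).trans (by norm_num)
  refine ((h.mono_bd ?_).mono_set fun n hn => ⟨hn.1, hn.2.1⟩).mono_fun ?_
  · rw [mul_assoc, ← Real.exp_add, show 3 / 2 * Y + -(7 / 2 * Y) = -(2 * Y) by ring]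
    exact mul_le_mul_of_nonneg_right (le_max_right _ _) (Real.exp_pos _).le
  · rintro n ⟨hn, -, hO⟩
    have h1 : Real.exp (7 / 2 * Y) ≤ (3 / 2) ^ Om n := by
      calc Real.exp (7 / 2 * Y) ≤ Real.exp (Om n * (7 / 20)) := Real.exp_le_exp.2 (by linarith)
        _ = Real.exp (7 / 20) ^ Om n := Real.exp_nat_mul _ _
        _ ≤ (3 / 2) ^ Om n := pow_le_pow_left₀ (Real.exp_pos _).le h35 _
    have h2 : 1 ≤ (3 / 2) ^ Om n * Real.exp (-(7 / 2 * Y)) := by
      rw [Real.exp_neg, ← div_eq_mul_inv, one_le_div (Real.exp_pos _)]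
      exact h1
    rw [div_mul_eq_mul_div]
    exact div_le_div_of_nonneg_right h2 (Nat.cast_nonneg n)

end Crest.Agent.R20
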