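import Crest.Agent.R20.SieveRec
import Crest.Agent.R20.Euler
import Crest.Agent.R20.Coef

/-!
# R20: the collision lemma — data

Let `s, s'` be nice with `φ(s) = φ(s') = w`, `gpf s' < gpf s`.  Put `k1 = K + 1`, `E = U^7`,
`e₀ = ⌈E⌉`, `Y = U^11`, `Nm = ⌈Y⌉`.  A prime `π` is *rough* if `win π > e₀`, otherwise *smooth*.
*Rows* `i < k1`: `P i = q_i - 1` if the level-`i` prime `q_i` of `s` has height `> E` and does not divide
`s'`, else `P i = 1`; *columns* `P' j` likewise for `s'`.  Then `(∏ P) c d = w = (∏ P') c d'` with `c` the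
product of `q - 1` over the common large primes and `d, d'` smooth.  If no rough prime divides `w`
twice, each rough prime of `∏ P` lies in exactly one row and one column.  The *special* primes
`gpf (P i)`, `gpf (P' j)` (when rough) are listed decreasingly as `π 1 > ⋯ > π t`; `row l`, `col l` is the
cell of `π l`, `n l` its window; `sr i` (`sc j`) is the slot of the special prime of row `i`
(column `j`), `0` if there is none.  `e i j` is the product of the non-special rough primes in the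
cell `(i,j)`, `σ i`, `σ' j` the smooth parts.
-/

set_option autoImplicit false

open Finset Filter Topology
open Crest.NumberTheoryR.TotientScale

noncomputable section

namespace Crest.Agent.R20

/-- The discrete data. -/
@[ext] structure Shape where
  t : ℕ
  row : ℕ → ℕ
  col : ℕ → ℕ
  n : ℕ → ℕ
  sr : ℕ → ℕ
  sc : ℕ → ℕ

/-- Window of the special prime of row `i` (`e₀` if none). -/
def Shape.NR (S : Shape) (e₀ i : ℕ) : ℕ := if S.sr i = 0 then e₀ else S.n (S.sr i)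

/-- Window of the special prime of column `j` (`e₀` if none). -/
def Shape.NC (S : Shape) (e₀ j : ℕ) : ℕ := if S.sc j = 0 then e₀ else S.n (S.sc j)

/-- Number of indices `i < k1` that are active at window `n`. -/
def act (k1 : ℕ) (N : ℕ → ℕ) (n : ℕ) : ℕ := ((range k1).filter fun i => n ≤ N i).card

/-- Structural conditions on a shape. -/
structure Shape.OK (S : Shape) (k1 e₀ Nm : ℕ) : Prop where
  t_pos : 1 ≤ S.t
  t_le : S.t ≤ 2 * k1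
  out : ∀ l, l ∉ Icc 1 S.t → S.row l = 0 ∧ S.col l = 0 ∧ S.n l = 0
  out' : ∀ i, k1 ≤ i → S.sr i = 0 ∧ S.sc i = 0
  row_lt : ∀ l ∈ Icc 1 S.t, S.row l < k1
  col_lt : ∀ l ∈ Icc 1 S.t, S.col l < k1
  n_gt : ∀ l ∈ Icc 1 S.t, e₀ < S.n l
  n_le : ∀ l ∈ Icc 1 S.t, S.n l ≤ Nm
  sr_le : ∀ i, S.sr i ≤ S.t
  sc_le : ∀ j, S.sc j ≤ S.t
  row_sr : ∀ i, S.sr i ≠ 0 → S.row (S.sr i) = i
  col_sc : ∀ j, S.sc j ≠ 0 → S.col (S.sc j) = j
  sr_one : S.sr (S.row 1) = 1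
  sc_one : S.sc (S.col 1) = 1

/-- The exponent `∑_n (J₁(n) log J₂(n) - J₂(n))` of a shape. -/
def Shape.expo (S : Shape) (k1 e₀ Nm : ℕ) : ℝ :=
  ∑ n ∈ Ioc e₀ Nm, ((act k1 (S.NR e₀) n : ℝ) * Real.log (act k1 (S.NC e₀) n) - act k1 (S.NC e₀) n)

/-- Smooth data `(D, σ, σ')`. -/
def SmSet (k1 e₀ h : ℕ) : Set (ℕ × (ℕ → ℕ) × (ℕ → ℕ)) :=
  {z | 0 < z.1 ∧ (∀ p : ℕ, p.Prime → p ∣ z.1 → win p ≤ e₀) ∧
    (∀ i < k1, z.2.1 i ∣ z.1 ∧ Om (z.2.1 i) ≤ h) ∧ (∀ i, k1 ≤ i → z.2.1 i = 1) ∧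
    (∀ i < k1, z.2.2 i ∣ z.1 ∧ Om (z.2.2 i) ≤ h) ∧ (∀ i, k1 ≤ i → z.2.2 i = 1)}

/-- The common part. -/
def CSet (k1 : ℕ) (Y : ℝ) : Set ℕ :=
  {c | ∃ T : Finset ℕ, T.card ≤ k1 ∧ (∀ p ∈ T, p.Prime ∧ ell p ≤ Y) ∧ c = ∏ p ∈ T, (p - 1)}

/-- Matrices of non-special rough parts. -/
def MatSet (k1 e₀ : ℕ) (E : ℝ) (N N' : ℕ → ℕ) : Set (ℕ → ℕ → ℕ) :=
  {e | (∀ i j, ¬ (i < k1 ∧ j < k1) → e i j = 1) ∧ (∀ i j, 0 < e i j) ∧
    (∀ i j, ∀ p : ℕ, p.Prime → p ∣ e i j → e₀ < win p ∧ win p ≤ N i ∧ win p ≤ N' j) ∧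
    ∀ i < k1, ∀ b : ℕ, e₀ ≤ b → (∑ j ∈ range k1, (OmB b (e i j) : ℝ)) ≤ b - e₀ + 2 * E}

/-- The cofactor of `π l` in its row, if `π l` is the special prime of that row. -/
def Shape.aR (S : Shape) (A : ℕ → ℕ) (π : ℕ → ℕ) (l : ℕ) : ℕ :=
  A (S.row l) * ∏ l' ∈ (Ioc l S.t).filter (fun l' => S.row l' = S.row l), π l'

/-- The cofactor of `π l` in its column. -/
def Shape.aC (S : Shape) (A' : ℕ → ℕ) (π : ℕ → ℕ) (l : ℕ) : ℕ :=
  A' (S.col l) * ∏ l' ∈ (Ioc l S.t).filter (fun l' => S.col l' = S.col l), π l'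

/-- The conditions on slot `l`. -/
def Shape.slotOK (S : Shape) (Y : ℝ) (A A' : ℕ → ℕ) (π : ℕ → ℕ) (l : ℕ) : Prop :=
  (π l).Prime ∧ win (π l) = S.n l ∧
    (S.sr (S.row l) = l → 0 < S.aR A π l ∧ (S.aR A π l : ℝ) ≤ EE Y ∧ (S.aR A π l * π l + 1).Prime) ∧
    (S.sc (S.col l) = l → 0 < S.aC A' π l ∧ (S.aC A' π l : ℝ) ≤ EE Y ∧
      (S.aC A' π l * π l + 1).Prime) ∧
    (S.sr (S.row l) = l → S.sc (S.col l) = l → S.aR A π l ≠ S.aC A' π l)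

/-- Admissible tuples of special primes. -/
def Shape.PiSet (S : Shape) (Y : ℝ) (A A' : ℕ → ℕ) : Set (ℕ → ℕ) :=
  {π | (∀ l, l ∉ Icc 1 S.t → π l = 1) ∧ ∀ l ∈ Icc 1 S.t, S.slotOK Y A A' π l}

/-- Row factors without the special primes. -/
def rowA (k1 : ℕ) (σ : ℕ → ℕ) (e : ℕ → ℕ → ℕ) (i : ℕ) : ℕ := σ i * ∏ j ∈ range k1, e i j

/-- Column factors without the special primes. -/
def colA (k1 : ℕ) (σ' : ℕ → ℕ) (e : ℕ → ℕ → ℕ) (j : ℕ) : ℕ := σ' j * ∏ i ∈ range k1, e i j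

/-- Product of all matrix entries. -/
def matProd (k1 : ℕ) (e : ℕ → ℕ → ℕ) : ℕ := ∏ i ∈ range k1, ∏ j ∈ range k1, e i j

/-- A row (or column) number attached to the height `y`: `1`, or `p - 1` for a normal prime `p` of
height `y ∈ (E, Y]`. -/
def RowOK (E Y y : ℝ) (P : ℕ) : Prop :=
  P = 1 ∨ (2 ≤ P ∧ (P + 1).Prime ∧ ell (P + 1) = y ∧ E < y ∧ y ≤ Y ∧
    ∀ b : ℕ, |(OmB b P : ℝ) - min (b : ℝ) y| ≤ E)

end Crest.Agent.R20
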