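import Crest.Agent.R20.CollDefs

/-!
# R20: collision lemma — square factors, and the exponent inequality
-/

set_option autoImplicit false

open Finset Filter Topology
open Crest.NumberTheoryR.TotientScale

noncomputable section

namespace Crest.Agent.R20

private theorem sq_split {π a b : ℕ} (hπ : π.Prime) (h : π ^ 2 ∣ a * b) :
    ∃ i < 3, ∃ a' b', a = π ^ i * a' ∧ a * b = π ^ 2 * (a' * b') ∧ b' ∣ b := by
  by_cases h1 : π ∣ a
  · obtain ⟨a₁, rfl⟩ := h1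
    by_cases h2 : π ∣ a₁
    · obtain ⟨a₂, rfl⟩ := h2
      exact ⟨2, by norm_num, a₂, b, by ring, by ring, dvd_rfl⟩
    · have h3 : π ∣ a₁ * b := by
        rw [pow_two, mul_assoc] at h
        exact Nat.dvd_of_mul_dvd_mul_left hπ.pos h
      obtain ⟨b₁, rfl⟩ := (hπ.dvd_mul.1 h3).resolve_left h2
      exact ⟨1, by norm_num, a₁, b₁, by ring, by ring, Dvd.intro_left _ rfl⟩
  · have hc : Nat.Coprime (π ^ 2) a := ((Nat.Prime.coprime_iff_not_dvd hπ).2 h1).pow_left 2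
    obtain ⟨b₁, rfl⟩ := hc.dvd_of_dvd_mul_left h
    exact ⟨0, by norm_num, a, b₁, by ring, by ring, Dvd.intro_left _ rfl⟩

private theorem coll_sq_num {C U : ℝ} (hC : 1 ≤ C) (hU3 : 3 ≤ U) (hU : 12 * C ^ 2 ≤ U) :
    3 * (Real.exp (U ^ 11) * (2 / EE (U ^ 7) *
      (C * Real.exp (U ^ 11) * (C * Real.exp (U ^ 11))))) ≤ Real.exp (-U ^ 2) / 2 := by
  have hU0 : 0 < U := by linarith
  have hU1 : 1 ≤ U := by linarith
  have h1 : 12 * C ^ 2 ≤ Real.exp (U ^ 11) := by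
    have a : U ≤ U ^ 11 := le_self_pow₀ hU1 (by norm_num)
    have b := Real.add_one_le_exp (U ^ 11)
    linarith
  have h2 : U ^ 2 ≤ U ^ 11 := pow_le_pow_right₀ hU1 (by norm_num)
  have h3 : 5 * U ^ 11 ≤ Real.exp (U ^ 7) := by
    have a := Real.quadratic_le_exp_of_nonneg (x := U ^ 7) (by positivity)
    have b : (3 : ℝ) ^ 3 ≤ U ^ 3 := pow_le_pow_left₀ (by norm_num) hU3 3
    have c : (U ^ 7) ^ 2 = U ^ 11 * U ^ 3 := by ring
    have d : 0 < U ^ 11 := by positivity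
    have e : 0 < U ^ 7 := by positivity
    nlinarith
  have h4 : Real.exp (U ^ 11) ^ 4 * Real.exp (U ^ 2) ≤ EE (U ^ 7) := by
    rw [← Real.exp_nat_mul, ← Real.exp_add, EE]
    refine Real.exp_le_exp.2 ?_
    push_cast
    linarith
  have hE := EE_pos (U ^ 7)
  set X := Real.exp (U ^ 11) with hX
  have hX0 : 0 < X := Real.exp_pos _
  have hW : 0 < Real.exp (U ^ 2) := Real.exp_pos _
  have e : 3 * (X * (2 / EE (U ^ 7) * (C * X * (C * X)))) = 6 * C ^ 2 * X ^ 3 / EE (U ^ 7) := by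
    ring
  rw [e, Real.exp_neg, div_le_iff₀ hE]
  have h5 : 12 * C ^ 2 * X ^ 3 * Real.exp (U ^ 2) ≤ EE (U ^ 7) := by
    refine le_trans ?_ h4
    refine mul_le_mul_of_nonneg_right ?_ hW.le
    calc 12 * C ^ 2 * X ^ 3 ≤ X * X ^ 3 := mul_le_mul_of_nonneg_right h1 (by positivity)
      _ = X ^ 4 := by ring
  calc 6 * C ^ 2 * X ^ 3
      = (Real.exp (U ^ 2))⁻¹ / 2 * (12 * C ^ 2 * X ^ 3 * Real.exp (U ^ 2)) := by
        field_simp; ring
    _ ≤ (Real.exp (U ^ 2))⁻¹ / 2 * EE (U ^ 7) := mul_le_mul_of_nonneg_left h5 (by positivity)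

/-- Pairs `(p, w)` with `p - 1 ∣ w` and a large prime square dividing `w`.  With `w = a b`, `a = p - 1`:
`π² ∣ a`, `π² ∣ b`, or `π ∣ a` and `π ∣ b`; in each case `1/w = π⁻² · 1/(a' b')` with `a', b'` of height
`≤ U^11`.  Total `≤ e^Y · 3 (2/Z) (C e^Y)²`, `Z = EE (U^7)` (`recBd_smooth`, `sumBd_inv_mul_pred`). -/
theorem coll_sq : ∃ U₀ : ℝ, ∀ U : ℝ, U₀ ≤ U →
    SumBd {o : ℕ × ℕ | 2 ≤ o.1 ∧ 0 < o.2 ∧ (o.1 - 1) ∣ o.2 ∧ hq o.2 ≤ U ^ 11 ∧
        ∃ π : ℕ, π.Prime ∧ U ^ 7 < ell π ∧ π ^ 2 ∣ o.2}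
      (fun o => Real.exp (U ^ 11) / o.2) (Real.exp (-U ^ 2) / 2) := by
  obtain ⟨C, hC, hrec⟩ := recBd_smooth
  refine ⟨max 3 (12 * C ^ 2), fun U hU => ?_⟩
  have hU3 : 3 ≤ U := (le_max_left _ _).trans hU
  have hU0 : 0 < U := by linarith
  have hS := hrec (U ^ 11) (by positivity)
  have hZ : 1 ≤ EE (U ^ 7) := Real.one_le_exp (Real.exp_pos _).le
  have hP := sumBd_inv_mul_pred hZ
  have hSS := SumBd.prod hS hS fun a _ => by positivity
  have hT := (SumBd.prod hP hSS fun n hn => by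
    have : (1 : ℝ) < n := hZ.trans_lt hn
    have : (0 : ℝ) < (n : ℝ) - 1 := by linarith
    positivity).const_mul (Real.exp_pos (U ^ 11)).le
  have hA : ∀ i ∈ range 3, SumBd
      {o : ℕ × ℕ | ∃ π a b : ℕ, EE (U ^ 7) < π ∧ (0 < a ∧ hq a ≤ U ^ 11) ∧
        (0 < b ∧ hq b ≤ U ^ 11) ∧ o = (π ^ i * a + 1, π ^ 2 * (a * b))}
      (fun o => Real.exp (U ^ 11) / o.2) (Real.exp (U ^ 11) * (2 / EE (U ^ 7) *
        (C * Real.exp (U ^ 11) * (C * Real.exp (U ^ 11))))) := by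
    intro i _
    refine hT.of_map (fun z => (z.1 ^ i * z.2.1 + 1, z.1 ^ 2 * (z.2.1 * z.2.2))) ?_
    rintro o ⟨π, a, b, hπ, ha, hb, rfl⟩
    refine ⟨(π, a, b), ⟨hπ, ha, hb⟩, rfl, ?_⟩
    have h1 : (1 : ℝ) < π := hZ.trans_lt hπ
    have h2 : (0 : ℝ) < (π : ℝ) - 1 := by linarith
    have h3 : (0 : ℝ) < a := by exact_mod_cast ha.1
    have h4 : (0 : ℝ) < b := by exact_mod_cast hb.1
    rw [div_eq_mul_one_div]
    refine mul_le_mul_of_nonneg_left ?_ (Real.exp_pos _).le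
    push_cast
    rw [one_div_mul_one_div, one_div_mul_one_div]
    refine one_div_le_one_div_of_le (by positivity) ?_
    refine mul_le_mul_of_nonneg_right ?_ (by positivity)
    nlinarith
  refine (SumBd.of_cover (range 3) hA ?_).mono_bd ?_
  · rintro ⟨p, w⟩ ⟨hp, hw, ⟨b, hb⟩, hh, π, hπ, hπ1, hπ2⟩
    dsimp only at hp hw hb hh hπ2
    rw [hb] at hπ2
    obtain ⟨i, hi, a', b', e1, e2, e3⟩ := sq_split hπ hπ2
    have hda : a' ∣ w := by rw [hb, e1]; exact Dvd.dvd.mul_right (Dvd.intro_left _ rfl) _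
    have hdb : b' ∣ w := by rw [hb]; exact Dvd.dvd.mul_left e3 _
    refine ⟨i, Finset.mem_range.2 hi, π, a', b', (lt_ell_iff (by positivity)).1 hπ1,
      ⟨Nat.pos_of_dvd_of_pos hda hw, (hq_le_of_dvd hw hda).trans hh⟩,
      ⟨Nat.pos_of_dvd_of_pos hdb hw, (hq_le_of_dvd hw hdb).trans hh⟩, ?_⟩
    rw [← e1, ← e2, ← hb]
    congr 1
    omega
  · rw [Finset.sum_const, Finset.card_range, nsmul_eq_mul]
    exact coll_sq_num hC hU3 ((le_max_right _ _).trans hU)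

private theorem mul_log_sub_le {x y : ℝ} (hx : 0 < x) (hy : 0 < y) :
    x * Real.log y - y ≤ x * Real.log x - x := by
  have h1 := Real.log_le_sub_one_of_pos (div_pos hy hx)
  rw [Real.log_div hy.ne' hx.ne'] at h1
  have h2 := mul_le_mul_of_nonneg_left h1 hx.le
  have h3 : x * (y / x - 1) = y - x := by field_simp
  nlinarith

private theorem act_pos {k1 n : ℕ} {N : ℕ → ℕ} (h : ∃ i < k1, n ≤ N i) : 0 < act k1 N n := by
  obtain ⟨i, hi, hn⟩ := h
  exact Finset.card_pos.2 ⟨i, Finset.mem_filter.2 ⟨Finset.mem_range.2 hi, hn⟩⟩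

private theorem act_zero {k1 n : ℕ} {N : ℕ → ℕ} (h : ∀ i < k1, N i < n) : act k1 N n = 0 := by
  refine Finset.card_eq_zero.2 (Finset.filter_eq_empty_iff.2 fun i hi => ?_)
  exact not_le.2 (h i (Finset.mem_range.1 hi))

private theorem act_le {k1 n j : ℕ} {N : ℕ → ℕ} (h : ∀ i < k1, j ≤ i → N i < n) :
    act k1 N n ≤ j := by
  refine (Finset.card_le_card (t := range j) fun i hi => ?_).trans (Finset.card_range j).le
  have hi' := Finset.mem_filter.1 hi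
  rw [Finset.mem_range]
  by_contra hc
  exact absurd hi'.2 (not_le.2 (h i (Finset.mem_range.1 hi'.1) (not_lt.1 hc)))

/-- The exponent inequality.  For `n > n₁` both counts vanish.  For `e₀ < n ≤ n₁`, `J₁, J₂ ≥ 1` and
`J₁ log J₂ - J₂ ≤ J₁ log J₁ - J₁` (`log x ≤ x - 1`) `= -1 + ∑_{i=1}^{J₁-1} a_i` (`sum_aCoef`)
`≤ -1 + ∑_{i ∈ [1,K], n ≤ ⌈y i⌉} a_i`, because `J₁ ≤ #{i ≤ K : n ≤ ⌈y i⌉}` and, `y` being antitone, this
set is an initial segment.  Sum over `n`. -/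
theorem expo_le {K e₀ Nm n₁ : ℕ} {N N' : ℕ → ℕ} {y : ℕ → ℝ} (hy : Antitone y) (hy0 : ∀ i, 0 ≤ y i)
    (he : e₀ ≤ n₁) (hn : n₁ ≤ Nm) (hN : ∀ i < K + 1, N i ≤ n₁) (hN' : ∀ j < K + 1, N' j ≤ n₁)
    (hi : ∃ i < K + 1, N i = n₁) (hj : ∃ j < K + 1, N' j = n₁)
    (hNy : ∀ i < K + 1, N i ≤ max e₀ ⌈y i⌉₊) :
    ∑ n ∈ Ioc e₀ Nm, ((act (K + 1) N n : ℝ) * Real.log (act (K + 1) N' n) - act (K + 1) N' n) ≤
      -((n₁ : ℝ) - e₀) + ∑ i ∈ Icc 1 K, aCoef i * (y i + 1) := by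
  have key : ∀ n ∈ Ioc e₀ Nm,
      ((act (K + 1) N n : ℝ) * Real.log (act (K + 1) N' n) - act (K + 1) N' n) ≤
        -(if n ≤ n₁ then (1 : ℝ) else 0) +
          ∑ i ∈ Icc 1 K, aCoef i * (if n ≤ ⌈y i⌉₊ then (1 : ℝ) else 0) := by
    intro n hn'
    have hn1 := (Finset.mem_Ioc.1 hn').1
    have hnn : ∀ i ∈ Icc 1 K, 0 ≤ aCoef i * (if n ≤ ⌈y i⌉₊ then (1 : ℝ) else 0) := fun i hi' =>
      mul_nonneg (aCoef_pos (Finset.mem_Icc.1 hi').1).le (by split_ifs <;> norm_num)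
    by_cases hc : n ≤ n₁
    · rw [if_pos hc]
      have p1 : 0 < act (K + 1) N n := by
        obtain ⟨i, hi1, hi2⟩ := hi
        exact act_pos ⟨i, hi1, hi2 ▸ hc⟩
      have p2 : 0 < act (K + 1) N' n := by
        obtain ⟨i, hi1, hi2⟩ := hj
        exact act_pos ⟨i, hi1, hi2 ▸ hc⟩
      obtain ⟨J, hJ⟩ : ∃ J, act (K + 1) N n = J + 1 := ⟨_, (Nat.succ_pred_eq_of_pos p1).symm⟩
      have hJK : J ≤ K := by
        have := act_le (k1 := K + 1) (n := n) (j := K + 1) (N := N) fun i h1 h2 => by omega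
        omega
      have hJy : ∀ i ≤ J, n ≤ ⌈y i⌉₊ := by
        intro i hiJ
        by_contra hlt
        have := act_le (k1 := K + 1) (n := n) (j := i) (N := N) fun i' h1 h2 => by
          have a := hNy i' h1
          have b : ⌈y i'⌉₊ ≤ ⌈y i⌉₊ := Nat.ceil_mono (hy h2)
          omega
        omega
      have h1 := mul_log_sub_le (x := (act (K + 1) N n : ℝ)) (y := (act (K + 1) N' n : ℝ))
        (by exact_mod_cast p1) (by exact_mod_cast p2)
      have h2 : ∑ i ∈ Icc 1 J, aCoef i ≤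
          ∑ i ∈ Icc 1 K, aCoef i * (if n ≤ ⌈y i⌉₊ then (1 : ℝ) else 0) := by
        refine le_trans (le_of_eq (Finset.sum_congr rfl fun i hi' => ?_))
          (Finset.sum_le_sum_of_subset_of_nonneg (Finset.Icc_subset_Icc_right hJK)
            fun i hi' _ => hnn i hi')
        rw [if_pos (hJy i (Finset.mem_Icc.1 hi').2), mul_one]
      rw [sum_aCoef] at h2
      refine h1.trans ?_
      rw [hJ]
      push_cast
      linarith
    · rw [if_neg hc, act_zero (N := N) fun i hi' => by have := hN i hi'; omega,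
        act_zero (N := N') fun i hi' => by have := hN' i hi'; omega]
      simpa using Finset.sum_nonneg hnn
  refine (Finset.sum_le_sum key).trans ?_
  rw [Finset.sum_add_distrib, Finset.sum_comm]
  refine add_le_add (le_of_eq ?_) (Finset.sum_le_sum fun i hi' => ?_)
  · rw [Finset.sum_neg_distrib, Finset.sum_boole]
    have : (Ioc e₀ Nm).filter (fun n => n ≤ n₁) = Ioc e₀ n₁ := by
      ext n
      simp only [Finset.mem_filter, Finset.mem_Ioc]
      omega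
    rw [this, Nat.card_Ioc, Nat.cast_sub he]
  · rw [← Finset.mul_sum, Finset.sum_boole]
    refine mul_le_mul_of_nonneg_left ?_ (aCoef_pos (Finset.mem_Icc.1 hi').1).le
    have h1 : ((Ioc e₀ Nm).filter (fun n => n ≤ ⌈y i⌉₊)).card ≤ ⌈y i⌉₊ := by
      refine (Finset.card_le_card (t := Ioc 0 ⌈y i⌉₊) fun n hn' => ?_).trans (by simp)
      simp only [Finset.mem_filter, Finset.mem_Ioc] at hn' ⊢
      omega
    have h2 := Nat.ceil_lt_add_one (hy0 i)
    have h3 : (((Ioc e₀ Nm).filter (fun n => n ≤ ⌈y i⌉₊)).card : ℝ) ≤ ⌈y i⌉₊ := by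
      exact_mod_cast h1
    linarith

end Crest.Agent.R20
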