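import Crest.Agent.R20.CollDefs

/-!
# R20: collision lemma — the matrix decomposition (pure multiplicative combinatorics)

Let `Mx = (∏ P) d = (∏ P') d'` and `ℛ` the finite set of rough primes dividing `Mx`; each divides `Mx`
exactly once and does not divide `d`, `d'`, so it divides exactly one `P i` (`r p := i`) and exactly one
`P' j` (`c p := j`), to the first power.  `Π ⊆ ℛ` = the rough ones among `gpf (P i)`, `gpf (P' j)`;
`t = #Π ≤ 2 k1`; `π l` = the `l`-th largest element of `Π` (e.g. from `Finset.orderEmbOfFin` or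
`Finset.sort`), `row l = r (π l)`, `col l = c (π l)`, `sr i` = the slot of `gpf (P i)` if rough, else `0`.
`σ i = ∏_{p ∣ P i smooth} p^{v_p}`, `e i j = ∏ {p ∈ ℛ \ Π : r p = i, c p = j}`.  Check the factorisations
by comparing `factorization`s (or `Nat.factorization_prod_pow_eq_self` and `prod_filter_mul_prod_filter_not`,
`prod_fiberwise`).  The largest element of `ℛ` is `gpf` of its row and of its column, so it is `π 1`.
-/

set_option autoImplicit false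

open Finset Filter Topology

noncomputable section

namespace Crest.Agent.R20

/-- decreasing enumeration of a finite set of naturals -/
theorem cmx_enum (S : Finset ℕ) : ∃ π sl : ℕ → ℕ, (∀ l, l ∉ Icc 1 S.card → π l = 1) ∧
    (∀ l ∈ Icc 1 S.card, π l ∈ S) ∧ (∀ l l', 1 ≤ l → l < l' → l' ≤ S.card → π l' < π l) ∧
    (∀ p ∈ S, sl p ∈ Icc 1 S.card ∧ π (sl p) = p) := by
  let f := S.orderEmbOfFin (k := S.card) rfl
  let π : ℕ → ℕ := fun l =>
    if h : l ∈ Icc 1 S.card then f ⟨S.card - l, by have := mem_Icc.1 h; omega⟩ else 1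
  have hex : ∀ p, ∃ l, p ∈ S → l ∈ Icc 1 S.card ∧ π l = p := by
    intro p
    by_cases hp : p ∈ S
    · have : p ∈ Set.range f := by rw [range_orderEmbOfFin]; exact hp
      obtain ⟨i, hi⟩ := this
      have hl : S.card - i ∈ Icc 1 S.card := mem_Icc.2 ⟨by have := i.2; omega, by omega⟩
      refine ⟨S.card - i, fun _ => ⟨hl, ?_⟩⟩
      simp only [π, dif_pos hl]
      rw [← hi]
      congr 1
      apply Fin.ext
      have := i.2
      simp only
      omega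
    · exact ⟨0, fun h => absurd h hp⟩
  choose sl hsl using hex
  refine ⟨π, sl, fun l hl => dif_neg hl, fun l hl => ?_, fun l l' h1 h2 h3 => ?_, hsl⟩
  · simp only [π, dif_pos hl]
    exact orderEmbOfFin_mem _ _ _
  · have hl : l ∈ Icc 1 S.card := mem_Icc.2 ⟨h1, by omega⟩
    have hl' : l' ∈ Icc 1 S.card := mem_Icc.2 ⟨by omega, h3⟩
    simp only [π, dif_pos hl, dif_pos hl']
    refine f.strictMono ?_
    rw [Fin.mk_lt_mk]
    omega

/-- The smooth part of `n`. -/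
def cmxSm (e₀ n : ℕ) : ℕ := ∏ p ∈ n.primeFactors with win p ≤ e₀, p ^ n.factorization p

theorem cmxSm_pos (e₀ n : ℕ) : 0 < cmxSm e₀ n :=
  prod_pos fun _ hp => pow_pos (Nat.prime_of_mem_primeFactors (mem_filter.1 hp).1).pos _

theorem cmxSm_smooth {e₀ n p : ℕ} (hp : p.Prime) (h : p ∣ cmxSm e₀ n) : win p ≤ e₀ := by
  obtain ⟨q, hq, hd⟩ := (Prime.dvd_finsetProd_iff hp.prime _).1 h
  have hq' := mem_filter.1 hq
  have : p = q := (Nat.prime_dvd_prime_iff_eq hp (Nat.prime_of_mem_primeFactors hq'.1)).1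
    (hp.dvd_of_dvd_pow hd)
  rw [this]
  exact hq'.2

/-- One side of the decomposition: every rough prime lies in exactly one row. -/
theorem cmx_side {k1 e₀ M : ℕ} {P : ℕ → ℕ} {d : ℕ} (hP : ∀ i < k1, 0 < P i) (hd : 0 < d)
    (hds : ∀ p : ℕ, p.Prime → p ∣ d → win p ≤ e₀) (hM : M = (∏ i ∈ range k1, P i) * d)
    (hsq : ∀ p : ℕ, p.Prime → e₀ < win p → ¬ p ^ 2 ∣ M) :
    ∃ r : ℕ → ℕ, (∀ p ∈ M.primeFactors.filter (fun p => e₀ < win p), r p < k1 ∧ p ∣ P (r p)) ∧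
      (∀ p : ℕ, p.Prime → e₀ < win p → ∀ i < k1, p ∣ P i →
        p ∈ M.primeFactors.filter (fun p => e₀ < win p) ∧ r p = i) ∧
      ∀ i < k1, P i = cmxSm e₀ (P i) *
        ∏ p ∈ (M.primeFactors.filter (fun p => e₀ < win p)).filter (fun p => r p = i), p := by
  have hM0 : M ≠ 0 := by
    rw [hM]
    exact (Nat.mul_pos (prod_pos fun i hi => hP i (mem_range.1 hi)) hd).ne'
  have hPM : ∀ i < k1, P i ∣ M := fun i hi =>
    hM ▸ (dvd_prod_of_mem P (mem_range.2 hi)).trans (dvd_mul_right _ _)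
  have hex : ∀ p, ∃ i, p ∈ M.primeFactors.filter (fun p => e₀ < win p) → i < k1 ∧ p ∣ P i := by
    intro p
    by_cases hp : p ∈ M.primeFactors.filter (fun p => e₀ < win p)
    · obtain ⟨h1, h2⟩ := mem_filter.1 hp
      have h3 := Nat.prime_of_mem_primeFactors h1
      have h4 := Nat.dvd_of_mem_primeFactors h1
      rw [hM] at h4
      rcases (Nat.Prime.dvd_mul h3).1 h4 with h5 | h5
      · obtain ⟨i, hi, h6⟩ := (Prime.dvd_finsetProd_iff h3.prime _).1 h5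
        exact ⟨i, fun _ => ⟨mem_range.1 hi, h6⟩⟩
      · exact absurd (hds p h3 h5) (not_le.2 h2)
    · exact ⟨0, fun h => absurd h hp⟩
  choose r hr using hex
  have huniq : ∀ p : ℕ, p.Prime → e₀ < win p → ∀ i < k1, p ∣ P i →
      p ∈ M.primeFactors.filter (fun p => e₀ < win p) ∧ r p = i := by
    intro p hp hw i hi hdv
    have hmem : p ∈ M.primeFactors.filter (fun p => e₀ < win p) :=
      mem_filter.2 ⟨Nat.mem_primeFactors.2 ⟨hp, hdv.trans (hPM i hi), hM0⟩, hw⟩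
    refine ⟨hmem, ?_⟩
    by_contra hne
    obtain ⟨h1, h2⟩ := hr p hmem
    apply hsq p hp hw
    have h3 : P (r p) * P i ∣ ∏ i ∈ range k1, P i := by
      rw [← prod_pair hne]
      refine prod_dvd_prod_of_subset _ _ _ fun x hx => ?_
      rcases mem_insert.1 hx with rfl | hx
      · exact mem_range.2 h1
      · rw [mem_singleton.1 hx]
        exact mem_range.2 hi
    rw [sq, hM]
    exact ((mul_dvd_mul h2 hdv).trans h3).trans (dvd_mul_right _ _)
  refine ⟨r, hr, huniq, fun i hi => ?_⟩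
  have h0 : P i ≠ 0 := (hP i hi).ne'
  have e1 : P i = ∏ p ∈ (P i).primeFactors, p ^ (P i).factorization p := by
    conv_lhs => rw [← Nat.prod_factorization_pow_eq_self h0]
    rfl
  have e2 : (P i).primeFactors.filter (fun p => ¬ win p ≤ e₀) =
      (M.primeFactors.filter (fun p => e₀ < win p)).filter (fun p => r p = i) := by
    ext p
    constructor
    · intro h
      obtain ⟨h1, h2⟩ := mem_filter.1 h
      exact mem_filter.2 (huniq p (Nat.prime_of_mem_primeFactors h1) (not_le.1 h2) i hi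
        (Nat.dvd_of_mem_primeFactors h1))
    · intro h
      obtain ⟨h1, h2⟩ := mem_filter.1 h
      obtain ⟨h3, h4⟩ := mem_filter.1 h1
      refine mem_filter.2 ⟨Nat.mem_primeFactors.2 ⟨Nat.prime_of_mem_primeFactors h3, ?_, h0⟩,
        not_le.2 h4⟩
      rw [← h2]
      exact (hr p h1).2
  conv_lhs => rw [e1, ← prod_filter_mul_prod_filter_not _ (fun p => win p ≤ e₀)]
  rw [← e2]
  congr 1
  refine prod_congr rfl fun p hp => ?_
  obtain ⟨h1, h2⟩ := mem_filter.1 hp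
  have h3 := Nat.prime_of_mem_primeFactors h1
  have h4 : 1 ≤ (P i).factorization p :=
    (h3.dvd_iff_one_le_factorization h0).1 (Nat.dvd_of_mem_primeFactors h1)
  have h5 : ¬ 2 ≤ (P i).factorization p := fun h =>
    hsq p h3 (not_le.1 h2) (((h3.pow_dvd_iff_le_factorization h0).2 h).trans (hPM i hi))
  have h6 : (P i).factorization p = 1 := by omega
  rw [h6, pow_one]

/-- Splitting the primes of a row into the cells and the special primes. -/
theorem cmx_split {R S : Finset ℕ} (hS : S ⊆ R) {k1 : ℕ} (r c π sl : ℕ → ℕ)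
    (hc : ∀ p ∈ R, c p < k1) (h1 : ∀ l ∈ Icc 1 S.card, π l ∈ S)
    (h2 : ∀ l ∈ Icc 1 S.card, sl (π l) = l) (h3 : ∀ p ∈ S, sl p ∈ Icc 1 S.card ∧ π (sl p) = p)
    (i : ℕ) :
    ∏ p ∈ R.filter (fun p => r p = i), p =
      (∏ j ∈ range k1, ∏ p ∈ (R \ S).filter (fun p => r p = i ∧ c p = j), p) *
        ∏ l ∈ (Icc 1 S.card).filter
          (fun l => (if l ∈ Icc 1 S.card then r (π l) else 0) = i), π l := by
  have e1 : R.filter (fun p => r p = i) =
      (R \ S).filter (fun p => r p = i) ∪ S.filter (fun p => r p = i) := by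
    rw [← filter_union, sdiff_union_of_subset hS]
  rw [e1, prod_union (disjoint_filter_filter sdiff_disjoint)]
  congr 1
  · rw [← prod_fiberwise_of_maps_to (t := range k1) (g := c)
      (fun p hp => mem_range.2 (hc p (mem_sdiff.1 (mem_filter.1 hp).1).1))]
    refine prod_congr rfl fun j _ => ?_
    rw [filter_filter]
  · symm
    refine prod_nbij' π sl (fun l hl => ?_) (fun p hp => ?_) (fun l hl => ?_) (fun p hp => ?_)
      (fun _ _ => rfl)
    · obtain ⟨a, b⟩ := mem_filter.1 hl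
      rw [if_pos a] at b
      exact mem_filter.2 ⟨h1 l a, b⟩
    · obtain ⟨a, b⟩ := mem_filter.1 hp
      refine mem_filter.2 ⟨(h3 p a).1, ?_⟩
      rw [if_pos (h3 p a).1, (h3 p a).2, b]
    · exact h2 l (mem_filter.1 hl).1
    · exact (h3 p (mem_filter.1 hp).1).2

theorem cmx_gpf_prime {e₀ n : ℕ} (hn : 0 < n) (h : e₀ < win (gpf n)) : (gpf n).Prime := by
  refine gpf_prime (lt_of_le_of_ne hn fun h1 => ?_)
  rw [← h1, gpf_one] at h
  simp [win, ell_one] at h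

/-- The slots of the special primes of one side. -/
theorem cmx_slots {k1 e₀ : ℕ} {P : ℕ → ℕ} (hP : ∀ i < k1, 0 < P i) {R S : Finset ℕ} (hS : S ⊆ R)
    {r π sl : ℕ → ℕ} (hR : ∀ p ∈ R, p.Prime ∧ e₀ < win p)
    (hr : ∀ p ∈ R, r p < k1 ∧ p ∣ P (r p))
    (hu : ∀ p : ℕ, p.Prime → e₀ < win p → ∀ i < k1, p ∣ P i → p ∈ R ∧ r p = i)
    (hg : ∀ i < k1, gpf (P i) ∈ R → gpf (P i) ∈ S) (ht : 1 ≤ S.card)
    (h1 : ∀ l ∈ Icc 1 S.card, π l ∈ S)
    (hdec : ∀ l l', 1 ≤ l → l < l' → l' ≤ S.card → π l' < π l)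
    (h3 : ∀ p ∈ S, sl p ∈ Icc 1 S.card ∧ π (sl p) = p) :
    ∃ sr : ℕ → ℕ, (∀ i, k1 ≤ i → sr i = 0) ∧ (∀ i, sr i ≤ S.card) ∧
      (∀ i, sr i ≠ 0 → (if sr i ∈ Icc 1 S.card then r (π (sr i)) else 0) = i ∧
        π (sr i) = gpf (P i)) ∧
      (∀ i < k1, sr i = 0 → win (gpf (P i)) ≤ e₀) ∧
      sr (if 1 ∈ Icc 1 S.card then r (π 1) else 0) = 1 := by
  have hkey : ∀ i < k1, e₀ < win (gpf (P i)) → gpf (P i) ∈ S ∧ r (gpf (P i)) = i := by
    intro i hi hw
    obtain ⟨a, b⟩ := hu _ (cmx_gpf_prime (hP i hi) hw) hw i hi (gpf_dvd _)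
    exact ⟨hg i hi a, b⟩
  refine ⟨fun i => if i < k1 ∧ e₀ < win (gpf (P i)) then sl (gpf (P i)) else 0,
    fun i hi => if_neg fun h => absurd h.1 (not_lt.2 hi), fun i => ?_, fun i hi => ?_,
    fun i hi h0 => ?_, ?_⟩
  · by_cases h : i < k1 ∧ e₀ < win (gpf (P i))
    · simp only [if_pos h]
      exact (mem_Icc.1 (h3 _ (hkey i h.1 h.2).1).1).2
    · simp only [if_neg h]
      exact Nat.zero_le _
  · by_cases h : i < k1 ∧ e₀ < win (gpf (P i))
    · simp only [if_pos h]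
      obtain ⟨a, b⟩ := hkey i h.1 h.2
      rw [if_pos (h3 _ a).1, (h3 _ a).2]
      exact ⟨b, rfl⟩
    · exact absurd (if_neg h) hi
  · by_contra hw
    have h : i < k1 ∧ e₀ < win (gpf (P i)) := ⟨hi, not_le.1 hw⟩
    simp only [if_pos h] at h0
    have := (mem_Icc.1 (h3 _ (hkey i h.1 h.2).1).1).1
    omega
  · have hone : 1 ∈ Icc 1 S.card := mem_Icc.2 ⟨le_rfl, ht⟩
    rw [if_pos hone]
    have a1 := hS (h1 1 hone)
    obtain ⟨a2, a3⟩ := hr _ a1
    obtain ⟨a4, a5⟩ := hR _ a1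
    have a6 : π 1 ≤ gpf (P (r (π 1))) := le_gpf (hP _ a2) a4 a3
    have h : r (π 1) < k1 ∧ e₀ < win (gpf (P (r (π 1)))) := ⟨a2, a5.trans_le (win_mono a6)⟩
    simp only [if_pos h]
    obtain ⟨a7, a8⟩ := h3 _ (hkey _ h.1 h.2).1
    by_contra hne
    have a9 := mem_Icc.1 a7
    have := hdec 1 _ le_rfl (by omega) a9.2
    omega

theorem matrix_exist {k1 e₀ : ℕ} {P P' : ℕ → ℕ} {d d' : ℕ} (hP : ∀ i < k1, 0 < P i)
    (hP' : ∀ j < k1, 0 < P' j) (hd : 0 < d) (hd' : 0 < d')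
    (hds : ∀ p : ℕ, p.Prime → p ∣ d → win p ≤ e₀) (hds' : ∀ p : ℕ, p.Prime → p ∣ d' → win p ≤ e₀)
    (heq : (∏ i ∈ range k1, P i) * d = (∏ j ∈ range k1, P' j) * d')
    (hsq : ∀ p : ℕ, p.Prime → e₀ < win p → ¬ p ^ 2 ∣ (∏ i ∈ range k1, P i) * d)
    (hex : ∃ i < k1, e₀ < win (gpf (P i))) :
    ∃ (t : ℕ) (row col sr sc σ σ' π : ℕ → ℕ) (e : ℕ → ℕ → ℕ),
      1 ≤ t ∧ t ≤ 2 * k1 ∧
      (∀ l, l ∉ Icc 1 t → row l = 0 ∧ col l = 0 ∧ π l = 1) ∧
      (∀ i, k1 ≤ i → sr i = 0 ∧ sc i = 0 ∧ σ i = 1 ∧ σ' i = 1) ∧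
      (∀ l ∈ Icc 1 t, row l < k1 ∧ col l < k1 ∧ (π l).Prime ∧ e₀ < win (π l) ∧
        π l ∣ P (row l) ∧ π l ∣ P' (col l)) ∧
      (∀ l l', 1 ≤ l → l < l' → l' ≤ t → π l' < π l) ∧
      (∀ i, sr i ≤ t ∧ sc i ≤ t) ∧
      (∀ i, sr i ≠ 0 → row (sr i) = i ∧ π (sr i) = gpf (P i)) ∧
      (∀ j, sc j ≠ 0 → col (sc j) = j ∧ π (sc j) = gpf (P' j)) ∧
      (∀ i < k1, sr i = 0 → win (gpf (P i)) ≤ e₀) ∧ (∀ j < k1, sc j = 0 → win (gpf (P' j)) ≤ e₀) ∧
      sr (row 1) = 1 ∧ sc (col 1) = 1 ∧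
      (∀ i j, ¬ (i < k1 ∧ j < k1) → e i j = 1) ∧ (∀ i j, 0 < e i j) ∧
      (∀ i j, ∀ p : ℕ, p.Prime → p ∣ e i j → e₀ < win p ∧ p ∣ P i ∧ p ∣ P' j) ∧
      (∀ i, 0 < σ i ∧ 0 < σ' i ∧ (∀ p : ℕ, p.Prime → p ∣ σ i → win p ≤ e₀) ∧
        (∀ p : ℕ, p.Prime → p ∣ σ' i → win p ≤ e₀)) ∧
      (∀ i < k1, P i = rowA k1 σ e i * ∏ l ∈ (Icc 1 t).filter (fun l => row l = i), π l) ∧
      (∀ j < k1, P' j = colA k1 σ' e j * ∏ l ∈ (Icc 1 t).filter (fun l => col l = j), π l) := by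
  obtain ⟨r, hr, hru, hrP⟩ := cmx_side hP hd hds rfl hsq
  obtain ⟨c, hc, hcu, hcP⟩ := cmx_side hP' hd' hds' heq hsq
  set R := ((∏ i ∈ range k1, P i) * d).primeFactors.filter (fun p => e₀ < win p) with hRdef
  have hR : ∀ p ∈ R, p.Prime ∧ e₀ < win p := fun p hp =>
    ⟨Nat.prime_of_mem_primeFactors (mem_filter.1 hp).1, (mem_filter.1 hp).2⟩
  set S := R.filter (fun p => p ∈ (range k1).image (fun i => gpf (P i)) ∪
    (range k1).image (fun j => gpf (P' j))) with hSdef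
  have hS : S ⊆ R := filter_subset _ _
  have hg : ∀ i < k1, gpf (P i) ∈ R → gpf (P i) ∈ S := fun i hi h =>
    mem_filter.2 ⟨h, mem_union_left _ (mem_image.2 ⟨i, mem_range.2 hi, rfl⟩)⟩
  have hg' : ∀ j < k1, gpf (P' j) ∈ R → gpf (P' j) ∈ S := fun j hj h =>
    mem_filter.2 ⟨h, mem_union_right _ (mem_image.2 ⟨j, mem_range.2 hj, rfl⟩)⟩
  have ht : 1 ≤ S.card := by
    obtain ⟨i, hi, hw⟩ := hex
    exact card_pos.2 ⟨_, hg i hi (hru _ (cmx_gpf_prime (hP i hi) hw) hw i hi (gpf_dvd _)).1⟩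
  have ht2 : S.card ≤ 2 * k1 := by
    have h1 : S ⊆ (range k1).image (fun i => gpf (P i)) ∪ (range k1).image (fun j => gpf (P' j)) :=
      fun p hp => (mem_filter.1 hp).2
    have h2 := card_le_card h1
    have h3 := card_union_le ((range k1).image (fun i => gpf (P i)))
      ((range k1).image (fun j => gpf (P' j)))
    have h4 : ((range k1).image (fun i => gpf (P i))).card ≤ k1 :=
      card_image_le.trans (card_range k1).le
    have h5 : ((range k1).image (fun j => gpf (P' j))).card ≤ k1 :=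
      card_image_le.trans (card_range k1).le
    omega
  obtain ⟨π, sl, hπ0, hπ1, hdec, hsl⟩ := cmx_enum S
  have hslπ : ∀ l ∈ Icc 1 S.card, sl (π l) = l := by
    intro l hl
    obtain ⟨a, b⟩ := hsl _ (hπ1 l hl)
    have a' := mem_Icc.1 a
    have hl' := mem_Icc.1 hl
    rcases lt_trichotomy (sl (π l)) l with h | h | h
    · have := hdec _ _ a'.1 h hl'.2
      omega
    · exact h
    · have := hdec _ _ hl'.1 h a'.2
      omega
  obtain ⟨sr, hsr0, hsr1, hsr2, hsr3, hsr4⟩ := cmx_slots hP hS hR hr hru hg ht hπ1 hdec hsl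
  obtain ⟨sc, hsc0, hsc1, hsc2, hsc3, hsc4⟩ := cmx_slots hP' hS hR hc hcu hg' ht hπ1 hdec hsl
  refine ⟨S.card, fun l => if l ∈ Icc 1 S.card then r (π l) else 0,
    fun l => if l ∈ Icc 1 S.card then c (π l) else 0, sr, sc,
    fun i => if i < k1 then cmxSm e₀ (P i) else 1, fun j => if j < k1 then cmxSm e₀ (P' j) else 1,
    π, fun i j => ∏ p ∈ (R \ S).filter (fun p => r p = i ∧ c p = j), p, ht, ht2,
    fun l hl => ⟨if_neg hl, if_neg hl, hπ0 l hl⟩,
    fun i hi => ⟨hsr0 i hi, hsc0 i hi, if_neg (not_lt.2 hi), if_neg (not_lt.2 hi)⟩,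
    fun l hl => ?_, hdec, fun i => ⟨hsr1 i, hsc1 i⟩, hsr2, hsc2, hsr3, hsc3, hsr4, hsc4,
    fun i j hij => ?_, fun i j => ?_, fun i j p hp hdv => ?_, fun i => ?_, fun i hi => ?_,
    fun j hj => ?_⟩
  · have a := hS (hπ1 l hl)
    simp only [if_pos hl]
    exact ⟨(hr _ a).1, (hc _ a).1, (hR _ a).1, (hR _ a).2, (hr _ a).2, (hc _ a).2⟩
  · refine prod_eq_one fun p hp => absurd ?_ hij
    obtain ⟨a, b1, b2⟩ := mem_filter.1 hp
    have a' := (mem_sdiff.1 a).1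
    exact ⟨b1 ▸ (hr p a').1, b2 ▸ (hc p a').1⟩
  · exact prod_pos fun p hp => (hR p (mem_sdiff.1 (mem_filter.1 hp).1).1).1.pos
  · obtain ⟨q, hq, hd⟩ := (Prime.dvd_finsetProd_iff hp.prime _).1 hdv
    obtain ⟨a, b1, b2⟩ := mem_filter.1 hq
    have a' := (mem_sdiff.1 a).1
    have : p = q := (Nat.prime_dvd_prime_iff_eq hp (hR q a').1).1 hd
    subst this
    exact ⟨(hR p a').2, b1 ▸ (hr p a').2, b2 ▸ (hc p a').2⟩
  · by_cases hi : i < k1
    · simp only [if_pos hi]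
      exact ⟨cmxSm_pos _ _, cmxSm_pos _ _, fun p hp h => cmxSm_smooth hp h,
        fun p hp h => cmxSm_smooth hp h⟩
    · simp only [if_neg hi]
      exact ⟨one_pos, one_pos, fun p hp h => absurd (Nat.dvd_one.1 h) hp.ne_one,
        fun p hp h => absurd (Nat.dvd_one.1 h) hp.ne_one⟩
  · have := cmx_split hS r c π sl (fun p hp => (hc p hp).1) hπ1 hslπ hsl i
    simp only [rowA, if_pos hi]
    rw [mul_assoc, ← this]
    exact hrP i hi
  · have := cmx_split hS c r π sl (fun p hp => (hr p hp).1) hπ1 hslπ hsl j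
    simp only [colA, if_pos hj]
    rw [mul_assoc]
    simp only [and_comm (a := r _ = _)]
    rw [← this]
    exact hcP j hj

end Crest.Agent.R20
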