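import Crest.Agent.R20.CollRows
import Crest.Agent.R20.CollMatrix
import Crest.Agent.R20.CollExpo

/-!
# R20: collision lemma — extraction of the data

Apply `rows_exist` and `matrix_exist` (cancel `c`; `ell p ≤ E ⇒ win p ≤ e₀ = ⌈E⌉`).  `hex` holds for
`i = 0`: with `N₀ = win (gpf (P 0))`, `OmB b (P 0) = Om (P 0)` for `b ≥ N₀`, so normality at `b = N₀` and
at `b = max N₀ ⌈y₀⌉` gives `y₀ - min N₀ y₀ ≤ 2E`, i.e. `N₀ ≥ y₀ - 2E`, while
`y₀ ≥ slack ≥ U^9/2 > 3E + 1`.  Put `n l = win (π l)` on `[1,t]`, `D = (∏ σ) d`.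
* `D = (∏ σ') d'`: multiply the row (column) factorisations (`prod_fiberwise_of_maps_to`,
  `prod_comm`) and cancel `matProd · ∏ π`.  `Om (σ i) = OmB e₀ (σ i) ≤ OmB e₀ (P i) ≤ e₀ + E ≤ 2 e₀`.
* `MatSet`: a prime of `e i j` divides `P i`, so `sr i ≠ 0` and `win p ≤ win (gpf (P i)) = NR i`;
  `∑_j OmB b (e i j) ≤ OmB b (P i) - OmB e₀ (P i) ≤ b - e₀ + 2E`.
* `slotOK`: if `sr (row l) = l` then `π l = gpf (P (row l))`, all slots `l'` of that row have `l' ≥ l`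
  (sortedness), so `aR · π l = P (row l)`, which is `≠ 1`, hence `P + 1` is prime and `≤ EE Y`.
* exponent: `expo_le` with `n₁ = n 1 ≥ N₀ ≥ y₀ - 2E`, `y = ht s`, `NR i ≤ win (P i + 1) = ⌈ht s i⌉`:
  `expo ≤ -slack + 2E + e₀ + K² ≤ -U^9/4`.
-/

set_option autoImplicit false

open Finset Filter Topology
open Crest.NumberTheoryR.TotientScale

noncomputable section

namespace Crest.Agent.R20

theorem RowOK.pos {E Y y : ℝ} {P : ℕ} (h : RowOK E Y y P) : 0 < P := by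
  rcases h with rfl | h
  · exact one_pos
  · omega

theorem RowOK.win_gpf_ge {E Y y : ℝ} {P : ℕ} (h : RowOK E Y y P) (h1 : P ≠ 1) :
    y - 2 * E ≤ win (gpf P) := by
  have hP := h.pos
  rcases h with h | ⟨-, -, -, -, -, h⟩
  · exact absurd h h1
  have a : OmB (win (gpf P)) P = Om P := OmB_eq_Om fun p hp hd => win_mono (le_gpf hP hp hd)
  have b : OmB (max (win (gpf P)) ⌈y⌉₊) P = Om P :=
    OmB_eq_Om fun p hp hd => (win_mono (le_gpf hP hp hd)).trans (le_max_left _ _)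
  have h2 := h (win (gpf P))
  have h3 := h (max (win (gpf P)) ⌈y⌉₊)
  rw [a] at h2
  rw [b] at h3
  have c : min ((max (win (gpf P)) ⌈y⌉₊ : ℕ) : ℝ) y = y := by
    apply min_eq_right
    calc y ≤ (⌈y⌉₊ : ℝ) := Nat.le_ceil y
      _ ≤ _ := by exact_mod_cast le_max_right _ _
  rw [c] at h3
  have d := min_le_left ((win (gpf P) : ℕ) : ℝ) y
  rw [abs_le] at h2 h3
  linarith [h2.1, h2.2, h3.1, h3.2]

theorem RowOK.ell_le {E Y y : ℝ} {P p : ℕ} (h : RowOK E Y y P) (hp : p.Prime) (hd : p ∣ P) :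
    ell p ≤ y ∧ ell p ≤ Y := by
  have hP := h.pos
  rcases h with rfl | ⟨-, -, h1, -, h2, -⟩
  · exact absurd (Nat.dvd_one.1 hd) hp.ne_one
  have : ell p ≤ y := h1 ▸ ell_mono ((Nat.le_of_dvd hP hd).trans (Nat.le_succ _))
  exact ⟨this, this.trans h2⟩

theorem RowOK.OmB_diff {E Y y : ℝ} {P : ℕ} (h : RowOK E Y y P) (hE : 0 ≤ E) {e₀ b : ℕ}
    (hb : e₀ ≤ b) : (OmB b P : ℝ) - OmB e₀ P ≤ b - e₀ + 2 * E := by
  have hb' : (e₀ : ℝ) ≤ b := by exact_mod_cast hb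
  rcases h with rfl | ⟨-, -, -, -, -, h⟩
  · simp only [OmB_one]; push_cast; linarith
  have h2 := h b
  have h3 := h e₀
  rw [abs_le] at h2 h3
  have : min (b : ℝ) y - min (e₀ : ℝ) y ≤ b - e₀ := by
    rcases le_total (e₀ : ℝ) y with h4 | h4
    · rw [min_eq_left h4]; linarith [min_le_left (b : ℝ) y]
    · rw [min_eq_right h4, min_eq_right (h4.trans hb')]; linarith
  linarith [h2.1, h2.2, h3.1, h3.2]

theorem RowOK.OmB_le {E Y y : ℝ} {P : ℕ} (h : RowOK E Y y P) (hE : 0 ≤ E) (e₀ : ℕ) :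
    (OmB e₀ P : ℝ) ≤ e₀ + E := by
  rcases h with rfl | ⟨-, -, -, -, -, h⟩
  · simp only [OmB_one]; push_cast; positivity
  have h3 := h e₀
  rw [abs_le] at h3
  linarith [h3.2, min_le_left (e₀ : ℝ) y]

theorem RowOK.of_ne {E Y y : ℝ} {P : ℕ} (h : RowOK E Y y P) (hY : 0 ≤ Y) (h1 : P ≠ 1) :
    (P + 1).Prime ∧ (P : ℝ) ≤ EE Y := by
  rcases h with h | ⟨-, h2, h3, -, h4, -⟩
  · exact absurd h h1
  refine ⟨h2, ?_⟩
  have := (ell_le_iff hY).1 (h3 ▸ h4 : ell (P + 1) ≤ Y)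
  push_cast at this
  linarith

theorem side_slot {t k1 : ℕ} {f s π P A : ℕ → ℕ}
    (hdec : ∀ l l', 1 ≤ l → l < l' → l' ≤ t → π l' < π l)
    (hπ : ∀ l ∈ Icc 1 t, f l < k1 ∧ (π l).Prime ∧ π l ∣ P (f l))
    (hs : ∀ i, s i ≠ 0 → f (s i) = i ∧ π (s i) = gpf (P i))
    (hP : ∀ i < k1, P i = A i * ∏ l ∈ (Icc 1 t).filter (fun l => f l = i), π l)
    (hpos : ∀ i < k1, 0 < P i) {l : ℕ} (hl : l ∈ Icc 1 t) (h : s (f l) = l) :
    (A (f l) * ∏ l' ∈ (Ioc l t).filter (fun l' => f l' = f l), π l') * π l = P (f l) := by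
  have hl' := mem_Icc.1 hl
  have hg : π l = gpf (P (f l)) := by
    have := (hs (f l) (by omega)).2
    rwa [h] at this
  have hset : (Icc 1 t).filter (fun l' => f l' = f l) =
      insert l ((Ioc l t).filter (fun l' => f l' = f l)) := by
    ext l'
    simp only [mem_filter, mem_insert, mem_Icc, mem_Ioc]
    constructor
    · rintro ⟨⟨h1, h2⟩, h3⟩
      rcases lt_trichotomy l' l with h4 | h4 | h4
      · exfalso
        have a := hdec l' l h1 h4 hl'.2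
        obtain ⟨-, b, c⟩ := hπ l' (mem_Icc.2 ⟨h1, h2⟩)
        rw [h3] at c
        have d := le_gpf (hpos _ (hπ l hl).1) b c
        omega
      · exact Or.inl h4
      · exact Or.inr ⟨⟨h4, h2⟩, h3⟩
    · rintro (rfl | ⟨⟨h1, h2⟩, h3⟩)
      · exact ⟨hl', rfl⟩
      · exact ⟨⟨by omega, h2⟩, h3⟩
  rw [hP _ (hπ l hl).1, hset, prod_insert (by simp)]
  ring

theorem side_prod {t k1 : ℕ} {f π P A : ℕ → ℕ} (hf : ∀ l ∈ Icc 1 t, f l < k1)
    (hP : ∀ i < k1, P i = A i * ∏ l ∈ (Icc 1 t).filter (fun l => f l = i), π l) :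
    ∏ i ∈ range k1, P i = (∏ i ∈ range k1, A i) * ∏ l ∈ Icc 1 t, π l := by
  rw [← prod_fiberwise_of_maps_to (s := Icc 1 t) (t := range k1) (g := f)
    (fun l hl => mem_range.2 (hf l hl)), ← prod_mul_distrib]
  exact prod_congr rfl fun i hi => hP i (mem_range.1 hi)

theorem prod_rowA (k1 : ℕ) (σ : ℕ → ℕ) (e : ℕ → ℕ → ℕ) :
    ∏ i ∈ range k1, rowA k1 σ e i = (∏ i ∈ range k1, σ i) * matProd k1 e := by
  simp only [rowA, matProd, prod_mul_distrib]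

theorem prod_colA (k1 : ℕ) (σ : ℕ → ℕ) (e : ℕ → ℕ → ℕ) :
    ∏ i ∈ range k1, colA k1 σ e i = (∏ i ∈ range k1, σ i) * matProd k1 e := by
  simp only [colA, matProd, prod_mul_distrib]
  rw [Finset.prod_comm]

theorem side_N {t k1 e₀ : ℕ} {f s π P n : ℕ → ℕ} (ht : 1 ≤ t)
    (hdec : ∀ l l', 1 ≤ l → l < l' → l' ≤ t → π l' < π l)
    (hn : ∀ l ∈ Icc 1 t, n l = win (π l)) (he : e₀ ≤ n 1) (hst : ∀ i, s i ≤ t)
    (hs : ∀ i, s i ≠ 0 → f (s i) = i ∧ π (s i) = gpf (P i))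
    (hs0 : ∀ i < k1, s i = 0 → win (gpf (P i)) ≤ e₀) {i : ℕ} (hi : i < k1) :
    win (gpf (P i)) ≤ (if s i = 0 then e₀ else n (s i)) ∧
      (if s i = 0 then e₀ else n (s i)) ≤ n 1 ∧
      (if s i = 0 then e₀ else n (s i)) ≤ max e₀ (win (gpf (P i))) := by
  by_cases h : s i = 0
  · simp only [h, if_true]
    exact ⟨hs0 i hi h, he, le_max_left _ _⟩
  · simp only [h, if_false]
    have hm : s i ∈ Icc 1 t := mem_Icc.2 ⟨by omega, hst i⟩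
    rw [hn _ hm, (hs i h).2]
    refine ⟨le_rfl, ?_, le_max_right _ _⟩
    rw [hn 1 (mem_Icc.2 ⟨le_rfl, ht⟩), ← (hs i h).2]
    apply win_mono
    rcases eq_or_lt_of_le (show 1 ≤ s i by omega) with h1 | h1
    · rw [← h1]
    · exact (hdec 1 (s i) le_rfl h1 (hst i)).le

theorem RowOK.win_gpf_le {E Y y : ℝ} {P : ℕ} (h : RowOK E Y y P) (hy : 0 ≤ y) :
    win (gpf P) ≤ ⌈y⌉₊ := by
  rcases eq_or_lt_of_le (show 1 ≤ P from h.pos) with h1 | h1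
  · rw [← h1, gpf_one, win, ell_one]; simp
  · exact Nat.ceil_le_ceil (h.ell_le (gpf_prime h1) (gpf_dvd _)).1

theorem row_OmB {k1 e₀ t b : ℕ} {P σ : ℕ} {e π : ℕ → ℕ} {I : Finset ℕ} (hσ : 0 < σ)
    (hσs : ∀ p : ℕ, p.Prime → p ∣ σ → win p ≤ e₀) (he : ∀ j, 0 < e j)
    (hes : ∀ j, ∀ p : ℕ, p.Prime → p ∣ e j → e₀ < win p)
    (hπ : ∀ l ∈ I, (π l).Prime ∧ e₀ < win (π l)) (hb : e₀ ≤ b)
    (hP : P = (σ * ∏ j ∈ range k1, e j) * ∏ l ∈ I, π l) :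
    OmB e₀ P = Om σ ∧ Om σ + ∑ j ∈ range k1, OmB b (e j) ≤ OmB b P := by
  have h1 : 0 < ∏ j ∈ range k1, e j := prod_pos fun j _ => he j
  have h2 : 0 < ∏ l ∈ I, π l := prod_pos fun l hl => (hπ l hl).1.pos
  subst hP
  rw [OmB_mul _ (by positivity) h2, OmB_mul _ hσ h1, OmB_mul _ (by positivity) h2,
    OmB_mul _ hσ h1, OmB_prod _ _ _ (fun j _ => he j), OmB_prod _ _ _ (fun j _ => he j),
    OmB_prod _ _ _ (fun l hl => (hπ l hl).1.pos), OmB_eq_Om hσs,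
    OmB_eq_Om (fun p hp hd => (hσs p hp hd).trans hb)]
  refine ⟨?_, Nat.le_add_right _ _⟩
  rw [sum_eq_zero fun j _ => OmB_eq_zero (hes j), sum_eq_zero]
  · simp
  · intro l hl
    rw [OmB_prime _ (hπ l hl).1, if_neg (not_le.2 (hπ l hl).2)]

theorem coll_extract : ∃ U₀ : ℝ, ∀ U : ℝ, U₀ ≤ U → ∀ K : ℕ, (K : ℝ) ^ 4 ≤ U → ∀ H : ℝ,
    ∀ o ∈ CollSet U K H, (∀ p : ℕ, p.Prime → U ^ 7 < ell p → ¬ p ^ 2 ∣ o.2) →
    ∃ (S : Shape) (z : ℕ × (ℕ → ℕ) × (ℕ → ℕ)) (c : ℕ) (e : ℕ → ℕ → ℕ) (π : ℕ → ℕ),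
      S.OK (K + 1) ⌈U ^ 7⌉₊ ⌈U ^ 11⌉₊ ∧ H - 2 * U ^ 7 - 3 ≤ S.n 1 ∧
      S.expo (K + 1) ⌈U ^ 7⌉₊ ⌈U ^ 11⌉₊ ≤ -(U ^ 9 / 4) ∧
      z ∈ SmSet (K + 1) ⌈U ^ 7⌉₊ (2 * ⌈U ^ 7⌉₊) ∧ c ∈ CSet (K + 1) (U ^ 11) ∧ 0 < c ∧
      e ∈ MatSet (K + 1) ⌈U ^ 7⌉₊ (U ^ 7) (S.NR ⌈U ^ 7⌉₊) (S.NC ⌈U ^ 7⌉₊) ∧
      π ∈ S.PiSet (U ^ 11) (rowA (K + 1) z.2.1 e) (colA (K + 1) z.2.2 e) ∧
      o.1 = rowA (K + 1) z.2.1 e 0 *
        (∏ l ∈ (Icc 1 S.t).filter (fun l => S.row l = 0), π l) + 1 ∧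
      o.2 = (∏ l ∈ Icc 1 S.t, π l) * (z.1 * (c * matProd (K + 1) e)) := by
  refine ⟨8, fun U hU K hK H o ho hsq => ?_⟩
  obtain ⟨s, s', hs, hs', hsl, hH, hφ, hlt, rfl⟩ := ho
  have hU1 : (1 : ℝ) ≤ U := by linarith
  have hU7 : 1 ≤ U ^ 7 := one_le_pow₀ hU1
  have hU9 : 64 * U ^ 7 ≤ U ^ 9 := by
    have : (64 : ℝ) ≤ U ^ 2 := by nlinarith
    calc 64 * U ^ 7 ≤ U ^ 2 * U ^ 7 := by gcongr
      _ = U ^ 9 := by ring
  have hE0 : (0 : ℝ) ≤ U ^ 7 := by linarith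
  have hY0 : (0 : ℝ) ≤ U ^ 11 := by positivity
  have hy0 : U ^ 9 / 2 ≤ ht s 0 := hsl.trans (slack_le_ht K s)
  obtain ⟨P, P', c, d, d', hR, hR', hP0, hP01, hne, hc, hc0, hd, hd', hds, hds', hφ1, hφ2⟩ :=
    rows_exist hU1 hs hs' hlt (by linarith)
  set e₀ := ⌈U ^ 7⌉₊ with he₀
  set Nm := ⌈U ^ 11⌉₊ with hNm
  have he₀1 : U ^ 7 ≤ e₀ := Nat.le_ceil _
  have he₀2 : (e₀ : ℝ) < U ^ 7 + 1 := Nat.ceil_lt_add_one hE0
  have hwin : ∀ p : ℕ, ell p ≤ U ^ 7 → win p ≤ e₀ := fun p h => win_le_iff.2 (h.trans he₀1)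
  have heq : (∏ i ∈ range (K + 1), P i) * d = (∏ j ∈ range (K + 1), P' j) * d' := by
    apply Nat.eq_of_mul_eq_mul_left hc0
    rw [hφ, hφ1] at hφ2
    calc c * ((∏ i ∈ range (K + 1), P i) * d) = (∏ i ∈ range (K + 1), P i) * c * d := by ring
      _ = (∏ j ∈ range (K + 1), P' j) * c * d' := hφ2
      _ = _ := by ring
  have hN0 := (hR 0 (by omega)).win_gpf_ge hP01
  obtain ⟨t, row, col, sr, sc, σ, σ', π, e, ht1, ht2, hout, hout', hπ, hdec, hst, hsr, hsc, hsr0,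
      hsc0, hsr1, hsc1, he1, hepos, hep, hσ, hrow, hcol⟩ :=
    matrix_exist (k1 := K + 1) (e₀ := e₀) (fun i hi => (hR i hi).pos) (fun j hj => (hR' j hj).pos)
      hd hd' (fun p hp h => hwin p (hds p hp h)) (fun p hp h => hwin p (hds' p hp h)) heq
      (fun p hp h hdv => hsq p hp (lt_of_le_of_lt he₀1 (lt_win_iff.1 h))
        (hdv.trans ⟨c, by rw [hφ1]; ring⟩))
      ⟨0, by omega, by
        have : (e₀ : ℝ) < win (gpf (P 0)) := by linarith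
        exact_mod_cast this⟩
  let n : ℕ → ℕ := fun l => if l ∈ Icc 1 t then win (π l) else 0
  have hn : ∀ l ∈ Icc 1 t, n l = win (π l) := fun l hl => if_pos hl
  have h1t : 1 ∈ Icc 1 t := mem_Icc.2 ⟨le_rfl, ht1⟩
  have hn1 : e₀ ≤ n 1 := by rw [hn 1 h1t]; exact (hπ 1 h1t).2.2.2.1.le
  let S : Shape := ⟨t, row, col, n, sr, sc⟩
  have hNR := fun i (hi : i < K + 1) => side_N (f := row) ht1 hdec hn hn1 (fun i => (hst i).1) hsr hsr0 hi
  have hNC := fun i (hi : i < K + 1) => side_N (f := col) ht1 hdec hn hn1 (fun i => (hst i).2) hsc hsc0 hi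
  have hnle : ∀ l ∈ Icc 1 t, n l ≤ Nm := by
    intro l hl
    obtain ⟨a, -, b, -, c', -⟩ := hπ l hl
    rw [hn l hl]
    exact Nat.ceil_le_ceil ((hR _ a).ell_le b c').2
  have hpr := side_prod (fun l hl => (hπ l hl).1) hrow
  have hpc := side_prod (fun l hl => (hπ l hl).2.1) hcol
  rw [prod_rowA] at hpr
  rw [prod_colA] at hpc
  have hmp : 0 < matProd (K + 1) e := prod_pos fun i _ => prod_pos fun j _ => hepos i j
  have hππ : 0 < ∏ l ∈ Icc 1 t, π l := prod_pos fun l hl => (hπ l hl).2.2.1.pos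
  have hD : (∏ i ∈ range (K + 1), σ i) * d = (∏ i ∈ range (K + 1), σ' i) * d' := by
    apply Nat.eq_of_mul_eq_mul_left (Nat.mul_pos hmp hππ)
    rw [hpr, hpc] at heq
    calc _ = (∏ i ∈ range (K + 1), σ i) * matProd (K + 1) e * (∏ l ∈ Icc 1 t, π l) * d := by ring
      _ = _ := heq
      _ = _ := by ring
  have hrowOm : ∀ i < K + 1, ∀ b, e₀ ≤ b →
      OmB e₀ (P i) = Om (σ i) ∧ Om (σ i) + ∑ j ∈ range (K + 1), OmB b (e i j) ≤ OmB b (P i) :=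
    fun i hi b hb => row_OmB (t := t) (hσ i).1 (hσ i).2.2.1 (fun j => hepos i j)
      (fun j p hp h => (hep i j p hp h).1)
      (fun l hl => ⟨(hπ l (mem_filter.1 hl).1).2.2.1, (hπ l (mem_filter.1 hl).1).2.2.2.1⟩) hb
      (hrow i hi)
  have hcolOm : ∀ j < K + 1, OmB e₀ (P' j) = Om (σ' j) :=
    fun j hj => (row_OmB (t := t) (e := fun i => e i j) (hσ j).2.1 (hσ j).2.2.2 (fun i => hepos i j)
      (fun i p hp h => (hep i j p hp h).1)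
      (fun l hl => ⟨(hπ l (mem_filter.1 hl).1).2.2.1, (hπ l (mem_filter.1 hl).1).2.2.2.1⟩) le_rfl
      (hcol j hj)).1
  have hn10 : ht s 0 - 2 * U ^ 7 ≤ n 1 := by
    have := (hNR 0 (by omega)).1.trans (hNR 0 (by omega)).2.1
    have : (win (gpf (P 0)) : ℝ) ≤ n 1 := by exact_mod_cast this
    linarith
  refine ⟨S, ((∏ i ∈ range (K + 1), σ i) * d, σ, σ'), c, e, π, ?_, ?_, ?_, ?_, hc, hc0, ?_, ?_, ?_,
    ?_⟩
  · exact ⟨ht1, ht2, fun l hl => ⟨(hout l hl).1, (hout l hl).2.1, if_neg hl⟩,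
      fun i hi => ⟨(hout' i hi).1, (hout' i hi).2.1⟩, fun l hl => (hπ l hl).1,
      fun l hl => (hπ l hl).2.1, fun l hl => lt_of_lt_of_eq (hπ l hl).2.2.2.1 (hn l hl).symm, hnle,
      fun i => (hst i).1, fun i => (hst i).2, fun i hi => (hsr i hi).1, fun i hi => (hsc i hi).1,
      hsr1, hsc1⟩
  · show H - 2 * U ^ 7 - 3 ≤ (n 1 : ℝ)
    linarith
  · have h := expo_le (K := K) (e₀ := e₀) (Nm := Nm) (n₁ := n 1) (N := S.NR e₀) (N' := S.NC e₀)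
      (y := ht s) (ht_anti s) (ht_nonneg s) hn1 (hnle 1 h1t) (fun i hi => (hNR i hi).2.1)
      (fun i hi => (hNC i hi).2.1)
      ⟨row 1, (hπ 1 h1t).1, by simp only [Shape.NR, S, hsr1]; simp⟩
      ⟨col 1, (hπ 1 h1t).2.1, by simp only [Shape.NC, S, hsc1]; simp⟩
      (fun i hi => (hNR i hi).2.2.trans
        (max_le_max le_rfl ((hR i hi).win_gpf_le (ht_nonneg s i))))
    have h2 : ∑ i ∈ Icc 1 K, aCoef i * (ht s i + 1) =
        ∑ i ∈ Icc 1 K, aCoef i * ht s i + ∑ i ∈ Icc 1 K, aCoef i := by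
      rw [← sum_add_distrib]; exact sum_congr rfl fun i _ => by ring
    have h3 := sum_aCoef_le K
    have h4 : (K : ℝ) ^ 2 ≤ U ^ 7 := by
      have a : (K : ℝ) ^ 2 ≤ U := by
        rcases Nat.eq_zero_or_pos K with rfl | hK0
        · simp; linarith
        · have : (1 : ℝ) ≤ K := by exact_mod_cast hK0
          exact (pow_le_pow_right₀ this (by norm_num)).trans hK
      calc (K : ℝ) ^ 2 ≤ U ^ 1 := by simpa using a
        _ ≤ U ^ 7 := pow_le_pow_right₀ hU1 (by norm_num)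
    unfold slack at hsl
    unfold Shape.expo
    linarith
  · have hOm : ∀ {y : ℝ} {Q τ : ℕ}, RowOK (U ^ 7) (U ^ 11) y Q → OmB e₀ Q = Om τ →
        Om τ ≤ 2 * e₀ := by
      intro y Q τ hQ h
      have := hQ.OmB_le hE0 e₀
      rw [h] at this
      have : (Om τ : ℝ) ≤ 2 * e₀ := by linarith
      exact_mod_cast this
    refine ⟨Nat.mul_pos (prod_pos fun i _ => (hσ i).1) hd, fun p hp hdv => ?_,
      fun i hi => ⟨(dvd_prod_of_mem _ (mem_range.2 hi)).mul_right _,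
        hOm (hR i hi) (hrowOm i hi e₀ le_rfl).1⟩, fun i hi => (hout' i hi).2.2.1,
      fun i hi => ⟨?_, hOm (hR' i hi) (hcolOm i hi)⟩, fun i hi => (hout' i hi).2.2.2⟩
    · rcases (Nat.Prime.dvd_mul hp).1 hdv with h | h
      · obtain ⟨i, -, hi⟩ := (Prime.dvd_finsetProd_iff hp.prime _).1 h
        exact (hσ i).2.2.1 p hp hi
      · exact hwin p (hds p hp h)
    · show σ' i ∣ (∏ i ∈ range (K + 1), σ i) * d
      rw [hD]
      exact (dvd_prod_of_mem _ (mem_range.2 hi)).mul_right _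
  · refine ⟨he1, hepos, fun i j p hp hdv => ?_, fun i hi b hb => ?_⟩
    · have hij : i < K + 1 ∧ j < K + 1 := by
        by_contra h
        rw [he1 i j h] at hdv
        exact hp.ne_one (Nat.dvd_one.1 hdv)
      obtain ⟨a, b, c'⟩ := hep i j p hp hdv
      exact ⟨a, (win_mono (le_gpf (hR i hij.1).pos hp b)).trans (hNR i hij.1).1,
        (win_mono (le_gpf (hR' j hij.2).pos hp c')).trans (hNC j hij.2).1⟩
    · have h1 := hrowOm i hi b hb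
      have h2 := (hR i hi).OmB_diff hE0 hb
      rw [h1.1] at h2
      have h3 : (Om (σ i) : ℝ) + ∑ j ∈ range (K + 1), (OmB b (e i j) : ℝ) ≤ OmB b (P i) := by
        exact_mod_cast h1.2
      linarith
  · refine ⟨fun l hl => (hout l hl).2.2, fun l hl => ?_⟩
    obtain ⟨a1, a2, a3, a4, a5, a6⟩ := hπ l hl
    have hr := fun h => side_slot hdec (fun l hl => ⟨(hπ l hl).1, (hπ l hl).2.2.1,
      (hπ l hl).2.2.2.2.1⟩) hsr hrow (fun i hi => (hR i hi).pos) hl h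
    have hc' := fun h => side_slot hdec (fun l hl => ⟨(hπ l hl).2.1, (hπ l hl).2.2.1,
      (hπ l hl).2.2.2.2.2⟩) hsc hcol (fun i hi => (hR' i hi).pos) hl h
    have hne1 : P (row l) ≠ 1 := fun h => a3.ne_one (Nat.dvd_one.1 (h ▸ a5))
    have hne2 : P' (col l) ≠ 1 := fun h => a3.ne_one (Nat.dvd_one.1 (h ▸ a6))
    have key : ∀ {a Q : ℕ} {y : ℝ}, RowOK (U ^ 7) (U ^ 11) y Q → Q ≠ 1 → a * π l = Q →
        0 < a ∧ (a : ℝ) ≤ EE (U ^ 11) ∧ (a * π l + 1).Prime := by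
      intro a Q y hQ hQ1 h
      have hQ0 := hQ.pos
      obtain ⟨b1, b2⟩ := hQ.of_ne hY0 hQ1
      refine ⟨Nat.pos_of_ne_zero fun h0 => by rw [h0] at h; omega, ?_, h ▸ b1⟩
      have : a ≤ Q := Nat.le_of_dvd hQ0 ⟨_, h.symm⟩
      exact le_trans (by exact_mod_cast this) b2
    refine ⟨a3, (hn l hl).symm, fun h => key (hR _ a1) hne1 (hr h),
      fun h => key (hR' _ a2) hne2 (hc' h), fun h h' heq' => ?_⟩
    apply hne _ a1 _ a2 hne1
    rw [← hr h, ← hc' h']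
    exact congrArg (· * π l) heq'
  · show gpf s = _
    rw [← hP0, hrow 0 (by omega)]
  · show Nat.totient s = _
    rw [hφ1, hpr]
    show _ = (∏ l ∈ Icc 1 t, π l) * ((∏ i ∈ range (K + 1), σ i) * d * (c * matProd (K + 1) e))
    ring

end Crest.Agent.R20
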