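import Crest.Agent.R20.CollDefs

/-!
# R20: collision lemma — summing over the matrix of non-special primes

Let `J₂ n = act k1 N' n` (antitone in `n`, `≤ k1`).  Rankin with the weight `z n = 1/J₂ n`.
For one row `i` and `e` in the set: every prime `p ∣ e i j` has `J₂ (win p) ≥ 1`, so
`1 = ∏_j cm (z ∘ win) (e i j) · exp (L_i)` with `L_i = ∑_j ∑_{p ∣ e i j} v_p log J₂(win p)`.
Layer cake: `log J = ∑_{r=1}^{k1-1} λ_r 1[J ≥ r+1]` for `1 ≤ J ≤ k1`, `λ_r = log ((r+1)/r)`; the windows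
`n ∈ (e₀, N i]` with `J₂ n ≥ r + 1` form an interval `(e₀, b_r]` (`e₀ ≤ b_r ≤ N i`), hence
`L_i = ∑_r λ_r ∑_j OmB b_r (e i j) ≤ ∑_r λ_r (b_r - e₀ + 2E) ≤ ∑_{n ∈ (e₀, N i]} log J₂ n + 2E log k1`.
For each cell, `euler_win` with `fw n = if e₀ < n ≤ min (N i) (N' j) then 1/J₂ n else 0` (`F = 1`) bounds
`∑ cm (fw ∘ win) e / e ≤ exp (∑_{n ∈ (e₀, min]} 1/J₂ n + C)`, and
`∑_j ∑_{n ∈ (e₀, min (N i) (N' j)]} 1/J₂ n ≤ N i - e₀`.  Combine the cells with `SumBd.pi` over
`range k1 ×ˢ range k1` (uncurry) or twice; finally `∑_i ∑_{n ∈ (e₀, N i]} (1 + log J₂ n)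
= ∑_{n ∈ (e₀, Nm]} J₁ n (1 + log J₂ n)`.
-/

set_option autoImplicit false

open Finset Filter Topology

noncomputable section

namespace Crest.Agent.R20

/-- Weighted count of the prime factors of window `≤ b`. -/
private def TB (g : ℕ → ℝ) (b m : ℕ) : ℝ :=
  ∑ p ∈ m.primeFactors with win p ≤ b, (m.factorization p : ℝ) * g (win p)

private theorem TB_succ (g : ℕ → ℝ) (b m : ℕ) :
    TB g (b + 1) m = TB g b m + ((OmB (b + 1) m : ℝ) - OmB b m) * g (b + 1) := by
  unfold TB OmB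
  push_cast
  simp only [sum_filter]
  rw [← sum_sub_distrib, sum_mul, ← sum_add_distrib]
  refine sum_congr rfl fun p _ => ?_
  by_cases h1 : win p ≤ b
  · rw [if_pos h1, if_pos h1, if_pos (by omega), if_pos (by omega)]; ring
  · by_cases h2 : win p ≤ b + 1
    · rw [if_neg h1, if_neg h1, if_pos h2, if_pos h2, show win p = b + 1 by omega]; ring
    · rw [if_neg h1, if_neg h1, if_neg h2, if_neg h2]; ring

private theorem TB_abel {g : ℕ → ℝ} (hg : Antitone g) (hg0 : ∀ n, 0 ≤ g n) {G : ℝ}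
    (hG : ∀ n, g n ≤ G) {k1 e₀ : ℕ} {E : ℝ} (hE : 0 ≤ E) (r : ℕ → ℕ)
    (h0 : ∀ j, ∀ p : ℕ, p.Prime → p ∣ r j → e₀ < win p)
    (hS : ∀ b : ℕ, e₀ ≤ b → (∑ j ∈ range k1, (OmB b (r j) : ℝ)) ≤ b - e₀ + 2 * E)
    {b : ℕ} (hb : e₀ ≤ b) :
    ∑ j ∈ range k1, TB g b (r j) ≤ ∑ n ∈ Ioc e₀ b, g n + 2 * E * G := by
  have key : ∑ j ∈ range k1, TB g b (r j) ≤ ∑ n ∈ Ioc e₀ b, g n + 2 * E * G -
      (b - e₀ + 2 * E - ∑ j ∈ range k1, (OmB b (r j) : ℝ)) * g b := by
    induction b, hb using Nat.le_induction with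
    | base =>
      have h1 : ∑ j ∈ range k1, TB g e₀ (r j) = 0 := by
        refine sum_eq_zero fun j _ => sum_eq_zero fun p hp => ?_
        rw [mem_filter, Nat.mem_primeFactors] at hp
        have := h0 j p hp.1.1 hp.1.2.1
        omega
      have h2 : 0 ≤ ∑ j ∈ range k1, (OmB e₀ (r j) : ℝ) := sum_nonneg fun _ _ => Nat.cast_nonneg _
      rw [h1, Ioc_self, sum_empty]
      nlinarith [mul_nonneg h2 (hg0 e₀), mul_nonneg hE (sub_nonneg.2 (hG e₀))]
    | succ b hb ih =>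
      simp only [TB_succ]
      rw [sum_add_distrib, ← sum_mul, sum_sub_distrib, sum_Ioc_succ_top hb]
      push_cast
      nlinarith [mul_nonneg (sub_nonneg.2 (hS b hb)) (sub_nonneg.2 (hg (Nat.le_succ b)))]
  nlinarith [mul_nonneg (sub_nonneg.2 (hS b hb)) (hg0 b)]

private theorem matActAnti (k1 : ℕ) (N : ℕ → ℕ) : Antitone (act k1 N) := by
  intro a b hab
  refine card_le_card fun i hi => ?_
  rw [mem_filter] at hi ⊢
  exact ⟨hi.1, hab.trans hi.2⟩

private theorem matActLe (k1 : ℕ) (N : ℕ → ℕ) (n : ℕ) : act k1 N n ≤ k1 :=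
  (card_filter_le _ _).trans (card_range k1).le

private theorem matLogMono {a b : ℕ} (h : a ≤ b) : Real.log a ≤ Real.log b := by
  rcases Nat.eq_zero_or_pos a with rfl | ha
  · simpa using Real.log_natCast_nonneg b
  · exact Real.log_le_log (by exact_mod_cast ha) (by exact_mod_cast h)

private theorem matSumAct (k1 e₀ Nm : ℕ) (N : ℕ → ℕ) (hN : ∀ i < k1, N i ≤ Nm) (g : ℕ → ℝ) :
    ∑ i ∈ range k1, ∑ n ∈ Ioc e₀ (N i), g n = ∑ n ∈ Ioc e₀ Nm, (act k1 N n : ℝ) * g n := by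
  have h1 : ∀ i ∈ range k1, ∑ n ∈ Ioc e₀ (N i), g n =
      ∑ n ∈ Ioc e₀ Nm, if n ≤ N i then g n else 0 := by
    intro i hi
    rw [← sum_filter]
    congr 1
    ext n
    have := hN i (mem_range.1 hi)
    simp only [mem_filter, mem_Ioc]
    omega
  rw [sum_congr rfl h1, sum_comm]
  refine sum_congr rfl fun n _ => ?_
  rw [← sum_filter, sum_const, nsmul_eq_mul, act]

theorem mat_sum : ∃ C : ℝ, 0 < C ∧ ∀ (k1 e₀ Nm : ℕ) (E : ℝ) (N N' : ℕ → ℕ), 0 ≤ E →
    (∀ i < k1, e₀ ≤ N i ∧ N i ≤ Nm) → (∀ j < k1, e₀ ≤ N' j ∧ N' j ≤ Nm) →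
    SumBd (MatSet k1 e₀ E N N') (fun e => 1 / (matProd k1 e : ℝ))
      (Real.exp (∑ n ∈ Ioc e₀ Nm, (act k1 N n : ℝ) * (1 + Real.log (act k1 N' n)) +
        C * (k1 : ℝ) ^ 2 * (E + 1))) := by
  obtain ⟨C, hC, heul⟩ := euler_win
  refine ⟨C + 2, by positivity, fun k1 e₀ Nm E N N' hE hN hN' => ?_⟩
  set fw : ℕ × ℕ → ℕ → ℝ := fun q n =>
    if e₀ < n ∧ n ≤ N q.1 ∧ n ≤ N' q.2 then 1 / (act k1 N' n : ℝ) else 0 with hfw
  have hfw0 : ∀ q n, 0 ≤ fw q n := fun q n => by
    simp only [hfw]; split_ifs <;> positivity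
  have hfw1 : ∀ q n, fw q n ≤ 1 := fun q n => by
    simp only [hfw]
    split_ifs
    · rw [one_div]; exact Nat.cast_inv_le_one _
    · exact zero_le_one
  have hpi := SumBd.pi (range k1 ×ˢ range k1) 1
    (A := fun _ => {n : ℕ | 0 < n ∧ ∀ p : ℕ, p.Prime → p ∣ n → win p ≤ Nm})
    (f := fun q n => cm (fun p => fw q (win p)) n / n)
    (b := fun q => Real.exp (∑ n ∈ Icc 1 Nm, fw q n + C * 1 ^ 2))
    (fun q _ => heul (fw q) 1 Nm le_rfl (hfw0 q) (hfw1 q) fun p hp => by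
      have : (2 : ℝ) ≤ p := by exact_mod_cast hp.two_le
      linarith [hfw1 q (win p)])
    (fun q _ n _ => div_nonneg (cm_nonneg (fun p => hfw0 q _) n) (Nat.cast_nonneg _))
  set g : ℕ → ℝ := fun n => Real.log (act k1 N' n) with hg
  have hmul := hpi.const_mul (Real.exp_pos
    (∑ i ∈ range k1, (∑ n ∈ Ioc e₀ (N i), g n + 2 * E * Real.log k1))).le
  refine (hmul.of_injOn Function.uncurry (fun _ _ _ _ h => Function.uncurry_injective h)
    fun e he => ?_).mono_bd ?_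
  · obtain ⟨he1, he2, he3, he4⟩ := he
    refine ⟨⟨fun q hq => ⟨he2 _ _, fun p hp hd => ?_⟩, fun q hq => he1 _ _ ?_⟩, ?_⟩
    · exact (he3 _ _ p hp hd).2.1.trans (hN _ (mem_range.1 (mem_product.1 hq).1)).2
    · simpa only [mem_product, mem_range] using hq
    · have hcm : ∀ i, ∀ j ∈ range k1, cm (fun p => fw (i, j) (win p)) (e i j) =
          Real.exp (-TB g (N i) (e i j)) := by
        intro i j hj
        unfold cm TB
        rw [filter_true_of_mem fun p hp =>
          (he3 i j p (Nat.prime_of_mem_primeFactors hp) (Nat.dvd_of_mem_primeFactors hp)).2.1,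
          ← sum_neg_distrib, Real.exp_sum]
        refine prod_congr rfl fun p hp => ?_
        have h1 := he3 i j p (Nat.prime_of_mem_primeFactors hp) (Nat.dvd_of_mem_primeFactors hp)
        have h2 : 0 < act k1 N' (win p) := card_pos.2 ⟨j, mem_filter.2 ⟨hj, h1.2.2⟩⟩
        have h3 : (0 : ℝ) < act k1 N' (win p) := by exact_mod_cast h2
        simp only [hfw, hg]
        rw [if_pos h1, ← mul_neg, Real.exp_nat_mul, Real.exp_neg, Real.exp_log h3, one_div]
      have hrow : ∀ i ∈ range k1, ∑ j ∈ range k1, TB g (N i) (e i j) ≤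
          ∑ n ∈ Ioc e₀ (N i), g n + 2 * E * Real.log k1 := fun i hi =>
        TB_abel (fun a b hab => matLogMono (matActAnti k1 N' hab))
          (fun n => Real.log_natCast_nonneg _) (fun n => matLogMono (matActLe k1 N' n)) hE (e i)
          (fun j p hp hd => (he3 i j p hp hd).1) (he4 i (mem_range.1 hi))
          (hN i (mem_range.1 hi)).1
      have h1 : ∏ q ∈ range k1 ×ˢ range k1,
          cm (fun p => fw q (win p)) (Function.uncurry e q) / ((Function.uncurry e q : ℕ) : ℝ) =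
          Real.exp (-∑ i ∈ range k1, ∑ j ∈ range k1, TB g (N i) (e i j)) *
            (1 / (matProd k1 e : ℝ)) := by
        rw [prod_div_distrib, prod_product, prod_product, mul_one_div, matProd]
        push_cast
        congr 1
        rw [← sum_neg_distrib, Real.exp_sum]
        refine prod_congr rfl fun i _ => ?_
        rw [← sum_neg_distrib, Real.exp_sum]
        exact prod_congr rfl fun j hj => hcm i j hj
      rw [h1, ← mul_assoc, ← Real.exp_add]
      refine le_mul_of_one_le_left (by positivity) (Real.one_le_exp ?_)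
      linarith [sum_le_sum hrow]
  · rw [← Real.exp_sum, ← Real.exp_add, Real.exp_le_exp, sum_add_distrib, sum_add_distrib,
      matSumAct k1 e₀ Nm N (fun i hi => (hN i hi).2) g, sum_product]
    have h1 : ∀ i ∈ range k1, ∑ j ∈ range k1, ∑ n ∈ Icc 1 Nm, fw (i, j) n ≤
        ∑ n ∈ Ioc e₀ (N i), (1 : ℝ) := by
      intro i hi
      rw [sum_comm]
      have h2 : ∀ n ∈ Icc 1 Nm, ∑ j ∈ range k1, fw (i, j) n ≤
          if n ∈ Ioc e₀ (N i) then (1 : ℝ) else 0 := by
        intro n _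
        split_ifs with hn
        · rw [mem_Ioc] at hn
          simp only [hfw, hn.1, hn.2, true_and]
          rw [← sum_filter, sum_const, nsmul_eq_mul, mul_one_div]
          exact div_self_le_one _
        · refine le_of_eq (sum_eq_zero fun j _ => ?_)
          rw [mem_Ioc] at hn
          simp only [hfw]
          rw [if_neg fun h => hn ⟨h.1, h.2.1⟩]
      refine (sum_le_sum h2).trans ?_
      rw [← sum_filter]
      exact sum_le_sum_of_subset_of_nonneg (fun n hn => (mem_filter.1 hn).2)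
        fun _ _ _ => zero_le_one
    have h2 := sum_le_sum h1
    rw [matSumAct k1 e₀ Nm N (fun i hi => (hN i hi).2) fun _ => 1] at h2
    have h3 : Real.log k1 ≤ k1 := Real.log_le_self (Nat.cast_nonneg _)
    have h4 : ∑ n ∈ Ioc e₀ Nm, (act k1 N n : ℝ) * (1 + Real.log (act k1 N' n)) =
        ∑ n ∈ Ioc e₀ Nm, (act k1 N n : ℝ) * 1 + ∑ n ∈ Ioc e₀ Nm, (act k1 N n : ℝ) * g n := by
      rw [← sum_add_distrib]
      exact sum_congr rfl fun n _ => mul_add _ _ _
    rw [h4]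
    simp only [sum_const, card_product, card_range, nsmul_eq_mul]
    push_cast
    have hk : (0 : ℝ) ≤ k1 := Nat.cast_nonneg _
    nlinarith [mul_le_mul_of_nonneg_left h3 (mul_nonneg hk hE), mul_nonneg hC.le
      (mul_nonneg (sq_nonneg (k1 : ℝ)) hE), sq_nonneg (k1 : ℝ)]

end Crest.Agent.R20
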