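import Crest.Agent.R20.CollDefs

/-!
# R20: collision lemma — rows and columns

For a nice `s` let `𝓛(s)` be the set of primes `p ∣ s` with `ell p > E`; by `NoSq` they divide `s` exactly
once, and they are the primes `gpf (tail s i)` of the levels `i ≤ K` with `ht s i > E`
(`exists_level`, since `ht s (K+1) ≤ E`; distinct levels give distinct primes, `gpf_tail_lt`).
Hence `φ(s) = ∏_{i ≤ K, ht s i > E} (q_i - 1) · d`, where `d = φ(tail s i₀)` for the first level `i₀ ≤ K+1`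
with `ht s i₀ ≤ E` (`totient_eq_prod_lev`, `NoSq.lev_eq`), all of whose primes have `ell ≤ E`.
Split the product into the primes not dividing `s'` (rows) and the common ones
(`T = 𝓛(s) ∩ 𝓛(s')`, `c = ∏_{p ∈ T} (p - 1)`, symmetric in `s, s'`).  The top prime `gpf s` does not
divide `s'` since `gpf s' < gpf s`.
-/

set_option autoImplicit false

open Finset Filter Topology

noncomputable section

namespace Crest.Agent.R20

/-- The row numbers. -/
private def rowP (E : ℝ) (s s' i : ℕ) : ℕ :=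
  open Classical in
  if E < ht s i ∧ ¬ gpf (tail s i) ∣ s' then gpf (tail s i) - 1 else 1

/-- The common large primes. -/
private def comT (E : ℝ) (s s' : ℕ) : Finset ℕ :=
  open Classical in (Nat.gcd s s').primeFactors.filter fun p => E < ell p

private theorem three_le_of_lt_ell {E : ℝ} (hE : 0 ≤ E) {p : ℕ} (h : E < ell p) : 3 ≤ p := by
  by_contra hc
  rw [ell_of_le_two (by omega)] at h
  linarith

private theorem rowP_cases (E : ℝ) (s s' i : ℕ) :
    rowP E s s' i = 1 ∨ (E < ht s i ∧ ¬ gpf (tail s i) ∣ s' ∧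
      rowP E s s' i = gpf (tail s i) - 1) := by
  unfold rowP
  split_ifs with h
  · exact Or.inr ⟨h.1, h.2, rfl⟩
  · exact Or.inl rfl

private theorem rowP_ok {E Y : ℝ} (hE : 0 ≤ E) {s : ℕ} (s' : ℕ) (hs : 0 < s) (hY : ht s 0 ≤ Y)
    (hN : AllNormal E s) (hQ : NoSq E s) (i : ℕ) : RowOK E Y (ht s i) (rowP E s s' i) := by
  rcases rowP_cases E s s' i with h | ⟨h1, -, h3⟩
  · exact Or.inl h
  · have hp := (hQ.lev_eq hs hE h1).1
    have h4 : 3 ≤ gpf (tail s i) := three_le_of_lt_ell hE h1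
    have h5 : gpf (tail s i) - 1 + 1 = gpf (tail s i) := by omega
    rw [h3]
    refine Or.inr ⟨by omega, by rwa [h5], by rw [h5]; rfl, h1,
      (ht_anti s (Nat.zero_le i)).trans hY, ?_⟩
    rcases hN _ hp ((gpf_dvd _).trans (tail_dvd s i)) with h6 | h6
    · exact absurd h6 (not_le.2 h1)
    · exact h6

open Classical in
private theorem comT_eq {E : ℝ} (hE : 0 ≤ E) {K s s' : ℕ} (hs : 0 < s)
    (hQ : NoSq E s) (hK : ht s (K + 1) ≤ E) :
    comT E s s' = ((range (K + 1)).filter fun i => E < ht s i ∧ gpf (tail s i) ∣ s').image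
      fun i => gpf (tail s i) := by
  ext p
  simp only [comT, mem_filter, Nat.mem_primeFactors, mem_image, mem_range, Nat.dvd_gcd_iff]
  constructor
  · rintro ⟨⟨hp, ⟨h1, h2⟩, -⟩, h3⟩
    obtain ⟨j, hj, e⟩ := exists_level (d := K + 1) hs hp h1 (lt_of_ell_lt (hK.trans_lt h3))
    refine ⟨j, ⟨hj, ?_, e ▸ h2⟩, e⟩
    rw [ht, hq, e]
    exact h3
  · rintro ⟨i, ⟨-, h1, h2⟩, rfl⟩
    exact ⟨⟨(hQ.lev_eq hs hE h1).1, ⟨(gpf_dvd _).trans (tail_dvd s i), h2⟩,
      (Nat.gcd_pos_of_pos_left _ hs).ne'⟩, h1⟩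

private theorem gpf_tail_inj {E : ℝ} (hE : 0 ≤ E) {s : ℕ} (hs : 0 < s) {i j : ℕ}
    (hi : E < ht s i) (hj : E < ht s j) (h : gpf (tail s i) = gpf (tail s j)) : i = j := by
  have key : ∀ k, E < ht s k → 1 < tail s k := fun k hk => by
    have h1 : 3 ≤ gpf (tail s k) := three_le_of_lt_ell hE hk
    have h2 := gpf_le (tail_pos hs k)
    omega
  rcases lt_trichotomy i j with h1 | h1 | h1
  · exact absurd h (gpf_tail_lt h1 (key i hi)).ne'
  · exact h1
  · exact absurd h (gpf_tail_lt h1 (key j hj)).ne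

private theorem one_side {E : ℝ} (hE : 0 ≤ E) {K s : ℕ} (s' : ℕ) (hs : 0 < s)
    (hQ : NoSq E s) (hK : ht s (K + 1) ≤ E) :
    ∃ d : ℕ, 0 < d ∧ (∀ p : ℕ, p.Prime → p ∣ d → ell p ≤ E) ∧
      Nat.totient s =
        (∏ i ∈ range (K + 1), rowP E s s' i) * (∏ p ∈ comT E s s', (p - 1)) * d := by
  classical
  refine ⟨(∏ i ∈ range (K + 1), if E < ht s i then 1 else Nat.totient (lev s i)) *
    Nat.totient (tail s (K + 1)), ?_, ?_, ?_⟩
  · refine Nat.mul_pos (prod_pos fun i _ => ?_) (Nat.totient_pos.2 (tail_pos hs _))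
    split_ifs
    · exact one_pos
    · exact Nat.totient_pos.2 (isPP_lev s i).pos
  · intro p hp hd
    rcases (Nat.Prime.dvd_mul hp).1 hd with h | h
    · obtain ⟨i, -, h1⟩ := (hp.prime.dvd_finsetProd_iff _).1 h
      split_ifs at h1 with h2
      · exact absurd (Nat.dvd_one.1 h1) hp.ne_one
      · have h3 := (isPP_lev s i).pos
        have h4 := (ell_le_hq (Nat.totient_pos.2 h3) hp h1).trans (hq_totient_le h3)
        rw [hq_lev] at h4
        exact h4.trans (not_lt.1 h2)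
    · have h3 := tail_pos hs (K + 1)
      exact ((ell_le_hq (Nat.totient_pos.2 h3) hp h).trans (hq_totient_le h3)).trans hK
  · rw [comT_eq hE hs hQ hK, prod_image fun i hi j hj h =>
      gpf_tail_inj hE hs (mem_filter.1 hi).2.1 (mem_filter.1 hj).2.1 h, prod_filter,
      totient_eq_prod_lev hs (K + 1), ← mul_assoc, ← prod_mul_distrib, ← prod_mul_distrib]
    congr 1
    refine prod_congr rfl fun i _ => ?_
    unfold rowP
    by_cases h1 : E < ht s i
    · obtain ⟨hp, h2⟩ := hQ.lev_eq hs hE h1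
      rw [h2, Nat.totient_prime hp]
      by_cases h3 : gpf (tail s i) ∣ s' <;> simp [h1, h3]
    · simp [h1]

theorem rows_exist {U : ℝ} (hU : 1 ≤ U) {K s s' : ℕ} (hs : NiceAt U K s) (hs' : NiceAt U K s')
    (hlt : gpf s' < gpf s) (htop : U ^ 7 < ht s 0) :
    ∃ (P P' : ℕ → ℕ) (c d d' : ℕ), (∀ i < K + 1, RowOK (U ^ 7) (U ^ 11) (ht s i) (P i)) ∧
      (∀ j < K + 1, RowOK (U ^ 7) (U ^ 11) (ht s' j) (P' j)) ∧ P 0 + 1 = gpf s ∧ P 0 ≠ 1 ∧
      (∀ i < K + 1, ∀ j < K + 1, P i ≠ 1 → P i ≠ P' j) ∧ c ∈ CSet (K + 1) (U ^ 11) ∧ 0 < c ∧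
      0 < d ∧ 0 < d' ∧ (∀ p : ℕ, p.Prime → p ∣ d → ell p ≤ U ^ 7) ∧
      (∀ p : ℕ, p.Prime → p ∣ d' → ell p ≤ U ^ 7) ∧
      Nat.totient s = (∏ i ∈ range (K + 1), P i) * c * d ∧
      Nat.totient s' = (∏ j ∈ range (K + 1), P' j) * c * d' := by
  classical
  have hE : (0 : ℝ) ≤ U ^ 7 := by positivity
  obtain ⟨h0, hY, hN, hQ, hK⟩ := hs
  obtain ⟨h0', hY', hN', hQ', hK'⟩ := hs'
  obtain ⟨d, hd, hdp, hφ⟩ := one_side hE s' h0 hQ hK
  obtain ⟨d', hd', hdp', hφ'⟩ := one_side hE s h0' hQ' hK'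
  have hT : comT (U ^ 7) s' s = comT (U ^ 7) s s' := by rw [comT, comT, Nat.gcd_comm]
  rw [hT] at hφ'
  have h3 : 3 ≤ gpf s := three_le_of_lt_ell hE htop
  have hP0 : rowP (U ^ 7) s s' 0 = gpf s - 1 := by
    have hp : (gpf s).Prime := (hQ.lev_eq h0 hE htop).1
    have hn : ¬ gpf s ∣ s' := fun h => absurd (le_gpf h0' hp h) (not_le.2 hlt)
    unfold rowP
    exact if_pos ⟨htop, hn⟩
  have hTm : ∀ p ∈ comT (U ^ 7) s s', p.Prime ∧ ell p ≤ U ^ 11 := by
    intro p hp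
    simp only [comT, mem_filter, Nat.mem_primeFactors, Nat.dvd_gcd_iff] at hp
    exact ⟨hp.1.1, (ell_le_hq h0 hp.1.1 hp.1.2.1.1).trans hY⟩
  refine ⟨rowP (U ^ 7) s s', rowP (U ^ 7) s' s, ∏ p ∈ comT (U ^ 7) s s', (p - 1), d, d',
    fun i _ => rowP_ok hE s' h0 hY hN hQ i, fun j _ => rowP_ok hE s h0' hY' hN' hQ' j,
    by omega, by omega, fun i _ j _ hne heq => ?_, ⟨comT (U ^ 7) s s', ?_, hTm, rfl⟩,
    prod_pos fun p hp => Nat.sub_pos_of_lt (hTm p hp).1.one_lt, hd, hd', hdp, hdp', hφ, hφ'⟩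
  · rcases rowP_cases (U ^ 7) s s' i with h | ⟨-, h2, h4⟩
    · exact hne h
    rcases rowP_cases (U ^ 7) s' s j with h | ⟨-, -, h5⟩
    · exact hne (heq.trans h)
    have h6 := one_le_gpf (tail s i)
    have h7 := one_le_gpf (tail s' j)
    have h8 : gpf (tail s i) = gpf (tail s' j) := by omega
    exact h2 (h8 ▸ (gpf_dvd _).trans (tail_dvd s' j))
  · rw [comT_eq hE h0 hQ hK]
    exact card_image_le.trans ((card_filter_le _ _).trans (card_range _).le)

end Crest.Agent.R20
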