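import Crest.Agent.R20.CollDefs

/-!
# R20: collision lemma — summing over the special primes
-/

set_option autoImplicit false

open Finset Filter Topology

noncomputable section

namespace Crest.Agent.R20

/-- Abstract iterated sum.  `ok l π` depends only on the coordinates `≥ l`; slot `1` is summed first
(innermost) with the weight `ν`, the others with reciprocal weights.  Induction on `t` (with `ok`, `v`
quantified), peeling off the last slot `t + 1`: fibre along `π ↦ π (t+1)`; on the fibre over `Q` use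
`ok' l σ := ok l (update σ (t+1) Q)`, `v' = Q v` and the injection `π ↦ update π (t+1) 1`; the set of
occurring `Q` lies in `{Q | ok (t+1) (update (fun _ => 1) (t+1) Q)}`. -/
theorem iter_sum (ν : ℕ → ℝ) (Λ : ℕ → ℝ) (t : ℕ) (ht : 1 ≤ t) (ok : ℕ → (ℕ → ℕ) → Prop)
    (hdep : ∀ l ∈ Icc 1 t, ∀ π π' : ℕ → ℕ, (∀ i, l ≤ i → π i = π' i) → ok l π → ok l π')
    (hpos : ∀ l ∈ Icc 1 t, ∀ π, ok l π → 0 < π l)
    (h1 : ∀ (π₀ : ℕ → ℕ) (v : ℕ), 0 < v →
      SumBd {Q | ok 1 (Function.update π₀ 1 Q)} (fun Q => ν (Q * v)) (Λ 1 / v))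
    (hl : ∀ l ∈ Icc 2 t, ∀ π₀ : ℕ → ℕ, RecBd {Q | ok l (Function.update π₀ l Q)} (Λ l))
    (v : ℕ) (hv : 0 < v) :
    SumBd {π : ℕ → ℕ | (∀ l, l ∉ Icc 1 t → π l = 1) ∧ ∀ l ∈ Icc 1 t, ok l π}
      (fun π => ν ((∏ l ∈ Icc 1 t, π l) * v)) ((∏ l ∈ Icc 1 t, Λ l) / v) := by
  induction t, ht using Nat.le_induction generalizing ok v with
  | base =>
    have h := (h1 (fun _ => 1) v hv).of_map
      (A := {π : ℕ → ℕ | (∀ l, l ∉ Icc 1 1 → π l = 1) ∧ ∀ l ∈ Icc 1 1, ok l π})
      (f := fun π => ν ((∏ l ∈ Icc 1 1, π l) * v))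
      (fun Q => Function.update (fun _ => 1) 1 Q) (fun π hπ => ?_)
    · simpa using h
    · have e : Function.update (fun _ => 1) 1 (π 1) = π := by
        funext l
        by_cases h : l = 1
        · subst h; simp
        · rw [Function.update_of_ne h, hπ.1 l (by simpa using h)]
      refine ⟨π 1, ?_, e, by simp⟩
      change ok 1 _
      rw [e]
      exact hπ.2 1 (by simp)
  | succ t ht ih =>
    have hsub : ∀ l ∈ Icc 1 t, l ∈ Icc 1 (t + 1) := fun l hl => by
      rw [mem_Icc] at hl ⊢; omega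
    have hsub2 : ∀ l ∈ Icc 2 t, l ∈ Icc 2 (t + 1) := fun l hl => by
      rw [mem_Icc] at hl ⊢; omega
    have hP : 0 ≤ (∏ l ∈ Icc 1 t, Λ l) / v :=
      (ih ok (fun l hl => hdep l (hsub l hl)) (fun l hl => hpos l (hsub l hl)) h1
        (fun l hl' => hl l (hsub2 l hl')) v hv).nonneg
    have hB := (hl (t + 1) (by rw [mem_Icc]; omega) (fun _ => 1)).const_mul hP
    rw [prod_Icc_succ_top (by omega) Λ]
    refine SumBd.fiber (fun π => π (t + 1)) (fun π hπ => ?_) (fun Q hQ => ?_)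
      (hB.mono_bd (le_of_eq (by ring)))
    · refine hdep (t + 1) (by rw [mem_Icc]; omega) π _ (fun i hi => ?_)
        (hπ.2 (t + 1) (by rw [mem_Icc]; omega))
      rcases hi.eq_or_lt with rfl | hi
      · simp
      · rw [Function.update_of_ne hi.ne', hπ.1 i (by rw [mem_Icc]; omega)]
    · have hQ0 : 0 < Q := by
        simpa using hpos (t + 1) (by rw [mem_Icc]; omega) _ hQ
      have h := ih (fun l σ => ok l (Function.update σ (t + 1) Q))
        (fun l hl σ σ' hσ => hdep l (hsub l hl) _ _ fun i hi => by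
          by_cases h : i = t + 1
          · subst h; simp
          · rw [Function.update_of_ne h, Function.update_of_ne h, hσ i hi])
        (fun l hl σ hσ => by
          have := hpos l (hsub l hl) _ hσ
          rwa [Function.update_of_ne (by rw [mem_Icc] at hl; omega)] at this)
        (fun π₀ v' hv' => by
          have := h1 (Function.update π₀ (t + 1) Q) v' hv'
          simpa only [Function.update_comm (show t + 1 ≠ 1 by omega)] using this)
        (fun l hl' π₀ => by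
          have := hl l (hsub2 l hl') (Function.update π₀ (t + 1) Q)
          simpa only [Function.update_comm (show t + 1 ≠ l by rw [mem_Icc] at hl'; omega)]
            using this)
        (Q * v) (Nat.mul_pos hQ0 hv)
      refine (h.of_map (fun σ => Function.update σ (t + 1) Q) fun π hπ => ?_).mono_bd
        (le_of_eq ?_)
      · obtain ⟨⟨h2, h3⟩, h4⟩ := hπ
        have e : Function.update (Function.update π (t + 1) 1) (t + 1) Q = π := by
          rw [Function.update_idem, ← h4, Function.update_eq_self]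
        refine ⟨Function.update π (t + 1) 1, ⟨fun l hl => ?_, fun l hl => ?_⟩, e, le_of_eq ?_⟩
        · by_cases h : l = t + 1
          · subst h; simp
          · rw [Function.update_of_ne h, h2 l (by rw [mem_Icc] at hl ⊢; omega)]
        · rw [e]; exact h3 l (hsub l hl)
        · rw [prod_Icc_succ_top (by omega) π, h4, mul_assoc]
          congr 2
          refine prod_congr rfl fun l hl => ?_
          rw [Function.update_of_ne (by rw [mem_Icc] at hl; omega)]
      · push_cast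
        ring

theorem aR_congr (S : Shape) (A : ℕ → ℕ) {π π' : ℕ → ℕ} {l : ℕ} (h : ∀ i, l < i → π i = π' i) :
    S.aR A π l = S.aR A π' l := by
  unfold Shape.aR
  congr 1
  exact prod_congr rfl fun i hi => h i (mem_Ioc.1 (mem_filter.1 hi).1).1

theorem aC_congr (S : Shape) (A : ℕ → ℕ) {π π' : ℕ → ℕ} {l : ℕ} (h : ∀ i, l < i → π i = π' i) :
    S.aC A π l = S.aC A π' l := by
  unfold Shape.aC
  congr 1
  exact prod_congr rfl fun i hi => h i (mem_Ioc.1 (mem_filter.1 hi).1).1

theorem slotOK_update (S : Shape) (Y : ℝ) (A A' : ℕ → ℕ) (π₀ : ℕ → ℕ) (l Q : ℕ) :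
    S.slotOK Y A A' (Function.update π₀ l Q) l ↔ Q.Prime ∧ win Q = S.n l ∧
      (S.sr (S.row l) = l → 0 < S.aR A π₀ l ∧ (S.aR A π₀ l : ℝ) ≤ EE Y ∧
        (S.aR A π₀ l * Q + 1).Prime) ∧
      (S.sc (S.col l) = l → 0 < S.aC A' π₀ l ∧ (S.aC A' π₀ l : ℝ) ≤ EE Y ∧
        (S.aC A' π₀ l * Q + 1).Prime) ∧
      (S.sr (S.row l) = l → S.sc (S.col l) = l → S.aR A π₀ l ≠ S.aC A' π₀ l) := by
  have h : ∀ i, l < i → Function.update π₀ l Q i = π₀ i := fun i hi =>
    Function.update_of_ne hi.ne' _ _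
  unfold Shape.slotOK
  rw [aR_congr S A h, aC_congr S A' h, Function.update_self]

theorem sum_flag_le (t k1 e₀ : ℕ) (s r n : ℕ → ℕ) (hs : ∀ i, s i ≤ t)
    (hr : ∀ i, s i ≠ 0 → r (s i) = i) :
    ∑ i ∈ range k1, ((((if s i = 0 then e₀ else n (s i)) : ℕ) : ℝ) - e₀) ≤
      ∑ l ∈ Icc 1 t, (if s (r l) = l then (n l : ℝ) else 0) := by
  calc ∑ i ∈ range k1, ((((if s i = 0 then e₀ else n (s i)) : ℕ) : ℝ) - e₀)
      ≤ ∑ i ∈ range k1, (if s i ≠ 0 then (n (s i) : ℝ) else 0) := by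
        refine sum_le_sum fun i _ => ?_
        by_cases h : s i = 0
        · simp [h]
        · simp [h]
    _ = ∑ i ∈ (range k1).filter (fun i => s i ≠ 0), (n (s i) : ℝ) := by rw [sum_filter]
    _ = ∑ l ∈ ((range k1).filter (fun i => s i ≠ 0)).image s, (n l : ℝ) := by
        rw [sum_image]
        intro i hi j hj e
        rw [← hr i (mem_filter.1 hi).2, ← hr j (mem_filter.1 hj).2, e]
    _ ≤ ∑ l ∈ (Icc 1 t).filter (fun l => s (r l) = l), (n l : ℝ) := by
        refine sum_le_sum_of_subset_of_nonneg (fun l hl => ?_) fun _ _ _ => Nat.cast_nonneg _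
        obtain ⟨i, hi, rfl⟩ := mem_image.1 hl
        have h0 := (mem_filter.1 hi).2
        exact mem_filter.2 ⟨mem_Icc.2 ⟨Nat.one_le_iff_ne_zero.2 h0, hs i⟩, by rw [hr i h0]⟩
    _ = _ := by rw [sum_filter]

/-- `iter_sum` with `ok = S.slotOK Y A A'` (`aR`, `aC` at slot `l` depend only on the coordinates
`> l`), `Λ 1 = Λ exp (-2 n 1)` (`NuOK.sieve`, both flags hold at slot `1`), and for `l ≥ 2`
`Λ l = C (Y+1)^6 exp (-κ_l n l)` with `κ_l ∈ {0,1,2}` the number of flags (`sieve_rec` with `Y + 1` and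
`𝒜 ⊆ {aR, aC}`; if the set is empty there is nothing to prove).  Finally
`∑_l κ_l n l ≥ ∑_{i : sr i ≠ 0} n (sr i) + ∑_{j : sc j ≠ 0} n (sc j)` (the maps `i ↦ sr i`, `j ↦ sc j` are
injective on these sets by `row_sr`, `col_sc`), which is `≥ ∑_i (NR i - e₀) + ∑_j (NC j - e₀)`. -/
theorem pi_sum : ∃ C : ℝ, 1 ≤ C ∧ ∀ (ν : ℕ → ℝ) (Y Λ H : ℝ), 1 ≤ Y → 0 ≤ Λ → NuOK ν Y Λ H →
    ∀ (S : Shape) (k1 e₀ Nm : ℕ), S.OK k1 e₀ Nm → (Nm : ℝ) ≤ Y + 1 → H ≤ S.n 1 →
    ∀ (A A' : ℕ → ℕ) (v : ℕ), 0 < v →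
    SumBd (S.PiSet Y A A') (fun π => ν ((∏ l ∈ Icc 1 S.t, π l) * v))
      (Λ * (C * (Y + 1) ^ 6) ^ (2 * k1) *
        Real.exp (-(∑ i ∈ range k1, ((S.NR e₀ i : ℝ) - e₀)) -
          ∑ j ∈ range k1, ((S.NC e₀ j : ℝ) - e₀)) / v) := by
  obtain ⟨C, hC1, hC⟩ := sieve_rec
  refine ⟨C, hC1, fun ν Y Λ H hY hΛ hν S k1 e₀ Nm hS hNm hH A A' v hv => ?_⟩
  set K : ℝ := C * (Y + 1) ^ 6 with hK
  have hK1 : 1 ≤ K := one_le_mul_of_one_le_of_one_le hC1 (one_le_pow₀ (by linarith))
  set κ : ℕ → ℝ := fun l => (if S.sr (S.row l) = l then (S.n l : ℝ) else 0) +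
    (if S.sc (S.col l) = l then (S.n l : ℝ) else 0) with hκ
  set Λ' : ℕ → ℝ := fun l => (if l = 1 then Λ else K) * Real.exp (-κ l) with hΛ'
  have hn : ∀ l ∈ Icc 1 S.t, (S.n l : ℝ) ≤ Y + 1 := fun l hl =>
    le_trans (by exact_mod_cast hS.n_le l hl) hNm
  have hEE : EE Y ≤ EE (Y + 1) := EE_mono (by linarith)
  have h := iter_sum ν Λ' S.t hS.t_pos (fun l π => S.slotOK Y A A' π l)
    (fun l _ π π' hπ hok => by
      have e : S.slotOK Y A A' π l ↔ S.slotOK Y A A' π' l := by
        unfold Shape.slotOK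
        rw [aR_congr S A (fun i hi => hπ i hi.le), aC_congr S A' (fun i hi => hπ i hi.le),
          hπ l le_rfl]
      exact e.1 hok)
    (fun l _ π hok => hok.1.pos)
    (fun π₀ v hv => by
      have e : Λ' 1 = Λ * Real.exp (-(2 * (S.n 1 : ℝ))) := by
        simp only [hΛ', hκ, hS.sr_one, hS.sc_one, if_true, two_mul]
      rw [e]
      simp only [slotOK_update, hS.sr_one, hS.sc_one, true_implies]
      intro T hT
      rcases T.eq_empty_or_nonempty with rfl | ⟨Q, hQ⟩
      · rw [sum_empty]; positivity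
      · obtain ⟨-, -, h1, h2, h3⟩ := hT hQ
        refine hν.sieve (S.n 1) hH (hn 1 (mem_Icc.2 ⟨le_rfl, hS.t_pos⟩)) v _ _ hv h1.1 h2.1 h3
          h1.2.1 h2.2.1 T fun Q' hQ' => ?_
        obtain ⟨h4, h5, h6, h7, -⟩ := hT hQ'
        exact ⟨h4, h5, h6.2.2, h7.2.2⟩)
    (fun l hl π₀ => by
      have hl' : l ∈ Icc 1 S.t := by rw [mem_Icc] at hl ⊢; omega
      have hl1 : l ≠ 1 := by rw [mem_Icc] at hl; omega
      have hrec := hC (Y + 1) (by linarith) (S.n l) (hn l hl')
      simp only [slotOK_update]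
      intro T hT
      rcases T.eq_empty_or_nonempty with rfl | ⟨Q, hQ⟩
      · rw [sum_empty]
        simp only [hΛ', if_neg hl1]
        positivity
      obtain ⟨-, -, h1, h2, h3⟩ := hT hQ
      simp only [hΛ', hκ, if_neg hl1]
      by_cases fr : S.sr (S.row l) = l <;> by_cases fc : S.sc (S.col l) = l
      · have hc : ({S.aR A π₀ l, S.aC A' π₀ l} : Finset ℕ).card = 2 := card_pair (h3 fr fc)
        have := hrec {S.aR A π₀ l, S.aC A' π₀ l} hc.le (by
          simp only [mem_insert, mem_singleton, forall_eq_or_imp, forall_eq]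
          exact ⟨⟨(h1 fr).1, (h1 fr).2.1.trans hEE⟩, (h2 fc).1, (h2 fc).2.1.trans hEE⟩) T
          (fun Q' hQ' => by
            obtain ⟨h4, h5, h6, h7, -⟩ := hT hQ'
            refine ⟨h4, h5, ?_⟩
            simp only [mem_insert, mem_singleton, forall_eq_or_imp, forall_eq]
            exact ⟨(h6 fr).2.2, (h7 fc).2.2⟩)
        rw [hc] at this
        simpa only [fr, fc, if_true, Nat.cast_ofNat, two_mul] using this
      · have := hrec {S.aR A π₀ l} (by simp) (by
          simp only [mem_singleton, forall_eq]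
          exact ⟨(h1 fr).1, (h1 fr).2.1.trans hEE⟩) T
          (fun Q' hQ' => by
            obtain ⟨h4, h5, h6, h7, -⟩ := hT hQ'
            refine ⟨h4, h5, ?_⟩
            simp only [mem_singleton, forall_eq]
            exact (h6 fr).2.2)
        simpa only [fr, fc, if_true, if_false, add_zero, card_singleton, Nat.cast_one, one_mul]
          using this
      · have := hrec {S.aC A' π₀ l} (by simp) (by
          simp only [mem_singleton, forall_eq]
          exact ⟨(h2 fc).1, (h2 fc).2.1.trans hEE⟩) T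
          (fun Q' hQ' => by
            obtain ⟨h4, h5, h6, h7, -⟩ := hT hQ'
            refine ⟨h4, h5, ?_⟩
            simp only [mem_singleton, forall_eq]
            exact (h7 fc).2.2)
        simpa only [fr, fc, if_true, if_false, zero_add, card_singleton, Nat.cast_one, one_mul]
          using this
      · have := hrec ∅ (by simp) (by simp) T
          (fun Q' hQ' => by
            obtain ⟨h4, h5, -⟩ := hT hQ'
            exact ⟨h4, h5, by simp⟩)
        simpa only [fr, fc, if_false, add_zero, card_empty, Nat.cast_zero, zero_mul] using this)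
    v hv
  refine SumBd.mono_bd h (div_le_div_of_nonneg_right ?_ (Nat.cast_nonneg v))
  simp only [hΛ']
  rw [prod_mul_distrib, ← Real.exp_sum]
  have h2 : ∏ l ∈ Icc 1 S.t, (if l = 1 then Λ else K) ≤ Λ * K ^ (2 * k1) := by
    rw [← mul_prod_erase _ _ (mem_Icc.2 ⟨le_rfl, hS.t_pos⟩), if_pos rfl]
    refine mul_le_mul_of_nonneg_left ?_ hΛ
    rw [prod_congr rfl (g := fun _ => K) (fun l hl => if_neg (ne_of_mem_erase hl)), prod_const]
    refine pow_le_pow_right₀ hK1 ((card_erase_le).trans ?_)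
    simpa using hS.t_le
  have h3 : ∑ l ∈ Icc 1 S.t, -κ l ≤ -(∑ i ∈ range k1, ((S.NR e₀ i : ℝ) - e₀)) -
      ∑ j ∈ range k1, ((S.NC e₀ j : ℝ) - e₀) := by
    have h4 := sum_flag_le S.t k1 e₀ S.sr S.row S.n hS.sr_le hS.row_sr
    have h5 := sum_flag_le S.t k1 e₀ S.sc S.col S.n hS.sc_le hS.col_sc
    simp only [hκ, sum_neg_distrib, sum_add_distrib, Shape.NR, Shape.NC]
    linarith
  exact mul_le_mul h2 (Real.exp_le_exp.2 h3) (Real.exp_pos _).le (by positivity)

/-- Double counting. -/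
theorem sum_act {k1 e₀ Nm : ℕ} {N : ℕ → ℕ} (h : ∀ i < k1, e₀ ≤ N i ∧ N i ≤ Nm) :
    ∑ n ∈ Ioc e₀ Nm, (act k1 N n : ℝ) = ∑ i ∈ range k1, ((N i : ℝ) - e₀) := by
  simp only [act, card_filter, Nat.cast_sum]
  rw [sum_comm]
  refine sum_congr rfl fun i hi => ?_
  obtain ⟨h1, h2⟩ := h i (mem_range.1 hi)
  rw [← Nat.cast_sum, ← card_filter]
  have : (Ioc e₀ Nm).filter (fun n => n ≤ N i) = Ioc e₀ (N i) := by
    ext n
    simp only [mem_filter, mem_Ioc]
    omega
  rw [this, Nat.card_Ioc, Nat.cast_sub h1]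

end Crest.Agent.R20
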