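import Crest.Agent.R20.CollDefs

/-!
# R20: collision lemma — the easy pieces
-/

set_option autoImplicit false

open Finset Filter Topology
open Crest.NumberTheoryR.TotientScale

noncomputable section

namespace Crest.Agent.R20

private theorem cnt_prod {α β : Type*} {A : Set α} {B : Set β} {a b : ℝ} (hA : CntBd A a)
    (hB : CntBd B b) : CntBd (A ×ˢ B) (a * b) :=
  (SumBd.prod hA hB fun _ _ => zero_le_one).mono_fun fun _ _ => by simp

private theorem cnt_pi {α : Type*} (I : Finset ℕ) (a₀ : α) {A : Set α} {b : ℝ} (h : CntBd A b) :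
    CntBd {τ : ℕ → α | (∀ i ∈ I, τ i ∈ A) ∧ ∀ i, i ∉ I → τ i = a₀} (b ^ I.card) := by
  have := SumBd.pi I a₀ (A := fun _ => A) (f := fun _ _ => (1 : ℝ)) (b := fun _ => b)
    (fun _ _ => h) (fun _ _ _ _ => zero_le_one)
  simpa using this

private theorem cnt_le (M : ℕ) : CntBd {x : ℕ | x ≤ M} ((M : ℝ) + 1) := by
  have := SumBd.of_card (range (M + 1)) (A := {x : ℕ | x ≤ M}) (f := fun _ => (1 : ℝ)) (M := 1)
    (fun x hx => mem_coe.2 (mem_range.2 (Nat.lt_succ_of_le hx))) zero_le_one (fun _ _ => le_rfl)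
  simpa using this

/-- The number of divisors `σ` of `D > 0` with `Om σ ≤ h` is at most `(Om D + 1)^h` (each is a product
of `h` elements of `primeFactors D ∪ {1}`; induction on `h`). -/
theorem cntBd_div_Om {D : ℕ} (hD : 0 < D) (h : ℕ) :
    CntBd {σ : ℕ | σ ∣ D ∧ Om σ ≤ h} (((Om D : ℝ) + 1) ^ h) := by
  induction h with
  | zero =>
    refine SumBd.of_subsingleton (M := _) ?_ (by simp) (by simp)
    have key : ∀ σ : ℕ, σ ∣ D → Om σ ≤ 0 → σ = 1 := by
      intro σ hσ h0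
      by_contra h1
      have := Om_le_of_dvd (Nat.pos_of_dvd_of_pos hσ hD) (Nat.minFac_dvd σ)
      rw [Om_prime (Nat.minFac_prime h1)] at this
      omega
    rintro a ⟨ha, ha'⟩ b ⟨hb, hb'⟩
    rw [key a ha ha', key b hb hb']
  | succ h ih =>
    have hA : CntBd (↑(insert 1 D.primeFactors) : Set ℕ) ((Om D : ℝ) + 1) := by
      refine (SumBd.of_card (insert 1 D.primeFactors) (f := fun _ => (1 : ℝ)) (M := 1) le_rfl
        zero_le_one (fun _ _ => le_rfl)).mono_bd ?_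
      have h1 : D.primeFactors.card ≤ Om D := by
        rw [Om, card_eq_sum_ones]
        exact sum_le_sum fun p hp => (Nat.prime_of_mem_primeFactors hp).factorization_pos_of_dvd
          hD.ne' (Nat.dvd_of_mem_primeFactors hp)
      have h2 := (card_insert_le 1 D.primeFactors).trans (Nat.add_le_add_right h1 1)
      rw [mul_one]
      exact_mod_cast h2
    rw [pow_succ']
    refine (cnt_prod hA ih).of_map (fun z => z.1 * z.2) ?_
    rintro σ ⟨hσ, hσ'⟩
    by_cases h1 : σ = 1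
    · exact ⟨(1, 1), ⟨by simp, one_dvd _, by simp [Om_one]⟩, by simp [h1], le_rfl⟩
    · have hp := Nat.minFac_prime h1
      obtain ⟨τ, hτ⟩ := Nat.minFac_dvd σ
      have hσ0 := Nat.pos_of_dvd_of_pos hσ hD
      have hτ0 : 0 < τ := Nat.pos_of_mul_pos_left (hτ ▸ hσ0)
      have hOm : Om σ = 1 + Om τ := by rw [← Om_prime hp, ← Om_mul hp.pos hτ0, ← hτ]
      refine ⟨(σ.minFac, τ), ⟨?_, (Dvd.intro_left _ hτ.symm).trans hσ, ?_⟩, hτ.symm, le_rfl⟩
      · exact mem_coe.2 (mem_insert_of_mem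
          (Nat.mem_primeFactors.2 ⟨hp, (Nat.minFac_dvd σ).trans hσ, hD.ne'⟩))
      · change Om τ ≤ h
        omega

/-- Fibre over `D`: at most `(Om D + 1)^H` pairs, `H = 2 k1 h` (`SumBd.pi`); with `ϑ = 1/3 < log (3/2)`,
`((Ω+1) ϑ)^H / H! ≤ exp ((Ω+1) ϑ) ≤ (3/2)^{Ω+1}`, so `(Ω+1)^H ≤ (3H)^H (3/2)^{Ω+1}`; then `euler_Om` with
`z = 3/2`, `Y = e₀`. -/
theorem smooth_sum : ∃ C : ℝ, 1 ≤ C ∧ ∀ k1 e₀ h : ℕ,
    SumBd (SmSet k1 e₀ h) (fun z => 1 / (z.1 : ℝ))
      (C * Real.exp (2 * e₀) * (6 * (k1 : ℝ) * h) ^ (2 * k1 * h)) := by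
  obtain ⟨C, hC0, hC⟩ := euler_Om
  refine ⟨3 / 2 * C + 1, by linarith, fun k1 e₀ h => ?_⟩
  have he : (0 : ℝ) ≤ e₀ := Nat.cast_nonneg _
  set W : ℝ := (6 * (k1 : ℝ) * h) ^ (2 * k1 * h) with hW
  have hW0 : 0 ≤ W := by positivity
  have hexp : Real.exp (1 / 3) ≤ 3 / 2 := by
    have h1 := Real.add_one_le_exp (-(1 / 3))
    have h2 : Real.exp (1 / 3) * Real.exp (-(1 / 3)) = 1 := by rw [← Real.exp_add]; simp
    nlinarith [Real.exp_pos (1 / 3)]
  have key : ∀ x : ℕ, (x : ℝ) ^ (2 * k1 * h) ≤ W * (3 / 2) ^ x := by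
    intro x
    set H := 2 * k1 * h with hH
    have h1 := Real.pow_div_factorial_le_exp ((x : ℝ) * (1 / 3)) (by positivity) H
    have h2 : Real.exp ((x : ℝ) * (1 / 3)) ≤ (3 / 2) ^ x := by
      rw [Real.exp_nat_mul]
      exact pow_le_pow_left₀ (Real.exp_pos _).le hexp x
    have h3 : (H.factorial : ℝ) ≤ (H : ℝ) ^ H := by exact_mod_cast H.factorial_le_pow
    have h4 : W = 3 ^ H * (H : ℝ) ^ H := by
      rw [hW, ← mul_pow, hH]; push_cast; ring
    rw [div_le_iff₀ (by exact_mod_cast H.factorial_pos)] at h1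
    calc (x : ℝ) ^ H = 3 ^ H * ((x : ℝ) * (1 / 3)) ^ H := by rw [← mul_pow]; congr 1; ring
      _ ≤ 3 ^ H * ((3 / 2) ^ x * (H : ℝ) ^ H) := by
          refine mul_le_mul_of_nonneg_left (h1.trans ?_) (by positivity)
          exact mul_le_mul h2 h3 (by positivity) (by positivity)
      _ = _ := by rw [h4]; ring
  have hB := (hC (3 / 2) (by norm_num) le_rfl e₀ he).const_mul (c := 3 / 2 * W) (by positivity)
  refine (SumBd.sigma ?_ ?_ hB).mono_bd ?_
  · rintro z ⟨h0, h1, -⟩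
    exact ⟨h0, (hq_le_iff h0 he).2 fun p hp hd => win_le_iff.1 (h1 p hp hd)⟩
  · rintro D ⟨hD, -⟩
    have h1 := cnt_pi (range k1) 1 (cntBd_div_Om hD h)
    refine (((cnt_prod h1 h1).mul (f := fun _ => 1 / (D : ℝ)) (M := 1 / (D : ℝ)) (by positivity)
      (fun _ _ => le_rfl)).mono_set ?_).mono_bd ?_
    · rintro ⟨σ, σ'⟩ ⟨-, -, h2, h3, h4, h5⟩
      exact ⟨⟨fun i hi => h2 i (mem_range.1 hi), fun i hi => h3 i (by simpa using hi)⟩,
        ⟨fun i hi => h4 i (mem_range.1 hi), fun i hi => h5 i (by simpa using hi)⟩⟩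
    · have h2 := key (Om D + 1)
      push_cast at h2
      rw [card_range, ← pow_mul, ← pow_add, show h * k1 + h * k1 = 2 * k1 * h by ring]
      calc _ ≤ W * (3 / 2) ^ (Om D + 1) * (1 / (D : ℝ)) :=
            mul_le_mul_of_nonneg_right h2 (by positivity)
        _ = _ := by ring
  · have h1 : Real.exp (3 / 2 * e₀) ≤ Real.exp (2 * e₀) := Real.exp_le_exp.2 (by linarith)
    have h2 := Real.exp_pos (2 * (e₀ : ℝ))
    have h3 : 3 / 2 * C * Real.exp (3 / 2 * e₀) ≤ (3 / 2 * C + 1) * Real.exp (2 * e₀) :=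
      mul_le_mul (by linarith) h1 (Real.exp_pos _).le (by linarith)
    calc _ = 3 / 2 * C * Real.exp (3 / 2 * e₀) * W := by ring
      _ ≤ _ := mul_le_mul_of_nonneg_right h3 hW0

/-- Induction on `k1` with `RecBd.mul`; the set `{1} ∪ {p - 1}` has reciprocal sum `≤ Y + eta + 1`. -/
theorem cset_sum (k1 : ℕ) {Y : ℝ} (hY : 0 ≤ Y) : RecBd (CSet k1 Y) ((Y + eta + 1) ^ k1) := by
  have hone : RecBd ({1} : Set ℕ) 1 :=
    SumBd.of_subsingleton Set.subsingleton_singleton zero_le_one fun a ha => by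
      rw [Set.mem_singleton_iff.1 ha]; simp
  induction k1 with
  | zero =>
    rw [pow_zero]
    refine hone.mono_set ?_
    rintro c ⟨T, hT, -, rfl⟩
    rw [card_eq_zero.1 (Nat.le_zero.1 hT)]
    simp
  | succ k ih =>
    have h1 : RecBd {c | ∃ p : ℕ, p.Prime ∧ ell p ≤ Y ∧ c = p - 1} (Y + eta) := by
      refine (sumBd_wq_le hY).of_map (fun p => p - 1) ?_
      rintro c ⟨p, hp, hl, rfl⟩
      refine ⟨p, ⟨IsPP.of_prime hp, by rwa [hq_of_prime hp]⟩, rfl, le_of_eq ?_⟩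
      rw [wq, Nat.totient_prime hp]
    rw [pow_succ']
    refine RecBd.mul (h1.union hone) ih ?_
    rintro c ⟨T, hT, hT', rfl⟩
    rcases T.eq_empty_or_nonempty with rfl | ⟨p, hp⟩
    · exact ⟨1, Or.inr rfl, 1, ⟨∅, by simp, by simp, by simp⟩, by simp⟩
    · refine ⟨p - 1, Or.inl ⟨p, (hT' p hp).1, (hT' p hp).2, rfl⟩, ∏ q ∈ T.erase p, (q - 1),
        ⟨T.erase p, ?_, fun q hq => hT' q (mem_of_mem_erase hq), rfl⟩,
        (mul_prod_erase T (fun q => q - 1) hp).symm⟩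
      rw [card_erase_of_mem hp]
      omega

/-- Count the normalised functions (`SumBd.pi` with `f = 1`, or an injection into a product of
`Fintype.piFinset`s): `t`, `row`, `col`, `sr`, `sc` take values `≤ 2 k1`, `n` values `≤ Nm`. -/
theorem shape_count {k1 : ℕ} (hk : 1 ≤ k1) (e₀ Nm : ℕ) :
    CntBd {S : Shape | S.OK k1 e₀ Nm} (((2 * (k1 : ℝ) + 1) * (Nm + 1)) ^ (7 * k1)) := by
  have ha := cnt_le (2 * k1)
  have h1 := cnt_pi (Icc 1 (2 * k1)) 0 ha
  have h2 := cnt_pi (Icc 1 (2 * k1)) 0 (cnt_le Nm)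
  have h3 := cnt_pi (range k1) 0 ha
  have hall := cnt_prod ha (cnt_prod h1 (cnt_prod h1 (cnt_prod h2 (cnt_prod h3 h3))))
  refine (hall.of_injOn (fun S : Shape => (S.t, S.row, S.col, S.n, S.sr, S.sc)) ?_ ?_).mono_bd ?_
  · intro S _ S' _ h
    simp only [Prod.mk.injEq] at h
    obtain ⟨e1, e2, e3, e4, e5, e6⟩ := h
    exact Shape.ext e1 e2 e3 e4 e5 e6
  · intro S hS
    replace hS : S.OK k1 e₀ Nm := hS
    have hout : ∀ l, l ∉ Icc 1 (2 * k1) → l ∉ Icc 1 S.t := fun l hl hl' =>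
      hl (Icc_subset_Icc_right hS.t_le hl')
    refine ⟨⟨hS.t_le, ⟨fun l _ => ?_, fun l hl => (hS.out l (hout l hl)).1⟩,
      ⟨fun l _ => ?_, fun l hl => (hS.out l (hout l hl)).2.1⟩,
      ⟨fun l _ => ?_, fun l hl => (hS.out l (hout l hl)).2.2⟩,
      ⟨fun i _ => (hS.sr_le i).trans hS.t_le, fun i hi => (hS.out' i (by simpa using hi)).1⟩,
      ⟨fun i _ => (hS.sc_le i).trans hS.t_le, fun i hi => (hS.out' i (by simpa using hi)).2⟩⟩,
      le_rfl⟩
    · change S.row l ≤ 2 * k1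
      by_cases hl : l ∈ Icc 1 S.t
      · have := hS.row_lt l hl; omega
      · rw [(hS.out l hl).1]; exact Nat.zero_le _
    · change S.col l ≤ 2 * k1
      by_cases hl : l ∈ Icc 1 S.t
      · have := hS.col_lt l hl; omega
      · rw [(hS.out l hl).2.1]; exact Nat.zero_le _
    · change S.n l ≤ Nm
      by_cases hl : l ∈ Icc 1 S.t
      · exact hS.n_le l hl
      · rw [(hS.out l hl).2.2]; exact Nat.zero_le _
  · rw [Nat.card_Icc, card_range, Nat.add_sub_cancel, mul_pow]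
    push_cast
    have hA : (1 : ℝ) ≤ 2 * (k1 : ℝ) + 1 := by have : (0 : ℝ) ≤ k1 := Nat.cast_nonneg _; linarith
    have hB : (1 : ℝ) ≤ (Nm : ℝ) + 1 := by have : (0 : ℝ) ≤ Nm := Nat.cast_nonneg _; linarith
    calc _ = (2 * (k1 : ℝ) + 1) ^ (6 * k1 + 1) * ((Nm : ℝ) + 1) ^ (2 * k1) := by ring
      _ ≤ _ := mul_le_mul (pow_le_pow_right₀ hA (by omega)) (pow_le_pow_right₀ hB (by omega))
          (by positivity) (by positivity)

end Crest.Agent.R20
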