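import Crest.Agent.R20.CollExtract
import Crest.Agent.R20.CollSieve
import Crest.Agent.R20.CollMat
import Crest.Agent.R20.CollSmall

/-!
# R20: the collision lemma

Split `CollSet` into the pairs with a large prime square dividing `w` (`coll_sq`, `NuOK.le`; note
`gpf s - 1 ∣ φ(s)`, `gpf s ≥ 2`, `hq φ(s) ≤ U^11`) and the others.  For those, `coll_extract` and
`SumBd.of_map` reduce to the sum of `ν(w)` over the data `(S, ((z, c, e), π))`.  For fixed `S`: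
`SumBd.sigma` with `pi_sum` (`v = D c matProd e`), then `SumBd.prod` with `smooth_sum`, `cset_sum`,
`mat_sum`.  By `sum_act` the exponentials combine to `exp (S.expo + C k1² (E+1))`.  Then `shape_count`
(`SumBd.sigma`, `CntBd.mul`).  Numerics, `k1 = K + 1 ≤ 2 U^{1/4}` (so `k1² ≤ 4 √U`, `k1^4 ≤ 16 U`),
`e₀ ≤ 2U^7`, `Nm ≤ U^11 + 1`: each of the factors `#shapes`, `Λ`, `(C (Y+1)^6)^{2 k1}`, smooth,
`(Y + eta + 1)^{k1}`, `exp (C k1² (E+1))` is at most `exp (U^8)` for large `U`, and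
`6 U^8 - U^9/4 ≤ -U² - 1`.
-/

set_option autoImplicit false

open Finset Filter Topology

noncomputable section

namespace Crest.Agent.R20

theorem eventually_log_le {a : ℝ} (ha : 0 < a) (C : ℝ) :
    ∀ᶠ U : ℝ in atTop, C + 100 * Real.log U ≤ a * Real.sqrt U := by
  have h1 : Tendsto (fun U : ℝ => Real.log U / Real.sqrt U) atTop (𝓝 0) := by
    have := (isLittleO_log_rpow_atTop (show (0 : ℝ) < 1 / 2 by norm_num)).tendsto_div_nhds_zero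
    refine this.congr' ?_
    filter_upwards [eventually_ge_atTop 0] with U hU
    rw [Real.sqrt_eq_rpow]
  have h2 : Tendsto (fun U : ℝ => C / Real.sqrt U) atTop (𝓝 0) :=
    tendsto_const_nhds.div_atTop Real.tendsto_sqrt_atTop
  have h3 : Tendsto (fun U : ℝ => C / Real.sqrt U + 100 * (Real.log U / Real.sqrt U)) atTop
      (𝓝 (0 + 100 * 0)) := h2.add (h1.const_mul 100)
  simp only [mul_zero, add_zero] at h3
  filter_upwards [h3.eventually (gt_mem_nhds ha), eventually_gt_atTop 0] with U hU hU0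
  have hs : 0 < Real.sqrt U := Real.sqrt_pos.2 hU0
  have : C / Real.sqrt U + 100 * (Real.log U / Real.sqrt U) =
      (C + 100 * Real.log U) / Real.sqrt U := by ring
  rw [this, div_lt_iff₀ hs] at hU
  exact hU.le

theorem pow_le_exp_of {x y : ℝ} {n : ℕ} (hx : 0 < x) (h : n * Real.log x ≤ y) :
    x ^ n ≤ Real.exp y := by
  rw [← Real.exp_log (pow_pos hx n), Real.log_pow]
  exact Real.exp_le_exp.2 h

/-- The numerical estimate. -/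
theorem coll_numerics (C₁ C₂ C₃ : ℝ) (hC₁ : 1 ≤ C₁) (hC₂ : 1 ≤ C₂) (hC₃ : 0 < C₃) :
    ∀ᶠ U : ℝ in atTop, ∀ K : ℕ, (K : ℝ) ^ 4 ≤ U →
      ((2 * ((K + 1 : ℕ) : ℝ) + 1) * ((⌈U ^ 11⌉₊ : ℝ) + 1)) ^ (7 * (K + 1)) *
        (Real.exp (U ^ 8) * (C₁ * (U ^ 11 + 1) ^ 6) ^ (2 * (K + 1)) *
          (C₂ * Real.exp (2 * (⌈U ^ 7⌉₊ : ℝ)) *
            (6 * ((K + 1 : ℕ) : ℝ) * ((2 * ⌈U ^ 7⌉₊ : ℕ) : ℝ)) ^ (2 * (K + 1) * (2 * ⌈U ^ 7⌉₊)) *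
          ((U ^ 11 + eta + 1) ^ (K + 1) *
          Real.exp (-(U ^ 9 / 4) + C₃ * ((K + 1 : ℕ) : ℝ) ^ 2 * (U ^ 7 + 1))))) ≤
      Real.exp (-U ^ 2) / 2 := by
  filter_upwards [eventually_log_le (show (0 : ℝ) < 1 / 100 by norm_num)
      (Real.log C₁ + Real.log C₂ + Real.log (eta + 2) + 10),
    eventually_ge_atTop (100 : ℝ), eventually_ge_atTop ((8 * C₃) ^ 2)] with U hL hU hU3 K hK
  have hU0 : 0 < U := by linarith
  have hU1 : 1 ≤ U := by linarith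
  set r := Real.sqrt U with hr
  have hrr : r * r = U := Real.mul_self_sqrt hU0.le
  have hr10 : 10 ≤ r := by
    rw [hr]; exact Real.le_sqrt_of_sq_le (by linarith)
  have hr3 : 8 * C₃ ≤ r := by
    rw [hr]; exact Real.le_sqrt_of_sq_le hU3
  have hrU : r ≤ U := by nlinarith
  have hη := one_le_eta
  have l1 : 0 ≤ Real.log C₁ := Real.log_nonneg hC₁
  have l2 : 0 ≤ Real.log C₂ := Real.log_nonneg hC₂
  have l3 : 0 ≤ Real.log (eta + 2) := Real.log_nonneg (by linarith)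
  have l4 : 0 ≤ Real.log U := Real.log_nonneg hU1
  set k : ℝ := ((K + 1 : ℕ) : ℝ) with hk
  have hk1 : 1 ≤ k := by rw [hk]; exact_mod_cast Nat.le_add_left 1 K
  have hK2 : (K : ℝ) ^ 2 ≤ r := by
    rw [hr]; apply Real.le_sqrt_of_sq_le; nlinarith
  have hk2 : k ^ 2 ≤ 4 * r := by
    have : k = K + 1 := by rw [hk]; push_cast; ring
    rw [this]
    have h0 : (0 : ℝ) ≤ K := Nat.cast_nonneg K
    nlinarith [sq_nonneg ((K : ℝ) - 1)]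
  have hkr : k ≤ r := by nlinarith
  have hU7 : 1 ≤ U ^ 7 := one_le_pow₀ hU1
  have hU11 : 1 ≤ U ^ 11 := one_le_pow₀ hU1
  have he : (⌈U ^ 7⌉₊ : ℝ) ≤ 2 * U ^ 7 := by
    have := Nat.ceil_lt_add_one (show (0 : ℝ) ≤ U ^ 7 by positivity); linarith
  have he1 : (1 : ℝ) ≤ ⌈U ^ 7⌉₊ := hU7.trans (Nat.le_ceil _)
  have hN : (⌈U ^ 11⌉₊ : ℝ) + 1 ≤ 3 * U ^ 11 := by
    have := Nat.ceil_lt_add_one (show (0 : ℝ) ≤ U ^ 11 by positivity); linarith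
  have hU8 : U ^ 8 = U ^ 7 * (r * r) := by rw [hrr]; ring
  have hUU8 : U ≤ U ^ 8 := by
    calc U = U ^ 1 := (pow_one U).symm
      _ ≤ U ^ 8 := pow_le_pow_right₀ hU1 (by norm_num)
  have hlogpow : ∀ {x : ℝ} (n : ℕ), 0 < x → x ≤ U ^ n → Real.log x ≤ n * Real.log U := by
    intro x n hx h
    rw [← Real.log_pow]; exact Real.log_le_log hx h
  -- factor 1
  have f1 : ((2 * k + 1) * ((⌈U ^ 11⌉₊ : ℝ) + 1)) ^ (7 * (K + 1)) ≤ Real.exp (U ^ 8) := by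
    have hx : 0 < (2 * k + 1) * ((⌈U ^ 11⌉₊ : ℝ) + 1) := by positivity
    apply pow_le_exp_of hx
    have a : (2 * k + 1) * ((⌈U ^ 11⌉₊ : ℝ) + 1) ≤ U ^ 13 := by
      calc (2 * k + 1) * ((⌈U ^ 11⌉₊ : ℝ) + 1) ≤ (3 * U) * (3 * U ^ 11) := by
            apply mul_le_mul (by linarith) hN (by positivity) (by positivity)
        _ = 9 * U ^ 12 := by ring
        _ ≤ U * U ^ 12 := by gcongr; linarith
        _ = U ^ 13 := by ring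
    have b := hlogpow 13 hx a
    have c : ((7 * (K + 1) : ℕ) : ℝ) = 7 * k := by rw [hk]; push_cast; ring
    rw [c]
    push_cast at b
    calc 7 * k * Real.log _ ≤ 7 * r * (13 * Real.log U) :=
          mul_le_mul (by linarith) b (Real.log_nonneg (by nlinarith [Nat.cast_nonneg (α := ℝ) ⌈U ^ 11⌉₊]))
            (by positivity)
      _ ≤ r * r := by nlinarith
      _ ≤ U ^ 8 := by rw [hrr]; exact hUU8
  -- factor 2
  have f2 : (C₁ * (U ^ 11 + 1) ^ 6) ^ (2 * (K + 1)) ≤ Real.exp (U ^ 8) := by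
    have hx : 0 < C₁ * (U ^ 11 + 1) ^ 6 := by positivity
    apply pow_le_exp_of hx
    have a : (U ^ 11 + 1) ^ 6 ≤ U ^ 72 := by
      calc (U ^ 11 + 1) ^ 6 ≤ (U ^ 12) ^ 6 := by
            apply pow_le_pow_left₀ (by positivity)
            calc U ^ 11 + 1 ≤ 2 * U ^ 11 := by linarith
              _ ≤ U * U ^ 11 := by gcongr; linarith
              _ = U ^ 12 := by ring
        _ = U ^ 72 := by ring
    have b := hlogpow 72 (by positivity) a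
    have c : ((2 * (K + 1) : ℕ) : ℝ) = 2 * k := by rw [hk]; push_cast; ring
    rw [c, Real.log_mul (by positivity) (by positivity)]
    push_cast at b
    have d : 0 ≤ Real.log ((U ^ 11 + 1) ^ 6) :=
      Real.log_nonneg (one_le_pow₀ (by linarith))
    calc 2 * k * (Real.log C₁ + Real.log ((U ^ 11 + 1) ^ 6))
        ≤ 2 * r * (1 / 100 * r) := mul_le_mul (by linarith) (by linarith) (by linarith) (by positivity)
      _ ≤ r * r := by nlinarith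
      _ ≤ U ^ 8 := by rw [hrr]; exact hUU8
  -- factor 3
  have f3 : C₂ * Real.exp (2 * (⌈U ^ 7⌉₊ : ℝ)) ≤ Real.exp (U ^ 8) := by
    rw [← Real.exp_log (show 0 < C₂ by linarith), ← Real.exp_add, Real.exp_le_exp, hU8]
    have : Real.log C₂ ≤ U ^ 7 := by
      calc Real.log C₂ ≤ U := by linarith
        _ = U ^ 1 := (pow_one U).symm
        _ ≤ U ^ 7 := pow_le_pow_right₀ hU1 (by norm_num)
    rw [hrr]
    nlinarith
  have f4 : (6 * k * ((2 * ⌈U ^ 7⌉₊ : ℕ) : ℝ)) ^ (2 * (K + 1) * (2 * ⌈U ^ 7⌉₊)) ≤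
      Real.exp (U ^ 8) := by
    have e1 : ((2 * ⌈U ^ 7⌉₊ : ℕ) : ℝ) = 2 * (⌈U ^ 7⌉₊ : ℝ) := by push_cast; ring
    rw [e1]
    have hx : 0 < 6 * k * (2 * (⌈U ^ 7⌉₊ : ℝ)) := by positivity
    apply pow_le_exp_of hx
    have a : 6 * k * (2 * (⌈U ^ 7⌉₊ : ℝ)) ≤ U ^ 9 := by
      calc 6 * k * (2 * (⌈U ^ 7⌉₊ : ℝ)) ≤ 6 * U * (2 * (2 * U ^ 7)) := by
            gcongr; linarith
        _ = 24 * U ^ 8 := by ring
        _ ≤ U * U ^ 8 := by gcongr; linarith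
        _ = U ^ 9 := by ring
    have b := hlogpow 9 hx a
    have c : ((2 * (K + 1) * (2 * ⌈U ^ 7⌉₊) : ℕ) : ℝ) = 4 * k * ⌈U ^ 7⌉₊ := by
      rw [hk]; push_cast; ring
    rw [c]
    push_cast at b
    have d : 0 ≤ Real.log (6 * k * (2 * (⌈U ^ 7⌉₊ : ℝ))) := Real.log_nonneg (by nlinarith)
    calc 4 * k * ⌈U ^ 7⌉₊ * Real.log _ ≤ 4 * r * (2 * U ^ 7) * (9 * Real.log U) := by
          apply mul_le_mul _ b d (by positivity)
          gcongr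
      _ = U ^ 7 * (r * (72 * Real.log U)) := by ring
      _ ≤ U ^ 7 * (r * r) := by gcongr; linarith
      _ = U ^ 8 := hU8.symm
  have f5 : (U ^ 11 + eta + 1) ^ (K + 1) ≤ Real.exp (U ^ 8) := by
    have hx : 0 < U ^ 11 + eta + 1 := by positivity
    apply pow_le_exp_of hx
    have a : U ^ 11 + eta + 1 ≤ (eta + 2) * U ^ 11 := by nlinarith
    have b : Real.log (U ^ 11 + eta + 1) ≤ Real.log (eta + 2) + 11 * Real.log U := by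
      have := Real.log_le_log hx a
      rw [Real.log_mul (by positivity) (by positivity), Real.log_pow] at this
      exact_mod_cast this
    have d : 0 ≤ Real.log (U ^ 11 + eta + 1) := Real.log_nonneg (by linarith)
    calc ((K + 1 : ℕ) : ℝ) * Real.log (U ^ 11 + eta + 1) ≤ r * (1 / 100 * r) :=
          mul_le_mul hkr (by linarith) d (by positivity)
      _ ≤ r * r := by nlinarith
      _ ≤ U ^ 8 := by rw [hrr]; exact hUU8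
  have f6 : C₃ * k ^ 2 * (U ^ 7 + 1) ≤ U ^ 8 := by
    calc C₃ * k ^ 2 * (U ^ 7 + 1) ≤ C₃ * (4 * r) * (2 * U ^ 7) := by gcongr; linarith
      _ = U ^ 7 * ((8 * C₃) * r) := by ring
      _ ≤ U ^ 7 * (r * r) := by gcongr
      _ = U ^ 8 := hU8.symm
  have hfin : Real.exp (U ^ 8) * (Real.exp (U ^ 8) * Real.exp (U ^ 8) *
      (Real.exp (U ^ 8) * Real.exp (U ^ 8) *
        (Real.exp (U ^ 8) * Real.exp (-(U ^ 9 / 4) + U ^ 8)))) ≤ Real.exp (-U ^ 2) / 2 := by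
    simp only [← Real.exp_add]
    rw [le_div_iff₀ (by norm_num : (0 : ℝ) < 2)]
    have h2 : (2 : ℝ) ≤ Real.exp 1 := by linarith [Real.add_one_le_exp (1 : ℝ)]
    have h9 : U ^ 9 = U * U ^ 8 := by ring
    have h8 : U ^ 2 ≤ U ^ 8 := pow_le_pow_right₀ hU1 (by norm_num)
    calc _ ≤ Real.exp (U ^ 8 + (U ^ 8 + U ^ 8 + (U ^ 8 + U ^ 8 + (U ^ 8 + (-(U ^ 9 / 4) + U ^ 8))))) *
          Real.exp 1 := by gcongr
      _ ≤ Real.exp (-U ^ 2) := by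
          rw [← Real.exp_add, Real.exp_le_exp]; nlinarith
  refine le_trans ?_ hfin
  have g6 : Real.exp (-(U ^ 9 / 4) + C₃ * k ^ 2 * (U ^ 7 + 1)) ≤
      Real.exp (-(U ^ 9 / 4) + U ^ 8) := Real.exp_le_exp.2 (by linarith)
  gcongr

/-- The data of a collision. -/
abbrev CData := Shape × (((ℕ × (ℕ → ℕ) × (ℕ → ℕ)) × ℕ × (ℕ → ℕ → ℕ)) × (ℕ → ℕ))

theorem collision : ∃ U₀ : ℝ, ∀ U : ℝ, U₀ ≤ U → ∀ K : ℕ, (K : ℝ) ^ 4 ≤ U → ∀ (ν : ℕ → ℝ) (H : ℝ),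
    NuOK ν (U ^ 11) (Real.exp (U ^ 8)) (H - 2 * U ^ 7 - 3) →
    SumBd (CollSet U K H) (fun o => ν o.2) (Real.exp (-U ^ 2)) := by
  obtain ⟨U₁, hU₁⟩ := coll_sq
  obtain ⟨U₂, hU₂⟩ := coll_extract
  obtain ⟨C₁, hC₁, hpi⟩ := pi_sum
  obtain ⟨C₂, hC₂, hsm⟩ := smooth_sum
  obtain ⟨C₃, hC₃, hmat⟩ := mat_sum
  obtain ⟨U₃, hU₃⟩ := eventually_atTop.1 (coll_numerics C₁ C₂ C₃ hC₁ hC₂ hC₃)
  refine ⟨max (max U₁ U₂) (max U₃ 1), fun U hU K hK ν H hν => ?_⟩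
  have hU1 : U₁ ≤ U := le_trans (by simp) hU
  have hU2 : U₂ ≤ U := le_trans (by simp) hU
  have hU3 : U₃ ≤ U := le_trans (by simp) hU
  have hU4 : 1 ≤ U := le_trans (by simp) hU
  set k1 := K + 1 with hk1
  set e₀ := ⌈U ^ 7⌉₊ with he₀
  set Nm := ⌈U ^ 11⌉₊ with hNm
  have hY1 : 1 ≤ U ^ 11 := one_le_pow₀ hU4
  have hE0 : 0 ≤ U ^ 7 := by positivity
  have heN : e₀ ≤ Nm := Nat.ceil_le_ceil (pow_le_pow_right₀ hU4 (by norm_num))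
  have hNm1 : (Nm : ℝ) ≤ U ^ 11 + 1 := (Nat.ceil_lt_add_one (by positivity)).le
  -- the admissible shapes
  let 𝒮 : Set Shape := {S | S.OK k1 e₀ Nm ∧ H - 2 * U ^ 7 - 3 ≤ S.n 1 ∧
    S.expo k1 e₀ Nm ≤ -(U ^ 9 / 4)}
  let base : Shape → Set ((ℕ × (ℕ → ℕ) × (ℕ → ℕ)) × ℕ × (ℕ → ℕ → ℕ)) := fun S =>
    SmSet k1 e₀ (2 * e₀) ×ˢ ({c | c ∈ CSet k1 (U ^ 11) ∧ 0 < c} ×ˢ
      MatSet k1 e₀ (U ^ 7) (S.NR e₀) (S.NC e₀))
  let 𝒟 : Set CData := {d | d.1 ∈ 𝒮 ∧ d.2.1 ∈ base d.1 ∧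
    d.2.2 ∈ d.1.PiSet (U ^ 11) (rowA k1 d.2.1.1.2.1 d.2.1.2.2) (colA k1 d.2.1.1.2.2 d.2.1.2.2)}
  let val : CData → ℕ := fun d =>
    (∏ l ∈ Icc 1 d.1.t, d.2.2 l) * (d.2.1.1.1 * (d.2.1.2.1 * matProd k1 d.2.1.2.2))
  set Λ₁ : ℝ := Real.exp (U ^ 8) * (C₁ * (U ^ 11 + 1) ^ 6) ^ (2 * k1) with hΛ₁
  set Λ₂ : ℝ := C₂ * Real.exp (2 * (e₀ : ℝ)) *
    (6 * (k1 : ℝ) * ((2 * e₀ : ℕ) : ℝ)) ^ (2 * k1 * (2 * e₀)) with hΛ₂
  set Λ₃ : ℝ := (U ^ 11 + eta + 1) ^ k1 with hΛ₃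
  set Λ₄ : ℝ := Real.exp (-(U ^ 9 / 4) + C₃ * (k1 : ℝ) ^ 2 * (U ^ 7 + 1)) with hΛ₄
  have hη := one_le_eta
  have hΛ₁0 : 0 ≤ Λ₁ := by positivity
  have hΛ₂0 : 0 ≤ Λ₂ := by positivity
  have hΛ₃0 : 0 ≤ Λ₃ := by positivity
  have hshape : ∀ S ∈ 𝒮, SumBd {b | (S, b) ∈ 𝒟} (fun b => ν (val (S, b)))
      (Λ₁ * (Λ₂ * (Λ₃ * Λ₄))) := by
    intro S hS
    obtain ⟨hOK, hH, hex⟩ := hS
    have hNR : ∀ i < k1, e₀ ≤ S.NR e₀ i ∧ S.NR e₀ i ≤ Nm := by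
      intro i _
      unfold Shape.NR
      split_ifs with h
      · exact ⟨le_rfl, heN⟩
      · have : S.sr i ∈ Icc 1 S.t := mem_Icc.2 ⟨by omega, hOK.sr_le i⟩
        exact ⟨(hOK.n_gt _ this).le, hOK.n_le _ this⟩
    have hNC : ∀ i < k1, e₀ ≤ S.NC e₀ i ∧ S.NC e₀ i ≤ Nm := by
      intro i _
      unfold Shape.NC
      split_ifs with h
      · exact ⟨le_rfl, heN⟩
      · have : S.sc i ∈ Icc 1 S.t := mem_Icc.2 ⟨by omega, hOK.sc_le i⟩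
        exact ⟨(hOK.n_gt _ this).le, hOK.n_le _ this⟩
    set ξ : ℝ := Real.exp (-(∑ i ∈ range k1, ((S.NR e₀ i : ℝ) - e₀)) -
          ∑ j ∈ range k1, ((S.NC e₀ j : ℝ) - e₀)) with hξ
    have hξ0 : 0 < ξ := Real.exp_pos _
    have hc : RecBd {c | c ∈ CSet k1 (U ^ 11) ∧ 0 < c} Λ₃ :=
      (cset_sum k1 (by positivity)).mono_set fun c hc => hc.1
    have hb := ((hsm k1 e₀ (2 * e₀)).prod (hc.prod (hmat k1 e₀ Nm (U ^ 7) _ _ hE0 hNR hNC)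
      (fun a _ => by positivity)) (fun a _ => by positivity)).const_mul
      (show 0 ≤ Λ₁ * ξ by positivity)
    refine (SumBd.sigma (B := base S) (fun p hp => hp.2.1) (fun b hb' => ?_) hb).mono_bd ?_
    · obtain ⟨hz, ⟨-, hc0⟩, he⟩ := hb'
      have hm : 0 < matProd k1 b.2.2 := prod_pos fun i _ => prod_pos fun j _ => he.2.1 i j
      have hv : 0 < b.1.1 * (b.2.1 * matProd k1 b.2.2) := Nat.mul_pos hz.1 (Nat.mul_pos hc0 hm)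
      refine ((hpi ν (U ^ 11) _ _ hY1 (Real.exp_pos _).le hν S k1 e₀ Nm hOK hNm1 hH
        (rowA k1 b.1.2.1 b.2.2) (colA k1 b.1.2.2 b.2.2) _ hv).mono_set fun π hπ => hπ.2.2).mono_bd (le_of_eq ?_)
      push_cast
      simp only [div_eq_mul_inv, mul_inv, one_mul]
      ring
    · have e1 : ξ * Real.exp (∑ n ∈ Ioc e₀ Nm, (act k1 (S.NR e₀) n : ℝ) *
          (1 + Real.log (act k1 (S.NC e₀) n)) + C₃ * (k1 : ℝ) ^ 2 * (U ^ 7 + 1)) ≤ Λ₄ := by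
        rw [hξ, ← Real.exp_add, hΛ₄, Real.exp_le_exp, ← sum_act hNR, ← sum_act hNC]
        have : S.expo k1 e₀ Nm = -(∑ n ∈ Ioc e₀ Nm, (act k1 (S.NR e₀) n : ℝ)) -
            ∑ n ∈ Ioc e₀ Nm, (act k1 (S.NC e₀) n : ℝ) +
            ∑ n ∈ Ioc e₀ Nm, (act k1 (S.NR e₀) n : ℝ) * (1 + Real.log (act k1 (S.NC e₀) n)) := by
          unfold Shape.expo
          rw [← sum_neg_distrib, ← sum_sub_distrib, ← sum_add_distrib]
          exact sum_congr rfl fun n _ => by ring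
        linarith
      have e2 : ∀ x : ℝ, ξ * x ≤ Λ₄ → Λ₁ * ξ * (Λ₂ * (Λ₃ * x)) ≤ Λ₁ * (Λ₂ * (Λ₃ * Λ₄)) := by
        intro x hx
        calc Λ₁ * ξ * (Λ₂ * (Λ₃ * x)) = Λ₁ * (Λ₂ * (Λ₃ * (ξ * x))) := by ring
          _ ≤ Λ₁ * (Λ₂ * (Λ₃ * Λ₄)) := by gcongr
      exact e2 _ e1
  have hD : SumBd 𝒟 (fun d => ν (val d)) (Real.exp (-U ^ 2) / 2) := by
    have hcnt := CntBd.mul (SumBd.mono_set (shape_count (show 1 ≤ k1 by omega) e₀ Nm)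
      (show 𝒮 ⊆ _ from fun S hS => hS.1)) (f := fun _ => Λ₁ * (Λ₂ * (Λ₃ * Λ₄)))
      (show 0 ≤ Λ₁ * (Λ₂ * (Λ₃ * Λ₄)) by positivity) (fun _ _ => le_rfl)
    refine (SumBd.sigma (B := 𝒮) (fun p hp => hp.1) hshape hcnt).mono_bd ?_
    exact hU₃ U hU3 K hK
  have h1 : SumBd {o | o ∈ CollSet U K H ∧ ∀ p : ℕ, p.Prime → U ^ 7 < ell p → ¬ p ^ 2 ∣ o.2}
      (fun o => ν o.2) (Real.exp (-U ^ 2) / 2) := by
    refine hD.of_map (fun d => (rowA k1 d.2.1.1.2.1 d.2.1.2.2 0 *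
      (∏ l ∈ (Icc 1 d.1.t).filter (fun l => d.1.row l = 0), d.2.2 l) + 1, val d)) fun o ho => ?_
    obtain ⟨S, z, c, e, π, a1, a2, a3, a4, a5, a6, a7, a8, a9, a10⟩ := hU₂ U hU2 K hK H o ho.1 ho.2
    refine ⟨(S, ((z, c, e), π)), ⟨⟨a1, a2, a3⟩, ⟨a4, ⟨a5, a6⟩, a7⟩, a8⟩, ?_, ?_⟩
    · exact Prod.ext a9.symm a10.symm
    · exact le_of_eq (congrArg ν a10)
  have h2 : SumBd {o | o ∈ CollSet U K H ∧ ∃ p : ℕ, p.Prime ∧ U ^ 7 < ell p ∧ p ^ 2 ∣ o.2}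
      (fun o => ν o.2) (Real.exp (-U ^ 2) / 2) := by
    refine ((hU₁ U hU1).mono_set ?_).mono_fun ?_
    · rintro o ⟨⟨s, s', hs, hs', -, -, -, hlt, rfl⟩, hp⟩
      have hs0 := hs.1
      have h2 : 2 ≤ gpf s := lt_of_le_of_lt (one_le_gpf s') hlt
      have hs1 : 1 < s := lt_of_lt_of_le h2 (gpf_le hs0)
      refine ⟨h2, Nat.totient_pos.2 hs0, ?_, (hq_totient_le hs0).trans hs.2.1, hp⟩
      show gpf s - 1 ∣ Nat.totient s
      rw [← Nat.totient_prime (gpf_prime hs1)]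
      exact Nat.totient_dvd_of_dvd (gpf_dvd s)
    · rintro o ⟨⟨s, s', hs, hs', -, -, -, hlt, rfl⟩, hp⟩
      exact hν.le _ (Nat.totient_pos.2 hs.1)
  refine ((h1.union h2).mono_set fun o ho => ?_).mono_bd (by linarith)
  by_cases h : ∃ p : ℕ, p.Prime ∧ U ^ 7 < ell p ∧ p ^ 2 ∣ o.2
  · exact Or.inr ⟨ho, h⟩
  · exact Or.inl ⟨ho, fun p hp h1 h2 => h ⟨p, hp, h1, h2⟩⟩

theorem coll_rec : ∃ U₀ : ℝ, ∀ U : ℝ, U₀ ≤ U → ∀ K : ℕ, (K : ℝ) ^ 4 ≤ U →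
    SumBd (CollSet U K 0) (fun o => 1 / (o.2 : ℝ)) (Real.exp (-U ^ 2)) := by
  obtain ⟨U₁, h₁⟩ := collision
  obtain ⟨U₂, h₂⟩ := nuOK_rec
  exact ⟨max U₁ U₂, fun U hU K hK => h₁ U (le_of_max_le_left hU) K hK (fun w => 1 / (w : ℝ)) 0
    (h₂ U (le_of_max_le_right hU) _)⟩

theorem coll_count : ∃ U₀ : ℝ, ∀ U : ℝ, U₀ ≤ U → ∀ K : ℕ, (K : ℝ) ^ 4 ≤ U →
    ∀ B : ℝ, U ^ 10 ≤ B → B ≤ U ^ 11 - 1 →
    CntBd {o : ℕ × ℕ | o ∈ CollSet U K (B - 1) ∧ (o.2 : ℝ) ≤ EE B}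
      (EE B / Real.exp B * Real.exp (-U ^ 2)) := by
  obtain ⟨U₁, h₁⟩ := collision
  obtain ⟨U₂, h₂⟩ := nuOK_count
  refine ⟨max U₁ U₂, fun U hU K hK B hB hB' => ?_⟩
  have h := h₁ U (le_of_max_le_left hU) K hK _ (B - 1) (h₂ U (le_of_max_le_right hU) B hB hB')
  have hx := EE_pos B
  refine ((h.const_mul (show 0 ≤ EE B / Real.exp B by positivity)).mono_set
    fun o ho => ho.1).mono_fun fun o ho => ?_
  simp only [if_pos ho.2]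
  have := Real.exp_pos B
  exact le_of_eq (by field_simp)

end Crest.Agent.R20
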