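import Mathlib
import Crest.Prelude.Def_TotientScale

/-!
# R20 (S0026, S0027): asymptotics of the number of totient values — definitions

READ THIS FIRST.  Overall picture (a streamlined Ford-type argument with full asymptotics).

* For `n ≥ 1` write `n = Q₀ Q₁ Q₂ ⋯` with `Q_j = q_j^{e_j}` the exact prime-power components with
  `q₀ > q₁ > ⋯` (and `Q_j = 1` when there are no more primes): `lev n j = Q_j`,
  `tail n j = Q_j Q_{j+1} ⋯`, `ht n j = ell q_j` where `ell p = max 0 (log log p)` ("height").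
* `a_i = aCoef i`, `g_i = gSeq i`, `ρ` the root of `∑ a_i ρ^i = 1`, `θ = ρ^{-1/10}`.
  We work with pairs `(m,t)`, `t ∈ [t₁,t₂]`, `B = t m θ^{10 m}`, `x = exp (exp B)`.
  The level `l` (`Q_l`) has *index* `J = m - l`; with `U = θ^J` the parameters at index `J` are
  `Y = U^11` (height bound), `δ = U^9` (slack margin), `E = U^7` (normality), truncation `K = J`;
  the typical slack is of size `U^10 = ρ^{-J}`.
* `SumBd A f β` ("every finite partial sum of `f` over `A` is at most `β`") is the universal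
  upper-bound device; `RecBd A β` for reciprocal sums, `CntBd A β` for counts.

Do not change these definitions.
-/

set_option autoImplicit false

open Finset Filter Topology
open Crest.NumberTheoryR.TotientScale

noncomputable section

namespace Crest.Agent.R20

/-! ### Heights, greatest prime factor, levels -/

/-- Height of a number (used for primes): `max 0 (log log p)`; `ell 0 = ell 1 = ell 2 = 0`. -/
def ell (p : ℕ) : ℝ := max 0 (Real.log (Real.log p))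

/-- Window index `⌈ell p⌉`; `win p ≤ b ↔ ell p ≤ b` for natural `b`. -/
def win (p : ℕ) : ℕ := ⌈ell p⌉₊

/-- `EE Y = exp (exp Y)`; for `Y ≥ 0`, `ell p ≤ Y ↔ p ≤ EE Y`. -/
def EE (Y : ℝ) : ℝ := Real.exp (Real.exp Y)

/-- Greatest prime factor (`1` if `n ≤ 1`). -/
def gpf (n : ℕ) : ℕ := max 1 (n.primeFactors.sup id)

/-- The exact power of the greatest prime factor dividing `n`. -/
def top (n : ℕ) : ℕ := gpf n ^ n.factorization (gpf n)

/-- `n` with its greatest prime removed completely. -/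
def rest (n : ℕ) : ℕ := n / top n

/-- `n` with its `j` greatest primes removed. -/
def tail (n j : ℕ) : ℕ := rest^[j] n

/-- The prime-power component of `n` at level `j` (`1` if `n` has at most `j` primes). -/
def lev (n j : ℕ) : ℕ := top (tail n j)

/-- Height of the greatest prime factor. -/
def hq (n : ℕ) : ℝ := ell (gpf n)

/-- Height of the `j`-th largest prime of `n` (`0` if there is none). -/
def ht (n j : ℕ) : ℝ := hq (tail n j)

/-- Number of prime factors with multiplicity. -/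
def Om (n : ℕ) : ℕ := ∑ p ∈ n.primeFactors, n.factorization p

/-- Number of prime factors `p` with multiplicity and `win p ≤ b` (i.e. `ell p ≤ b`). -/
def OmB (b n : ℕ) : ℕ := ∑ p ∈ n.primeFactors with win p ≤ b, n.factorization p

/-- Completely multiplicative extension of `f` from the primes. -/
def cm (f : ℕ → ℝ) (n : ℕ) : ℝ := ∏ p ∈ n.primeFactors, f p ^ n.factorization p

/-- Prime power or one. -/
def IsPP (Q : ℕ) : Prop := Q = 1 ∨ IsPrimePow Q

/-- The weight `1/φ(Q)`. -/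
def wq (Q : ℕ) : ℝ := 1 / (Nat.totient Q : ℝ)

/-! ### Bounds for sums over possibly infinite sets -/

/-- Every finite partial sum of `f` over `A` is at most `β`. -/
def SumBd {α : Type*} (A : Set α) (f : α → ℝ) (β : ℝ) : Prop :=
  ∀ S : Finset α, (↑S : Set α) ⊆ A → ∑ a ∈ S, f a ≤ β

/-- Reciprocal sum bound. -/
abbrev RecBd (A : Set ℕ) (β : ℝ) : Prop := SumBd A (fun w => 1 / (w : ℝ)) β

/-- Counting bound. -/
abbrev CntBd {α : Type*} (A : Set α) (β : ℝ) : Prop := SumBd A (fun _ => (1 : ℝ)) β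

/-- The totient values of the positive integers satisfying `P`. -/
def phiSet (P : ℕ → Prop) : Set ℕ := {w | ∃ s, 0 < s ∧ P s ∧ Nat.totient s = w}

/-- The set counted by `totientCount x`. -/
def Vset (x : ℝ) : Set ℕ := {v : ℕ | (v : ℝ) ≤ x ∧ ∃ n : ℕ, 0 < n ∧ Nat.totient n = v}

/-! ### Normal primes, slack, good integers -/

/-- `E`-normal: either small, or `p - 1` has about `b` prime factors of height `≤ b`, for all `b`. -/
def Normal (E : ℝ) (p : ℕ) : Prop :=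
  ell p ≤ E ∨ ∀ b : ℕ, |(OmB b (p - 1) : ℝ) - min (b : ℝ) (ell p)| ≤ E

/-- All primes of `s` are `E`-normal. -/
def AllNormal (E : ℝ) (s : ℕ) : Prop := ∀ p : ℕ, p.Prime → p ∣ s → Normal E p

/-- No prime of height `> E` divides `s` twice. -/
def NoSq (E : ℝ) (s : ℕ) : Prop := ∀ p : ℕ, p.Prime → p ^ 2 ∣ s → ell p ≤ E

/-- The slack `y₀ - ∑_{i=1}^K a_i y_i` of `s`. -/
def slack (K s : ℕ) : ℝ := ht s 0 - ∑ i ∈ Icc 1 K, aCoef i * ht s i

/-- Good with parameters `U` (`Y = U^11`, `E = U^7`, `δ = U^9`) and truncation `K`. -/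
def Good (U : ℝ) (K s : ℕ) : Prop :=
  ht s 0 ≤ U ^ 11 ∧ AllNormal (U ^ 7) s ∧ NoSq (U ^ 7) s ∧ -U ^ 9 ≤ slack K s

/-- The hypotheses on `s` needed in the collision lemma. -/
def NiceAt (U : ℝ) (K s : ℕ) : Prop :=
  0 < s ∧ ht s 0 ≤ U ^ 11 ∧ AllNormal (U ^ 7) s ∧ NoSq (U ^ 7) s ∧ ht s (K + 1) ≤ U ^ 7

/-- Pairs `(P⁺(s), φ(s))` for nice `s` with large slack and height `≥ H` that have a nice partner
`s'` with the same totient and a smaller greatest prime. -/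
def CollSet (U : ℝ) (K : ℕ) (H : ℝ) : Set (ℕ × ℕ) :=
  {o | ∃ s s' : ℕ, NiceAt U K s ∧ NiceAt U K s' ∧ U ^ 9 / 2 ≤ slack K s ∧ H ≤ ht s 0 ∧
    Nat.totient s' = Nat.totient s ∧ gpf s' < gpf s ∧ o = (gpf s, Nat.totient s)}

/-- What level `0` of a typical totient value `v ≤ x = EE B` looks like
(`exp (2/5 · exp B) = x^{2/5}`). -/
def ZeroOK (U : ℝ) (K : ℕ) (B : ℝ) (v : ℕ) : Prop :=
  ∃ q s : ℕ, q.Prime ∧ 0 < s ∧ v = (q - 1) * Nat.totient s ∧
    Real.exp (2 / 5 * Real.exp B) ≤ q ∧ ht s 0 ≤ U ^ 11 ∧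
    ∑ i ∈ Icc 1 K, aCoef i * ht s (i - 1) ≤ B + U ^ 9

/-! ### Tuples and simplex sums

A tuple of depth `d` is a function `τ : ℕ → ℕ` whose meaningful entries are `τ 1, …, τ d`
(normalised to `1` elsewhere). Level `0` has the fixed height `B`. -/

/-- Normalised tuple of depth `d` of prime powers (or ones). -/
def Tup (d : ℕ) (τ : ℕ → ℕ) : Prop :=
  (∀ l, l ∉ Icc 1 d → τ l = 1) ∧ ∀ l ∈ Icc 1 d, IsPP (τ l)

/-- Weight `∏_{l=1}^d 1/φ(τ l)`. -/
def wt (d : ℕ) (τ : ℕ → ℕ) : ℝ := ∏ l ∈ Icc 1 d, wq (τ l)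

/-- Heights of the levels, level `0` having height `B`. -/
def yv (B : ℝ) (τ : ℕ → ℕ) (l : ℕ) : ℝ := if l = 0 then B else hq (τ l)

/-- Partial slack at level `l` of a depth-`d` tuple for the coefficient matrix `α`. -/
def psl (α : ℕ → ℕ → ℝ) (B : ℝ) (d : ℕ) (τ : ℕ → ℕ) (l : ℕ) : ℝ :=
  yv B τ l - ∑ l' ∈ Ioc l d, α l l' * hq (τ l')

/-- Admissible tuples: all partial slacks at levels `0..d` are at least `c l`. -/
def Adm (α : ℕ → ℕ → ℝ) (B : ℝ) (c : ℕ → ℝ) (d : ℕ) (τ : ℕ → ℕ) : Prop :=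
  Tup d τ ∧ ∀ l ≤ d, c l ≤ psl α B d τ l

/-- The standard coefficient matrix `α l l' = a_{l' - l}`. -/
def astd (l l' : ℕ) : ℝ := aCoef (l' - l)

/-- Positive-part power with the convention `pp A 0 = 1[A ≥ 0]`. -/
def pp (A : ℝ) (e : ℕ) : ℝ := if 0 ≤ A then A ^ e else 0

/-- `G_D(B) = B^D / (D! g_1 ⋯ g_D)`; `scaleG ρ x = GG (bigB x) (mIndex ρ x)` by `rfl`. -/
def GG (B : ℝ) (D : ℕ) : ℝ := B ^ D / ((D.factorial : ℝ) * ∏ i ∈ range D, gSeq (i + 1))

/-- Mertens-type upper bound for the weights `1/φ(Q)` on height intervals, with error `η`. -/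
def MertU (η : ℝ) : Prop :=
  ∀ α β : ℝ, α ≤ β → SumBd {Q : ℕ | IsPP Q ∧ α ≤ hq Q ∧ hq Q ≤ β} wq (β - α + η)

/-- Mertens-type lower bound for primes on height intervals, with error `η`. -/
def MertL (η : ℝ) : Prop :=
  ∀ α β : ℝ, 0 ≤ α → α ≤ β → ∀ T : Finset ℕ, (∀ p : ℕ, p.Prime → α ≤ ell p → ell p ≤ β → p ∈ T) →
    β - α - η ≤ ∑ p ∈ T, wq p

/-! ### The context -/

/-- The fixed real parameters. -/
structure Ctx where
  ρ : ℝ
  θ : ℝ
  γ : ℝ
  t₁ : ℝ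
  t₂ : ℝ
  ρ_pos : 0 < ρ
  ρ_lt : ρ < 1
  hsum : HasSum (fun j : ℕ => aCoef (j + 1) * ρ ^ (j + 1)) 1
  θ_gt : 1 < θ
  θρ : θ ^ 10 * ρ = 1
  γ_pos : 0 < γ
  hγ : Tendsto (fun l : ℕ => gSeq l * ρ ^ l) atTop (𝓝 γ)
  t₁_pos : 0 < t₁
  t₁₂ : t₁ ≤ t₂

/-- `B = t m ρ^{-m}`. -/
def Ctx.B (X : Ctx) (m : ℕ) (t : ℝ) : ℝ := t * m * (X.θ ^ m) ^ 10

/-- The lower limits `-δ_{m-l}`. -/
def Ctx.cneg (X : Ctx) (m : ℕ) (l : ℕ) : ℝ := -(X.θ ^ (m - l)) ^ 9

/-- The lower limits `κ δ_{m-l}`. -/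
def Ctx.cpos (X : Ctx) (m : ℕ) (κ : ℝ) (l : ℕ) : ℝ := κ * (X.θ ^ (m - l)) ^ 9

/-- `s` is a very good integer whose top level has index `K`, with cut `k`:
good at all indices in `[k/2, K]`, slack `≥ δ` at the indices in `[k, K]`, and the totient of the
part below the cut has few prime factors. The level of `s` with index `J` is `K - J`. -/
def Low (θ : ℝ) (k K s : ℕ) : Prop :=
  0 < s ∧ (∀ J, k / 2 ≤ J → J ≤ K → Good (θ ^ J) J (tail s (K - J))) ∧
    (∀ J, k ≤ J → J ≤ K → (θ ^ J) ^ 9 ≤ slack J (tail s (K - J))) ∧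
    (Om (Nat.totient (tail s (K + 1 - k))) : ℝ) ≤ 10 * (θ ^ k) ^ 11

/-- `s` (to be multiplied by a large prime `q₀`; `lev s (l-1)` is the level `l`) is nice. -/
def Nice (θ B : ℝ) (m k s : ℕ) : Prop :=
  Low θ k (m - 1) s ∧ (θ ^ m) ^ 9 ≤ B - ∑ i ∈ Icc 1 m, aCoef i * ht s (i - 1) ∧
    ht s 0 ≤ 9 / 10 * B

/-- The integers `n = q s` used for the lower bound. -/
def TopNice (θ B : ℝ) (m k n : ℕ) : Prop :=
  ∃ q s : ℕ, q.Prime ∧ Nice θ B m k s ∧ Real.exp (Real.exp B / 2) ≤ q ∧ Normal ((θ ^ m) ^ 7) q ∧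
    (((q - 1) * Nat.totient s : ℕ) : ℝ) ≤ EE B ∧ n = q * s

/-- The depth-`d` tuple of the first `d` levels of `s`. -/
def tup (d s : ℕ) : ℕ → ℕ := fun l => if l ∈ Icc 1 d then lev s (l - 1) else 1

/-- The object attached to `s` at depth `d`: first `d` levels and the totient of the rest. -/
def obj (d s : ℕ) : (ℕ → ℕ) × ℕ := (tup d s, Nat.totient (tail s d))

/-- Weight of an object; `owt d (obj d s) = 1/φ(s)`. -/
def owt (d : ℕ) (o : (ℕ → ℕ) × ℕ) : ℝ := wt d o.1 * (1 / (o.2 : ℝ))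

/-- The integer `∏ φ(τ l) · w` of an object; `oval d (obj d s) = φ(s)`. -/
def oval (d : ℕ) (o : (ℕ → ℕ) × ℕ) : ℕ := (∏ l ∈ Icc 1 d, Nat.totient (o.1 l)) * o.2

/-- Objects of the (finite, `x`-independent) lower family. -/
def LowT (θ : ℝ) (k K : ℕ) : Set ((ℕ → ℕ) × ℕ) :=
  {o | ∃ s, Low θ k K s ∧ obj (K + 1 - k) s = o}

/-- Objects of nice integers. -/
def NiceT (θ B : ℝ) (m k : ℕ) : Set ((ℕ → ℕ) × ℕ) :=
  {o | ∃ s, Nice θ B m k s ∧ obj (m - k) s = o}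

/-- Concatenation of a top tuple of depth `M` with a lower tuple. -/
def merge (M : ℕ) (τ σ : ℕ → ℕ) : ℕ → ℕ := fun l => if l ≤ M then τ l else σ (l - M)

/-- Contribution of a lower tuple `σ` of depth `d`, placed below level `M`, to the lower limit of
level `l ≤ M`. -/
def lowShift (M d : ℕ) (σ : ℕ → ℕ) (l : ℕ) : ℝ := ∑ i ∈ Icc 1 d, aCoef (M + i - l) * hq (σ i)

/-- Simple objects of depth `m - k`: a lower object of the family `LowT θ k K` below level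
`M = m - K - 1`, and primes at the levels `1..M` subject only to the slack conditions. -/
def Simple (θ B : ℝ) (m k K : ℕ) (κ : ℝ) : Set ((ℕ → ℕ) × ℕ) :=
  {o | ∃ τ σ : ℕ → ℕ, (σ, o.2) ∈ LowT θ k K ∧
    Adm astd B (fun l => κ * (θ ^ (m - l)) ^ 9 + lowShift (m - K - 1) (K + 1 - k) σ l)
      (m - K - 1) τ ∧
    (∀ l ∈ Icc 1 (m - K - 1), (τ l).Prime) ∧ o.1 = merge (m - K - 1) τ σ}

/-- Limit of `ρ^m ∑_{l ≤ M} g_l · lowShift M d σ l` (`M = m - K - 1`) as `m → ∞`. -/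
def Ctx.zlim (X : Ctx) (K d : ℕ) (σ : ℕ → ℕ) : ℝ :=
  ∑ i ∈ Icc 1 d, hq (σ i) * X.ρ ^ (K + 1 - i) * (X.γ * (1 - ∑ r ∈ Ico 1 i, aCoef r * X.ρ ^ r))

/-- The limiting relative volume of the top simplex. -/
def Ctx.Phi (X : Ctx) (K : ℕ) (t z : ℝ) : ℝ :=
  (∏ J ∈ range (K + 1), X.γ * X.ρ ^ J / t) * Real.exp (-(z / t))

/-- The approximate profile `A_{k,K}(t)` (with `S₀` the finite set `LowT θ k K`). -/
def Ctx.Afun (X : Ctx) (k K : ℕ) (S₀ : Finset ((ℕ → ℕ) × ℕ)) (t : ℝ) : ℝ :=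
  ∑ o ∈ S₀, owt (K + 1 - k) o * X.Phi K t (X.zlim K (K + 1 - k) o.1)

/-- The normalised count `V(x) log x / (x G_m(B))` at `x = exp (exp B)`, `B = X.B m t`. -/
def Ctx.R (X : Ctx) (m : ℕ) (t : ℝ) : ℝ :=
  (totientCount (EE (X.B m t)) : ℝ) /
    (EE (X.B m t) / Real.exp (X.B m t) * GG (X.B m t) m)

end Crest.Agent.R20
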