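import Crest.Agent.R20.BasicOm
import Crest.Agent.R20.SumBd

/-!
# R20: Mertens' theorems

* First theorem `∑_{p ≤ x} log p / p = log x + O(1)`: with `N = ⌊x⌋`,
  `log N! = ∑_{d ≤ N} Λ(d) ⌊N/d⌋` (`ArithmeticFunction.vonMangoldt_sum`, swap sums; or Legendre's
  formula), `⌊N/d⌋ = N/d + O(1)`, `ψ(N) = O(N)` (`Chebyshev.psi_le_const_mul_self`),
  `log N! = N log N + O(N)` (`N! ≤ N^N`, and `N^N/N! ≤ e^N`), and the proper prime powers contribute
  `∑_p log p/(p(p-1)) = O(1)` (`log p ≤ 2 √p`).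
* Second theorem on intervals by partial summation (`sum_mul_eq_sub_sub_integral_mul`, or by hand):
  with `S(u) = ∑_{p ≤ u} log p/p = log u + R(u)`, `|R| ≤ C`,
  `∑_{y<p≤x} 1/p = S(x)/log x - S(y)/log y + ∫_y^x S(u)/(u log² u) du
   = log log x - log log y + O(C/log y)`.
-/

set_option autoImplicit false

open Finset Filter Topology

noncomputable section

namespace Crest.Agent.R20

open ArithmeticFunction in
private theorem mert_vM {N : ℕ} (hN : 1 ≤ N) :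
    |∑ d ∈ Ioc 0 N, vonMangoldt d / d - Real.log N| ≤ Real.log 4 + 4 := by
  have hN0 : (0 : ℝ) < N := by exact_mod_cast hN
  have h1 : ∑ n ∈ Ioc 0 N, Real.log n = ∑ d ∈ Ioc 0 N, vonMangoldt d * ((N / d : ℕ) : ℝ) := by
    rw [← sum_Ioc_mul_zeta_eq_sum, vonMangoldt_mul_zeta]
    simp [log_apply]
  have h2 : ∑ n ∈ Ioc 0 N, Real.log n = Real.log (N.factorial) := by
    rw [← Finset.prod_Ico_id_eq_factorial, Nat.cast_prod, Real.log_prod]
    · rfl
    · intro x hx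
      have := (mem_Ico.1 hx).1
      positivity
  have hf0 : (0 : ℝ) < N.factorial := by exact_mod_cast N.factorial_pos
  have h3 : Real.log (N.factorial) ≤ N * Real.log N := by
    rw [← Real.log_pow]
    exact Real.log_le_log hf0 (by exact_mod_cast N.factorial_le_pow)
  have h4 : N * Real.log N - N ≤ Real.log (N.factorial) := by
    have := Real.pow_div_factorial_le_exp (N : ℝ) hN0.le N
    have h := Real.log_le_log (by positivity) this
    rw [Real.log_div (by positivity) hf0.ne', Real.log_pow, Real.log_exp] at h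
    linarith
  have hpsi : ∑ d ∈ Ioc 0 N, vonMangoldt d ≤ (Real.log 4 + 4) * N := by
    have := Chebyshev.psi_le_const_mul_self hN0.le
    rwa [Chebyshev.psi, Nat.floor_natCast] at this
  have h5 : ∑ d ∈ Ioc 0 N, vonMangoldt d * ((N / d : ℕ) : ℝ) ≤
      N * ∑ d ∈ Ioc 0 N, vonMangoldt d / d := by
    rw [mul_sum]
    refine sum_le_sum fun d _ => ?_
    calc _ ≤ vonMangoldt d * ((N : ℝ) / d) :=
          mul_le_mul_of_nonneg_left Nat.cast_div_le vonMangoldt_nonneg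
      _ = _ := by ring
  have h6 : N * ∑ d ∈ Ioc 0 N, vonMangoldt d / d ≤
      ∑ d ∈ Ioc 0 N, vonMangoldt d * ((N / d : ℕ) : ℝ) + ∑ d ∈ Ioc 0 N, vonMangoldt d := by
    rw [mul_sum, ← sum_add_distrib]
    refine sum_le_sum fun d hd => ?_
    have hd0 : 0 < d := (mem_Ioc.1 hd).1
    have : (N : ℝ) / d ≤ ((N / d : ℕ) : ℝ) + 1 := by
      rw [div_le_iff₀ (by exact_mod_cast hd0)]
      have := Nat.lt_div_mul_add hd0 (a := N)
      have h : (N : ℝ) ≤ ((N / d * d + d : ℕ) : ℝ) := by exact_mod_cast this.le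
      push_cast at h
      linarith
    calc _ = vonMangoldt d * ((N : ℝ) / d) := by ring
      _ ≤ vonMangoldt d * (((N / d : ℕ) : ℝ) + 1) :=
          mul_le_mul_of_nonneg_left this vonMangoldt_nonneg
      _ = _ := by ring
  have hl4 : 0 ≤ Real.log 4 := Real.log_nonneg (by norm_num)
  rw [abs_le]
  constructor
  · refine le_of_mul_le_mul_left ?_ hN0
    nlinarith
  · refine le_of_mul_le_mul_left ?_ hN0
    nlinarith

open ArithmeticFunction in
theorem mertens_first : ∃ C : ℝ, ∀ x : ℝ, 1 ≤ x →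
    |∑ p ∈ (Icc 1 ⌊x⌋₊).filter Nat.Prime, Real.log p / p - Real.log x| ≤ C := by
  have hs := vonMangoldt.summable_residueClass_non_primes_div (q := 1) 0
  have hres : ∀ n : ℕ, vonMangoldt.residueClass (q := 1) 0 n = vonMangoldt n := fun n =>
    Set.indicator_of_mem (s := {n : ℕ | (n : ZMod 1) = 0}) (Subsingleton.elim (n : ZMod 1) 0) _
  simp only [hres] at hs
  refine ⟨Real.log 4 + 4 + (∑' n : ℕ, (if n.Prime then 0 else vonMangoldt n) / (n : ℝ)) + 1,
    fun x hx => ?_⟩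
  have hN : 1 ≤ ⌊x⌋₊ := Nat.le_floor (by simpa using hx)
  have hN0 : (0 : ℝ) < ⌊x⌋₊ := by exact_mod_cast hN
  have hN1 : (1 : ℝ) ≤ ⌊x⌋₊ := by exact_mod_cast hN
  have h1 := mert_vM hN
  have hnn : ∀ n : ℕ, 0 ≤ (if n.Prime then 0 else vonMangoldt n) / (n : ℝ) := fun n => by
    have : 0 ≤ vonMangoldt n := vonMangoldt_nonneg
    positivity
  have h2 := hs.sum_le_tsum (Ioc 0 ⌊x⌋₊) fun n _ => hnn n
  have h3 : 0 ≤ ∑ n ∈ Ioc 0 ⌊x⌋₊, (if n.Prime then 0 else vonMangoldt n) / (n : ℝ) :=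
    sum_nonneg fun n _ => hnn n
  have h4 : ∑ d ∈ Ioc 0 ⌊x⌋₊, vonMangoldt d / d =
      ∑ p ∈ (Icc 1 ⌊x⌋₊).filter Nat.Prime, Real.log p / p +
        ∑ n ∈ Ioc 0 ⌊x⌋₊, (if n.Prime then 0 else vonMangoldt n) / (n : ℝ) := by
    rw [sum_filter, show Icc 1 ⌊x⌋₊ = Ioc 0 ⌊x⌋₊ from rfl, ← sum_add_distrib]
    refine sum_congr rfl fun n _ => ?_
    split_ifs with h
    · simp [vonMangoldt_apply_prime h]
    · simp
  have h5 : Real.log ⌊x⌋₊ ≤ Real.log x := Real.log_le_log hN0 (Nat.floor_le (by linarith))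
  have h6 : Real.log x ≤ Real.log ⌊x⌋₊ + 1 := by
    have hx2 : x ≤ 2 * ⌊x⌋₊ := by have := Nat.lt_floor_add_one x; linarith
    have := Real.log_le_log (by linarith) hx2
    rw [Real.log_mul (by norm_num) hN0.ne'] at this
    have := Real.log_two_lt_d9
    linarith
  rw [abs_le] at h1 ⊢
  constructor <;> linarith [h1.1, h1.2]

theorem mertens_interval : ∃ C : ℝ, 0 < C ∧ ∀ y x : ℝ, 2 ≤ y → y ≤ x →
    |∑ p ∈ (Ioc ⌊y⌋₊ ⌊x⌋₊).filter Nat.Prime, (1 : ℝ) / p -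
      (Real.log (Real.log x) - Real.log (Real.log y))| ≤ C / Real.log y := by
  obtain ⟨C, hC⟩ := mertens_first
  have hC0 : 0 ≤ C := (abs_nonneg _).trans (hC 1 le_rfl)
  refine ⟨3 * C + 1, by linarith, fun y x hy hyx => ?_⟩
  set c : ℕ → ℝ := fun n => if n.Prime then Real.log n / n else 0 with hc
  set S : ℝ → ℝ := fun t => ∑ k ∈ Icc 0 ⌊t⌋₊, c k with hS
  have hSR : ∀ t : ℝ, 1 ≤ t → |S t - Real.log t| ≤ C := by
    intro t ht
    have := hC t ht
    rw [sum_filter] at this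
    have e : S t = ∑ k ∈ Icc 1 ⌊t⌋₊, c k := by
      rw [hS]
      simp only
      rw [Icc_eq_cons_Ioc (Nat.zero_le _), sum_cons]
      simp [hc, Nat.not_prime_zero]
      rfl
    rw [e]; exact this
  have hlog : ∀ t ∈ Set.Icc y x, 0 < Real.log t := fun t ht => Real.log_pos (by linarith [ht.1])
  have hder : ∀ t ∈ Set.Icc y x,
      HasDerivAt (fun u => (Real.log u)⁻¹) (-(t⁻¹) / Real.log t ^ 2) t := fun t ht =>
    (Real.hasDerivAt_log (by linarith [ht.1])).inv (hlog t ht).ne'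
  have hcont : ContinuousOn (fun t : ℝ => -(t⁻¹) / Real.log t ^ 2) (Set.Icc y x) := by
    intro t ht
    have h1 : t ≠ 0 := by linarith [ht.1]
    have h2 : Real.log t ^ 2 ≠ 0 := pow_ne_zero 2 (hlog t ht).ne'
    exact ContinuousAt.continuousWithinAt (by fun_prop (disch := assumption))
  have hint : MeasureTheory.IntegrableOn (deriv fun u => (Real.log u)⁻¹) (Set.Icc y x) :=
    hcont.integrableOn_Icc.congr_fun (fun t ht => (hder t ht).deriv.symm) measurableSet_Icc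
  have abel := sum_mul_eq_sub_sub_integral_mul c (f := fun u => (Real.log u)⁻¹) (a := y) (b := x)
    (by linarith) hyx (fun t ht => (hder t ht).differentiableAt) hint
  have e1 : ∑ p ∈ (Ioc ⌊y⌋₊ ⌊x⌋₊).filter Nat.Prime, (1 : ℝ) / p =
      ∑ k ∈ Ioc ⌊y⌋₊ ⌊x⌋₊, (Real.log k)⁻¹ * c k := by
    rw [sum_filter]
    refine sum_congr rfl fun n _ => ?_
    simp only [hc]
    split_ifs with h
    · have : Real.log n ≠ 0 := (Real.log_pos (by exact_mod_cast h.one_lt)).ne'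
      field_simp
    · simp
  rw [← intervalIntegral.integral_of_le hyx] at abel
  have huI : Set.uIcc y x = Set.Icc y x := Set.uIcc_of_le hyx
  have e2 : ∫ t in y..x, deriv (fun u => (Real.log u)⁻¹) t * ∑ k ∈ Icc 0 ⌊t⌋₊, c k =
      ∫ t in y..x, (-(t⁻¹) / Real.log t ^ 2) * S t :=
    intervalIntegral.integral_congr fun t ht => by
      rw [huI] at ht
      simp only [(hder t ht).deriv, hS]
  have iS : IntervalIntegrable (fun t => (-(t⁻¹) / Real.log t ^ 2) * S t) MeasureTheory.volume y x := by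
    rw [intervalIntegrable_iff_integrableOn_Icc_of_le hyx]
    exact integrableOn_mul_sum_Icc c (by linarith) hcont.integrableOn_Icc
  have hcl : ContinuousOn (fun t : ℝ => (-(t⁻¹) / Real.log t ^ 2) * Real.log t) (Set.Icc y x) :=
    hcont.mul (Real.continuousOn_log.mono fun t ht => by
      have : t ≠ 0 := by linarith [ht.1]
      simpa using this)
  have iL : IntervalIntegrable (fun t => (-(t⁻¹) / Real.log t ^ 2) * Real.log t)
      MeasureTheory.volume y x := (huI ▸ hcl).intervalIntegrable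
  have i0 : IntervalIntegrable (fun t => -(t⁻¹) / Real.log t ^ 2)
      MeasureTheory.volume y x := (huI ▸ hcont).intervalIntegrable
  have e3 : ∫ t in y..x, (-(t⁻¹) / Real.log t ^ 2) * Real.log t =
      -Real.log (Real.log x) - -Real.log (Real.log y) := by
    refine intervalIntegral.integral_eq_sub_of_hasDerivAt
      (f := fun t => -Real.log (Real.log t)) (fun t ht => ?_) iL
    rw [huI] at ht
    have h1 : t ≠ 0 := by linarith [ht.1]
    have h2 := (hlog t ht).ne'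
    have e : -t⁻¹ / Real.log t ^ 2 * Real.log t = -(t⁻¹ / Real.log t) := by field_simp
    rw [e]
    exact ((Real.hasDerivAt_log h1).log h2).neg
  have e4 : ∫ t in y..x, -(t⁻¹) / Real.log t ^ 2 = (Real.log x)⁻¹ - (Real.log y)⁻¹ :=
    intervalIntegral.integral_eq_sub_of_hasDerivAt (fun t ht => hder t (huI ▸ ht)) i0
  have e5 : |(∫ t in y..x, (-(t⁻¹) / Real.log t ^ 2) * S t) -
      ∫ t in y..x, (-(t⁻¹) / Real.log t ^ 2) * Real.log t| ≤
      C * ((Real.log y)⁻¹ - (Real.log x)⁻¹) := by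
    rw [← intervalIntegral.integral_sub iS iL]
    have := intervalIntegral.norm_integral_le_of_norm_le (μ := MeasureTheory.volume) hyx
      (f := fun t => (-(t⁻¹) / Real.log t ^ 2) * S t - (-(t⁻¹) / Real.log t ^ 2) * Real.log t)
      (g := fun t => -C * (-(t⁻¹) / Real.log t ^ 2))
      (Eventually.of_forall fun t ht => by
        have h1 : 0 < t := by linarith [ht.1]
        have h2 := hSR t (by linarith [ht.1])
        rw [← mul_sub, Real.norm_eq_abs, abs_mul, neg_div, abs_neg, abs_of_nonneg (by positivity)]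
        calc _ ≤ t⁻¹ / Real.log t ^ 2 * C := mul_le_mul_of_nonneg_left h2 (by positivity)
          _ = _ := by ring) (i0.const_mul _)
    rw [intervalIntegral.integral_const_mul, e4, Real.norm_eq_abs] at this
    linarith
  have hly : 0 < Real.log y := hlog y ⟨le_rfl, hyx⟩
  have hlx : 0 < Real.log x := hlog x ⟨hyx, le_rfl⟩
  have hlyx : (Real.log x)⁻¹ ≤ (Real.log y)⁻¹ :=
    inv_anti₀ hly (Real.log_le_log (by linarith) hyx)
  have b1 : |(Real.log x)⁻¹ * S x - 1| ≤ C * (Real.log y)⁻¹ := by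
    have : (Real.log x)⁻¹ * S x - 1 = (Real.log x)⁻¹ * (S x - Real.log x) := by field_simp
    rw [this, abs_mul, abs_of_pos (inv_pos.2 hlx), mul_comm]
    exact mul_le_mul (hSR x (by linarith)) hlyx (inv_pos.2 hlx).le hC0
  have b2 : |(Real.log y)⁻¹ * S y - 1| ≤ C * (Real.log y)⁻¹ := by
    have : (Real.log y)⁻¹ * S y - 1 = (Real.log y)⁻¹ * (S y - Real.log y) := by field_simp
    rw [this, abs_mul, abs_of_pos (inv_pos.2 hly), mul_comm]
    exact mul_le_mul_of_nonneg_right (hSR y (by linarith)) (inv_pos.2 hly).le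
  rw [e1, abel, e2, div_eq_mul_inv]
  rw [e3] at e5
  have hi : 0 < (Real.log y)⁻¹ := inv_pos.2 hly
  have hix : 0 ≤ C * (Real.log x)⁻¹ := by positivity
  rw [abs_le] at e5 b1 b2 ⊢
  change _ ≤ (Real.log x)⁻¹ * S x - (Real.log y)⁻¹ * S y - _ - _ ∧
    (Real.log x)⁻¹ * S x - (Real.log y)⁻¹ * S y - _ - _ ≤ _
  constructor <;> nlinarith [e5.1, e5.2, b1.1, b1.2, b2.1, b2.2]

private theorem mert_EE : ∃ C : ℝ, 0 < C ∧ ∀ α β : ℝ, 0 ≤ α → α ≤ β →
    |∑ p ∈ (Ioc ⌊EE α⌋₊ ⌊EE β⌋₊).filter Nat.Prime, (1 : ℝ) / p - (β - α)| ≤ C * Real.exp (-α) := by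
  obtain ⟨C, hC0, hC⟩ := mertens_interval
  refine ⟨C, hC0, fun α β hα hαβ => ?_⟩
  have h2 : 2 ≤ EE α := by
    have h1 : 1 ≤ Real.exp α := Real.one_le_exp hα
    have := Real.add_one_le_exp (Real.exp α)
    unfold EE; linarith
  have := hC (EE α) (EE β) h2 (EE_mono hαβ)
  rwa [log_EE, log_EE, Real.log_exp, Real.log_exp, div_eq_mul_inv, ← Real.exp_neg] at this

private theorem mem_mert {α β : ℝ} (hα : 0 ≤ α) (hβ : 0 ≤ β) {p : ℕ} :
    p ∈ (Ioc ⌊EE α⌋₊ ⌊EE β⌋₊).filter Nat.Prime ↔ p.Prime ∧ α < ell p ∧ ell p ≤ β := by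
  rw [mem_filter, mem_Ioc, Nat.floor_lt (EE_pos α).le, Nat.le_floor_iff (EE_pos β).le,
    lt_ell_iff hα, ell_le_iff hβ]
  tauto

private theorem recBd_Ioc : ∃ C : ℝ, 0 < C ∧ ∀ α β : ℝ, 0 ≤ α → α ≤ β →
    RecBd {p | p.Prime ∧ α < ell p ∧ ell p ≤ β} (β - α + C * Real.exp (-α)) := by
  obtain ⟨C, hC0, hC⟩ := mert_EE
  refine ⟨C, hC0, fun α β hα hαβ => ?_⟩
  refine (SumBd.of_finset ((Ioc ⌊EE α⌋₊ ⌊EE β⌋₊).filter Nat.Prime) (fun p hp => ?_)
    (fun a _ => by positivity)).mono_bd ?_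
  · exact mem_coe.2 ((mem_mert hα (hα.trans hαβ)).2 hp)
  · have := (abs_le.1 (hC α β hα hαβ)).2
    linarith

/-- Window version: `win p = n ≥ 1` means `EE (n-1) < p ≤ EE n`; `log (EE (n-1)) = exp (n-1)`. -/
theorem recBd_win : ∃ C : ℝ, 0 < C ∧ ∀ n : ℕ, 1 ≤ n →
    RecBd {p | p.Prime ∧ win p = n} (1 + C * Real.exp (-(n : ℝ))) := by
  obtain ⟨C, hC0, hC⟩ := recBd_Ioc
  refine ⟨C * Real.exp 1, by positivity, fun n hn => ?_⟩
  obtain ⟨m, rfl⟩ : ∃ m, n = m + 1 := ⟨n - 1, by omega⟩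
  refine ((hC m (m + 1) (Nat.cast_nonneg m) (by linarith)).mono_set ?_).mono_bd (le_of_eq ?_)
  · rintro p ⟨hp, hw⟩
    refine ⟨hp, lt_win_iff.1 (by omega), ?_⟩
    have := win_le_iff.1 hw.le
    exact_mod_cast this
  · rw [mul_assoc, ← Real.exp_add]
    push_cast
    ring_nf

private theorem sumBd_inv_mul_pred' {Z : ℝ} (hZ : 1 ≤ Z) :
    SumBd {n : ℕ | Z < n} (fun n => 1 / ((n : ℝ) * ((n : ℝ) - 1))) (2 / Z) := by
  intro S hS
  have hm : 1 ≤ ⌊Z⌋₊ := Nat.le_floor (by simpa using hZ)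
  have hm1 : (1 : ℝ) ≤ ⌊Z⌋₊ := by exact_mod_cast hm
  have tel : ∀ M : ℕ, ∑ n ∈ Ioc ⌊Z⌋₊ (⌊Z⌋₊ + M), 1 / ((n : ℝ) * ((n : ℝ) - 1)) =
      1 / (⌊Z⌋₊ : ℝ) - 1 / ((⌊Z⌋₊ : ℝ) + M) := by
    intro M
    induction M with
    | zero => simp
    | succ M ih =>
      rw [← add_assoc, sum_Ioc_succ_top (Nat.le_add_right _ _), ih]
      have : (0 : ℝ) ≤ M := Nat.cast_nonneg M
      push_cast
      rw [add_sub_cancel_right]
      field_simp
      ring
  have hsub : S ⊆ Ioc ⌊Z⌋₊ (⌊Z⌋₊ + S.sup id) := by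
    intro n hn
    have h1 : Z < n := hS hn
    exact mem_Ioc.2 ⟨(Nat.floor_lt (by linarith)).2 h1,
      (le_sup (f := id) hn).trans (Nat.le_add_left _ _)⟩
  refine (sum_le_sum_of_subset_of_nonneg hsub fun n hn _ => ?_).trans ?_
  · have : (1 : ℝ) ≤ n := by exact_mod_cast hm.trans (mem_Ioc.1 hn).1.le
    have : (0 : ℝ) ≤ n - 1 := by linarith
    positivity
  · rw [tel]
    have h1 : (0 : ℝ) ≤ 1 / ((⌊Z⌋₊ : ℝ) + (S.sup id : ℕ)) := by positivity
    have h2 : 1 / (⌊Z⌋₊ : ℝ) ≤ 2 / Z := by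
      rw [div_le_div_iff₀ (by linarith) (by linarith)]
      have := Nat.lt_floor_add_one Z
      linarith
    linarith

private theorem ell_lt_of_prime {p q : ℕ} (hp : p.Prime) (h : p < q) : ell p < ell q := by
  have h2 := hp.two_le
  rcases h2.eq_or_lt with h2 | h2
  · rw [ell_of_le_two h2.ge]; exact ell_pos (by omega)
  · rw [ell_of_three_le h2, ell_of_three_le (by omega)]
    have : (1 : ℝ) < p := by exact_mod_cast hp.one_lt
    exact Real.log_lt_log (Real.log_pos this) (Real.log_lt_log (by linarith) (by exact_mod_cast h))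

private theorem recBd_Icc : ∃ C : ℝ, 0 < C ∧ ∀ α β : ℝ, α ≤ β →
    RecBd {p | p.Prime ∧ α ≤ ell p ∧ ell p ≤ β} (β - α + C) := by
  obtain ⟨C, hC0, hC⟩ := recBd_Ioc
  refine ⟨C + 1, by linarith, fun α β hαβ => ?_⟩
  rcases lt_or_ge β 0 with hβ | hβ
  · refine (SumBd.empty _ (by linarith)).mono_set ?_
    rintro p ⟨-, -, h⟩
    linarith [ell_nonneg p]
  have h1 := hC (max α 0) β (le_max_right _ _) (max_le hαβ hβ)
  have h2 : RecBd {p | p.Prime ∧ ell p = max α 0} 1 := by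
    refine SumBd.of_subsingleton ?_ zero_le_one ?_
    · rintro p ⟨hp, hp'⟩ q ⟨hq, hq'⟩
      rcases lt_trichotomy p q with h | h | h
      · have := ell_lt_of_prime hp h; linarith
      · exact h
      · have := ell_lt_of_prime hq h; linarith
    · rintro p ⟨hp, -⟩
      exact div_le_one_of_le₀ (by exact_mod_cast hp.one_le) (Nat.cast_nonneg p)
  refine ((h1.union h2).mono_set ?_).mono_bd ?_
  · rintro p ⟨hp, ha, hb⟩
    rcases (max_le ha (ell_nonneg p)).eq_or_lt with h | h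
    · exact Or.inr ⟨hp, h.symm⟩
    · exact Or.inl ⟨hp, h, hb⟩
  · have h3 : Real.exp (-max α 0) ≤ 1 := Real.exp_le_one_iff.2 (by simp)
    have h4 := le_max_left α 0
    nlinarith

private theorem one_div_le_wq {p : ℕ} (hp : p.Prime) : (1 : ℝ) / p ≤ wq p :=
  one_div_le_one_div_of_le (by exact_mod_cast Nat.totient_pos.2 hp.pos)
    (by exact_mod_cast Nat.totient_le p)

private theorem sumBd_pow {p : ℕ} (hp : p.Prime) :
    SumBd {Q : ℕ | IsPrimePow Q ∧ gpf Q = p} wq (1 / (p : ℝ) + 3 * (1 / ((p : ℝ) * ((p : ℝ) - 1)))) := by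
  have h2 : (2 : ℝ) ≤ p := by exact_mod_cast hp.two_le
  have hp1 : (0 : ℝ) < p - 1 := by linarith
  have hp0 : (0 : ℝ) < p := by linarith
  have hr : (p : ℝ)⁻¹ < 1 := inv_lt_one_of_one_lt₀ (by linarith)
  have hg : SumBd (Set.univ : Set ℕ) (fun e => ((p : ℝ)⁻¹) ^ e) (1 - (p : ℝ)⁻¹)⁻¹ := by
    intro S _
    rw [← tsum_geometric_of_lt_one (by positivity) hr]
    exact (summable_geometric_of_lt_one (by positivity) hr).sum_le_tsum S fun _ _ => by positivity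
  refine ((hg.mul_const (c := ((p : ℝ) - 1)⁻¹) (by positivity)).of_map (fun e => p ^ (e + 1))
    ?_).mono_bd ?_
  · rintro Q ⟨hQ, hg⟩
    obtain ⟨q, k, hq, hk, rfl⟩ := (isPrimePow_nat_iff _).1 hQ
    rw [gpf_prime_pow hq hk] at hg
    subst hg
    obtain ⟨e, rfl⟩ : ∃ e, k = e + 1 := ⟨k - 1, by omega⟩
    refine ⟨e, trivial, rfl, le_of_eq ?_⟩
    rw [wq, Nat.totient_prime_pow_succ hq]
    push_cast [Nat.cast_sub hq.one_le]
    rw [one_div, mul_inv, inv_pow]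
  · have e : (1 - (p : ℝ)⁻¹)⁻¹ * ((p : ℝ) - 1)⁻¹ = p / (p - 1) ^ 2 := by field_simp
    have e' : 1 / (p : ℝ) + 3 * (1 / ((p : ℝ) * ((p : ℝ) - 1))) = (p + 2) / (p * (p - 1)) := by
      field_simp; ring
    rw [e, e', div_le_div_iff₀ (by positivity) (by positivity)]
    nlinarith [mul_nonneg hp1.le (sub_nonneg.2 h2)]

/-- Upper bound: `Q = 1` contributes `1`; for a prime `p`, `∑_{e ≥ 1} 1/φ(p^e) = p/(p-1)² ≤
1/p + 8/p²`; the primes with `α ≤ ell p ≤ β` other than `2` and a possible `p = EE α` lie in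
`(EE α', EE β]`, `α' = max α 0` (if `β < 0` the set is empty).
Lower bound: `wq p ≥ 1/p` and the primes of `(EE α, EE β]` lie in `T`. -/
theorem exists_eta : ∃ η : ℝ, 1 ≤ η ∧ MertU η ∧ MertL η := by
  obtain ⟨C, hC0, hC⟩ := recBd_Icc
  obtain ⟨C', hC0', hC'⟩ := mert_EE
  refine ⟨C + C' + 7, by linarith, fun α β hαβ => ?_, fun α β hα hαβ T hT => ?_⟩
  · have h1 : SumBd {p : ℕ | p.Prime ∧ α ≤ ell p ∧ ell p ≤ β}
        (fun p => 1 / (p : ℝ) + 3 * (1 / ((p : ℝ) * ((p : ℝ) - 1)))) (β - α + C + 3 * (2 / 1)) := by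
      intro S hS
      rw [sum_add_distrib, ← mul_sum]
      refine add_le_add (hC α β hαβ S hS) (mul_le_mul_of_nonneg_left
        (sumBd_inv_mul_pred' le_rfl S fun p hp => ?_) (by norm_num))
      exact_mod_cast (hS hp).1.one_lt
    have h2 : SumBd {Q : ℕ | IsPrimePow Q ∧ α ≤ hq Q ∧ hq Q ≤ β} wq (β - α + C + 3 * (2 / 1)) := by
      refine SumBd.fiber gpf ?_ ?_ h1
      · rintro Q ⟨hQ, ha, hb⟩
        exact ⟨gpf_prime hQ.one_lt, ha, hb⟩
      · rintro p ⟨hp, -, -⟩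
        exact (sumBd_pow hp).mono_set fun Q hQ => ⟨hQ.1.1, hQ.2⟩
    have h3 : SumBd ({1} : Set ℕ) wq 1 :=
      SumBd.of_subsingleton Set.subsingleton_singleton zero_le_one fun a _ => wq_le_one a
    refine ((h3.union h2).mono_set ?_).mono_bd (by linarith)
    rintro Q ⟨hQ | hQ, ha, hb⟩
    · exact Or.inl hQ
    · exact Or.inr ⟨hQ, ha, hb⟩
  · have h1 := (abs_le.1 (hC' α β hα hαβ)).1
    have h3 : Real.exp (-α) ≤ 1 := Real.exp_le_one_iff.2 (by linarith)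
    have h2 : ∑ p ∈ (Ioc ⌊EE α⌋₊ ⌊EE β⌋₊).filter Nat.Prime, (1 : ℝ) / p ≤ ∑ p ∈ T, wq p := by
      refine (sum_le_sum fun p hp => one_div_le_wq (mem_filter.1 hp).2).trans
        (sum_le_sum_of_subset_of_nonneg (fun p hp => ?_) fun p _ _ => wq_nonneg p)
      obtain ⟨h1, h2, h3⟩ := (mem_mert hα (hα.trans hαβ)).1 hp
      exact hT p h1 h2.le h3
    nlinarith

/-- The Mertens constant used everywhere. -/
def eta : ℝ := Classical.choose exists_eta

theorem one_le_eta : 1 ≤ eta := (Classical.choose_spec exists_eta).1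

theorem mertU : MertU eta := (Classical.choose_spec exists_eta).2.1

theorem mertL : MertL eta := (Classical.choose_spec exists_eta).2.2

theorem sumBd_wq_le {Y : ℝ} (hY : 0 ≤ Y) : SumBd {Q : ℕ | IsPP Q ∧ hq Q ≤ Y} wq (Y + eta) := by
  have := mertU 0 Y hY
  rw [sub_zero] at this
  exact this.mono_set fun Q hQ => ⟨hQ.1, hq_nonneg Q, hQ.2⟩

theorem recBd_primes_le {Y : ℝ} (hY : 0 ≤ Y) : RecBd {p | p.Prime ∧ ell p ≤ Y} (Y + eta) := by
  refine ((sumBd_wq_le hY).mono_set ?_).mono_fun fun p hp => one_div_le_wq hp.1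
  rintro p ⟨hp, h⟩
  exact ⟨IsPP.of_prime hp, by rwa [hq_of_prime hp]⟩

theorem le_sum_inv_primes : ∃ C : ℝ, 0 < C ∧ ∀ Y : ℝ, 0 ≤ Y → ∀ T : Finset ℕ,
    (∀ p : ℕ, p.Prime → ell p ≤ Y → p ∈ T) → Y - C ≤ ∑ p ∈ T, (1 : ℝ) / p := by
  obtain ⟨C, hC0, hC⟩ := mert_EE
  refine ⟨C, hC0, fun Y hY T hT => ?_⟩
  have h1 := (abs_le.1 (hC 0 Y le_rfl hY)).1
  rw [neg_zero, Real.exp_zero] at h1
  have h2 : ∑ p ∈ (Ioc ⌊EE 0⌋₊ ⌊EE Y⌋₊).filter Nat.Prime, (1 : ℝ) / p ≤ ∑ p ∈ T, (1 : ℝ) / p := by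
    refine sum_le_sum_of_subset_of_nonneg (fun p hp => ?_) fun p _ _ => by positivity
    obtain ⟨h1, -, h3⟩ := (mem_mert le_rfl hY).1 hp
    exact hT p h1 h3
  linarith

/-- `∑_{p ∣ Δ} 1/p ≤ log log log Δ + O(1)`: the primes `≤ exp (2Y)` have `ell p ≤ log (2Y)`; there are
at most `log Δ / log 2` others, each contributing `≤ exp (-2Y)`. -/
theorem recBd_prime_dvd : ∃ C : ℝ, 0 < C ∧ ∀ Y : ℝ, 1 ≤ Y → ∀ Δ : ℕ, 0 < Δ →
    Real.log Δ ≤ Real.exp (2 * Y) → RecBd {p | p.Prime ∧ p ∣ Δ} (Real.log Y + C) := by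
  have hl2 := Real.log_two_gt_d9
  have hl2' := Real.log_two_lt_d9
  refine ⟨eta + 3, by linarith [one_le_eta], fun Y hY Δ hΔ hlog => ?_⟩
  have hL : 0 ≤ Real.log (2 * Y) := Real.log_nonneg (by linarith)
  have h1 := recBd_primes_le hL
  have h2 : RecBd {p | p.Prime ∧ p ∣ Δ ∧ Real.log (2 * Y) < ell p}
      (Δ.primeFactors.card * (Real.exp (2 * Y))⁻¹) := by
    refine SumBd.of_card Δ.primeFactors ?_ (by positivity) ?_
    · rintro p ⟨hp, hd, -⟩
      exact mem_coe.2 (Nat.mem_primeFactors.2 ⟨hp, hd, hΔ.ne'⟩)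
    · rintro p ⟨-, -, h⟩
      rw [lt_ell_iff hL, EE, Real.exp_log (by linarith)] at h
      rw [one_div]
      exact inv_anti₀ (Real.exp_pos _) h.le
  have h3 : 2 ^ Δ.primeFactors.card ≤ Δ :=
    (Finset.pow_card_le_prod Δ.primeFactors (fun p => p) 2
      fun p hp => (Nat.prime_of_mem_primeFactors hp).two_le).trans
      (Nat.le_of_dvd hΔ (Nat.prod_primeFactors_dvd Δ))
  have h4 : Δ.primeFactors.card * Real.log 2 ≤ Real.exp (2 * Y) := by
    rw [← Real.log_pow]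
    exact (Real.log_le_log (by positivity) (by exact_mod_cast h3)).trans hlog
  have h5 : Δ.primeFactors.card * (Real.exp (2 * Y))⁻¹ ≤ 2 := by
    rw [← div_eq_mul_inv, div_le_iff₀ (Real.exp_pos _)]
    have : (0 : ℝ) ≤ Δ.primeFactors.card := Nat.cast_nonneg _
    nlinarith
  refine ((h1.union h2).mono_set ?_).mono_bd ?_
  · rintro p ⟨hp, hd⟩
    rcases le_or_gt (ell p) (Real.log (2 * Y)) with h | h
    · exact Or.inl ⟨hp, h⟩
    · exact Or.inr ⟨hp, hd, h⟩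
  · rw [Real.log_mul (by norm_num) (by linarith)]
    linarith

/-- Telescoping tail `∑_{n > Z} 1/(n(n-1)) ≤ 1/⌊Z⌋ ≤ 2/Z`. -/
theorem sumBd_inv_mul_pred {Z : ℝ} (hZ : 1 ≤ Z) :
    SumBd {n : ℕ | Z < n} (fun n => 1 / ((n : ℝ) * ((n : ℝ) - 1))) (2 / Z) :=
  sumBd_inv_mul_pred' hZ

end Crest.Agent.R20
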