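import Crest.Agent.R20.Coef
import Crest.Agent.R20.Mertens

/-!
# R20: elementary estimates in a context `X` (`B = X.B m t = t m (θ^m)^10`, `θ^10 ρ = 1`)
-/

set_option autoImplicit false

open Finset Filter Topology
open Crest.NumberTheoryR.TotientScale

noncomputable section

namespace Crest.Agent.R20

variable (X : Ctx)

theorem Ctx.θ_pos : 0 < X.θ := lt_trans one_pos X.θ_gt

theorem Ctx.one_le_pow (J : ℕ) : 1 ≤ X.θ ^ J := one_le_pow₀ X.θ_gt.le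

theorem Ctx.pow_mul_rho (J : ℕ) : (X.θ ^ J) ^ 10 * X.ρ ^ J = 1 := by
  rw [← pow_mul, mul_comm J 10, pow_mul, ← mul_pow, X.θρ, one_pow]

/-- A convergent positive sequence with positive limit is bounded above and away from `0`. -/
theorem Ctx.g_bounds : ∃ γ₁ γ₂ : ℝ, 0 < γ₁ ∧ 0 < γ₂ ∧ ∀ l : ℕ,
    γ₁ * (X.θ ^ l) ^ 10 ≤ gSeq l ∧ gSeq l ≤ γ₂ * (X.θ ^ l) ^ 10 := by
  have hu : ∀ l : ℕ, 0 < gSeq l * X.ρ ^ l := fun l => mul_pos (gSeq_pos l) (pow_pos X.ρ_pos l)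
  obtain ⟨M, hM⟩ := X.hγ.bddAbove_range
  obtain ⟨M', hM'⟩ := (X.hγ.inv₀ X.γ_pos.ne').bddAbove_range
  have h1 : ∀ l : ℕ, gSeq l * X.ρ ^ l ≤ M := fun l => hM ⟨l, rfl⟩
  have h2 : ∀ l : ℕ, (gSeq l * X.ρ ^ l)⁻¹ ≤ M' := fun l => hM' ⟨l, rfl⟩
  have hM0 : 0 < M' := (inv_pos.2 (hu 0)).trans_le (h2 0)
  refine ⟨M'⁻¹, M, inv_pos.2 hM0, (hu 0).trans_le (h1 0), fun l => ?_⟩
  have e : gSeq l = gSeq l * X.ρ ^ l * (X.θ ^ l) ^ 10 := by
    rw [mul_assoc, mul_comm (X.ρ ^ l), X.pow_mul_rho, mul_one]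
  have hp : 0 ≤ (X.θ ^ l) ^ 10 := by positivity
  constructor
  · conv_rhs => rw [e]
    exact mul_le_mul_of_nonneg_right (inv_le_of_inv_le₀ (hu l) (h2 l)) hp
  · conv_lhs => rw [e]
    exact mul_le_mul_of_nonneg_right (h1 l) hp

theorem Ctx.sum_a_rho_le (n : ℕ) : ∑ i ∈ Icc 1 n, aCoef i * X.ρ ^ i ≤ 1 := by
  have e : ∑ i ∈ Icc 1 n, aCoef i * X.ρ ^ i = ∑ j ∈ range n, aCoef (j + 1) * X.ρ ^ (j + 1) := by
    rw [range_eq_Ico, sum_Ico_add' (fun i => aCoef i * X.ρ ^ i), zero_add, Ico_add_one_right_eq_Icc]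
  rw [e]
  exact sum_le_hasSum _ (fun j _ => mul_nonneg (aCoef_pos (by omega)).le (pow_pos X.ρ_pos _).le)
    X.hsum

/-- `∑_{i=1}^{n} a_i Y_{J-i} = Y_J ∑ a_i ρ^i θ^{-i} ≤ Y_J/θ`. -/
theorem Ctx.sum_a_Y_le {n J : ℕ} (h : n ≤ J) :
    ∑ i ∈ Icc 1 n, aCoef i * (X.θ ^ (J - i)) ^ 11 ≤ (X.θ ^ J) ^ 11 / X.θ := by
  have hθ := X.θ_pos
  calc _ ≤ ∑ i ∈ Icc 1 n, aCoef i * X.ρ ^ i * ((X.θ ^ J) ^ 11 / X.θ) := by
        refine sum_le_sum fun i hi => ?_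
        obtain ⟨hi1, hin⟩ := mem_Icc.1 hi
        rw [mul_assoc]
        refine mul_le_mul_of_nonneg_left ?_ (aCoef_pos hi1).le
        have e : X.θ ^ J = X.θ ^ (J - i) * X.θ ^ i := by rw [← pow_add]; congr 1; omega
        have h2 : X.θ ≤ X.θ ^ i := le_self_pow₀ X.θ_gt.le (by omega)
        rw [← mul_div_assoc, le_div_iff₀ hθ, e]
        calc (X.θ ^ (J - i)) ^ 11 * X.θ ≤ (X.θ ^ (J - i)) ^ 11 * X.θ ^ i := by gcongr
          _ = (X.θ ^ (J - i)) ^ 11 * X.θ ^ i * ((X.θ ^ i) ^ 10 * X.ρ ^ i) := by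
            rw [X.pow_mul_rho, mul_one]
          _ = _ := by ring
    _ ≤ 1 * ((X.θ ^ J) ^ 11 / X.θ) := by
        rw [← sum_mul]; exact mul_le_mul_of_nonneg_right (X.sum_a_rho_le n) (by positivity)
    _ = _ := one_mul _

theorem Ctx.eventually_pow (U₀ : ℝ) :
    ∃ J₀ : ℕ, ∀ J : ℕ, J₀ ≤ J → U₀ ≤ X.θ ^ J ∧ (J : ℝ) ^ 4 ≤ X.θ ^ J := by
  have h1 := (tendsto_pow_atTop_atTop_of_one_lt X.θ_gt).eventually_ge_atTop U₀
  have h2 := (tendsto_pow_const_div_const_pow_of_one_lt 4 X.θ_gt).eventually_le_const one_pos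
  obtain ⟨J₀, hJ⟩ := eventually_atTop.1 (h1.and h2)
  exact ⟨J₀, fun J h => ⟨(hJ J h).1, (div_le_one (pow_pos X.θ_pos J)).1 (hJ J h).2⟩⟩

theorem Ctx.B_pos {m : ℕ} (hm : 1 ≤ m) {t : ℝ} (ht : t ∈ Set.Icc X.t₁ X.t₂) : 0 < X.B m t := by
  have h1 : 0 < t := X.t₁_pos.trans_le ht.1
  have h2 : (0 : ℝ) < m := Nat.cast_pos.2 hm
  have := X.θ_pos
  unfold Ctx.B
  positivity

theorem Ctx.B_bounds : ∀ᶠ m : ℕ in atTop, ∀ t ∈ Set.Icc X.t₁ X.t₂,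
    (X.θ ^ m) ^ 10 ≤ X.B m t ∧ X.B m t ≤ (X.θ ^ m) ^ 11 - 1 := by
  obtain ⟨J₀, hJ⟩ := X.eventually_pow 0
  filter_upwards [eventually_ge_atTop J₀, tendsto_natCast_atTop_atTop.eventually_ge_atTop (1 / X.t₁),
    tendsto_natCast_atTop_atTop.eventually_ge_atTop (X.t₂ + 1)] with m h1 h2 h3 t ht
  have ht1 := X.t₁_pos
  have ht2 : 0 < X.t₂ := ht1.trans_le X.t₁₂
  have hU := X.one_le_pow m
  have hU' : 1 ≤ (X.θ ^ m) ^ 10 := one_le_pow₀ hU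
  have hm : (1 : ℝ) ≤ m := by linarith
  rw [div_le_iff₀ ht1] at h2
  unfold Ctx.B
  constructor
  · exact le_mul_of_one_le_left (by linarith) (by nlinarith [ht.1])
  · have h4 : (m : ℝ) ^ 2 ≤ X.θ ^ m := (pow_le_pow_right₀ hm (by norm_num)).trans (hJ m h1).2
    have h5 : t * m + 1 ≤ X.θ ^ m := by nlinarith [ht.2]
    have h6 := mul_le_mul_of_nonneg_right h5 (by linarith : 0 ≤ (X.θ ^ m) ^ 10)
    rw [pow_succ' _ 10]
    linarith

/-- Transfer of an eventual property of `B`. -/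
theorem Ctx.eventually_B {P : ℝ → Prop} (h : ∀ᶠ B : ℝ in atTop, P B) :
    ∀ᶠ m : ℕ in atTop, ∀ t ∈ Set.Icc X.t₁ X.t₂, P (X.B m t) := by
  obtain ⟨B₀, hB⟩ := eventually_atTop.1 h
  obtain ⟨J₀, hJ⟩ := X.eventually_pow B₀
  filter_upwards [eventually_ge_atTop J₀, X.B_bounds] with m h1 h2 t ht
  exact hB _ ((hJ m h1).1.trans ((le_self_pow₀ (X.one_le_pow m) (by norm_num)).trans (h2 t ht).1))

/-- `g_l (δ_{m-l} + η) ≤ γ₂ (1 + η) θ^{10 m} θ^{-(m-l)}`; geometric sum. -/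
theorem Ctx.shift_le : ∃ C : ℝ, 0 < C ∧ ∀ m D : ℕ, D ≤ m →
    ∑ l ∈ range (D + 1), gSeq l * ((X.θ ^ (m - l)) ^ 9 + eta) ≤
      C * (X.θ ^ m) ^ 10 / X.θ ^ (m - D) := by
  obtain ⟨γ₁, γ₂, -, hγ, hg⟩ := X.g_bounds
  have hθ := X.θ_pos
  have hη := one_le_eta
  have hr : X.θ⁻¹ < 1 := inv_lt_one_of_one_lt₀ X.θ_gt
  have hr0 : 0 ≤ X.θ⁻¹ := by positivity
  have hc : 0 < (1 - X.θ⁻¹)⁻¹ := inv_pos.2 (sub_pos.2 hr)
  refine ⟨γ₂ * (1 + eta) * (1 - X.θ⁻¹)⁻¹, by positivity, fun m D hD => ?_⟩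
  calc _ ≤ ∑ l ∈ range (D + 1),
        γ₂ * (1 + eta) * (X.θ ^ m) ^ 10 / X.θ ^ (m - D) * X.θ⁻¹ ^ (D + 1 - 1 - l) := by
        refine sum_le_sum fun l hl => ?_
        have hl' := mem_range.1 hl
        have h1 : 1 ≤ (X.θ ^ (m - l)) ^ 9 := one_le_pow₀ (X.one_le_pow _)
        have e1 : X.θ ^ m = X.θ ^ l * X.θ ^ (m - l) := by rw [← pow_add]; congr 1; omega
        have e2 : X.θ ^ (m - l) = X.θ ^ (m - D) * X.θ ^ (D + 1 - 1 - l) := by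
          rw [← pow_add]; congr 1; omega
        calc gSeq l * ((X.θ ^ (m - l)) ^ 9 + eta)
            ≤ γ₂ * (X.θ ^ l) ^ 10 * ((X.θ ^ (m - l)) ^ 9 * (1 + eta)) :=
              mul_le_mul (hg l).2 (by nlinarith) (by positivity) (by positivity)
          _ = γ₂ * (1 + eta) * (X.θ ^ m) ^ 10 / X.θ ^ (m - l) := by
              rw [e1]; field_simp
          _ = _ := by rw [e2, inv_pow]; field_simp
    _ = γ₂ * (1 + eta) * (X.θ ^ m) ^ 10 / X.θ ^ (m - D) * ∑ l ∈ range (D + 1), X.θ⁻¹ ^ l := by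
        rw [← mul_sum, sum_range_reflect (fun l => X.θ⁻¹ ^ l)]
    _ ≤ γ₂ * (1 + eta) * (X.θ ^ m) ^ 10 / X.θ ^ (m - D) * (1 - X.θ⁻¹)⁻¹ :=
        mul_le_mul_of_nonneg_left (sum_le_hasSum _ (fun _ _ => pow_nonneg hr0 _)
          (hasSum_geometric_of_lt_one hr0 hr)) (by positivity)
    _ = _ := by ring

/-- `GG B (D+1) / GG B D = B/((D+1) g_{D+1}) ≥ (t₁/γ₂) θ^{10 (m-D-1)}`, which is `≥ 2` except for
boundedly many values of `m - D`. -/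
theorem Ctx.GG_le : ∃ C : ℝ, 0 < C ∧ ∀ m : ℕ, 1 ≤ m → ∀ t ∈ Set.Icc X.t₁ X.t₂, ∀ D ≤ m,
    GG (X.B m t) D ≤ C * (1 / 2) ^ (m - D) * GG (X.B m t) m := by
  obtain ⟨γ₁, γ₂, -, hγ, hg⟩ := X.g_bounds
  have hθ := X.θ_pos
  have ht1 := X.t₁_pos
  obtain ⟨J₀, hJ⟩ := X.eventually_pow (2 * γ₂ / X.t₁)
  set A : ℝ := max 1 (2 * γ₂ / X.t₁) with hA
  have hA1 : 1 ≤ A := le_max_left _ _
  refine ⟨A ^ J₀, by positivity, fun m hm t ht => ?_⟩
  have hB := X.B_pos hm ht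
  have step : ∀ D k : ℕ, D + 1 + k = m →
      2 * (X.θ ^ k) ^ 10 * GG (X.B m t) D ≤ 2 * γ₂ / X.t₁ * GG (X.B m t) (D + 1) := by
    intro D k hk
    have hG := GG_pos hB D
    have hgp := gSeq_pos (D + 1)
    rw [GG_succ, mul_comm (GG _ D), ← mul_assoc]
    refine mul_le_mul_of_nonneg_right ?_ hG.le
    rw [div_mul_div_comm, le_div_iff₀ (by positivity)]
    have e : X.θ ^ m = X.θ ^ (D + 1) * X.θ ^ k := by rw [← pow_add, hk]
    have hD : ((D : ℝ) + 1) ≤ m := by exact_mod_cast (by omega : D + 1 ≤ m)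
    calc 2 * (X.θ ^ k) ^ 10 * (X.t₁ * ((D + 1) * gSeq (D + 1)))
        ≤ 2 * (X.θ ^ k) ^ 10 * (t * (m * (γ₂ * (X.θ ^ (D + 1)) ^ 10))) := by
          have := ht1.le.trans ht.1
          gcongr
          exacts [ht.1, (hg _).2]
      _ = _ := by rw [Ctx.B, e]; ring
  have key : ∀ k ≤ m, GG (X.B m t) (m - k) ≤ A ^ min k J₀ * (1 / 2) ^ k * GG (X.B m t) m := by
    intro k
    induction k with
    | zero => simp
    | succ k ih =>
      intro hk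
      have h1 := ih (by omega)
      have h2 := step (m - (k + 1)) k (by omega)
      rw [show m - (k + 1) + 1 = m - k by omega] at h2
      have hG := GG_pos hB (m - (k + 1))
      have hG' := GG_pos hB (m - k)
      have hU : 1 ≤ (X.θ ^ k) ^ 10 := one_le_pow₀ (X.one_le_pow k)
      by_cases hkJ : k < J₀
      · rw [min_eq_left (by omega), pow_succ, pow_succ]
        rw [min_eq_left hkJ.le] at h1
        have h3 : 2 * γ₂ / X.t₁ * GG (X.B m t) (m - k) ≤ A * GG (X.B m t) (m - k) :=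
          mul_le_mul_of_nonneg_right (le_max_right _ _) hG'.le
        have h4 := mul_le_mul_of_nonneg_left h1 (by linarith : 0 ≤ A)
        nlinarith
      · rw [min_eq_right (by omega), pow_succ]
        rw [min_eq_right (by omega)] at h1
        have h3 : 2 * γ₂ / X.t₁ ≤ (X.θ ^ k) ^ 10 :=
          (hJ k (by omega)).1.trans (le_self_pow₀ (X.one_le_pow k) (by norm_num))
        have h4 := mul_le_mul_of_nonneg_right h3 hG'.le
        have h5 : 2 * GG (X.B m t) (m - (k + 1)) ≤ GG (X.B m t) (m - k) :=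
          le_of_mul_le_mul_left (by linarith) (by linarith : 0 < (X.θ ^ k) ^ 10)
        linarith
  intro D hD
  have h1 := key (m - D) (Nat.sub_le _ _)
  rw [Nat.sub_sub_self hD] at h1
  have hG := GG_pos hB m
  refine h1.trans ?_
  gcongr
  exact min_le_right _ _

/-- For `D + 1 > m/2`, `GG B (D+1)/GG B D ≤ (2 t₂/γ₁) θ^{10 (m-D-1)}`. -/
theorem Ctx.GG_ge : ∃ C : ℝ, 0 < C ∧ ∀ m k : ℕ, 1 ≤ m → 2 * k ≤ m → ∀ t ∈ Set.Icc X.t₁ X.t₂,
    Real.exp (-(C * ((k : ℝ) ^ 2 + 1))) * GG (X.B m t) m ≤ GG (X.B m t) (m - k) := by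
  obtain ⟨γ₁, γ₂, hγ, -, hg⟩ := X.g_bounds
  have hθ := X.θ_pos
  have ht2 : 0 < X.t₂ := X.t₁_pos.trans_le X.t₁₂
  set A : ℝ := 2 * X.t₂ / γ₁ with hA
  have hA0 : 0 < A := by positivity
  refine ⟨A + 5 * X.θ, by positivity, fun m k hm hk t ht => ?_⟩
  have hB := X.B_pos hm ht
  have key : ∀ j : ℕ, 2 * j ≤ m →
      GG (X.B m t) m ≤ Real.exp ((A + 5 * X.θ) * (j : ℝ) ^ 2) * GG (X.B m t) (m - j) := by
    intro j
    induction j with
    | zero => simp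
    | succ j ih =>
      intro hj
      refine (ih (by omega)).trans ?_
      obtain ⟨D, hD⟩ : ∃ D, m = D + 1 + j := ⟨m - (j + 1), by omega⟩
      rw [show m - j = D + 1 by omega, show m - (j + 1) = D by omega, GG_succ, mul_comm (GG _ D),
        ← mul_assoc]
      refine mul_le_mul_of_nonneg_right ?_ (GG_pos hB D).le
      have hgp := gSeq_pos (D + 1)
      have e : X.θ ^ m = X.θ ^ (D + 1) * X.θ ^ j := by rw [← pow_add, ← hD]
      have hD' : (m : ℝ) ≤ 2 * ((D : ℝ) + 1) := by exact_mod_cast (by omega : m ≤ 2 * (D + 1))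
      have h1 : X.B m t / ((D + 1) * gSeq (D + 1)) ≤ A * (X.θ ^ j) ^ 10 := by
        rw [div_le_iff₀ (by positivity)]
        calc X.B m t = t * m * ((X.θ ^ (D + 1)) ^ 10 * (X.θ ^ j) ^ 10) := by rw [Ctx.B, e, mul_pow]
          _ ≤ X.t₂ * (2 * ((D : ℝ) + 1)) * ((X.θ ^ (D + 1)) ^ 10 * (X.θ ^ j) ^ 10) := by
              gcongr; exact ht.2
          _ = A * (X.θ ^ j) ^ 10 * ((D + 1) * (γ₁ * (X.θ ^ (D + 1)) ^ 10)) := by
              rw [hA]; field_simp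
          _ ≤ _ := by gcongr; exact (hg _).1
      have h2 : A * (X.θ ^ j) ^ 10 ≤ Real.exp (A + 10 * j * X.θ) := by
        rw [Real.exp_add]
        refine mul_le_mul (by linarith [Real.add_one_le_exp A]) ?_ (by positivity) (by positivity)
        calc (X.θ ^ j) ^ 10 ≤ (Real.exp X.θ ^ j) ^ 10 := by
              gcongr; linarith [Real.add_one_le_exp X.θ]
          _ = _ := by rw [← pow_mul, ← Real.exp_nat_mul]; congr 1; push_cast; ring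
      refine (mul_le_mul_of_nonneg_left (h1.trans h2) (Real.exp_pos _).le).trans ?_
      rw [← Real.exp_add, Real.exp_le_exp]
      push_cast
      have : (0 : ℝ) ≤ j := Nat.cast_nonneg j
      nlinarith [mul_nonneg this hA0.le]
  refine (mul_le_mul_of_nonneg_left (key k hk) (Real.exp_pos _).le).trans ?_
  rw [← mul_assoc, ← Real.exp_add]
  refine mul_le_of_le_one_left (GG_pos hB _).le (Real.exp_le_one_iff.2 ?_)
  nlinarith

/-- From `GG_le` with `D = 0`. -/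
theorem Ctx.GG_large (M : ℝ) : ∀ᶠ m : ℕ in atTop, ∀ t ∈ Set.Icc X.t₁ X.t₂,
    M ≤ GG (X.B m t) m := by
  obtain ⟨C, hC, h⟩ := X.GG_le
  filter_upwards [eventually_ge_atTop 1,
    (tendsto_pow_atTop_atTop_of_one_lt (one_lt_two (α := ℝ))).eventually_ge_atTop (C * M)]
    with m hm h2 t ht
  have h1 := h m hm t ht 0 (Nat.zero_le _)
  rw [GG_zero, Nat.sub_zero, one_div, inv_pow, mul_right_comm, ← div_eq_mul_inv,
    le_div_iff₀ (by positivity), one_mul] at h1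
  exact le_of_mul_le_mul_left (h2.trans h1) hC

/-- Master numerical bound for simplex volumes: for an exponent `e` with `m/3 ≤ e ≤ m`,
`(B + C₁ θ^{10m} - S)_+^e ≤ B^e exp (C₁/t₁) exp (-S/(3 t₂ θ^{10 m}))` for `S ≥ 0`
(`pp_le_exp`). -/
theorem Ctx.pp_le {m e : ℕ} (hm : 1 ≤ m) (he : e ≤ m) (he' : m ≤ 3 * e) {t : ℝ}
    (ht : t ∈ Set.Icc X.t₁ X.t₂) {C₁ S : ℝ} (hC : 0 ≤ C₁) (hS : 0 ≤ S) :
    pp (X.B m t + C₁ * (X.θ ^ m) ^ 10 - S) e ≤
      X.B m t ^ e * Real.exp (C₁ / X.t₁) * Real.exp (-(S / (3 * X.t₂ * (X.θ ^ m) ^ 10))) := by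
  have hB := X.B_pos hm ht
  have ht1 := X.t₁_pos
  have ht0 : 0 < t := ht1.trans_le ht.1
  have ht2 : 0 < X.t₂ := ht1.trans_le X.t₁₂
  have hθ := X.θ_pos
  have hm' : (0 : ℝ) < m := Nat.cast_pos.2 hm
  have he1 : (e : ℝ) ≤ m := Nat.cast_le.2 he
  have he2 : (m : ℝ) ≤ 3 * e := by exact_mod_cast he'
  rw [add_sub_assoc, mul_assoc, ← Real.exp_add]
  refine (pp_le_exp hB _ e).trans (mul_le_mul_of_nonneg_left (Real.exp_le_exp.2 ?_) (by positivity))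
  rw [mul_sub, sub_div, ← sub_eq_add_neg]
  refine sub_le_sub ?_ ?_
  · rw [Ctx.B, div_le_div_iff₀ (by positivity) ht1]
    calc e * (C₁ * (X.θ ^ m) ^ 10) * X.t₁ ≤ m * (C₁ * (X.θ ^ m) ^ 10) * t := by
          gcongr; exact ht.1
      _ = _ := by ring
  · rw [Ctx.B, div_le_div_iff₀ (by positivity) (by positivity)]
    calc S * (t * m * (X.θ ^ m) ^ 10) ≤ S * (X.t₂ * (3 * e) * (X.θ ^ m) ^ 10) := by
          gcongr; exact ht.2
      _ = _ := by ring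

/-- Same without the saving, for any exponent `e ≤ m`. -/
theorem Ctx.pp_le' {m e : ℕ} (hm : 1 ≤ m) (he : e ≤ m) {t : ℝ}
    (ht : t ∈ Set.Icc X.t₁ X.t₂) {C₁ : ℝ} (hC : 0 ≤ C₁) :
    pp (X.B m t + C₁ * (X.θ ^ m) ^ 10) e ≤ X.B m t ^ e * Real.exp (C₁ / X.t₁) := by
  have hB := X.B_pos hm ht
  have ht1 := X.t₁_pos
  have ht0 : 0 < t := ht1.trans_le ht.1
  have hθ := X.θ_pos
  have hm' : (0 : ℝ) < m := Nat.cast_pos.2 hm
  have he1 : (e : ℝ) ≤ m := Nat.cast_le.2 he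
  refine (pp_le_exp hB _ e).trans (mul_le_mul_of_nonneg_left (Real.exp_le_exp.2 ?_) (by positivity))
  rw [Ctx.B, div_le_div_iff₀ (by positivity) ht1]
  calc e * (C₁ * (X.θ ^ m) ^ 10) * X.t₁ ≤ m * (C₁ * (X.θ ^ m) ^ 10) * t := by
        gcongr; exact ht.1
    _ = _ := by ring

end Crest.Agent.R20
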