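import Crest.Agent.R20.Simplex
import Crest.Agent.R20.GRatio

/-!
# R20: simplex events, part 1 (used for the upper bound)

Throughout `B = X.B m t`, `T = (θ^m)^10`, `gt = gSeq`, `α = astd` (`gSeq_rec_astd`, `GG_eq`).
By `X.shift_le`, `∑_{l ≤ D} g_l δ_{m-l} + η ∑_{1 ≤ l ≤ D} g_l ≤ C₁ T`; raising a lower limit `c l` by
`σ ≥ 0` subtracts `g_l σ ≥ γ₁ (θ^l)^10 σ` inside `pp`; `X.pp_le`, `X.pp_le'` convert this to
`B^e exp (C₁/t₁) exp (-γ₁ σ /(3 t₂ (θ^{m-l})^10))`.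
-/

set_option autoImplicit false

open Finset Filter Topology
open Crest.NumberTheoryR.TotientScale

noncomputable section

namespace Crest.Agent.R20

variable (X : Ctx)

/-- The argument of `pp` in the simplex bounds. -/
private def ev1A (B : ℝ) (c : ℕ → ℝ) (D : ℕ) : ℝ :=
  B - ∑ l ∈ range (D + 1), gSeq l * c l + eta * ∑ l ∈ Icc 1 D, gSeq l

private theorem ev1_upper (B : ℝ) (c : ℕ → ℝ) (D : ℕ) :
    SumBd {τ | Adm astd B c D τ} (wt D)
      (pp (ev1A B c D) D / ((D.factorial : ℝ) * ∏ l ∈ Icc 1 D, gSeq l)) :=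
  simplex_upper astd B gSeq D gSeq_zero (fun l _ => gSeq_pos l)
    (fun _ hl => (gSeq_rec_astd (mem_Icc.1 hl).1).le) c

private theorem ev1_den_pos (D : ℕ) : 0 < (D.factorial : ℝ) * ∏ l ∈ Icc 1 D, gSeq l :=
  mul_pos (by exact_mod_cast D.factorial_pos) (prod_pos fun l _ => gSeq_pos l)

private theorem ev1_upper' {B : ℝ} {c : ℕ → ℝ} {D : ℕ} {M : ℝ}
    (h : pp (ev1A B c D) D ≤ B ^ D * M) : SumBd {τ | Adm astd B c D τ} (wt D) (GG B D * M) := by
  refine (ev1_upper B c D).mono_bd ?_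
  rw [GG_eq, div_mul_eq_mul_div]
  exact div_le_div_of_nonneg_right h (ev1_den_pos D).le

private theorem ev1_flag {B : ℝ} (hB : 0 < B) {c : ℕ → ℝ} {D : ℕ} {M : ℝ}
    (hM : pp (ev1A B c D) (D - 1) ≤ B ^ (D - 1) * M) {j : ℕ} (hj : j ∈ Icc 1 D)
    (F : (ℕ → ℕ) → Prop) (hdep : ∀ τ τ' : ℕ → ℕ, (∀ l, j ≤ l → τ l = τ' l) → F τ → F τ') {h : ℝ}
    (hF : ∀ τ : ℕ → ℕ, SumBd {Q : ℕ | IsPP Q ∧ F (Function.update τ j Q)} wq h) :
    SumBd {τ | Adm astd B c D τ ∧ F τ} (wt D) (h * gSeq j * (D / B * (GG B D * M))) := by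
  have h0 : 0 ≤ h := (hF fun _ => 1).nonneg
  refine (simplex_flag astd B gSeq D gSeq_zero (fun l _ => gSeq_pos l)
    (fun _ hl => (gSeq_rec_astd (mem_Icc.1 hl).1).le) c hj F hdep hF).mono_bd ?_
  obtain ⟨e, rfl⟩ : ∃ e, D = e + 1 := ⟨D - 1, by have := mem_Icc.1 hj; omega⟩
  have hP : 0 < ∏ l ∈ (Icc 1 (e + 1)).erase j, gSeq l := prod_pos fun l _ => gSeq_pos l
  have hf : (0 : ℝ) < e.factorial := by exact_mod_cast e.factorial_pos
  have hg := gSeq_pos j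
  rw [Nat.add_sub_cancel] at hM ⊢
  refine (div_le_div_of_nonneg_right (mul_le_mul_of_nonneg_left hM h0) (mul_pos hf hP).le).trans
    (le_of_eq ?_)
  rw [GG_eq, ← Finset.mul_prod_erase _ _ hj, Nat.factorial_succ]
  push_cast
  field_simp
  ring

private theorem ev1_A_le {C₁ : ℝ} (hC : 0 ≤ C₁) (hC₁ : ∀ m D : ℕ, D ≤ m →
      ∑ l ∈ range (D + 1), gSeq l * ((X.θ ^ (m - l)) ^ 9 + eta) ≤
        C₁ * (X.θ ^ m) ^ 10 / X.θ ^ (m - D))
    {m D : ℕ} (hD : D ≤ m) (B : ℝ) (c : ℕ → ℝ) {S : ℝ}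
    (hS : S ≤ ∑ l ∈ range (D + 1), gSeq l * (c l + (X.θ ^ (m - l)) ^ 9)) :
    ev1A B c D ≤ B + C₁ * (X.θ ^ m) ^ 10 - S := by
  have h1 := hC₁ m D hD
  have h2 : C₁ * (X.θ ^ m) ^ 10 / X.θ ^ (m - D) ≤ C₁ * (X.θ ^ m) ^ 10 :=
    div_le_self (mul_nonneg hC (pow_nonneg (pow_nonneg X.θ_pos.le _) _)) (X.one_le_pow _)
  have h3 : ∑ l ∈ Icc 1 D, gSeq l ≤ ∑ l ∈ range (D + 1), gSeq l :=
    sum_le_sum_of_subset_of_nonneg (fun l hl => mem_range.2 (by have := mem_Icc.1 hl; omega))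
      fun l _ _ => (gSeq_pos l).le
  have h4 := mul_le_mul_of_nonneg_left h3 (zero_le_one.trans one_le_eta)
  simp only [mul_add, sum_add_distrib] at h1 hS
  rw [← sum_mul, mul_comm _ eta] at h1
  unfold ev1A
  linarith

private theorem ev1_term_nonneg {m D : ℕ} {σ : ℝ} (hσ : -(X.θ ^ (m - D)) ^ 9 ≤ σ) (l : ℕ) :
    0 ≤ gSeq l * (Function.update (X.cneg m) D σ l + (X.θ ^ (m - l)) ^ 9) := by
  refine mul_nonneg (gSeq_pos l).le ?_
  by_cases h : l = D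
  · subst h
    rw [Function.update_self]
    linarith
  · rw [Function.update_of_ne h, Ctx.cneg]
    linarith

private theorem ev1_pow_split {m D : ℕ} (hD : D ≤ m) :
    (X.θ ^ m) ^ 10 = (X.θ ^ D) ^ 10 * (X.θ ^ (m - D)) ^ 10 := by
  rw [← mul_pow, ← pow_add, Nat.add_sub_cancel' hD]

private theorem ev1_lin (a : ℝ) : ∃ J₀ : ℕ, 1 ≤ J₀ ∧ ∀ J : ℕ, J₀ ≤ J → a * J < X.θ ^ J := by
  obtain ⟨J₀, hJ₀⟩ := X.eventually_pow 0
  refine ⟨max (max J₀ 1) (⌈a⌉₊ + 1), le_max_of_le_left (le_max_right _ _), fun J hJ => ?_⟩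
  have h1 : (1 : ℝ) ≤ J := by exact_mod_cast (le_max_right J₀ 1).trans (le_of_max_le_left hJ)
  have h2 : (⌈a⌉₊ : ℝ) + 1 ≤ J := by exact_mod_cast le_of_max_le_right hJ
  have h3 := Nat.le_ceil a
  have h4 := (hJ₀ J ((le_max_left J₀ 1).trans (le_of_max_le_left hJ))).2
  calc a * J < J * J := mul_lt_mul_of_pos_right (by linarith) (by linarith)
    _ = (J : ℝ) ^ 2 := by ring
    _ ≤ (J : ℝ) ^ 4 := pow_le_pow_right₀ h1 (by norm_num)
    _ ≤ _ := h4

private theorem ev1_psl_congr (B : ℝ) (D : ℕ) {τ τ' : ℕ → ℕ} {j l : ℕ}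
    (h : ∀ i, j ≤ i → τ i = τ' i) (hl : j ≤ l ∨ (l = 0 ∧ j = 1)) :
    psl astd B D τ l = psl astd B D τ' l := by
  unfold psl yv
  congr 1
  · split_ifs with h0
    · rfl
    · rw [h l (by omega)]
  · exact sum_congr rfl fun i hi => by rw [h i (by have := mem_Ioc.1 hi; omega)]

private theorem ev1_psl_update (B : ℝ) (D : ℕ) (τ : ℕ → ℕ) {l : ℕ} (hl : 1 ≤ l) (Q : ℕ) :
    psl astd B D (Function.update τ l Q) l = hq Q - ∑ i ∈ Ioc l D, astd l i * hq (τ i) := by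
  unfold psl yv
  rw [if_neg (by omega), Function.update_self]
  congr 1
  exact sum_congr rfl fun i hi => by rw [Function.update_of_ne (by have := mem_Ioc.1 hi; omega)]

private theorem ev1_psl_zero (B : ℝ) {D : ℕ} (hD : 1 ≤ D) (τ : ℕ → ℕ) :
    psl astd B D τ 0 = B - (aCoef 1 * hq (τ 1) + ∑ i ∈ Ioc 1 D, aCoef i * hq (τ i)) := by
  unfold psl yv
  rw [if_pos rfl, ← Finset.sum_Ioc_consecutive _ zero_le_one hD,
    show Ioc 0 1 = ({1} : Finset ℕ) from by decide, sum_singleton]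
  simp [astd]

private theorem ev1_layer {B : ℝ} (hB : 0 < B) {m D l : ℕ} (hl : l < D) {σ M : ℝ} (hM0 : 0 ≤ M)
    (hM : pp (ev1A B (Function.update (X.cneg m) D σ) D) (D - 1) ≤ B ^ (D - 1) * M) :
    SumBd {τ | Adm astd B (Function.update (X.cneg m) D σ) D τ ∧
        psl astd B D τ l ≤ 2 * (X.θ ^ (m - l)) ^ 9} (wt D)
      (3 * (gSeq l * ((X.θ ^ (m - l)) ^ 9 + eta)) * (D / B * (GG B D * M))) := by
  set δ := (X.θ ^ (m - l)) ^ 9 with hδ
  have hδ0 : 0 ≤ δ := pow_nonneg (pow_nonneg X.θ_pos.le _) _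
  have hη : 0 ≤ eta := zero_le_one.trans one_le_eta
  have hK : 0 ≤ D / B * (GG B D * M) :=
    mul_nonneg (div_nonneg (Nat.cast_nonneg _) hB.le) (mul_nonneg (GG_pos hB D).le hM0)
  have hsub : {τ | Adm astd B (Function.update (X.cneg m) D σ) D τ ∧ psl astd B D τ l ≤ 2 * δ} ⊆
      {τ | Adm astd B (Function.update (X.cneg m) D σ) D τ ∧
        (-δ ≤ psl astd B D τ l ∧ psl astd B D τ l ≤ 2 * δ)} := by
    intro τ hτ
    refine ⟨hτ.1, ?_, hτ.2⟩
    have := hτ.1.2 l hl.le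
    rwa [Function.update_of_ne hl.ne] at this
  refine SumBd.mono_set ?_ hsub
  rcases Nat.eq_zero_or_pos l with rfl | hl0
  · have ha := aCoef_one_bounds
    have ha0 : 0 < aCoef 1 := by linarith [ha.1]
    refine (ev1_flag hB hM (j := 1) (mem_Icc.2 ⟨le_rfl, hl⟩)
      (fun τ => -δ ≤ psl astd B D τ 0 ∧ psl astd B D τ 0 ≤ 2 * δ)
      (fun τ τ' h hF => by rwa [← ev1_psl_congr B D h (Or.inr ⟨rfl, rfl⟩)])
      (h := 3 * δ / aCoef 1 + eta) fun τ => ?_).mono_bd ?_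
    · set R := ∑ i ∈ Ioc 1 D, aCoef i * hq (τ i) with hR
      refine ((mertU ((B - R - 2 * δ) / aCoef 1) ((B - R + δ) / aCoef 1)
        (div_le_div_of_nonneg_right (by linarith) ha0.le)).mono_set fun Q hQ => ?_).mono_bd
        (le_of_eq (by ring))
      have h1 := hQ.2
      have h2 : ∑ i ∈ Ioc 1 D, aCoef i * hq (Function.update τ 1 Q i) = R :=
        sum_congr rfl fun i hi => by
          rw [Function.update_of_ne (by have := mem_Ioc.1 hi; omega)]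
      rw [ev1_psl_zero B hl, Function.update_self, h2] at h1
      refine ⟨hQ.1, ?_, ?_⟩
      · rw [div_le_iff₀ ha0]; linarith [h1.2]
      · rw [le_div_iff₀ ha0]; linarith [h1.1]
    · refine mul_le_mul_of_nonneg_right ?_ hK
      rw [gSeq_one, gSeq_zero, add_mul, div_mul_cancel₀ _ ha0.ne']
      nlinarith [ha.2]
  · refine (ev1_flag hB hM (j := l) (mem_Icc.2 ⟨hl0, hl.le⟩)
      (fun τ => -δ ≤ psl astd B D τ l ∧ psl astd B D τ l ≤ 2 * δ)
      (fun τ τ' h hF => by rwa [← ev1_psl_congr B D h (Or.inl le_rfl)])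
      (h := 3 * δ + eta) fun τ => ?_).mono_bd ?_
    · set R := ∑ i ∈ Ioc l D, astd l i * hq (τ i) with hR
      refine ((mertU (R - δ) (R + 2 * δ) (by linarith)).mono_set fun Q hQ => ?_).mono_bd
        (le_of_eq (by ring))
      have h1 := hQ.2
      rw [ev1_psl_update B D τ hl0] at h1
      exact ⟨hQ.1, by linarith [h1.1], by linarith [h1.2]⟩
    · refine mul_le_mul_of_nonneg_right ?_ hK
      have := mul_nonneg hη (gSeq_pos l).le
      nlinarith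

private theorem ev1_high {B δ : ℝ} {D : ℕ} (hD : 1 ≤ D) {τ : ℕ → ℕ} (hδ : 24 * δ ≤ B)
    (hB : 0 ≤ B) (h0 : -δ ≤ psl astd B D τ 0) (h1 : 9 / 10 * B < hq (τ 1)) :
    B / 5 ≤ psl astd B D τ 1 := by
  rw [ev1_psl_zero B hD] at h0
  have h2 : ∑ i ∈ Ioc 1 D, astd 1 i * hq (τ i) ≤ ∑ i ∈ Ioc 1 D, aCoef i * hq (τ i) :=
    sum_le_sum fun i hi => mul_le_mul_of_nonneg_right
      (aCoef_mono (by have := mem_Ioc.1 hi; omega) (Nat.sub_le _ _)) (hq_nonneg _)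
  have h3 : 0.38 * hq (τ 1) ≤ aCoef 1 * hq (τ 1) :=
    mul_le_mul_of_nonneg_right aCoef_one_bounds.1.le (hq_nonneg _)
  unfold psl yv
  rw [if_neg one_ne_zero]
  linarith


theorem ev_total : ∃ C : ℝ, 0 < C ∧ ∀ m : ℕ, 1 ≤ m → ∀ t ∈ Set.Icc X.t₁ X.t₂, ∀ D ≤ m,
    SumBd {τ | Adm astd (X.B m t) (X.cneg m) D τ} (wt D) (C * GG (X.B m t) D) := by
  obtain ⟨C₁, hC, hC₁⟩ := X.shift_le
  refine ⟨Real.exp (C₁ / X.t₁), Real.exp_pos _, fun m hm t ht D hD => ?_⟩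
  rw [mul_comm]
  refine ev1_upper' ((pp_mono D ?_).trans (X.pp_le' hm hD ht hC.le))
  have := ev1_A_le X hC.le hC₁ hD (X.B m t) (X.cneg m) (S := 0)
    (sum_nonneg fun l _ => by simp [Ctx.cneg])
  rwa [sub_zero] at this

/-- The last level is higher than `Y_{m-D}`.  With `J = m - D`, `g_D Y_J ≥ γ₁ T θ^J`.  If `m ≤ 3D` use
`X.pp_le`; otherwise `J > 2m/3` and for large `m`, `γ₁ θ^J > t₂ m + C₁`, so `pp … = 0`. -/
theorem ev_b1 : ∃ C c : ℝ, 0 < C ∧ 0 < c ∧ ∀ᶠ m : ℕ in atTop, ∀ t ∈ Set.Icc X.t₁ X.t₂,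
    ∀ D, 1 ≤ D → D ≤ m →
    SumBd {τ | Adm astd (X.B m t) (Function.update (X.cneg m) D ((X.θ ^ (m - D)) ^ 11)) D τ}
      (wt D) (C * GG (X.B m t) D * Real.exp (-(c * X.θ ^ (m - D)))) := by
  obtain ⟨C₁, hC, hC₁⟩ := X.shift_le
  obtain ⟨γ₁, γ₂, hγ₁, -, hγ⟩ := X.g_bounds
  have ht₂ : 0 < X.t₂ := X.t₁_pos.trans_le X.t₁₂
  obtain ⟨J₀, hJ₁, hJ₀⟩ := ev1_lin X ((2 * X.t₂ + C₁) / γ₁)
  refine ⟨Real.exp (C₁ / X.t₁), γ₁ / (3 * X.t₂), Real.exp_pos _, by positivity, ?_⟩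
  filter_upwards [eventually_ge_atTop (2 * J₀)] with m hm t ht D hD1 hD
  have hθ := X.θ_pos
  have hm1 : 1 ≤ m := by omega
  have hT : 0 < (X.θ ^ m) ^ 10 := by positivity
  have hA := ev1_A_le X hC.le hC₁ hD (X.B m t)
    (Function.update (X.cneg m) D ((X.θ ^ (m - D)) ^ 11))
    (S := γ₁ * (X.θ ^ m) ^ 10 * X.θ ^ (m - D)) (by
      refine le_trans ?_ (single_le_sum (fun l _ => ev1_term_nonneg X (m := m) (D := D)
        (σ := (X.θ ^ (m - D)) ^ 11) (le_trans (neg_nonpos.2 (by positivity)) (by positivity)) l)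
        (mem_range.2 (Nat.lt_succ_self D)))
      rw [Function.update_self, ev1_pow_split X hD]
      calc γ₁ * ((X.θ ^ D) ^ 10 * (X.θ ^ (m - D)) ^ 10) * X.θ ^ (m - D)
          = γ₁ * (X.θ ^ D) ^ 10 * (X.θ ^ (m - D)) ^ 11 := by ring
        _ ≤ _ := mul_le_mul (hγ D).1 (le_add_of_nonneg_right (by positivity)) (by positivity)
            (gSeq_pos D).le)
  rw [mul_comm (Real.exp _), mul_assoc]
  refine ev1_upper' ((pp_mono D hA).trans ?_)
  by_cases h3 : m ≤ 3 * D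
  · refine (X.pp_le hm1 hD h3 ht hC.le (by positivity)).trans (le_of_eq ?_)
    rw [mul_assoc]
    congr 4
    field_simp
  · rw [pp_of_neg]
    · exact mul_nonneg (pow_nonneg (X.B_pos hm1 ht).le _) (by positivity)
    have h1 := hJ₀ (m - D) (by omega)
    have h2 : (m : ℝ) ≤ 2 * ((m - D : ℕ) : ℝ) := by exact_mod_cast (by omega : m ≤ 2 * (m - D))
    have h4 : (1 : ℝ) ≤ ((m - D : ℕ) : ℝ) := by exact_mod_cast (by omega : 1 ≤ m - D)
    rw [div_mul_eq_mul_div, div_lt_iff₀ hγ₁] at h1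
    have h5 : t * m ≤ X.t₂ * (2 * ((m - D : ℕ) : ℝ)) :=
      mul_le_mul ht.2 h2 (Nat.cast_nonneg _) ht₂.le
    have h6 : C₁ ≤ C₁ * ((m - D : ℕ) : ℝ) := le_mul_of_one_le_right hC.le h4
    have h7 : t * m + C₁ - γ₁ * X.θ ^ (m - D) < 0 := by linarith
    calc X.B m t + C₁ * (X.θ ^ m) ^ 10 - γ₁ * (X.θ ^ m) ^ 10 * X.θ ^ (m - D)
        = (t * m + C₁ - γ₁ * X.θ ^ (m - D)) * (X.θ ^ m) ^ 10 := by rw [Ctx.B]; ring
      _ < 0 := mul_neg_of_neg_of_pos h7 hT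

/-- Boundary layer at a level `l ≤ m - k` (`< D`), or first level too high; the last lower limit
is an arbitrary `σ ≥ -δ_{m-D}`.
* Boundary layer at `l ≥ 1`: `simplex_flag` at `j = l` with
  `F τ := -δ ≤ psl τ l ∧ psl τ l ≤ 2δ` (`δ = δ_{m-l}`): `hq Q` is confined to an interval of length `3δ`,
  `h = 3δ + η` (`mertU`).  At `l = 0`: flag `j = 1` with `F τ := -δ_m ≤ psl τ 0 ≤ 2δ_m`, interval of
  length `3δ_m/a₁`.  Since `B^{D-1}/((D-1)! ∏_{i ≠ j} g_i) = GG B D · g_j D/B` and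
  `h g_j D/B ≤ C θ^{-(m-l)}`, summing over `l ≤ m - k` gives `C θ^{-k}`.
* `hq (τ 1) > 0.9 B`: from `psl τ 0 ≥ -δ_m` and `a_{i-1} ≤ a_i`,
  `psl τ 1 ≥ (1 + a₁) hq (τ 1) - B - δ_m ≥ B/5` for large `m`; so the lower limit at level `1` may be
  raised to `B/5`, which gives a factor `exp (-c m) ≤ θ^{-k}` for large `m`. -/
theorem ev_II : ∃ C c : ℝ, 0 < C ∧ 0 < c ∧ ∀ k : ℕ, 1 ≤ k → ∀ᶠ m : ℕ in atTop,
    ∀ t ∈ Set.Icc X.t₁ X.t₂, ∀ D, m - k / 2 ≤ D → D ≤ m → ∀ σ : ℝ, -(X.θ ^ (m - D)) ^ 9 ≤ σ →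
    SumBd {τ | Adm astd (X.B m t) (Function.update (X.cneg m) D σ) D τ ∧
        ((∃ l ≤ m - k, psl astd (X.B m t) D τ l ≤ 2 * (X.θ ^ (m - l)) ^ 9) ∨
          9 / 10 * X.B m t < hq (τ 1))}
      (wt D) (C / X.θ ^ k * GG (X.B m t) D * Real.exp (-(c * σ / (X.θ ^ (m - D)) ^ 10))) := by
  obtain ⟨C₁, hC, hC₁⟩ := X.shift_le
  obtain ⟨γ₁, γ₂, hγ₁, -, hγ⟩ := X.g_bounds
  have ht₁ := X.t₁_pos
  have ht₂ : 0 < X.t₂ := X.t₁_pos.trans_le X.t₁₂
  have hθ := X.θ_pos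
  have ha0 : 0 < aCoef 1 := aCoef_pos le_rfl
  refine ⟨(3 * C₁ / X.t₁ + 1) * Real.exp (C₁ / X.t₁), γ₁ / (3 * X.t₂), by positivity,
    by positivity, fun k hk => ?_⟩
  have hev1 : ∀ᶠ m : ℕ in atTop, 24 ≤ X.t₁ * m :=
    (tendsto_natCast_atTop_atTop.const_mul_atTop ht₁).eventually_ge_atTop _
  have hev2 : ∀ᶠ m : ℕ in atTop, Real.log (X.θ ^ k) ≤ aCoef 1 * X.t₁ / (15 * X.t₂) * m :=
    (tendsto_natCast_atTop_atTop.const_mul_atTop (by positivity)).eventually_ge_atTop _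
  filter_upwards [hev1, hev2, eventually_ge_atTop (k + 6)] with m hm1' hm2 hm t ht D hD1 hD σ hσ
  have hm1 : 1 ≤ m := by omega
  have hm0 : (0 : ℝ) < m := by exact_mod_cast hm1
  have hT : 0 < (X.θ ^ m) ^ 10 := by positivity
  have ht0 : 0 < t := ht₁.trans_le ht.1
  have hB := X.B_pos hm1 ht
  set B := X.B m t with hBdef
  have hBeq : B = t * m * (X.θ ^ m) ^ 10 := rfl
  set c := Function.update (X.cneg m) D σ with hc
  set S₀ := gSeq D * (σ + (X.θ ^ (m - D)) ^ 9) with hS₀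
  have hS₀0 : 0 ≤ S₀ := mul_nonneg (gSeq_pos D).le (by linarith)
  set Ex := Real.exp (-(γ₁ / (3 * X.t₂) * σ / (X.θ ^ (m - D)) ^ 10)) with hEx
  have hEx0 : 0 < Ex := Real.exp_pos _
  have hExS : Real.exp (-(S₀ / (3 * X.t₂ * (X.θ ^ m) ^ 10))) ≤ Ex := by
    refine Real.exp_le_exp.2 (neg_le_neg ?_)
    have h1 : γ₁ * (X.θ ^ D) ^ 10 * σ ≤ S₀ :=
      (mul_le_mul_of_nonneg_left (le_add_of_nonneg_right (by positivity)) (by positivity)).trans
        (mul_le_mul_of_nonneg_right (hγ D).1 (by linarith))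
    refine le_trans (le_of_eq ?_) (div_le_div_of_nonneg_right h1 (by positivity))
    rw [ev1_pow_split X hD]
    field_simp
  have hcD : gSeq D * (c D + (X.θ ^ (m - D)) ^ 9) = S₀ := by rw [hc, Function.update_self]
  set M := Real.exp (C₁ / X.t₁) * Ex with hM
  have hM0 : 0 ≤ M := by positivity
  have hG := GG_pos hB D
  -- boundary layers
  have hA := ev1_A_le X hC.le hC₁ hD B c (S := S₀) (by
    rw [← hcD]
    exact single_le_sum (fun l _ => ev1_term_nonneg X hσ l) (mem_range.2 (Nat.lt_succ_self D)))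
  have hpp : pp (ev1A B c D) (D - 1) ≤ B ^ (D - 1) * M := by
    refine (pp_mono _ hA).trans ((X.pp_le hm1 (by omega) (by omega) ht hC.le hS₀0).trans ?_)
    rw [mul_assoc]
    exact mul_le_mul_of_nonneg_left (mul_le_mul_of_nonneg_left hExS (Real.exp_pos _).le)
      (pow_nonneg hB.le _)
  have hlay : SumBd {τ | Adm astd B c D τ ∧
      ∃ l ≤ m - k, psl astd B D τ l ≤ 2 * (X.θ ^ (m - l)) ^ 9} (wt D)
      (3 * C₁ / X.t₁ / X.θ ^ k * (GG B D * M)) := by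
    refine (SumBd.of_cover (range (m - k + 1))
      (fun l hl => ev1_layer X hB (m := m) (D := D) (l := l) (by have := mem_range.1 hl; omega)
        hM0 hpp) fun τ hτ => ?_).mono_bd ?_
    · obtain ⟨l, hl, hl'⟩ := hτ.2
      exact ⟨l, mem_range.2 (by omega), hτ.1, hl'⟩
    · rw [← sum_mul, ← mul_sum, ← mul_assoc]
      refine mul_le_mul_of_nonneg_right ?_ (mul_nonneg hG.le hM0)
      have h1 := hC₁ m (m - k) (Nat.sub_le _ _)
      rw [show m - (m - k) = k by omega] at h1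
      have h2 : (D : ℝ) / B ≤ 1 / (X.t₁ * (X.θ ^ m) ^ 10) := by
        rw [div_le_div_iff₀ hB (by positivity), one_mul, hBeq, ← mul_assoc, mul_comm (D : ℝ)]
        exact mul_le_mul_of_nonneg_right (mul_le_mul ht.1 (by exact_mod_cast hD)
          (Nat.cast_nonneg _) ht0.le) hT.le
      refine (mul_le_mul (mul_le_mul_of_nonneg_left h1 (by norm_num)) h2
        (div_nonneg (Nat.cast_nonneg _) hB.le) (by positivity)).trans (le_of_eq ?_)
      field_simp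
  -- first level too high
  have hD1' : (1 : ℕ) ≠ D := by omega
  have hhigh : SumBd {τ | Adm astd B c D τ ∧ 9 / 10 * B < hq (τ 1)} (wt D)
      (1 / X.θ ^ k * (GG B D * M)) := by
    have hA' := ev1_A_le X hC.le hC₁ hD B (Function.update c 1 (B / 5))
      (S := S₀ + aCoef 1 * (B / 5)) (by
        refine le_trans ?_ (add_le_sum (f := fun l =>
          gSeq l * (Function.update c 1 (B / 5) l + (X.θ ^ (m - l)) ^ 9)) (fun l _ => ?_)
          (mem_range.2 (Nat.lt_succ_self D)) (mem_range.2 (by omega : 1 < D + 1)) hD1'.symm)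
        · simp only [Function.update_self, Function.update_of_ne hD1'.symm, hcD, gSeq_one]
          exact add_le_add le_rfl (mul_le_mul_of_nonneg_left
            (le_add_of_nonneg_right (by positivity)) ha0.le)
        · by_cases h : l = 1
          · subst h
            rw [Function.update_self]
            exact mul_nonneg (gSeq_pos 1).le (by positivity)
          · rw [Function.update_of_ne h]
            exact ev1_term_nonneg X hσ l)
    have h1 : Real.exp (-((S₀ + aCoef 1 * (B / 5)) / (3 * X.t₂ * (X.θ ^ m) ^ 10))) ≤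
        Ex * (1 / X.θ ^ k) := by
      rw [add_div, neg_add, Real.exp_add]
      refine mul_le_mul hExS ?_ (Real.exp_pos _).le hEx0.le
      rw [one_div, ← Real.exp_log (pow_pos hθ k), ← Real.exp_neg]
      refine Real.exp_le_exp.2 (neg_le_neg (hm2.trans ?_))
      have h2 : aCoef 1 * (B / 5) / (3 * X.t₂ * (X.θ ^ m) ^ 10) = aCoef 1 * t / (15 * X.t₂) * m := by
        rw [hBeq]
        field_simp
        ring
      rw [h2]
      exact mul_le_mul_of_nonneg_right (div_le_div_of_nonneg_right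
        (mul_le_mul_of_nonneg_left ht.1 ha0.le) (by positivity)) hm0.le
    have h2 := ev1_upper' (B := B) (c := Function.update c 1 (B / 5)) (D := D)
      (M := Real.exp (C₁ / X.t₁) * (Ex * (1 / X.θ ^ k))) (by
        refine (pp_mono _ hA').trans ((X.pp_le hm1 hD (by omega) ht hC.le (by positivity)).trans ?_)
        rw [mul_assoc]
        exact mul_le_mul_of_nonneg_left (mul_le_mul_of_nonneg_left h1 (Real.exp_pos _).le)
          (pow_nonneg hB.le _))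
    refine (h2.mono_set fun τ hτ => ⟨hτ.1.1, fun l hl => ?_⟩).mono_bd (le_of_eq (by rw [hM]; ring))
    by_cases h : l = 1
    · subst h
      rw [Function.update_self]
      refine ev1_high (δ := (X.θ ^ m) ^ 9) hl ?_ hB.le ?_ hτ.2
      · rw [hBeq]
        exact mul_le_mul (hm1'.trans (mul_le_mul_of_nonneg_right ht.1 hm0.le))
          (pow_le_pow_right₀ (X.one_le_pow m) (by norm_num)) (by positivity) (by positivity)
      · have := hτ.1.2 0 (Nat.zero_le _)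
        rwa [hc, Function.update_of_ne (by omega)] at this
    · rw [Function.update_of_ne h]
      exact hτ.1.2 l hl
  refine ((hlay.union hhigh).mono_set fun τ hτ => ?_).mono_bd (le_of_eq ?_)
  · rcases hτ.2 with h | h
    · exact Or.inl ⟨hτ.1, h⟩
    · exact Or.inr ⟨hτ.1, h⟩
  · rw [hM]
    ring

end Crest.Agent.R20
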