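import Crest.Agent.R20.Mertens
import Crest.Agent.R19.Esym

/-!
# R20: pure Brun sieve for `π, aπ+1, a'π+1` simultaneously prime

Let `κ = 1 + #𝒜 ≤ 3`, `F(n) = n ∏_{a ∈ 𝒜} (a n + 1)`, `Δ = ∏_{a ∈ 𝒜} a · |a - a'|` (the last factor only
if `𝒜 = {a, a'}`), so `log Δ ≤ 3 e^Y ≤ e^{2(Y+1)}`.  For `N ≤ N₀` the bound is trivial
(`count ≤ N`).  For `N` large let `L = log log N ≤ Y`, `m` an even integer with
`30 (L + C₀) ≤ m ≤ 30 (L + C₀) + 2` where `∑_{p ≤ N} 1/p ≤ L + C₀`, `z = N^{1/(4m)}` and let `Q` be the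
set of primes `5 ≤ p ≤ z` with `p ∤ Δ`.  For `p ∈ Q`, `F` has exactly `κ` roots mod `p`
(`0` and `-a⁻¹`, pairwise distinct), so for `S ⊆ Q` by the Chinese remainder theorem
`#{n < M : p ∣ F(n) ∀ p ∈ S} = M ∏_{p ∈ S} κ/p + O(κ^{#S})` (`M = ⌊N⌋+1`).
A counted prime `π > z` has `p ∤ F(π)` for all `p ∈ Q`.  With `ind n p = 1[p ∣ F n]`, Bonferroni
(`R19.prod_le_trunc`, `R19.trunc_sub_le`, `R19.esym_le`, `R19.sum_choose_le`) gives
`count ≤ z + ∑_{n<M} trunc (ind n) Q m ≤ z + M trunc w Q m + ∑_{i ≤ m} C(#Q,i) 3^i`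
with `w p = κ/p`, and `trunc w Q m ≤ ∏ (1 - w) + (∑ w)^{m+1}/(m+1)!`.
Now `(∑w)^{m+1}/(m+1)! ≤ (e ∑w/(m+1))^{m+1} ≤ (e/10)^{m+1} ≤ e^{-3L}`,
`∑_{i ≤ m} C(#Q,i) 3^i ≤ (3z+1)^m ≤ 4^m N^{1/4} ≤ N^{1/2}` for large `N`, and
`∏ (1 - κ/p) ≤ exp (-κ ∑_{p ∈ Q} 1/p) ≤ exp (-κ (log log z - log Y - C)) ≤ (C Y · 4m / log N)^κ`
by `le_sum_inv_primes`, `recBd_prime_dvd`; finally `m ≤ C Y`.
-/

set_option autoImplicit false

open Finset Filter Topology

noncomputable section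

namespace Crest.Agent.R20

/-- Indicator that `n mod p` lies in the set of sifted residues `R p`. -/
def sInd (R : ℕ → Finset ℕ) (n p : ℕ) : ℝ := if n % p ∈ R p then 1 else 0

theorem sInd_nonneg (R : ℕ → Finset ℕ) (n p : ℕ) : 0 ≤ sInd R n p := by
  unfold sInd; split_ifs <;> norm_num

theorem sInd_le_one (R : ℕ → Finset ℕ) (n p : ℕ) : sInd R n p ≤ 1 := by
  unfold sInd; split_ifs <;> norm_num

theorem sieve_count_mod (M d r : ℕ) (hd : 0 < d) :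
    |∑ n ∈ range M, (if n ≡ r [MOD d] then (1 : ℝ) else 0) - M / d| ≤ 1 := by
  rw [Finset.sum_boole, ← Nat.count_eq_card_filter_range, Nat.count_modEq_card _ hd]
  have hm' : (0 : ℝ) < d := by exact_mod_cast hd
  have h1 : ((M / d : ℕ) : ℝ) ≤ M / d := Nat.cast_div_le
  have h2 : (M : ℝ) / d < (M / d : ℕ) + 1 := by
    rw [div_lt_iff₀ hm']
    have := Nat.lt_mul_div_succ M hd
    have h3 : (M : ℝ) < d * ((M / d : ℕ) + 1) := by exact_mod_cast this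
    linarith
  rw [abs_le]
  push_cast
  split_ifs <;> constructor <;> linarith

theorem sInd_eq_sum (R : ℕ → Finset ℕ) (n p : ℕ) (hR : R p ⊆ range p) :
    sInd R n p = ∑ t ∈ R p, (if n ≡ t [MOD p] then (1 : ℝ) else 0) := by
  have : ∀ t ∈ R p, (if n ≡ t [MOD p] then (1 : ℝ) else 0) = if n % p = t then 1 else 0 := by
    intro t ht
    have h := Finset.mem_range.1 (hR ht)
    simp only [Nat.ModEq, Nat.mod_eq_of_lt h]
  rw [Finset.sum_congr rfl this, Finset.sum_ite_eq]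
  rfl

theorem sieve_crt (R : ℕ → Finset ℕ) (M K : ℕ) (S : Finset ℕ) (hS : ∀ p ∈ S, p.Prime)
    (hR : ∀ p ∈ S, R p ⊆ range p) (hK : ∀ p ∈ S, (R p).card ≤ K) (d r : ℕ) (hd : 0 < d)
    (hcop : ∀ p ∈ S, Nat.Coprime d p) :
    |∑ n ∈ range M, (if n ≡ r [MOD d] then (1 : ℝ) else 0) * ∏ p ∈ S, sInd R n p
      - M / d * ∏ p ∈ S, (((R p).card : ℝ) / p)| ≤ (K : ℝ) ^ S.card := by
  induction S using Finset.induction_on generalizing d r with
  | empty => simpa using sieve_count_mod M d r hd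
  | insert p S hp ih =>
    have hpp := hS p (mem_insert_self _ _)
    have hdp := hcop p (mem_insert_self _ _)
    have hRp := hR p (mem_insert_self _ _)
    have hKp := hK p (mem_insert_self _ _)
    have ih' := ih (fun q hq => hS q (mem_insert_of_mem hq)) (fun q hq => hR q (mem_insert_of_mem hq))
      (fun q hq => hK q (mem_insert_of_mem hq))
    have key : ∀ t ∈ R p, |∑ n ∈ range M, ((if n ≡ r [MOD d] then (1 : ℝ) else 0) *
        (if n ≡ t [MOD p] then (1 : ℝ) else 0)) * ∏ q ∈ S, sInd R n q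
        - M / (d * p) * ∏ q ∈ S, (((R q).card : ℝ) / q)| ≤ (K : ℝ) ^ S.card := by
      intro t _
      obtain ⟨c, hc1, hc2⟩ := Nat.chineseRemainder hdp r t
      have := ih' (d * p) c (Nat.mul_pos hd hpp.pos) (fun q hq => by
        refine Nat.Coprime.mul_left (hcop q (mem_insert_of_mem hq)) ?_
        exact (Nat.coprime_primes hpp (hS q (mem_insert_of_mem hq))).2 (fun h => hp (h ▸ hq)))
      push_cast at this
      have e : ∀ n, (if n ≡ r [MOD d] then (1 : ℝ) else 0) *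
          (if n ≡ t [MOD p] then (1 : ℝ) else 0) = if n ≡ c [MOD d * p] then 1 else 0 := by
        intro n
        have : n ≡ c [MOD d * p] ↔ n ≡ r [MOD d] ∧ n ≡ t [MOD p] := by
          rw [← Nat.modEq_and_modEq_iff_modEq_mul hdp]
          exact ⟨fun h => ⟨h.1.trans hc1, h.2.trans hc2⟩,
            fun h => ⟨h.1.trans hc1.symm, h.2.trans hc2.symm⟩⟩
        simp only [this]
        by_cases h1 : n ≡ r [MOD d] <;> by_cases h2 : n ≡ t [MOD p] <;> simp [h1, h2]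
      simp only [e]
      exact this
    have e : ∑ n ∈ range M, (if n ≡ r [MOD d] then (1 : ℝ) else 0) * ∏ q ∈ insert p S, sInd R n q
        - M / d * ∏ q ∈ insert p S, (((R q).card : ℝ) / q)
        = ∑ t ∈ R p, (∑ n ∈ range M, ((if n ≡ r [MOD d] then (1 : ℝ) else 0) *
        (if n ≡ t [MOD p] then (1 : ℝ) else 0)) * ∏ q ∈ S, sInd R n q
        - M / (d * p) * ∏ q ∈ S, (((R q).card : ℝ) / q)) := by
      rw [Finset.sum_sub_distrib, Finset.sum_comm, Finset.sum_const, nsmul_eq_mul]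
      congr 1
      · refine Finset.sum_congr rfl fun n _ => ?_
        rw [Finset.prod_insert hp, sInd_eq_sum R n p hRp, ← Finset.sum_mul, ← Finset.mul_sum]
        ring
      · rw [Finset.prod_insert hp]
        ring
    rw [e, Finset.card_insert_of_notMem hp]
    refine (Finset.abs_sum_le_sum_abs _ _).trans ((Finset.sum_le_sum key).trans ?_)
    rw [Finset.sum_const, nsmul_eq_mul, pow_succ, mul_comm]
    gcongr

theorem sieve_esym (R : ℕ → Finset ℕ) (M K : ℕ) (Q : Finset ℕ) (hS : ∀ p ∈ Q, p.Prime)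
    (hR : ∀ p ∈ Q, R p ⊆ range p) (hK : ∀ p ∈ Q, (R p).card ≤ K) (i : ℕ) :
    |∑ n ∈ range M, R19.esym (sInd R n) Q i
      - M * R19.esym (fun p => ((R p).card : ℝ) / p) Q i| ≤ Q.card.choose i * (K : ℝ) ^ i := by
  unfold R19.esym
  rw [Finset.sum_comm, Finset.mul_sum, ← Finset.sum_sub_distrib]
  refine (Finset.abs_sum_le_sum_abs _ _).trans ?_
  rw [← Finset.card_powersetCard, ← nsmul_eq_mul, ← Finset.sum_const]
  refine Finset.sum_le_sum fun S hSQ => ?_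
  obtain ⟨h1, h2⟩ := Finset.mem_powersetCard.1 hSQ
  have := sieve_crt R M K S (fun p hp => hS p (h1 hp)) (fun p hp => hR p (h1 hp))
    (fun p hp => hK p (h1 hp)) 1 0 one_pos (fun p _ => Nat.coprime_one_left p)
  simpa [Nat.modEq_one, h2] using this

/-- Brun's pure sieve, abstract form. -/
theorem sieve_brun (R : ℕ → Finset ℕ) (M K : ℕ) (hK1 : 1 ≤ K) (Q : Finset ℕ)
    (hS : ∀ p ∈ Q, p.Prime)
    (hR : ∀ p ∈ Q, R p ⊆ range p) (hK : ∀ p ∈ Q, (R p).card ≤ K) (m : ℕ) (hm : Even m) :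
    (((range M).filter fun n => ∀ p ∈ Q, n % p ∉ R p).card : ℝ) ≤
      M * (Real.exp (-∑ p ∈ Q, ((R p).card : ℝ) / p) +
        (∑ p ∈ Q, ((R p).card : ℝ) / p) ^ (m + 1) / ((m + 1).factorial : ℝ)) +
        ((K : ℝ) * (Q.card + 1)) ^ m := by
  set w : ℕ → ℝ := fun p => ((R p).card : ℝ) / p with hw
  have hw0 : ∀ p ∈ Q, 0 ≤ w p := fun p _ => by simp only [hw]; positivity
  have hw1 : ∀ p ∈ Q, w p ≤ 1 := fun p hp => by
    have h1 : (R p).card ≤ p := by simpa using Finset.card_le_card (hR p hp)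
    have h2 : (0 : ℝ) < p := by exact_mod_cast (hS p hp).pos
    simp only [hw]
    rw [div_le_one h2]
    exact_mod_cast h1
  have h1 : (((range M).filter fun n => ∀ p ∈ Q, n % p ∉ R p).card : ℝ) ≤
      ∑ n ∈ range M, R19.trunc (sInd R n) Q m := by
    rw [Finset.card_filter]
    push_cast
    refine Finset.sum_le_sum fun n _ => ?_
    refine le_trans ?_ (R19.prod_le_trunc _ Q (fun p _ => sInd_nonneg R n p)
      (fun p _ => sInd_le_one R n p) m hm)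
    split_ifs with h
    · refine le_of_eq (Finset.prod_eq_one fun p hp => ?_).symm
      simp [sInd, h p hp]
    · exact Finset.prod_nonneg fun p _ => by linarith [sInd_le_one R n p]
  have h2 : ∑ n ∈ range M, R19.trunc (sInd R n) Q m ≤ M * R19.trunc w Q m +
      ∑ i ∈ range (m + 1), Q.card.choose i * (K : ℝ) ^ i := by
    unfold R19.trunc
    rw [Finset.sum_comm, Finset.mul_sum, ← Finset.sum_add_distrib]
    refine Finset.sum_le_sum fun i _ => ?_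
    have := sieve_esym R M K Q hS hR hK i
    rw [← Finset.mul_sum]
    have h3 : |(-1 : ℝ) ^ i * (∑ n ∈ range M, R19.esym (sInd R n) Q i - M * R19.esym w Q i)|
        ≤ Q.card.choose i * (K : ℝ) ^ i := by
      rw [abs_mul, abs_pow, abs_neg, abs_one, one_pow, one_mul]; exact this
    have h4 := (abs_le.1 h3).2
    linarith
  have h3 : ∑ i ∈ range (m + 1), Q.card.choose i * (K : ℝ) ^ i ≤ ((K : ℝ) * (Q.card + 1)) ^ m := by
    have hK' : (1 : ℝ) ≤ K := by exact_mod_cast hK1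
    have h5 : ((∑ i ∈ range (m + 1), Q.card.choose i : ℕ) : ℝ) ≤ ((Q.card : ℝ) + 1) ^ m := by
      exact_mod_cast R19.sum_choose_le Q.card m
    calc ∑ i ∈ range (m + 1), Q.card.choose i * (K : ℝ) ^ i
        ≤ ∑ i ∈ range (m + 1), Q.card.choose i * (K : ℝ) ^ m := by
          refine Finset.sum_le_sum fun i hi => ?_
          have := Nat.lt_succ_iff.1 (Finset.mem_range.1 hi)
          gcongr
      _ = (K : ℝ) ^ m * ((∑ i ∈ range (m + 1), Q.card.choose i : ℕ) : ℝ) := by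
          rw [← Finset.sum_mul]; push_cast; ring
      _ ≤ (K : ℝ) ^ m * ((Q.card : ℝ) + 1) ^ m := by gcongr
      _ = _ := by rw [mul_pow]
  have h4 : R19.trunc w Q m ≤ Real.exp (-∑ p ∈ Q, w p) +
      (∑ p ∈ Q, w p) ^ (m + 1) / ((m + 1).factorial : ℝ) := by
    have a := R19.trunc_sub_le w Q hw0 hw1 m hm
    have b := R19.esym_le w Q hw0 (m + 1)
    have c : ∏ p ∈ Q, (1 - w p) ≤ Real.exp (-∑ p ∈ Q, w p) := by
      rw [← Finset.sum_neg_distrib, Real.exp_sum]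
      refine Finset.prod_le_prod (fun p hp => by linarith [hw1 p hp]) fun p _ => ?_
      linarith [Real.add_one_le_exp (-w p)]
    linarith
  have h5 : (M : ℝ) * R19.trunc w Q m ≤ M * (Real.exp (-∑ p ∈ Q, w p) +
      (∑ p ∈ Q, w p) ^ (m + 1) / ((m + 1).factorial : ℝ)) := by gcongr
  linarith

/-- The root of `a t + 1` modulo `p`. -/
def sRoot (p a : ℕ) : ℕ := by
  classical exact if h : ∃ t, t < p ∧ p ∣ a * t + 1 then h.choose else 0

theorem sRoot_spec {p a : ℕ} (hp : p.Prime) (ha : ¬ p ∣ a) :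
    sRoot p a < p ∧ p ∣ a * sRoot p a + 1 := by
  have h : ∃ t, t < p ∧ p ∣ a * t + 1 := by
    have hc : Nat.Coprime a p := ((Nat.Prime.coprime_iff_not_dvd hp).2 ha).symm
    obtain ⟨t, ht, h⟩ := Nat.exists_mul_mod_eq_of_coprime (p - 1) hc hp.pos.ne'
    refine ⟨t, ht, ?_⟩
    have h1 : a * t ≡ p - 1 [MOD p] := h
    have h2 : a * t + 1 ≡ p - 1 + 1 [MOD p] := h1.add_right 1
    rw [Nat.sub_add_cancel hp.one_le] at h2
    exact (Nat.modEq_zero_iff_dvd).1 (h2.trans ((Nat.modEq_zero_iff_dvd).2 dvd_rfl))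
  unfold sRoot
  rw [dif_pos h]
  exact h.choose_spec

/-- The sifted residues. -/
def sRes (𝒜 : Finset ℕ) (p : ℕ) : Finset ℕ := insert 0 (𝒜.image (sRoot p))

/-- The discriminant. -/
def sDisc (𝒜 : Finset ℕ) : ℕ :=
  ∏ x ∈ ((insert 0 𝒜) ×ˢ (insert 0 𝒜)).filter (fun x : ℕ × ℕ => x.2 < x.1), (x.1 - x.2)

theorem sDisc_pos (𝒜 : Finset ℕ) : 0 < sDisc 𝒜 :=
  Finset.prod_pos fun _ hx => Nat.sub_pos_of_lt (Finset.mem_filter.1 hx).2

theorem dvd_sDisc {𝒜 : Finset ℕ} {a b : ℕ} (ha : a ∈ insert 0 𝒜) (hb : b ∈ insert 0 𝒜)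
    (h : b < a) : a - b ∣ sDisc 𝒜 :=
  Finset.dvd_prod_of_mem (fun x : ℕ × ℕ => x.1 - x.2) (a := (a, b))
    (Finset.mem_filter.2 ⟨Finset.mem_product.2 ⟨ha, hb⟩, h⟩)

theorem sDisc_le {𝒜 : Finset ℕ} (h2 : 𝒜.card ≤ 2) {X : ℝ} (hX : 1 ≤ X) (h : ∀ a ∈ 𝒜, (a : ℝ) ≤ X) :
    (sDisc 𝒜 : ℝ) ≤ X ^ 9 := by
  unfold sDisc
  push_cast
  have hc : (((insert 0 𝒜) ×ˢ (insert 0 𝒜)).filter (fun x : ℕ × ℕ => x.2 < x.1)).card ≤ 9 := by
    refine (Finset.card_filter_le _ _).trans ?_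
    rw [Finset.card_product]
    have : (insert 0 𝒜).card ≤ 3 := (Finset.card_insert_le _ _).trans (by omega)
    nlinarith
  refine le_trans (Finset.prod_le_prod (g := fun _ => X) (fun x _ => Nat.cast_nonneg _)
    fun x hx => ?_) ?_
  · have h1 := (Finset.mem_product.1 (Finset.mem_filter.1 hx).1).1
    have h3 : ((x.1 - x.2 : ℕ) : ℝ) ≤ x.1 := by exact_mod_cast Nat.sub_le _ _
    rcases Finset.mem_insert.1 h1 with h1 | h1
    · rw [h1] at h3 ⊢; simp at h3 ⊢; linarith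
    · exact h3.trans (h _ h1)
  · rw [Finset.prod_const]
    exact pow_le_pow_right₀ hX hc

theorem sRes_facts {𝒜 : Finset ℕ} (h0 : ∀ a ∈ 𝒜, 0 < a) {p : ℕ} (hp : p.Prime)
    (hd : ¬ p ∣ sDisc 𝒜) :
    sRes 𝒜 p ⊆ range p ∧ (sRes 𝒜 p).card = 1 + 𝒜.card ∧
      ∀ n, n % p ∈ sRes 𝒜 p → p ∣ n ∨ ∃ a ∈ 𝒜, p ∣ a * n + 1 := by
  have ha : ∀ a ∈ 𝒜, ¬ p ∣ a := fun a ha h =>
    hd (h.trans (dvd_sDisc (mem_insert_of_mem ha) (mem_insert_self _ _) (h0 a ha)))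
  have hne : ∀ a ∈ 𝒜, sRoot p a ≠ 0 := fun a h h' => by
    have := (sRoot_spec hp (ha a h)).2
    rw [h'] at this
    simp at this
    exact hp.one_lt.ne' this
  have hinj : ∀ a ∈ 𝒜, ∀ b ∈ 𝒜, b < a → sRoot p a ≠ sRoot p b := fun a h b h' hlt he => by
    have h1 := sRoot_spec hp (ha a h)
    have h2 := (sRoot_spec hp (ha b h')).2
    rw [← he] at h2
    have h3 : p ∣ (a - b) * sRoot p a := by
      have := Nat.dvd_sub h1.2 h2
      rwa [Nat.add_sub_add_right, ← Nat.sub_mul] at this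
    rcases (Nat.Prime.dvd_mul hp).1 h3 with h4 | h4
    · exact hd (h4.trans (dvd_sDisc (mem_insert_of_mem h) (mem_insert_of_mem h') hlt))
    · exact hne a h (Nat.eq_zero_of_dvd_of_lt h4 h1.1)
  refine ⟨?_, ?_, ?_⟩
  · intro t ht
    rcases Finset.mem_insert.1 ht with rfl | ht
    · exact Finset.mem_range.2 hp.pos
    · obtain ⟨a, h, rfl⟩ := Finset.mem_image.1 ht
      exact Finset.mem_range.2 (sRoot_spec hp (ha a h)).1
  · unfold sRes
    rw [Finset.card_insert_of_notMem, Finset.card_image_of_injOn, add_comm]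
    · intro a h b h' he
      rcases lt_trichotomy a b with hlt | heq | hlt
      · exact absurd he.symm (hinj b h' a h hlt)
      · exact heq
      · exact absurd he (hinj a h b h' hlt)
    · intro h
      obtain ⟨a, h, h'⟩ := Finset.mem_image.1 h
      exact hne a h h'
  · intro n hn
    rcases Finset.mem_insert.1 hn with hn | hn
    · exact Or.inl (Nat.dvd_of_mod_eq_zero hn)
    · obtain ⟨a, h, h'⟩ := Finset.mem_image.1 hn
      refine Or.inr ⟨a, h, ?_⟩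
      have h1 := (sRoot_spec hp (ha a h)).2
      rw [h'] at h1
      have h2 : a * (n % p) + 1 ≡ a * n + 1 [MOD p] := ((Nat.mod_modEq n p).mul_left a).add_right 1
      exact (Nat.modEq_zero_iff_dvd).1 (h2.symm.trans ((Nat.modEq_zero_iff_dvd).2 h1))

/-- The sieving primes. -/
def sPrimes (𝒜 : Finset ℕ) (z : ℝ) : Finset ℕ :=
  ((Icc 1 ⌊z⌋₊).filter Nat.Prime).filter fun p => ¬ p ∣ sDisc 𝒜

theorem sieve_comb {𝒜 : Finset ℕ} (h2 : 𝒜.card ≤ 2) (h0 : ∀ a ∈ 𝒜, 0 < a) {z N : ℝ} (hz : 1 ≤ z)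
    (hN : 1 ≤ N) (m : ℕ) (hm : Even m) (S : Finset ℕ)
    (hS : ∀ π ∈ S, π.Prime ∧ (π : ℝ) ≤ N ∧ ∀ a ∈ 𝒜, (a * π + 1).Prime) :
    (S.card : ℝ) ≤ z + 2 * N *
      (Real.exp (-((1 + 𝒜.card : ℕ) * ∑ p ∈ sPrimes 𝒜 z, (1 : ℝ) / p)) +
        ((1 + 𝒜.card : ℕ) * ∑ p ∈ sPrimes 𝒜 z, (1 : ℝ) / p) ^ (m + 1) / ((m + 1).factorial : ℝ)) +
      (6 * z) ^ m := by
  set Q := sPrimes 𝒜 z with hQ
  have hQm : ∀ p ∈ Q, p.Prime ∧ p ≤ ⌊z⌋₊ ∧ ¬ p ∣ sDisc 𝒜 := fun p hp => by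
    simp only [hQ, sPrimes, Finset.mem_filter, Finset.mem_Icc] at hp
    exact ⟨hp.1.2, hp.1.1.2, hp.2⟩
  have hF := fun p (hp : p ∈ Q) => sRes_facts h0 (hQm p hp).1 (hQm p hp).2.2
  have hb := sieve_brun (sRes 𝒜) (⌊N⌋₊ + 1) 3 (by norm_num) Q (fun p hp => (hQm p hp).1)
    (fun p hp => (hF p hp).1) (fun p hp => by rw [(hF p hp).2.1]; omega) m hm
  have hsum : ∑ p ∈ Q, ((sRes 𝒜 p).card : ℝ) / p = (1 + 𝒜.card : ℕ) * ∑ p ∈ Q, (1 : ℝ) / p := by
    rw [Finset.mul_sum]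
    refine Finset.sum_congr rfl fun p hp => ?_
    rw [(hF p hp).2.1]; ring
  rw [hsum] at hb
  have hsub : S ⊆ Icc 1 ⌊z⌋₊ ∪ (range (⌊N⌋₊ + 1)).filter fun n => ∀ p ∈ Q, n % p ∉ sRes 𝒜 p := by
    intro π hπ
    obtain ⟨h1, h3, h4⟩ := hS π hπ
    rw [Finset.mem_union]
    by_cases hz' : π ≤ ⌊z⌋₊
    · exact Or.inl (Finset.mem_Icc.2 ⟨h1.one_le, hz'⟩)
    · refine Or.inr (Finset.mem_filter.2 ⟨Finset.mem_range.2 (Nat.lt_succ_of_le
        (Nat.le_floor h3)), fun p hp hmem => ?_⟩)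
      have hp' := hQm p hp
      rcases (hF p hp).2.2 π hmem with h | ⟨a, ha, h⟩
      · have := (Nat.prime_dvd_prime_iff_eq hp'.1 h1).1 h
        omega
      · have h5 := (Nat.prime_dvd_prime_iff_eq hp'.1 (h4 a ha)).1 h
        have h6 : π ≤ a * π := Nat.le_mul_of_pos_left _ (h0 a ha)
        omega
  have hc : (S.card : ℝ) ≤ (⌊z⌋₊ : ℝ) +
      (((range (⌊N⌋₊ + 1)).filter fun n => ∀ p ∈ Q, n % p ∉ sRes 𝒜 p).card : ℝ) := by
    have := (Finset.card_le_card hsub).trans (Finset.card_union_le _ _)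
    rw [Nat.card_Icc, Nat.add_sub_cancel] at this
    exact_mod_cast this
  have hz1 : (⌊z⌋₊ : ℝ) ≤ z := Nat.floor_le (by linarith)
  have hN1 : ((⌊N⌋₊ + 1 : ℕ) : ℝ) ≤ 2 * N := by
    have := Nat.floor_le (show (0 : ℝ) ≤ N by linarith)
    push_cast; linarith
  have hQc : (Q.card : ℝ) ≤ z := by
    have : Q.card ≤ ⌊z⌋₊ := by
      have := (Finset.card_filter_le _ _).trans (Finset.card_filter_le (Icc 1 ⌊z⌋₊) Nat.Prime)
        (a := Q.card)
      simpa using this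
    exact le_trans (by exact_mod_cast this) hz1
  have h7 : (((3 : ℕ) : ℝ) * (Q.card + 1)) ^ m ≤ (6 * z) ^ m := by
    refine pow_le_pow_left₀ (by positivity) ?_ m
    push_cast; linarith
  have hpos : 0 ≤ Real.exp (-((1 + 𝒜.card : ℕ) * ∑ p ∈ Q, (1 : ℝ) / p)) +
      ((1 + 𝒜.card : ℕ) * ∑ p ∈ Q, (1 : ℝ) / p) ^ (m + 1) / ((m + 1).factorial : ℝ) := by
    positivity
  have h8 := mul_le_mul_of_nonneg_right hN1 hpos
  exact (hc.trans (add_le_add hz1 (hb.trans (add_le_add h8 h7)))).trans_eq (add_assoc _ _ _).symm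

theorem sieve_pow_div_fact {s : ℝ} (hs : 0 ≤ s) (k : ℕ) :
    s ^ k / (k.factorial : ℝ) ≤ Real.exp (3 * s - k) := by
  have h1 := Real.pow_div_factorial_le_exp (Real.exp 1 * s) (by positivity) k
  have h2 : Real.exp (Real.exp 1 * s) ≤ Real.exp (3 * s) :=
    Real.exp_le_exp.2 (mul_le_mul_of_nonneg_right Real.exp_one_lt_three.le hs)
  rw [mul_pow, ← Real.exp_nat_mul, mul_one, mul_div_assoc] at h1
  rw [Real.exp_sub, le_div_iff₀ (Real.exp_pos _)]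
  linarith

theorem sieve_pow_le_exp : ∃ c : ℝ, 0 < c ∧ ∀ l : ℝ, 0 ≤ l → l ^ 27 ≤ c * Real.exp (l / 2) := by
  refine ⟨2 ^ 27 * ((27 : ℕ).factorial : ℝ), by positivity, fun l hl => ?_⟩
  have h1 := Real.pow_div_factorial_le_exp (l / 2) (by positivity) 27
  have hf : (0 : ℝ) < ((27 : ℕ).factorial : ℝ) := by positivity
  generalize ((27 : ℕ).factorial : ℝ) = f at *
  rw [div_le_iff₀ hf, div_pow, div_le_iff₀ (by positivity)] at h1
  linarith

/-- Lower bound for the sum of reciprocals of the sieving primes. -/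
theorem sieve_sum_lower : ∃ c : ℝ, 0 < c ∧ ∀ Y : ℝ, 1 ≤ Y → ∀ 𝒜 : Finset ℕ, 𝒜.card ≤ 2 →
    (∀ a ∈ 𝒜, (a : ℝ) ≤ EE Y) → ∀ u : ℝ, 1 ≤ u →
    Real.log u - Real.log Y - c ≤ ∑ p ∈ sPrimes 𝒜 (Real.exp u), (1 : ℝ) / p := by
  obtain ⟨C₁, hC₁, h₁⟩ := le_sum_inv_primes
  obtain ⟨C₂, hC₂, h₂⟩ := recBd_prime_dvd
  refine ⟨C₁ + C₂ + Real.log 5, by have := Real.log_pos (show (1 : ℝ) < 5 by norm_num); linarith,
    fun Y hY 𝒜 h2 ha u hu => ?_⟩
  set T := (Icc 1 ⌊Real.exp u⌋₊).filter Nat.Prime with hT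
  have a1 := h₁ (Real.log u) (Real.log_nonneg hu) T (fun p hp hl => by
    rw [ell_le_iff (Real.log_nonneg hu), EE, Real.exp_log (by linarith)] at hl
    exact Finset.mem_filter.2 ⟨Finset.mem_Icc.2 ⟨hp.one_le, Nat.le_floor hl⟩, hp⟩)
  have hE : 1 ≤ EE Y := Real.one_le_exp (Real.exp_pos Y).le
  have a2 : Real.log (sDisc 𝒜) ≤ Real.exp (2 * (5 * Y)) := by
    have b1 : (0 : ℝ) < sDisc 𝒜 := by exact_mod_cast sDisc_pos 𝒜
    have b2 := Real.log_le_log b1 (sDisc_le h2 hE ha)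
    rw [Real.log_pow, log_EE] at b2
    have b3 : Real.exp (2 * (5 * Y)) = Real.exp (9 * Y) * Real.exp Y := by
      rw [← Real.exp_add]; ring_nf
    have b4 : (9 : ℝ) ≤ Real.exp (9 * Y) := by linarith [Real.add_one_le_exp (9 * Y)]
    rw [b3]
    push_cast at b2
    exact b2.trans (mul_le_mul_of_nonneg_right b4 (Real.exp_pos Y).le)
  have a3 := h₂ (5 * Y) (by linarith) (sDisc 𝒜) (sDisc_pos 𝒜) a2
    (T.filter fun p => p ∣ sDisc 𝒜) (fun p hp => by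
      have hp' := Finset.mem_filter.1 (Finset.mem_coe.1 hp)
      exact ⟨(Finset.mem_filter.1 hp'.1).2, hp'.2⟩)
  rw [Real.log_mul (by norm_num) (by linarith)] at a3
  have a4 := Finset.sum_filter_add_sum_filter_not T (fun p => p ∣ sDisc 𝒜) (fun p => (1 : ℝ) / p)
  have a5 : sPrimes 𝒜 (Real.exp u) = T.filter fun p => ¬ p ∣ sDisc 𝒜 := rfl
  rw [a5]
  linarith

theorem sieve_sum_upper (𝒜 : Finset ℕ) {z l : ℝ} (hl : 1 ≤ l) (hz0 : 0 ≤ z) (hz : z ≤ Real.exp l) :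
    ∑ p ∈ sPrimes 𝒜 z, (1 : ℝ) / p ≤ Real.log l + eta := by
  refine recBd_primes_le (Real.log_nonneg hl) _ fun p hp => ?_
  have hp' := Finset.mem_coe.1 hp
  simp only [sPrimes, Finset.mem_filter, Finset.mem_Icc] at hp'
  refine ⟨hp'.1.2, ?_⟩
  rw [ell_le_iff (Real.log_nonneg hl), EE, Real.exp_log (by linarith)]
  exact le_trans (le_trans (by exact_mod_cast hp'.1.1.2) (Nat.floor_le hz0)) hz

theorem sieve_trivial {N : ℝ} (hN : 0 ≤ N) (S : Finset ℕ)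
    (hS : ∀ π ∈ S, π.Prime ∧ (π : ℝ) ≤ N) : (S.card : ℝ) ≤ N := by
  have h : S ⊆ Icc 1 ⌊N⌋₊ := fun π hπ =>
    Finset.mem_Icc.2 ⟨(hS π hπ).1.one_le, Nat.le_floor (hS π hπ).2⟩
  have := Finset.card_le_card h
  rw [Nat.card_Icc, Nat.add_sub_cancel] at this
  exact le_trans (by exact_mod_cast this) (Nat.floor_le hN)

theorem sieve_num1 {Y u c₁ c s l : ℝ} {m κ : ℕ} (hY : 1 ≤ Y) (hu1 : 1 ≤ u) (hc₁1 : 1 ≤ c₁)
    (hc : 0 < c) (hκ3 : κ ≤ 3) (hul : u * (4 * m) = l) (hm0 : (1 : ℝ) ≤ m)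
    (hm3 : 4 * (m : ℝ) ≤ c₁ * Y) (hs1 : Real.log u - Real.log Y - c ≤ s) :
    Real.exp (-(κ * s)) * l ^ κ ≤ (c₁ * Real.exp c) ^ 3 * Y ^ 6 := by
  have hl0 : 0 ≤ l := by rw [← hul]; positivity
  have a1 : Real.exp (-s) * l ≤ (c₁ * Real.exp c) * Y ^ 2 := by
    have b1 : Real.exp (-s) ≤ Real.exp (-(Real.log u - Real.log Y - c)) :=
      Real.exp_le_exp.2 (by linarith)
    have b2 : Real.exp (-(Real.log u - Real.log Y - c)) = Y * Real.exp c / u := by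
      rw [show -(Real.log u - Real.log Y - c) = Real.log Y + c - Real.log u by ring,
        Real.exp_sub, Real.exp_add, Real.exp_log (by linarith), Real.exp_log (by linarith)]
    calc Real.exp (-s) * l ≤ Y * Real.exp c / u * l := by rw [← b2]; gcongr
      _ = Y * Real.exp c * (4 * m) := by rw [← hul]; field_simp
      _ ≤ Y * Real.exp c * (c₁ * Y) := by gcongr
      _ = (c₁ * Real.exp c) * Y ^ 2 := by ring
  have a2 : Real.exp (-(κ * s)) * l ^ κ = (Real.exp (-s) * l) ^ κ := by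
    rw [mul_pow, ← Real.exp_nat_mul]; ring_nf
  have a3 : 1 ≤ (c₁ * Real.exp c) * Y ^ 2 :=
    one_le_mul_of_one_le_of_one_le (one_le_mul_of_one_le_of_one_le hc₁1 (Real.one_le_exp hc.le))
      (one_le_pow₀ hY)
  calc Real.exp (-(κ * s)) * l ^ κ = (Real.exp (-s) * l) ^ κ := a2
    _ ≤ ((c₁ * Real.exp c) * Y ^ 2) ^ κ := pow_le_pow_left₀ (by positivity) a1 κ
    _ ≤ ((c₁ * Real.exp c) * Y ^ 2) ^ 3 := pow_le_pow_right₀ a3 hκ3
    _ = _ := by ring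

theorem sieve_num2 {s l L η : ℝ} {m κ : ℕ} (hs0 : 0 ≤ s) (hκ3 : κ ≤ 3) (hl1 : 1 ≤ l)
    (hlL : Real.exp L = l) (hη : 1 ≤ η) (hs2 : s ≤ L + η) (hm1 : 12 * (L + η) ≤ m) :
    (κ * s) ^ (m + 1) / ((m + 1).factorial : ℝ) * l ^ κ ≤ 1 := by
  have hκ3' : (κ : ℝ) ≤ 3 := by exact_mod_cast hκ3
  have hlk3 : l ^ κ ≤ l ^ 3 := pow_le_pow_right₀ hl1 hκ3
  have a1 := sieve_pow_div_fact (show 0 ≤ κ * s by positivity) (m + 1)
  have a2 : κ * s ≤ 3 * (L + η) := by gcongr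
  have a3 : Real.exp (3 * (κ * s) - (m + 1 : ℕ)) ≤ Real.exp (-(3 * L)) := by
    refine Real.exp_le_exp.2 ?_
    push_cast; linarith
  have a4 : Real.exp (-(3 * L)) * l ^ 3 = 1 := by
    rw [← hlL, ← Real.exp_nat_mul, ← Real.exp_add]; simp
  calc (κ * s) ^ (m + 1) / ((m + 1).factorial : ℝ) * l ^ κ ≤ Real.exp (-(3 * L)) * l ^ 3 :=
        mul_le_mul (a1.trans a3) hlk3 (by positivity) (Real.exp_pos _).le
    _ = 1 := a4

theorem sieve_num3 {u l L η c' : ℝ} {m κ : ℕ} (hκ3 : κ ≤ 3) (hl1 : 1 ≤ l)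
    (hlL : Real.exp L = l) (hul : u * (4 * m) = l) (hm2 : (m : ℝ) ≤ 12 * (L + η) + 2)
    (hc' : 0 < c') (a3 : l ^ 27 ≤ c' * Real.exp (l / 2)) :
    (6 * Real.exp u) ^ m * l ^ κ ≤ Real.exp (24 * η + 4) * c' * Real.exp l := by
  have hlk3 : l ^ κ ≤ l ^ 3 := pow_le_pow_right₀ hl1 hκ3
  have a1 : (6 : ℝ) ≤ Real.exp 2 := by
    have := Real.exp_one_gt_d9
    rw [show (2 : ℝ) = 1 + 1 by norm_num, Real.exp_add]; nlinarith
  have a2 : (6 * Real.exp u) ^ m ≤ Real.exp (24 * η + 4) * l ^ 24 * Real.exp (l / 4) := by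
    calc (6 * Real.exp u) ^ m ≤ (Real.exp 2 * Real.exp u) ^ m := by gcongr
      _ = Real.exp (2 * m + l / 4) := by
          rw [← Real.exp_add, ← Real.exp_nat_mul, ← hul]; ring_nf
      _ ≤ Real.exp (24 * η + 4 + 24 * L + l / 4) := Real.exp_le_exp.2 (by linarith)
      _ = _ := by
          rw [Real.exp_add, Real.exp_add, show 24 * L = ((24 : ℕ) : ℝ) * L by norm_num,
            Real.exp_nat_mul, hlL]
  have a4 : Real.exp (l / 2) * Real.exp (l / 4) ≤ Real.exp l := by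
    rw [← Real.exp_add]; exact Real.exp_le_exp.2 (by linarith)
  calc (6 * Real.exp u) ^ m * l ^ κ
      ≤ (Real.exp (24 * η + 4) * l ^ 24 * Real.exp (l / 4)) * l ^ 3 :=
        mul_le_mul a2 hlk3 (by positivity) (by positivity)
    _ = Real.exp (24 * η + 4) * l ^ 27 * Real.exp (l / 4) := by ring
    _ ≤ Real.exp (24 * η + 4) * (c' * Real.exp (l / 2)) * Real.exp (l / 4) := by gcongr
    _ = Real.exp (24 * η + 4) * c' * (Real.exp (l / 2) * Real.exp (l / 4)) := by ring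
    _ ≤ _ := by gcongr

theorem sieve_count : ∃ C : ℝ, 1 ≤ C ∧ ∀ Y : ℝ, 1 ≤ Y → ∀ N : ℝ, 2 ≤ N → N ≤ EE Y →
    ∀ 𝒜 : Finset ℕ, 𝒜.card ≤ 2 → (∀ a ∈ 𝒜, 0 < a ∧ (a : ℝ) ≤ EE Y) →
    CntBd {π : ℕ | π.Prime ∧ (π : ℝ) ≤ N ∧ ∀ a ∈ 𝒜, (a * π + 1).Prime}
      (C * Y ^ 6 * N / Real.log N ^ (1 + 𝒜.card)) := by
  obtain ⟨c, hc, hlow⟩ := sieve_sum_lower
  obtain ⟨c', hc', hpow⟩ := sieve_pow_le_exp
  have hη := one_le_eta
  -- constants
  set c₁ : ℝ := 4 * (14 + 12 * eta) with hc₁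
  have hc₁1 : 1 ≤ c₁ := by rw [hc₁]; linarith
  set c₂ : ℝ := c₁ * Real.exp c with hc₂
  have hc₂1 : c₁ ≤ c₂ := le_mul_of_one_le_right (by linarith) (Real.one_le_exp hc.le)
  set c₃ : ℝ := Real.exp (24 * eta + 4) * c' with hc₃
  have hc₃0 : 0 < c₃ := by positivity
  have hc₂3 : 1 ≤ c₂ ^ 3 := one_le_pow₀ (by linarith)
  refine ⟨2 * c₂ ^ 3 + 2 + 2 * c₃, by linarith, fun Y hY N hN hNY 𝒜 h2 ha S hS => ?_⟩
  have hS' : ∀ π ∈ S, π.Prime ∧ (π : ℝ) ≤ N ∧ ∀ a ∈ 𝒜, (a * π + 1).Prime := fun π hπ => hS hπ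
  rw [Finset.sum_const, nsmul_eq_mul, mul_one]
  set κ : ℕ := 1 + 𝒜.card with hκ
  have hκ3 : κ ≤ 3 := by omega
  set l : ℝ := Real.log N with hl
  have hl0 : 0 < l := Real.log_pos (by linarith)
  have hNl : Real.exp l = N := Real.exp_log (by linarith)
  have hlκ : 0 < l ^ κ := by positivity
  have hY6 : 1 ≤ Y ^ 6 := one_le_pow₀ hY
  have htriv := sieve_trivial (by linarith : (0 : ℝ) ≤ N) S fun π hπ => ⟨(hS' π hπ).1, (hS' π hπ).2.1⟩
  rw [le_div_iff₀ hlκ]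
  -- the trivial case
  have hcase : l ^ κ ≤ c₂ ^ 3 * Y ^ 6 → (S.card : ℝ) * l ^ κ ≤ (2 * c₂ ^ 3 + 2 + 2 * c₃) * Y ^ 6 * N := by
    intro h
    calc (S.card : ℝ) * l ^ κ ≤ N * (c₂ ^ 3 * Y ^ 6) := by gcongr
      _ = c₂ ^ 3 * Y ^ 6 * N := by ring
      _ ≤ _ := by gcongr; linarith
  by_cases hl1 : l ≤ 1
  · refine hcase ((pow_le_one₀ hl0.le hl1).trans ?_)
    exact one_le_mul_of_one_le_of_one_le hc₂3 hY6
  push Not at hl1
  set L : ℝ := Real.log l with hL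
  have hL0 : 0 ≤ L := Real.log_nonneg hl1.le
  have hlL : Real.exp L = l := Real.exp_log hl0
  have hLY : L ≤ Y := by
    have h1 : l ≤ Real.exp Y := by
      rw [← log_EE]; exact Real.log_le_log (by linarith) hNY
    rw [hL, Real.log_le_iff_le_exp hl0]; exact h1
  set m : ℕ := 2 * ⌈6 * (L + eta)⌉₊ with hm
  have hm1 : 12 * (L + eta) ≤ m := by
    have := Nat.le_ceil (6 * (L + eta))
    rw [hm]; push_cast; linarith
  have hm2 : (m : ℝ) ≤ 12 * (L + eta) + 2 := by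
    have := Nat.ceil_lt_add_one (show 0 ≤ 6 * (L + eta) by linarith)
    rw [hm]; push_cast; linarith
  have hm3 : 4 * (m : ℝ) ≤ c₁ * Y := by
    have : eta ≤ eta * Y := le_mul_of_one_le_right (by linarith) hY
    rw [hc₁]; nlinarith
  have hm0 : (1 : ℝ) ≤ m := by linarith
  have hlk3 : l ^ κ ≤ l ^ 3 := pow_le_pow_right₀ hl1.le hκ3
  have hYY : Y ≤ Y ^ 2 := by nlinarith
  by_cases hl4 : l ≤ 4 * m
  · refine hcase (hlk3.trans ?_)
    calc l ^ 3 ≤ (c₂ * Y ^ 2) ^ 3 := by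
          refine pow_le_pow_left₀ hl0.le (hl4.trans (hm3.trans ?_)) 3
          gcongr
      _ = _ := by ring
  push Not at hl4
  set u : ℝ := l / (4 * m) with hu
  have hu1 : 1 ≤ u := by rw [hu, le_div_iff₀ (by linarith)]; linarith
  have hul : u * (4 * m) = l := by rw [hu]; field_simp
  have hu4 : u ≤ l / 4 := by nlinarith
  have hz1 : 1 ≤ Real.exp u := Real.one_le_exp (by linarith)
  have hcomb := sieve_comb h2 (fun a h => (ha a h).1) hz1 (by linarith : 1 ≤ N) m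
    (by rw [hm]; exact even_two_mul _) S hS'
  rw [← hκ] at hcomb
  have hs1 := hlow Y hY 𝒜 h2 (fun a h => (ha a h).2) u hu1
  have hs2 := sieve_sum_upper 𝒜 hl1.le (Real.exp_pos u).le
    (Real.exp_le_exp.2 (by linarith : u ≤ l))
  set s : ℝ := ∑ p ∈ sPrimes 𝒜 (Real.exp u), (1 : ℝ) / p with hs
  have hs0 : 0 ≤ s := Finset.sum_nonneg fun p _ => by positivity
  have e1 : Real.exp (-(κ * s)) * l ^ κ ≤ c₂ ^ 3 * Y ^ 6 :=
    sieve_num1 hY hu1 hc₁1 hc hκ3 hul hm0 hm3 hs1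
  have e2 : (κ * s) ^ (m + 1) / ((m + 1).factorial : ℝ) * l ^ κ ≤ 1 :=
    sieve_num2 hs0 hκ3 hl1.le hlL hη hs2 hm1
  have e3 : (6 * Real.exp u) ^ m * l ^ κ ≤ c₃ * N := by
    rw [← hNl]
    exact sieve_num3 hκ3 hl1.le hlL hul hm2 hc' (hpow l hl0.le)
  have e4 : Real.exp u ≤ (6 * Real.exp u) ^ m := by
    have : 1 ≤ m := by exact_mod_cast hm0
    calc Real.exp u ≤ (6 * Real.exp u) ^ 1 := by rw [pow_one]; linarith
      _ ≤ _ := pow_le_pow_right₀ (by linarith) this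
  have hN0 : 0 ≤ N := by linarith
  generalize (κ * s) ^ (m + 1) / ((m + 1).factorial : ℝ) = A at *
  generalize Real.exp (-(κ * s)) = B at *
  generalize (6 * Real.exp u) ^ m = D at *
  generalize l ^ κ = P at *
  calc (S.card : ℝ) * P ≤ (D + 2 * N * (B + A) + D) * P := by gcongr; linarith
    _ = 2 * N * (B * P) + 2 * N * (A * P) + 2 * (D * P) := by ring
    _ ≤ 2 * N * (c₂ ^ 3 * Y ^ 6) + 2 * N * 1 + 2 * (c₃ * N) := by gcongr
    _ = 2 * c₂ ^ 3 * Y ^ 6 * N + (2 + 2 * c₃) * 1 * N := by ring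
    _ ≤ 2 * c₂ ^ 3 * Y ^ 6 * N + (2 + 2 * c₃) * Y ^ 6 * N := by gcongr
    _ = _ := by ring

end Crest.Agent.R20
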