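import Crest.Agent.R20.Euler
import Crest.Agent.R20.Sieve

/-!
# R20: non-normal primes are rare

Notation: `E = U^7`, `Y = 2 U^11`.
-/

set_option autoImplicit false

open Finset Filter Topology

noncomputable section

namespace Crest.Agent.R20

namespace NN

theorem ev_poly (c : ℝ) (n : ℕ) : ∀ᶠ U : ℝ in atTop, c * U ^ n ≤ Real.exp U := by
  filter_upwards [(Real.tendsto_exp_div_pow_atTop n).eventually_ge_atTop c,
    eventually_gt_atTop 0] with U h hU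
  rwa [le_div_iff₀ (pow_pos hU n)] at h

theorem rankin {A : Set ℕ} {k : ℕ → ℕ} {z β L : ℝ} (hz : 0 < z)
    (h : SumBd A (fun n => z ^ k n / n) β) {A' : Set ℕ} (hA : A' ⊆ A)
    (hL : ∀ n ∈ A', L ≤ k n * Real.log z) : RecBd A' (β * Real.exp (-L)) := by
  refine ((h.mono_set hA).mul_const (Real.exp_pos (-L)).le).mono_fun fun n hn => ?_
  have h1 : 1 ≤ z ^ k n * Real.exp (-L) := by
    rw [← Real.exp_log (pow_pos hz (k n)), ← Real.exp_add, Real.log_pow]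
    exact Real.one_le_exp (by linarith [hL n hn])
  calc 1 / (n : ℝ) ≤ z ^ k n * Real.exp (-L) / n :=
        div_le_div_of_nonneg_right h1 (Nat.cast_nonneg _)
    _ = z ^ k n / n * Real.exp (-L) := by ring

theorem EE_loglog {X : ℝ} (hX : 1 < X) : EE (Real.log (Real.log X)) = X := by
  rw [EE, Real.exp_log (Real.log_pos hX), Real.exp_log (by linarith)]

/-- The structure of a typical non-normal prime. -/
theorem structure_of {E R X : ℝ} {p : ℕ} (hE : 6 ≤ E) (hX : EE E < X) (hp : p.Prime)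
    (hpX : (p : ℝ) ≤ X) (hn : ¬ Normal E p) (hp1 : √X + 1 < p) (hR0 : 0 < R)
    (hR : (Om (p - 1) : ℝ) ≤ R) :
    ∃ b ≤ ⌈Real.log (Real.log X)⌉₊, ∃ s π : ℕ, s * π + 1 = p ∧ π.Prime ∧ 0 < s ∧
      hq s ≤ ⌈Real.log (Real.log X)⌉₊ ∧ E / 2 ≤ |(OmB b s : ℝ) - b| ∧
      Real.log X / (2 * R) ≤ Real.log π := by
  set B := Real.log (Real.log X) with hB
  set N := ⌈B⌉₊ with hN
  have hX1 : 1 < X := lt_trans (Real.one_lt_exp_iff.2 (Real.exp_pos _)) hX
  have hL : 0 < Real.log X := Real.log_pos hX1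
  have hEL : Real.exp E < Real.log X := by
    rw [← log_EE]
    exact Real.log_lt_log (EE_pos _) hX
  have hEB : E < B := by
    rw [hB, Real.lt_log_iff_exp_lt hL]
    exact hEL
  have hB0 : 0 ≤ B := by linarith
  have hpB : ell p ≤ B := by
    rw [ell_le_iff hB0, EE_loglog hX1]
    exact hpX
  have hBN : B ≤ N := Nat.le_ceil _
  have hNB : (N : ℝ) < B + 1 := Nat.ceil_lt_add_one hB0
  have hs1 : 1 < √X := Real.lt_sqrt_of_sq_lt (by linarith)
  obtain ⟨n, rfl⟩ : ∃ n, p = n + 1 := ⟨p - 1, (Nat.sub_add_cancel hp.pos).symm⟩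
  simp only [Nat.add_sub_cancel] at hR
  have hn1 : √X < n := by push_cast at hp1; linarith
  have hn2 : 1 < n := by exact_mod_cast hs1.trans hn1
  have hn0 : 0 < n := by omega
  have hlogn : Real.log X / 2 ≤ Real.log n := by
    rw [← Real.log_sqrt (by linarith)]
    exact Real.log_le_log (by linarith) hn1.le
  have hπ := gpf_prime hn2
  obtain ⟨s, hs⟩ := gpf_dvd n
  have hs0 : 0 < s := Nat.pos_of_ne_zero fun h => by rw [h] at hs; omega
  have hnp : ell n ≤ ell (n + 1) := ell_mono (Nat.le_succ n)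
  have hell : B - 1 ≤ ell (n + 1) := by
    refine le_trans ?_ (le_trans (le_max_right _ _) hnp)
    have h1 : Real.log (Real.log X / 2) ≤ Real.log (Real.log n) :=
      Real.log_le_log (by positivity) hlogn
    rw [Real.log_div hL.ne' two_ne_zero] at h1
    have := Real.log_two_lt_d9
    linarith
  rw [Normal, not_or, not_forall] at hn
  obtain ⟨-, b, hb⟩ := hn
  rw [not_le, Nat.add_sub_cancel] at hb
  have hwin : ∀ q : ℕ, q.Prime → q ∣ n → win q ≤ N := fun q _ hq =>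
    win_le_iff.2 ((ell_mono (Nat.le_of_dvd hn0 hq)).trans (hnp.trans (hpB.trans hBN)))
  have hb' : E < |(OmB (min b N) n : ℝ) - min ((min b N : ℕ) : ℝ) (ell (n + 1))| := by
    rcases le_total b N with h | h
    · rwa [min_eq_left h]
    · rw [min_eq_right h, OmB_eq_Om hwin, min_eq_right (hpB.trans hBN)]
      rwa [OmB_eq_Om (fun q hq hd => (hwin q hq hd).trans h),
        min_eq_right (hpB.trans (hBN.trans (by exact_mod_cast h)))] at hb
  set b' := min b N with hb'def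
  have hb'N : b' ≤ N := min_le_right _ _
  have hb'N' : (b' : ℝ) ≤ N := by exact_mod_cast hb'N
  refine ⟨b', hb'N, s, gpf n, by rw [mul_comm, ← hs], hπ, hs0, ?_, ?_, ?_⟩
  · exact (hq_le_of_dvd hn0 (Dvd.intro_left _ hs.symm)).trans
      ((hq_le_ell hn0).trans (hnp.trans (hpB.trans hBN)))
  · have h1 : OmB b' n = OmB b' (gpf n) + OmB b' s := by
      conv_lhs => rw [hs]
      exact OmB_mul _ hπ.pos hs0
    have h2 : OmB b' (gpf n) ≤ 1 := by
      rw [OmB_prime _ hπ]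
      split_ifs <;> omega
    have h3 : (OmB b' n : ℝ) = OmB b' (gpf n) + OmB b' s := by exact_mod_cast h1
    have h4 : (OmB b' (gpf n) : ℝ) ≤ 1 := by exact_mod_cast h2
    have h5 : (0 : ℝ) ≤ OmB b' (gpf n) := Nat.cast_nonneg _
    have h6 : min (b' : ℝ) (ell (n + 1)) ≤ b' := min_le_left _ _
    have h7 : (b' : ℝ) - 2 ≤ min (b' : ℝ) (ell (n + 1)) := le_min (by linarith) (by linarith)
    rw [h3] at hb'
    rcases lt_abs.1 hb' with h | h
    · exact le_abs.2 (Or.inl (by linarith))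
    · exact le_abs.2 (Or.inr (by linarith))
  · have h1 : Real.log n ≤ Om n * Real.log (gpf n) := by
      rw [← Real.log_pow]
      exact Real.log_le_log (by exact_mod_cast hn0) (by exact_mod_cast le_gpf_pow_Om hn0)
    have h2 : 0 ≤ Real.log (gpf n) := Real.log_natCast_nonneg _
    rw [div_le_iff₀ (by positivity)]
    nlinarith [mul_le_mul_of_nonneg_right hR h2]

/-- Counting the primes `s π + 1` with `s` in a set of small reciprocal sum. -/
theorem count_pairs {C : ℝ} (hC : 1 ≤ C) (hsieve : ∀ Y : ℝ, 1 ≤ Y → ∀ N : ℝ, 2 ≤ N → N ≤ EE Y →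
    ∀ 𝒜 : Finset ℕ, 𝒜.card ≤ 2 → (∀ a ∈ 𝒜, 0 < a ∧ (a : ℝ) ≤ EE Y) →
    CntBd {π : ℕ | π.Prime ∧ (π : ℝ) ≤ N ∧ ∀ a ∈ 𝒜, (a * π + 1).Prime}
      (C * Y ^ 6 * N / Real.log N ^ (1 + 𝒜.card)))
    {Y X l β : ℝ} (hY : 1 ≤ Y) (hXY : X ≤ EE Y) (hX : 0 ≤ X) (hl : 0 < l) {D : Set ℕ}
    (hD : RecBd D β) :
    CntBd {p : ℕ | p.Prime ∧ (p : ℝ) ≤ X ∧ ∃ s π : ℕ, s * π + 1 = p ∧ π.Prime ∧ 0 < s ∧ s ∈ D ∧
      l ≤ Real.log π} (C * Y ^ 6 * X / l ^ 2 * β) := by
  have hK : 0 ≤ C * Y ^ 6 * X / l ^ 2 := by positivity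
  have h1 : SumBd {o : ℕ × ℕ | o.1 ∈ D ∧ 0 < o.1 ∧ o.2.Prime ∧ (o.1 * o.2 + 1).Prime ∧
      ((o.1 * o.2 : ℕ) : ℝ) ≤ X ∧ l ≤ Real.log o.2} (fun _ => (1 : ℝ))
      (C * Y ^ 6 * X / l ^ 2 * β) := by
    refine SumBd.sigma (B := D) (fun o ho => ho.1) (fun s _ => ?_) (hD.const_mul hK)
    by_cases hne : ∃ π : ℕ, 0 < s ∧ π.Prime ∧ ((s * π : ℕ) : ℝ) ≤ X ∧ l ≤ Real.log π
    · obtain ⟨π₀, hs0, hπ₀, hle, hl₀⟩ := hne
      have hs' : (1 : ℝ) ≤ s := by exact_mod_cast hs0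
      have hπ2 : (2 : ℝ) ≤ π₀ := by exact_mod_cast hπ₀.two_le
      push_cast at hle
      have hπX : (π₀ : ℝ) ≤ X / s := by
        rw [le_div_iff₀ (by linarith)]
        linarith
      have hsX : (s : ℝ) ≤ X := by nlinarith
      have h2 := hsieve Y hY (X / s) (hπ2.trans hπX)
        ((div_le_self hX hs').trans hXY) {s} (by simp) (fun a ha => by
          rw [mem_singleton] at ha
          exact ha ▸ ⟨hs0, hsX.trans hXY⟩)
      refine (h2.mono_set fun π hπ => ⟨hπ.2.2.1, ?_, fun a ha => ?_⟩).mono_bd ?_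
      · have := hπ.2.2.2.2.1
        push_cast at this
        rw [le_div_iff₀ (by linarith)]
        linarith
      · rw [mem_singleton] at ha
        exact ha ▸ hπ.2.2.2.1
      · have h3 : l ≤ Real.log (X / s) := hl₀.trans (Real.log_le_log (by linarith) hπX)
        rw [card_singleton]
        calc C * Y ^ 6 * (X / s) / Real.log (X / s) ^ (1 + 1)
            ≤ C * Y ^ 6 * (X / s) / l ^ 2 := by gcongr
          _ = C * Y ^ 6 * X / l ^ 2 * (1 / s) := by ring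
    · refine (SumBd.empty _ (by positivity)).mono_set fun π hπ => hne ?_
      exact ⟨π, hπ.2.1, hπ.2.2.1, hπ.2.2.2.2.1, hπ.2.2.2.2.2⟩
  refine h1.of_map (fun o => o.1 * o.2 + 1) ?_
  rintro p ⟨hp, hpX, s, π, rfl, hπ, hs0, hsD, hl'⟩
  refine ⟨(s, π), ⟨hsD, hs0, hπ, hp, ?_, hl'⟩, rfl, le_rfl⟩
  push_cast at hpX ⊢
  linarith

theorem sumBd_pow {p : ℕ} (hp : p.Prime) :
    SumBd {Q : ℕ | ∃ e, Q = p ^ (e + 1)} wq (4 / p) := by
  have hp2 : (2 : ℝ) ≤ p := by exact_mod_cast hp.two_le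
  have h1 : SumBd (Set.univ : Set ℕ) (fun e => (1 / 2 : ℝ) ^ e) 2 := fun S _ =>
    sum_le_hasSum S (fun _ _ => by positivity) hasSum_geometric_two
  have h2 := h1.mul_const (c := 2 / p) (by positivity)
  refine (h2.mono_bd (le_of_eq (by ring))).of_map (fun e => p ^ (e + 1)) ?_
  rintro Q ⟨e, rfl⟩
  refine ⟨e, trivial, rfl, ?_⟩
  rw [wq, Nat.totient_prime_pow_succ hp, Nat.cast_mul, Nat.cast_pow, Nat.cast_pred hp.pos,
    one_div_pow, div_mul_div_comm, one_mul,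
    div_le_div_iff₀ (mul_pos (by positivity) (by linarith)) (by positivity)]
  have h3 : (2 : ℝ) ^ e ≤ (p : ℝ) ^ e := pow_le_pow_left₀ zero_le_two hp2 e
  have h4 : (0 : ℝ) < 2 ^ e := by positivity
  nlinarith [mul_le_mul h3 (show (p : ℝ) ≤ 2 * (p - 1) by linarith) (by linarith) (by positivity)]

end NN

/-- Large deviations of `OmB b` among `N`-smooth numbers (`hq s ≤ N`, `b ≤ N ≤ Y + 1`).
Upper tail: `z = 1 + ξ`, `ξ = E/(16 Y') ≤ 1/2` with `Y' = 4U^11 ≥ b + E`; on the set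
`1 ≤ z^{OmB b s} z^{-(b + E/2)}`, `log z ≥ ξ - ξ²`, so `euler_OmB` gives the exponent
`N + ξ b - (b + E/2)(ξ - ξ²) ≤ N - ξE/2 + ξ² Y'`.  Lower tail: `z = 1 - ξ`,
`1 ≤ z^{OmB b s} z^{-(b - E/2)}` (if `b < E/2` the set is empty), `-log z ≤ ξ + ξ²`, exponent
`N - ξ b + (b - E/2)(ξ + ξ²) ≤ N - ξE/2 + ξ² Y'`.  And `-ξE/2 + ξ² Y' ≤ -E²/(64 Y') = -U³/256`. -/
theorem recBd_OmB_dev : ∃ C : ℝ, 1 ≤ C ∧ ∀ U : ℝ, 2 ≤ U → ∀ b N : ℕ, b ≤ N →
    (N : ℝ) ≤ 2 * U ^ 11 + 1 →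
    RecBd {s : ℕ | 0 < s ∧ hq s ≤ N ∧ U ^ 7 / 2 ≤ |(OmB b s : ℝ) - b|}
      (C * Real.exp (N - U ^ 3 / 256)) := by
  obtain ⟨C, hC, h⟩ := euler_OmB
  refine ⟨2 * C + 1, by linarith, fun U hU b N hbN hN => ?_⟩
  have hU0 : 0 < U := by linarith
  have hU4 : 16 ≤ U ^ 4 := by
    have := pow_le_pow_left₀ zero_le_two hU 4
    linarith
  have hU7 : 128 ≤ U ^ 7 := by
    have := pow_le_pow_left₀ zero_le_two hU 7
    linarith
  have hU11 : U ^ 11 = U ^ 7 * U ^ 4 := by ring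
  have hb : (b : ℝ) ≤ 2 * U ^ 11 + 1 := le_trans (by exact_mod_cast hbN) hN
  have hb0 : (0 : ℝ) ≤ b := Nat.cast_nonneg _
  set ξ : ℝ := 1 / (16 * U ^ 4) with hξ
  have hξ0 : 0 < ξ := by positivity
  have hξ1 : ξ ≤ 1 / 2 := one_div_le_one_div_of_le two_pos (by linarith)
  have e1 : ξ * U ^ 7 = U ^ 3 / 16 := by rw [hξ]; field_simp
  have e2 : ξ ^ 2 * U ^ 11 = U ^ 3 / 256 := by rw [hξ]; field_simp; norm_num
  have hU3 : 0 < U ^ 3 := by positivity
  have hξ2 : 0 < ξ ^ 2 := by positivity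
  have l1 : ξ - ξ ^ 2 ≤ Real.log (1 + ξ) := by
    refine le_trans ?_ (Real.one_sub_inv_le_log_of_pos (by linarith))
    rw [le_sub_comm, inv_eq_one_div, div_le_iff₀ (by linarith)]
    nlinarith [mul_pos hξ0 hξ2]
  have l2 : -(ξ + 2 * ξ ^ 2) ≤ Real.log (1 - ξ) := by
    refine le_trans ?_ (Real.one_sub_inv_le_log_of_pos (by linarith))
    rw [le_sub_comm, inv_eq_one_div, div_le_iff₀ (by linarith)]
    nlinarith [mul_nonneg hξ2.le (show 0 ≤ 1 - 2 * ξ by linarith)]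
  have up := NN.rankin (by linarith) (h (1 + ξ) (by linarith) (by linarith) b N hbN)
    (A' := {s : ℕ | 0 < s ∧ hq s ≤ N ∧ b + U ^ 7 / 2 ≤ (OmB b s : ℝ)})
    (fun s hs => ⟨hs.1, hs.2.1⟩) (L := (b + U ^ 7 / 2) * (ξ - ξ ^ 2)) fun s hs =>
      mul_le_mul hs.2.2 l1 (by nlinarith) (Nat.cast_nonneg _)
  have lo := NN.rankin (by linarith) (h (1 - ξ) (by linarith) (by linarith) b N hbN)
    (A' := {s : ℕ | 0 < s ∧ hq s ≤ N ∧ (OmB b s : ℝ) ≤ b - U ^ 7 / 2})
    (fun s hs => ⟨hs.1, hs.2.1⟩) (L := -((b - U ^ 7 / 2) * (ξ + 2 * ξ ^ 2))) fun s hs => by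
      have h1 := mul_le_mul_of_nonneg_left l2 (Nat.cast_nonneg (α := ℝ) (OmB b s))
      have h2 := mul_le_mul_of_nonneg_right hs.2.2 (show 0 ≤ ξ + 2 * ξ ^ 2 by positivity)
      linarith
  refine ((up.union lo).mono_set fun s hs => ?_).mono_bd ?_
  · rcases le_abs.1 hs.2.2 with h' | h'
    · exact Or.inl ⟨hs.1, hs.2.1, by linarith⟩
    · exact Or.inr ⟨hs.1, hs.2.1, by linarith⟩
  · have b1 : ξ ^ 2 * (b + U ^ 7 / 2) ≤ ξ ^ 2 * (4 * U ^ 11) :=
      mul_le_mul_of_nonneg_left (by nlinarith) hξ2.le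
    have b2 : ξ ^ 2 * b ≤ ξ ^ 2 * (3 * U ^ 11) :=
      mul_le_mul_of_nonneg_left (by nlinarith) hξ2.le
    have b3 : 0 ≤ ξ ^ 2 * U ^ 7 := by positivity
    rw [mul_assoc, mul_assoc, ← Real.exp_add, ← Real.exp_add]
    have c1 : Real.exp (N + (1 + ξ - 1) * b + -((b + U ^ 7 / 2) * (ξ - ξ ^ 2))) ≤
        Real.exp (N - U ^ 3 / 256) := Real.exp_le_exp.2 (by nlinarith)
    have c2 : Real.exp (N + (1 - ξ - 1) * b + - -((b - U ^ 7 / 2) * (ξ + 2 * ξ ^ 2))) ≤
        Real.exp (N - U ^ 3 / 256) := Real.exp_le_exp.2 (by nlinarith)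
    have := Real.exp_pos (N - U ^ 3 / 256)
    nlinarith

/-- A non-normal prime has `ell p > E`, so the set is empty unless `X > EE E`.  Put
`B_X = log log X ≤ Y`, `N = ⌈B_X⌉`, `R = 10 Y`.  Discard `p ≤ √X + 1` (at most `2√X`) and those with
`Om (p-1) > R` (at most `X · C exp (-2Y)` by `recBd_Om_large`, `RecBd.cnt`).  Otherwise
`p - 1 = s π` with `π = gpf (p-1)`, `log π ≥ log (p-1)/R ≥ log X/(2R)` (`le_gpf_pow_Om`), and there is
`b` with `|OmB b (p-1) - min b (ell p)| > E`; replacing `b` by `min b N` we may assume `b ≤ N` (all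
primes of `p-1` have `win ≤ N`, and `ell p ≤ N`); `|OmB b (p-1) - OmB b s| ≤ 1`,
`|min b (ell p) - b| ≤ N - ell p ≤ 2` (as `p ≥ √X`), so `|OmB b s - b| ≥ E/2`.  For fixed `s`,
`sieve_count` with `𝒜 = {s}`, `N := X/s ≥ π` bounds the number of `π` by
`C Y^6 (X/s) (2R/log X)²`.  Sum over `s` with `recBd_OmB_dev` and over `b ≤ N`:
`≤ (N+1) C Y^6 (2R)² X/(log X)² · e^N exp (-U³/256)` and `e^N ≤ e log X`. -/
theorem nonnormal_count : ∃ U₀ : ℝ, ∀ U : ℝ, U₀ ≤ U → ∀ X : ℝ, 2 ≤ X → X ≤ EE (2 * U ^ 11) →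
    CntBd {p : ℕ | p.Prime ∧ (p : ℝ) ≤ X ∧ ¬ Normal (U ^ 7) p}
      (X / Real.log X * Real.exp (-(2 * U ^ 2))) := by
  obtain ⟨C₁, hC₁, hdev⟩ := recBd_OmB_dev
  obtain ⟨C₂, hC₂, hlarge⟩ := recBd_Om_large
  obtain ⟨C₃, hC₃, hsieve⟩ := sieve_count
  obtain ⟨U₀, hU₀⟩ := eventually_atTop.1 ((NN.ev_poly (3 * C₂) 0).and
    ((NN.ev_poly (3 * (400 * 3 * 3 * 256 * C₁ * C₃)) 99).and (eventually_ge_atTop (768 : ℝ))))
  refine ⟨U₀, fun U hU X hX2 hXY => ?_⟩
  obtain ⟨hU1, hU2, hU3⟩ := hU₀ U hU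
  have hU0 : 1 ≤ U := by linarith
  have hX1 : 1 < X := by linarith
  have hL : 0 < Real.log X := Real.log_pos hX1
  have hT : 0 ≤ X / Real.log X * Real.exp (-(2 * U ^ 2)) := by positivity
  have p2 : U ≤ U ^ 2 := le_self_pow₀ hU0 two_ne_zero
  have p3 : 768 * U ^ 2 ≤ U ^ 3 := by nlinarith [sq_nonneg U]
  have p7 : U ^ 3 ≤ U ^ 7 := pow_le_pow_right₀ hU0 (by norm_num)
  have p11 : U ^ 7 ≤ U ^ 11 := pow_le_pow_right₀ hU0 (by norm_num)
  rcases le_or_gt X (EE (U ^ 7)) with hXE | hXE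
  · refine (SumBd.empty _ hT).mono_set fun p hp => hp.2.2 (Or.inl ?_)
    rw [ell_le_iff (by positivity)]
    exact hp.2.1.trans hXE
  set Y := 2 * U ^ 11 with hY
  set L := Real.log X with hLdef
  set N := ⌈Real.log L⌉₊ with hN
  have hY1 : 1 ≤ Y := by linarith
  have hEL : Real.exp (U ^ 7) < L := by
    rw [← log_EE]
    exact Real.log_lt_log (EE_pos _) hXE
  have hLY : L ≤ Real.exp Y := by
    rw [← log_EE]
    exact Real.log_le_log (by linarith) hXY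
  have hB0 : 0 ≤ Real.log L := Real.log_nonneg ((Real.one_le_exp (by positivity)).trans hEL.le)
  have hBY : Real.log L ≤ Y := (Real.log_le_iff_le_exp hL).2 hLY
  have hNB : (N : ℝ) < Real.log L + 1 := Nat.ceil_lt_add_one hB0
  have hNY : (N : ℝ) ≤ 2 * U ^ 11 + 1 := by linarith
  -- the three parts
  have h1 : CntBd {p : ℕ | (p : ℝ) ≤ √X + 1} (X / L * Real.exp (-(2 * U ^ 2)) / 3) := by
    have hs1 : 1 ≤ √X := Real.one_le_sqrt.2 hX1.le
    refine (SumBd.of_card (range (⌊√X + 1⌋₊ + 1)) (fun p hp => ?_) zero_le_one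
      fun _ _ => le_rfl).mono_bd ?_
    · rw [mem_coe, mem_range, Nat.lt_succ_iff]
      exact Nat.le_floor hp
    · rw [card_range, mul_one]
      push_cast
      have a1 : (⌊√X + 1⌋₊ : ℝ) ≤ √X + 1 := Nat.floor_le (by positivity)
      have a2 : √X = Real.exp (L / 2) := by
        rw [hLdef, ← Real.log_sqrt (by linarith), Real.exp_log (by linarith)]
      have a3 : (L / 2) ^ 3 / 6 ≤ √X := by
        rw [a2]
        have := Real.pow_div_factorial_le_exp (L / 2) (by positivity) 3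
        simpa [Nat.factorial] using this
      have a4 : 432 * Real.exp (2 * U ^ 2) ≤ L ^ 2 := by
        have b1 : Real.exp (2 * U ^ 2) * Real.exp 431 ≤ Real.exp (U ^ 7) := by
          rw [← Real.exp_add]
          exact Real.exp_le_exp.2 (by linarith)
        have b2 : 431 + 1 ≤ Real.exp 431 := Real.add_one_le_exp _
        have b3 : 1 ≤ L := (Real.one_le_exp (by positivity)).trans hEL.le
        have b4 := Real.exp_pos (2 * U ^ 2)
        nlinarith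
      have a5 : 9 * L * Real.exp (2 * U ^ 2) ≤ √X := by nlinarith
      have a6 : X = √X * √X := (Real.mul_self_sqrt (by linarith)).symm
      have a7 : 3 * √X ≤ X / L * Real.exp (-(2 * U ^ 2)) / 3 := by
        rw [Real.exp_neg, ← div_eq_mul_inv, div_div, div_div, le_div_iff₀ (by positivity)]
        calc 3 * √X * (L * (Real.exp (2 * U ^ 2) * 3)) = √X * (9 * L * Real.exp (2 * U ^ 2)) := by
              ring
          _ ≤ √X * √X := by gcongr
          _ = X := a6.symm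
      linarith
  have h2 : CntBd {p : ℕ | 1 < p ∧ (p : ℝ) ≤ X ∧ 10 * Y < Om (p - 1)}
      (X / L * Real.exp (-(2 * U ^ 2)) / 3) := by
    refine (((hlarge Y (by linarith)).cnt (x := X) (by linarith)).of_map (fun n => n + 1)
      fun p hp => ⟨p - 1, ⟨⟨by have := hp.1; omega, ?_, hp.2.2⟩, by have := hp.1; omega, ?_⟩,
        by have := hp.1; omega, le_rfl⟩).mono_bd ?_
    · refine (hq_le_ell (by have := hp.1; omega)).trans ((ell_mono (Nat.sub_le p 1)).trans ?_)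
      rw [ell_le_iff (by linarith)]
      exact hp.2.1.trans hXY
    · exact le_trans (by exact_mod_cast Nat.sub_le p 1) hp.2.1
    · rw [pow_zero, mul_one] at hU1
      have a1 : 3 * C₂ * L * Real.exp (2 * U ^ 2) ≤ Real.exp (2 * Y) := by
        calc 3 * C₂ * L * Real.exp (2 * U ^ 2)
            ≤ Real.exp U * Real.exp Y * Real.exp (2 * U ^ 2) := by gcongr
          _ = Real.exp (U + Y + 2 * U ^ 2) := by rw [Real.exp_add, Real.exp_add]
          _ ≤ Real.exp (2 * Y) := Real.exp_le_exp.2 (by linarith)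
      rw [Real.exp_neg, Real.exp_neg, ← div_eq_mul_inv, ← div_eq_mul_inv, div_div, div_div,
        ← mul_div_assoc, div_le_div_iff₀ (by positivity) (by positivity)]
      calc X * C₂ * (L * (Real.exp (2 * U ^ 2) * 3))
          = X * (3 * C₂ * L * Real.exp (2 * U ^ 2)) := by ring
        _ ≤ X * Real.exp (2 * Y) := by gcongr
  have h3 := SumBd.biUnion (range (N + 1)) (f := fun _ => (1 : ℝ)) fun b hb =>
    NN.count_pairs hC₃ hsieve hY1 hXY (by linarith) (l := L / (2 * (10 * Y))) (by positivity)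
      (hdev U (by linarith) b N (Nat.lt_succ_iff.1 (mem_range.1 hb)) hNY)
  refine (((h1.union h2).union h3).mono_set fun p hp => ?_).mono_bd ?_
  · by_cases c1 : (p : ℝ) ≤ √X + 1
    · exact Or.inl (Or.inl c1)
    by_cases c2 : 10 * Y < Om (p - 1)
    · exact Or.inl (Or.inr ⟨hp.1.one_lt, hp.2.1, c2⟩)
    obtain ⟨b, hb, s, π, e1, e2, e3, e4, e5, e6⟩ := NN.structure_of (by linarith) hXE hp.1 hp.2.1
      hp.2.2 (not_le.1 c1) (by positivity) (not_lt.1 c2)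
    refine Or.inr (Set.mem_iUnion₂.2 ⟨b, mem_range.2 (Nat.lt_succ_of_le hb), hp.1, hp.2.1, s, π,
      e1, e2, e3, ⟨e3, e4, e5⟩, e6⟩)
  · rw [sum_const, card_range, nsmul_eq_mul]
    push_cast
    have a1 : Real.exp (N - U ^ 3 / 256) ≤ 3 * L * Real.exp (-(U ^ 3 / 256)) := by
      rw [sub_eq_add_neg, Real.exp_add]
      refine mul_le_mul_of_nonneg_right ?_ (Real.exp_pos _).le
      calc Real.exp N ≤ Real.exp (Real.log L + 1) := Real.exp_le_exp.2 hNB.le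
        _ = L * Real.exp 1 := by rw [Real.exp_add, Real.exp_log hL]
        _ ≤ L * 3 := by gcongr; linarith [Real.exp_one_lt_d9]
        _ = 3 * L := by ring
    have a2 : (N : ℝ) + 1 ≤ 3 * U ^ 11 := by linarith
    have a3 : 3 * (400 * 3 * 3 * 256 * C₁ * C₃) * U ^ 99 * Real.exp (-(U ^ 3 / 256)) ≤
        Real.exp (-(2 * U ^ 2)) := by
      calc _ ≤ Real.exp U * Real.exp (-(U ^ 3 / 256)) := by gcongr
        _ = Real.exp (U + -(U ^ 3 / 256)) := (Real.exp_add _ _).symm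
        _ ≤ _ := Real.exp_le_exp.2 (by linarith)
    have a4 : ((N : ℝ) + 1) * (C₃ * Y ^ 6 * X / (L / (2 * (10 * Y))) ^ 2 *
        (C₁ * Real.exp (N - U ^ 3 / 256))) ≤ X / L * Real.exp (-(2 * U ^ 2)) / 3 := by
      calc _ ≤ (3 * U ^ 11) * (C₃ * Y ^ 6 * X / (L / (2 * (10 * Y))) ^ 2 *
            (C₁ * (3 * L * Real.exp (-(U ^ 3 / 256))))) := by gcongr
        _ = X / L * (3 * (400 * 3 * 3 * 256 * C₁ * C₃) * U ^ 99 * Real.exp (-(U ^ 3 / 256))) / 3 := by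
            rw [hY]
            field_simp
            ring
        _ ≤ _ := by gcongr
    linarith

/-- `Q = p^e` with `p` non-normal; `∑_e 1/φ(p^e) = p/(p-1)² ≤ 4/p`.  Dyadic blocks
`2^i < p ≤ 2^{i+1}` with `2^i < EE (U^11)`: each contributes at most
`2^{-i} · 2^{i+1}/((i+1) log 2) · exp (-2U²)`; the harmonic sum is `O(U^11)`. -/
theorem nonnormal_rec : ∃ U₀ : ℝ, ∀ U : ℝ, U₀ ≤ U →
    SumBd {Q : ℕ | IsPP Q ∧ hq Q ≤ U ^ 11 ∧ ¬ Normal (U ^ 7) (gpf Q)} wq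
      (Real.exp (-U ^ 2)) := by
  obtain ⟨U₁, hcount⟩ := nonnormal_count
  obtain ⟨U₀, hU₀⟩ := eventually_atTop.1 ((NN.ev_poly 64 11).and
    ((eventually_ge_atTop U₁).and (eventually_ge_atTop (1 : ℝ))))
  refine ⟨U₀, fun U hU => ?_⟩
  obtain ⟨hU1, hU2, hU3⟩ := hU₀ U hU
  have p11 : 1 ≤ U ^ 11 := one_le_pow₀ hU3
  have p2 : U ≤ U ^ 2 := le_self_pow₀ hU3 two_ne_zero
  have hl2 : 1 / 2 ≤ Real.log 2 := by linarith [Real.log_two_gt_d9]
  have he : 2 ≤ Real.exp (U ^ 11) := by linarith [Real.add_one_le_exp (U ^ 11)]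
  set M := ⌊2 * Real.exp (U ^ 11)⌋₊ + 1 with hM
  have hblock : ∀ i ∈ range M, SumBd {p : ℕ | p.Prime ∧ 2 ^ i ≤ p ∧ p ≤ 2 ^ (i + 1) ∧
      (p : ℝ) ≤ EE (U ^ 11) ∧ ¬ Normal (U ^ 7) p} (fun p => 4 / (p : ℝ))
      (16 * Real.exp (-(2 * U ^ 2)) * (1 / ((i : ℝ) + 1))) := by
    intro i _
    by_cases hi : (2 : ℝ) ^ i ≤ EE (U ^ 11)
    · have hX : (2 : ℝ) ^ (i + 1) ≤ EE (2 * U ^ 11) := by
        rw [pow_succ]
        calc (2 : ℝ) ^ i * 2 ≤ EE (U ^ 11) * Real.exp 1 := by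
              gcongr
              · exact (EE_pos _).le
              · linarith [Real.add_one_le_exp (1 : ℝ)]
          _ = Real.exp (Real.exp (U ^ 11) + 1) := by rw [EE, Real.exp_add]
          _ ≤ EE (2 * U ^ 11) := by
              refine Real.exp_le_exp.2 ?_
              rw [two_mul, Real.exp_add]
              nlinarith
      have h1 := hcount U hU2 _ (le_self_pow₀ one_le_two (Nat.succ_ne_zero i)) hX
      refine (CntBd.mul (M := 4 / 2 ^ i) (h1.mono_set fun p hp =>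
        ⟨hp.1, by exact_mod_cast hp.2.2.1, hp.2.2.2.2⟩) (by positivity) fun p hp => ?_).mono_bd ?_
      · have : (2 : ℝ) ^ i ≤ p := by exact_mod_cast hp.2.1
        gcongr
      · rw [Real.log_pow]
        push_cast
        calc (2 : ℝ) ^ (i + 1) / ((i + 1) * Real.log 2) * Real.exp (-(2 * U ^ 2)) * (4 / 2 ^ i)
            ≤ 2 ^ (i + 1) / ((i + 1) * (1 / 2)) * Real.exp (-(2 * U ^ 2)) * (4 / 2 ^ i) := by
              gcongr
          _ = _ := by
              field_simp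
              ring
    · refine (SumBd.empty _ (by positivity)).mono_set fun p hp => hi ?_
      exact le_trans (by exact_mod_cast hp.2.1) hp.2.2.2.1
  have hB : SumBd {p : ℕ | p.Prime ∧ ell p ≤ U ^ 11 ∧ ¬ Normal (U ^ 7) p} (fun p => 4 / (p : ℝ))
      (Real.exp (-U ^ 2)) := by
    refine (SumBd.of_cover (range M) hblock fun p hp => ?_).mono_bd ?_
    · have hpE : (p : ℝ) ≤ EE (U ^ 11) := (ell_le_iff (by linarith)).1 hp.2.1
      have h1 : 2 ^ Nat.log 2 p ≤ p := Nat.pow_log_le_self 2 hp.1.ne_zero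
      refine ⟨Nat.log 2 p, ?_, hp.1, h1, (Nat.lt_pow_succ_log_self one_lt_two p).le, hpE, hp.2.2⟩
      rw [mem_range, hM, Nat.lt_succ_iff]
      refine Nat.le_floor ?_
      have h2 : ((2 : ℝ)) ^ Nat.log 2 p ≤ EE (U ^ 11) := le_trans (by exact_mod_cast h1) hpE
      have h3 := Real.log_le_log (by positivity) h2
      rw [Real.log_pow, log_EE] at h3
      have h4 : (0 : ℝ) ≤ Nat.log 2 p := Nat.cast_nonneg _
      nlinarith
    · rw [← mul_sum]
      have h1 : ∑ i ∈ range M, 1 / ((i : ℝ) + 1) ≤ 1 + Real.log M := by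
        have := harmonic_le_one_add_log M
        rw [harmonic] at this
        push_cast at this
        simpa only [one_div] using this
      have h2 : Real.log M ≤ U ^ 11 + 2 := by
        have h3 : (M : ℝ) ≤ Real.exp (U ^ 11 + 2) := by
          rw [hM, Real.exp_add]
          push_cast
          have h4 : (⌊2 * Real.exp (U ^ 11)⌋₊ : ℝ) ≤ 2 * Real.exp (U ^ 11) :=
            Nat.floor_le (by positivity)
          have h5 : 2 + 1 ≤ Real.exp 2 := Real.add_one_le_exp _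
          nlinarith
        exact (Real.log_le_iff_le_exp (by rw [hM]; positivity)).2 h3
      calc 16 * Real.exp (-(2 * U ^ 2)) * ∑ i ∈ range M, 1 / ((i : ℝ) + 1)
          ≤ 16 * Real.exp (-(2 * U ^ 2)) * (4 * U ^ 11) := by gcongr; linarith
        _ = 64 * U ^ 11 * Real.exp (-(2 * U ^ 2)) := by ring
        _ ≤ Real.exp U * Real.exp (-(2 * U ^ 2)) := by gcongr
        _ = Real.exp (U + -(2 * U ^ 2)) := (Real.exp_add _ _).symm
        _ ≤ Real.exp (-U ^ 2) := Real.exp_le_exp.2 (by linarith)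
  have hQ : ∀ Q : ℕ, IsPP Q → ¬ Normal (U ^ 7) (gpf Q) →
      (gpf Q).Prime ∧ ∃ e, Q = gpf Q ^ (e + 1) := by
    intro Q hQ hn
    rcases hQ with rfl | hQ
    · exact absurd (Or.inl (by rw [gpf_one, ell_one]; positivity)) hn
    · obtain ⟨p, e, hp, he, rfl⟩ := (isPrimePow_nat_iff Q).1 hQ
      rw [gpf_prime_pow hp he]
      exact ⟨hp, e - 1, by rw [Nat.sub_add_cancel he]⟩
  refine SumBd.fiber gpf (fun Q h => ?_) (fun p hp => ?_) hB
  · exact ⟨(hQ Q h.1 h.2.2).1, h.2.1, h.2.2⟩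
  refine (NN.sumBd_pow hp.1).mono_set fun Q h => ?_
  obtain ⟨e, he⟩ := (hQ Q h.1.1 h.1.2.2).2
  exact ⟨e, by rw [← h.2]; exact he⟩

end Crest.Agent.R20
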