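import Crest.Agent.R20.Events1
import Crest.Agent.R20.NonNormal

/-!
# R20: simplex events, part 2 (used for the lower bounds); see `Events1` for the conventions
-/

set_option autoImplicit false

open Finset Filter Topology
open Crest.NumberTheoryR.TotientScale

noncomputable section

namespace Crest.Agent.R20

variable (X : Ctx)

/-! ### Auxiliary lemmas -/

private theorem gpos' {D : ℕ} : ∀ l ∈ Icc 1 D, 0 < gSeq l := fun l _ => gSeq_pos l

private theorem grec_le {D : ℕ} :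
    ∀ l ∈ Icc 1 D, gSeq l ≤ ∑ s ∈ range l, gSeq s * astd s l :=
  fun _ hl => (gSeq_rec_astd (mem_Icc.1 hl).1).le

private theorem grec_ge {D : ℕ} :
    ∀ l ∈ Icc 1 D, ∑ s ∈ range l, gSeq s * astd s l ≤ gSeq l :=
  fun _ hl => (gSeq_rec_astd (mem_Icc.1 hl).1).ge

private theorem eta_pos : 0 < eta := lt_of_lt_of_le one_pos one_le_eta

private theorem Icc_subset_range' (D : ℕ) : Icc 1 D ⊆ range (D + 1) := by
  intro l hl
  rw [mem_Icc] at hl
  rw [mem_range]; omega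

private theorem shift_le' : ∃ C : ℝ, 0 < C ∧ ∀ m D : ℕ, D ≤ m →
    ∑ l ∈ range (D + 1), gSeq l * (X.θ ^ (m - l)) ^ 9 + eta * ∑ l ∈ Icc 1 D, gSeq l ≤
      C * (X.θ ^ m) ^ 10 := by
  obtain ⟨C, hC, h⟩ := X.shift_le
  refine ⟨C, hC, fun m D hD => ?_⟩
  have h1 := h m D hD
  have h2 : C * (X.θ ^ m) ^ 10 / X.θ ^ (m - D) ≤ C * (X.θ ^ m) ^ 10 :=
    div_le_self (by have := X.θ_pos; positivity) (X.one_le_pow _)
  have h3 : ∑ l ∈ Icc 1 D, gSeq l ≤ ∑ l ∈ range (D + 1), gSeq l :=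
    sum_le_sum_of_subset_of_nonneg (Icc_subset_range' D) fun l _ _ => (gSeq_pos l).le
  have h4 : ∑ l ∈ range (D + 1), gSeq l * ((X.θ ^ (m - l)) ^ 9 + eta) =
      ∑ l ∈ range (D + 1), gSeq l * (X.θ ^ (m - l)) ^ 9 + eta * ∑ l ∈ range (D + 1), gSeq l := by
    rw [mul_sum, ← sum_add_distrib]
    exact sum_congr rfl fun l _ => by ring
  have h5 := mul_le_mul_of_nonneg_left h3 eta_pos.le
  linarith

private theorem eta_sum_le : ∃ C : ℝ, 0 < C ∧ ∀ m D : ℕ, D ≤ m →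
    eta * ∑ l ∈ Icc 1 D, gSeq l ≤ C * (X.θ ^ m) ^ 10 := by
  obtain ⟨C, hC, h⟩ := shift_le' X
  refine ⟨C, hC, fun m D hD => ?_⟩
  have h1 := h m D hD
  have h2 : 0 ≤ ∑ l ∈ range (D + 1), gSeq l * (X.θ ^ (m - l)) ^ 9 :=
    sum_nonneg fun l _ => mul_nonneg (gSeq_pos l).le (by have := X.θ_pos; positivity)
  linarith

private theorem prod_g_pos (D : ℕ) : 0 < ∏ l ∈ Icc 1 D, gSeq l :=
  prod_pos fun l _ => gSeq_pos l

/-- Raising one lower limit. -/
private theorem raise_le : ∃ C : ℝ, 0 < C ∧ ∀ m D : ℕ, 1 ≤ m → D ≤ m → m ≤ 3 * D →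
    ∀ t ∈ Set.Icc X.t₁ X.t₂, ∀ l ≤ D, ∀ σ : ℝ, 0 ≤ σ →
    SumBd {τ | Adm astd (X.B m t) (Function.update (fun _ => 0) l σ) D τ} (wt D)
      (C * GG (X.B m t) D * Real.exp (-(gSeq l * σ / (3 * X.t₂ * (X.θ ^ m) ^ 10)))) := by
  obtain ⟨C₁, hC₁, h₁⟩ := eta_sum_le X
  refine ⟨Real.exp (C₁ / X.t₁), Real.exp_pos _, fun m D hm hD hD3 t ht l hl σ hσ => ?_⟩
  refine (simplex_upper astd (X.B m t) gSeq D gSeq_zero gpos' grec_le _).mono_bd ?_
  have hsum : ∑ l' ∈ range (D + 1), gSeq l' * Function.update (fun _ => (0 : ℝ)) l σ l' =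
      gSeq l * σ := by
    rw [sum_eq_single l]
    · simp
    · intro b _ hb
      simp [Function.update_of_ne hb]
    · intro h
      exact absurd (mem_range.2 (by omega)) h
  rw [hsum]
  have hS : 0 ≤ gSeq l * σ := mul_nonneg (gSeq_pos l).le hσ
  have h2 := X.pp_le hm hD hD3 ht hC₁.le hS
  have h3 : pp (X.B m t - gSeq l * σ + eta * ∑ l ∈ Icc 1 D, gSeq l) D ≤
      pp (X.B m t + C₁ * (X.θ ^ m) ^ 10 - gSeq l * σ) D :=
    pp_mono _ (by have := h₁ m D hD; linarith)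
  have hden : 0 < (D.factorial : ℝ) * ∏ l ∈ Icc 1 D, gSeq l :=
    mul_pos (by exact_mod_cast D.factorial_pos) (prod_g_pos D)
  rw [GG_eq, div_le_iff₀ hden]
  refine (h3.trans h2).trans (le_of_eq ?_)
  have := (prod_g_pos D).ne'
  field_simp

/-- A flagged level. -/
private theorem flag_le : ∃ C : ℝ, 0 < C ∧ ∀ m D : ℕ, 1 ≤ m → D ≤ m →
    ∀ t ∈ Set.Icc X.t₁ X.t₂, ∀ l ∈ Icc 1 D, ∀ F : (ℕ → ℕ) → Prop,
    (∀ τ τ' : ℕ → ℕ, (∀ i, l ≤ i → τ i = τ' i) → F τ → F τ') → ∀ h : ℝ,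
    (∀ τ : ℕ → ℕ, SumBd {Q : ℕ | IsPP Q ∧ F (Function.update τ l Q)} wq h) →
    SumBd {τ | Adm astd (X.B m t) (fun _ => 0) D τ ∧ F τ} (wt D)
      (h * C * GG (X.B m t) D / X.θ ^ (m - l)) := by
  obtain ⟨C₁, hC₁, h₁⟩ := eta_sum_le X
  obtain ⟨γ₁, γ₂, hγ₁, hγ₂, hg⟩ := X.g_bounds
  have ht₁ := X.t₁_pos
  have hθ := X.θ_pos
  refine ⟨Real.exp (C₁ / X.t₁) * (γ₂ / X.t₁), by positivity,
    fun m D hm hD t ht l hl F hdep h hF => ?_⟩
  refine (simplex_flag astd (X.B m t) gSeq D gSeq_zero gpos' grec_le _ hl F hdep hF).mono_bd ?_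
  have hh : 0 ≤ h := (hF fun _ => 1).nonneg
  have hl' := mem_Icc.1 hl
  have hB := X.B_pos hm ht
  have h2 := X.pp_le' hm (e := D - 1) (by omega) ht hC₁.le
  have h3 : pp (X.B m t - ∑ l' ∈ range (D + 1), gSeq l' * (0 : ℝ) +
      eta * ∑ l ∈ Icc 1 D, gSeq l) (D - 1) ≤ pp (X.B m t + C₁ * (X.θ ^ m) ^ 10) (D - 1) :=
    pp_mono _ (by have := h₁ m D hD; simp only [mul_zero, sum_const_zero]; linarith)
  have hP : 0 < ∏ i ∈ (Icc 1 D).erase l, gSeq i := prod_pos fun i _ => gSeq_pos i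
  have hprod : ∏ i ∈ Icc 1 D, gSeq i = gSeq l * ∏ i ∈ (Icc 1 D).erase l, gSeq i :=
    (mul_prod_erase _ _ hl).symm
  obtain ⟨d, rfl⟩ : ∃ d, D = d + 1 := ⟨D - 1, by omega⟩
  have hfac : (0 : ℝ) < d.factorial := by exact_mod_cast d.factorial_pos
  have hgl := gSeq_pos l
  simp only [Nat.add_sub_cancel] at h2 h3 ⊢
  -- `(d+1) g_l θ^(m-l) ≤ (γ₂/t₁) B`
  have key : ((d : ℝ) + 1) * gSeq l * X.θ ^ (m - l) ≤ γ₂ / X.t₁ * X.B m t := by
    have e1 : (X.θ ^ m) ^ 10 = (X.θ ^ l) ^ 10 * (X.θ ^ (m - l)) ^ 10 := by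
      rw [← mul_pow, ← pow_add]; congr 2; omega
    have e2 : X.θ ^ (m - l) ≤ (X.θ ^ (m - l)) ^ 10 :=
      le_self_pow₀ (X.one_le_pow _) (by norm_num)
    have e3 : (d : ℝ) + 1 ≤ m := by exact_mod_cast hD
    have e4 : γ₂ / X.t₁ * X.B m t = γ₂ * (t / X.t₁) * m * (X.θ ^ m) ^ 10 := by
      unfold Ctx.B; field_simp
    have e5 : 1 ≤ t / X.t₁ := (one_le_div ht₁).2 ht.1
    rw [e4, e1]
    calc ((d : ℝ) + 1) * gSeq l * X.θ ^ (m - l)
        ≤ m * (γ₂ * (X.θ ^ l) ^ 10) * (X.θ ^ (m - l)) ^ 10 := by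
          gcongr
          exact (hg l).2
      _ = γ₂ * 1 * m * ((X.θ ^ l) ^ 10 * (X.θ ^ (m - l)) ^ 10) := by ring
      _ ≤ γ₂ * (t / X.t₁) * m * ((X.θ ^ l) ^ 10 * (X.θ ^ (m - l)) ^ 10) := by gcongr
  rw [GG_eq, hprod, Nat.factorial_succ, div_le_div_iff₀ (by positivity) (by positivity)]
  have h4 : h * pp (X.B m t - ∑ l' ∈ range (d + 1 + 1), gSeq l' * (0 : ℝ) +
      eta * ∑ l ∈ Icc 1 (d + 1), gSeq l) d * X.θ ^ (m - l) ≤
      h * (X.B m t ^ d * Real.exp (C₁ / X.t₁)) * X.θ ^ (m - l) := by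
    gcongr
    exact h3.trans h2
  refine h4.trans ?_
  have e6 : h * (Real.exp (C₁ / X.t₁) * (γ₂ / X.t₁)) *
      (X.B m t ^ (d + 1) / ((((d + 1) * d.factorial : ℕ) : ℝ) *
        (gSeq l * ∏ i ∈ (Icc 1 (d + 1)).erase l, gSeq i))) *
      ((d.factorial : ℝ) * ∏ i ∈ (Icc 1 (d + 1)).erase l, gSeq i) =
      h * (X.B m t ^ d * Real.exp (C₁ / X.t₁)) *
        (γ₂ / X.t₁ * X.B m t / (((d : ℝ) + 1) * gSeq l)) := by
    push_cast
    field_simp
    ring
  rw [e6]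
  gcongr
  rw [le_div_iff₀ (by positivity)]
  linarith

private theorem geom_le {r : ℝ} (hr0 : 0 ≤ r) (hr1 : r < 1) (m K D : ℕ) (hD : D ≤ m) :
    ∑ l ∈ (Icc 1 D).filter (fun l => K ≤ m - l), r ^ (m - l) ≤ r ^ K * (1 - r)⁻¹ := by
  classical
  have hinj : Set.InjOn (fun l => m - l - K) ((Icc 1 D).filter (fun l => K ≤ m - l) : Finset ℕ) := by
    intro a ha b hb hab
    simp only [coe_filter, mem_Icc, Set.mem_ofPred_eq] at ha hb
    simp only at hab
    omega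
  have e1 : ∑ l ∈ (Icc 1 D).filter (fun l => K ≤ m - l), r ^ (m - l) =
      r ^ K * ∑ l ∈ (Icc 1 D).filter (fun l => K ≤ m - l), r ^ (m - l - K) := by
    rw [mul_sum]
    refine sum_congr rfl fun l hl => ?_
    rw [← pow_add]
    congr 1
    have := (mem_filter.1 hl).2
    omega
  rw [e1, ← sum_image (f := fun i => r ^ i) hinj]
  refine mul_le_mul_of_nonneg_left ?_ (pow_nonneg hr0 _)
  rw [← tsum_geometric_of_lt_one hr0 hr1]
  exact (summable_geometric_of_lt_one hr0 hr1).sum_le_tsum _ fun i _ => pow_nonneg hr0 i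

/-- Splitting off the first term of a partial slack and comparing `a_{i-l-1} ≤ a_{i-l}`. -/
private theorem sum_astd_split (τ : ℕ → ℕ) {l D : ℕ} (hl : l < D) :
    aCoef 1 * hq (τ (l + 1)) + ∑ i ∈ Ioc (l + 1) D, astd (l + 1) i * hq (τ i) ≤
      ∑ i ∈ Ioc l D, astd l i * hq (τ i) := by
  have e : Ioc l D = insert (l + 1) (Ioc (l + 1) D) := by
    ext i; simp only [mem_Ioc, mem_insert]; omega
  rw [e, sum_insert (by simp)]
  have e1 : astd l (l + 1) = aCoef 1 := by simp [astd]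
  rw [e1]
  gcongr with i hi
  · exact hq_nonneg _
  · have := mem_Ioc.1 hi
    exact aCoef_mono (by omega) (by omega)

private theorem adm_update {B : ℝ} {D l : ℕ} {σ : ℝ} {τ : ℕ → ℕ}
    (h : Adm astd B (fun _ => 0) D τ) (hσ : σ ≤ psl astd B D τ l) :
    Adm astd B (Function.update (fun _ => 0) l σ) D τ := by
  refine ⟨h.1, fun l' hl' => ?_⟩
  by_cases e : l' = l
  · subst e; simpa using hσ
  · rw [Function.update_of_ne e]; exact h.2 l' hl'

/-- The slack at the last level that is too high. -/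
private theorem psl_last_high {B : ℝ} {m D l : ℕ} (hD : D ≤ m) (hl : l ∈ Icc 1 D) {τ : ℕ → ℕ}
    (hhigh : (X.θ ^ (m - l)) ^ 11 < hq (τ l))
    (hlow : ∀ i ∈ Ioc l D, hq (τ i) ≤ (X.θ ^ (m - i)) ^ 11) :
    (1 - 1 / X.θ) * (X.θ ^ (m - l)) ^ 11 ≤ psl astd B D τ l := by
  have hl' := mem_Icc.1 hl
  have h1 : ∑ i ∈ Ioc l D, astd l i * hq (τ i) ≤
      ∑ i ∈ Ioc l D, aCoef (i - l) * (X.θ ^ (m - i)) ^ 11 :=
    sum_le_sum fun i hi =>
      mul_le_mul_of_nonneg_left (hlow i hi) (astd_nonneg (mem_Ioc.1 hi).1)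
  have h2 : ∑ i ∈ Ioc l D, aCoef (i - l) * (X.θ ^ (m - i)) ^ 11 =
      ∑ i ∈ Icc 1 (D - l), aCoef i * (X.θ ^ (m - l - i)) ^ 11 := by
    refine sum_nbij' (fun i => i - l) (fun i => i + l) ?_ ?_ ?_ ?_ ?_
    · intro i hi
      simp only [mem_Ioc, mem_Icc] at hi ⊢; omega
    · intro i hi
      simp only [mem_Ioc, mem_Icc] at hi ⊢; omega
    · intro i hi
      simp only [mem_Ioc] at hi; omega
    · intro i hi
      simp
    · intro i hi
      simp only [mem_Ioc] at hi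
      have : m - l - (i - l) = m - i := by omega
      simp only [this]
  have h3 := X.sum_a_Y_le (n := D - l) (J := m - l) (by omega)
  have h4 : yv B τ l = hq (τ l) := by
    unfold yv; rw [if_neg (by omega)]
  unfold psl
  rw [h4]
  have h5 : (1 - 1 / X.θ) * (X.θ ^ (m - l)) ^ 11 =
      (X.θ ^ (m - l)) ^ 11 - (X.θ ^ (m - l)) ^ 11 / X.θ := by ring
  linarith


/-- Disorder at `(l, l+1)`.  Let `y_i = hq (τ i)`, `S = ∑_{i > l+1} a_{i-l-1} y_i`.  From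
`y_{l+1} ≥ y_l ≥ a₁ y_{l+1} + ∑_{i>l+1} a_{i-l} y_i ≥ a₁ y_{l+1} + S` and `y_{l+1} ≥ S` we get
`y_{l+1} ≥ (1 + a₁) S`: `τ` is admissible for the matrix `α` equal to `astd` except that the row
`l + 1` is multiplied by `1 + a₁`.  Use `simplex_upper` with
`gt i = g_i` for `i ≤ l+1` and `gt i = g_i + a₁ g_{l+1} g_{i-l-1}` for `i > l+1` (equality in `hrec` by
the renewal recursion for `g_{i-l-1}`); `(1 + c) g_i ≤ gt i ≤ C g_i` by `X.g_bounds`
(`c = a₁ γ₁²/γ₂`). -/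
theorem ev_ord : ∃ C c : ℝ, 0 < C ∧ 0 < c ∧ ∀ m : ℕ, 1 ≤ m → ∀ t ∈ Set.Icc X.t₁ X.t₂, ∀ D ≤ m,
    ∀ l, 1 ≤ l → l < D →
    SumBd {τ | Adm astd (X.B m t) (fun _ => 0) D τ ∧ hq (τ l) ≤ hq (τ (l + 1))} (wt D)
      (C * GG (X.B m t) D / (1 + c) ^ (D - l)) := by
  obtain ⟨C₁, hC₁, h₁⟩ := eta_sum_le X
  obtain ⟨γ₁, γ₂, hγ₁, hγ₂, hg⟩ := X.g_bounds
  have ht₁ := X.t₁_pos
  have hθ := X.θ_pos
  have ha : 0 < aCoef 1 := aCoef_pos le_rfl
  set a := aCoef 1 with ha_def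
  set K : ℝ := 1 + a * (γ₂ ^ 2 / γ₁) with hK
  set c : ℝ := a * (γ₁ ^ 2 / γ₂) with hc
  have hK0 : 0 < K := by positivity
  have hc0 : 0 < c := by positivity
  refine ⟨Real.exp (K * C₁ / X.t₁) * (1 + c), c, by positivity, hc0,
    fun m hm t ht D hD l hl hlD => ?_⟩
  -- the modified matrix and weights
  set α : ℕ → ℕ → ℝ := fun s i => if s = l + 1 then (1 + a) * astd s i else astd s i with hα
  set gt : ℕ → ℝ := fun i =>
    gSeq i + if l + 1 < i then a * gSeq (l + 1) * gSeq (i - (l + 1)) else 0 with hgt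
  have hpow : ∀ i, l + 1 < i →
      (X.θ ^ i) ^ 10 = (X.θ ^ (l + 1)) ^ 10 * (X.θ ^ (i - (l + 1))) ^ 10 := by
    intro i hi
    rw [← mul_pow, ← pow_add]; congr 2; omega
  have hlow : ∀ i, gSeq i * (if l + 1 < i then 1 + c else 1) ≤ gt i := by
    intro i
    simp only [hgt]
    split_ifs with hi
    · have e1 := (hg (l + 1)).1
      have e2 := (hg (i - (l + 1))).1
      have e3 := (hg i).2
      have e4 : gSeq i * c ≤ a * gSeq (l + 1) * gSeq (i - (l + 1)) := by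
        calc gSeq i * c ≤ γ₂ * (X.θ ^ i) ^ 10 * c := by gcongr
          _ = a * (γ₁ * (X.θ ^ (l + 1)) ^ 10) * (γ₁ * (X.θ ^ (i - (l + 1))) ^ 10) := by
              rw [hpow i hi, hc]; field_simp
          _ ≤ a * gSeq (l + 1) * gSeq (i - (l + 1)) := by
              have := gSeq_pos (l + 1)
              gcongr
      linarith
    · simp
  have hup : ∀ i, gt i ≤ K * gSeq i := by
    intro i
    simp only [hgt]
    have hgi := gSeq_pos i
    split_ifs with hi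
    · have e1 := (hg (l + 1)).2
      have e2 := (hg (i - (l + 1))).2
      have e3 := (hg i).1
      have e4 : a * gSeq (l + 1) * gSeq (i - (l + 1)) ≤ a * (γ₂ ^ 2 / γ₁) * gSeq i := by
        calc a * gSeq (l + 1) * gSeq (i - (l + 1))
            ≤ a * (γ₂ * (X.θ ^ (l + 1)) ^ 10) * (γ₂ * (X.θ ^ (i - (l + 1))) ^ 10) := by
              have := gSeq_pos (i - (l + 1))
              gcongr
          _ = a * (γ₂ ^ 2 / γ₁) * (γ₁ * (X.θ ^ i) ^ 10) := by
              rw [hpow i hi]; field_simp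
          _ ≤ a * (γ₂ ^ 2 / γ₁) * gSeq i := by gcongr
      rw [hK]; linarith
    · have : 0 ≤ a * (γ₂ ^ 2 / γ₁) * gSeq i := by positivity
      rw [hK]; linarith
  have hgtpos : ∀ i, 0 < gt i := fun i =>
    lt_of_lt_of_le (mul_pos (gSeq_pos i) (by split_ifs <;> positivity)) (hlow i)
  have h0 : gt 0 = 1 := by simp [hgt, gSeq_zero]
  have hrec : ∀ i ∈ Icc 1 D, gt i ≤ ∑ s ∈ range i, gt s * α s i := by
    intro i hi
    have hi1 := (mem_Icc.1 hi).1
    have e1 : ∀ s, gt s * α s i = gSeq s * astd s i +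
        a * gSeq (l + 1) * (if l + 1 ≤ s then gSeq (s - (l + 1)) * astd s i else 0) := by
      intro s
      simp only [hgt, hα]
      rcases lt_trichotomy s (l + 1) with hs | hs | hs
      · rw [if_neg (by omega), if_neg (by omega), if_neg (by omega)]; ring
      · subst hs
        rw [if_neg (by omega), if_pos rfl, if_pos le_rfl, Nat.sub_self, gSeq_zero]; ring
      · rw [if_pos hs, if_neg (by omega), if_pos hs.le]; ring
    simp only [e1]
    rw [sum_add_distrib, ← gSeq_rec_astd hi1, ← mul_sum]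
    simp only [hgt]
    refine le_of_eq (congrArg _ ?_)
    split_ifs with hli
    · congr 1
      rw [gSeq_rec (j := i - (l + 1)) (by omega), ← sum_filter]
      refine sum_nbij' (fun s => s + (l + 1)) (fun s => s - (l + 1)) ?_ ?_ ?_ ?_ ?_
      · intro s hs
        simp only [mem_range, mem_filter] at hs ⊢; omega
      · intro s hs
        simp only [mem_range, mem_filter] at hs ⊢; omega
      · intro s hs
        simp
      · intro s hs
        simp only [mem_range, mem_filter] at hs; omega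
      · intro s hs
        have : i - (l + 1) - s = i - (s + (l + 1)) := by omega
        simp [astd, this]
    · rw [sum_eq_zero, mul_zero]
      intro s hs
      rw [if_neg]
      have := mem_range.1 hs
      omega
  have main := simplex_upper α (X.B m t) gt D h0 (fun i _ => hgtpos i) hrec (fun _ => 0)
  refine (main.mono_set ?_).mono_bd ?_
  · rintro τ ⟨hτ, hord⟩
    refine ⟨hτ.1, fun s hs => ?_⟩
    by_cases e : s = l + 1
    · subst e
      have p1 := hτ.2 l hlD.le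
      have p2 := hτ.2 (l + 1) hs
      have p3 := sum_astd_split τ hlD
      have y1 : yv (X.B m t) τ l = hq (τ l) := by unfold yv; rw [if_neg (by omega)]
      have y2 : yv (X.B m t) τ (l + 1) = hq (τ (l + 1)) := by unfold yv; rw [if_neg (by omega)]
      have e2 : ∑ i ∈ Ioc (l + 1) D, α (l + 1) i * hq (τ i) =
          (1 + a) * ∑ i ∈ Ioc (l + 1) D, astd (l + 1) i * hq (τ i) := by
        rw [mul_sum]
        refine sum_congr rfl fun i _ => ?_
        simp only [hα, if_true]; ring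
      unfold psl at p1 p2 ⊢
      rw [y1] at p1
      rw [y2] at p2 ⊢
      rw [e2]
      simp only at p1 p2 ⊢
      rw [← ha_def] at p3
      have p4 := mul_le_mul_of_nonneg_left
        (show ∑ i ∈ Ioc (l + 1) D, astd (l + 1) i * hq (τ i) ≤ hq (τ (l + 1)) by linarith) ha.le
      linarith
    · have p1 := hτ.2 s hs
      have e2 : psl α (X.B m t) D τ s = psl astd (X.B m t) D τ s := by
        unfold psl
        simp only [hα, if_neg e]
      rw [e2]; exact p1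
  · have hB := X.B_pos hm ht
    have h2 := X.pp_le' hm hD ht (C₁ := K * C₁) (by positivity)
    have h3 : pp (X.B m t - ∑ l' ∈ range (D + 1), gt l' * (0 : ℝ) +
        eta * ∑ l ∈ Icc 1 D, gt l) D ≤ pp (X.B m t + K * C₁ * (X.θ ^ m) ^ 10) D := by
      refine pp_mono _ ?_
      have e1 : ∑ l ∈ Icc 1 D, gt l ≤ K * ∑ l ∈ Icc 1 D, gSeq l := by
        rw [mul_sum]; exact sum_le_sum fun i _ => hup i
      have e2 := mul_le_mul_of_nonneg_left e1 eta_pos.le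
      have e3 := mul_le_mul_of_nonneg_left (h₁ m D hD) hK0.le
      simp only [mul_zero, sum_const_zero]
      nlinarith
    have h4 : (∏ i ∈ Icc 1 D, gSeq i) * (1 + c) ^ (D - (l + 1)) ≤ ∏ i ∈ Icc 1 D, gt i := by
      have e1 : ∏ i ∈ Icc 1 D, (if l + 1 < i then 1 + c else 1) = (1 + c) ^ (D - (l + 1)) := by
        rw [← prod_filter, prod_const]
        congr 1
        have : (Icc 1 D).filter (fun i => l + 1 < i) = Ioc (l + 1) D := by
          ext i; simp only [mem_filter, mem_Icc, mem_Ioc]; omega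
        rw [this, Nat.card_Ioc]
      rw [← e1, ← prod_mul_distrib]
      exact prod_le_prod
        (fun i _ => (mul_pos (gSeq_pos i) (by split_ifs <;> positivity)).le) fun i _ => hlow i
    have hP := prod_g_pos D
    have hfac : (0 : ℝ) < D.factorial := by exact_mod_cast D.factorial_pos
    have e5 : (1 + c) ^ (D - l) = (1 + c) ^ (D - (l + 1)) * (1 + c) := by
      rw [← pow_succ]; congr 1; omega
    calc pp (X.B m t - ∑ l' ∈ range (D + 1), gt l' * (0 : ℝ) + eta * ∑ l ∈ Icc 1 D, gt l) D /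
          ((D.factorial : ℝ) * ∏ l ∈ Icc 1 D, gt l)
        ≤ X.B m t ^ D * Real.exp (K * C₁ / X.t₁) /
          ((D.factorial : ℝ) * ((∏ i ∈ Icc 1 D, gSeq i) * (1 + c) ^ (D - (l + 1)))) := by
          gcongr
          exact h3.trans h2
      _ = Real.exp (K * C₁ / X.t₁) * (1 + c) * GG (X.B m t) D / (1 + c) ^ (D - l) := by
          rw [GG_eq, e5]; field_simp

/-- Bad levels of index `≥ K'`.
* If some level has `hq (τ l) > Y_{m-l}`, take the largest such `l` (its index `J = m - l` is `≥ K'`):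
  `psl τ l ≥ Y_J - ∑ a_i Y_{J-i} ≥ (1 - 1/θ) Y_J` (`X.sum_a_Y_le`), so the lower limit at `l` can be
  raised, giving a factor `exp (-c θ^J) ≤ C θ^{-J}`.
* Otherwise a non-normal level or a tie is a flagged level with `h = 1`
  (`nonnormal_rec`, resp. `wq_le_one` on a singleton), relative size `C g_l D/B ≤ C θ^{-10 J}`.
* `hq (τ 1) > 0.9 B` as in `ev_II`.
Sum over `J ≥ K'`. -/
theorem ev_bad : ∃ C : ℝ, 0 < C ∧ ∃ J₀ : ℕ, ∀ K' : ℕ, J₀ ≤ K' → ∀ᶠ m : ℕ in atTop,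
    ∀ t ∈ Set.Icc X.t₁ X.t₂, ∀ D, m - K' ≤ D → D ≤ m →
    SumBd {τ | Adm astd (X.B m t) (fun _ => 0) D τ ∧
        (∀ l ∈ Icc 1 D, m - l < K' → hq (τ l) ≤ (X.θ ^ (m - l)) ^ 11) ∧
        ((∃ l ∈ Icc 1 D, K' ≤ m - l ∧ ((X.θ ^ (m - l)) ^ 11 < hq (τ l) ∨
            ¬ Normal ((X.θ ^ (m - l)) ^ 7) (gpf (τ l)) ∨ (l < D ∧ τ l = τ (l + 1)))) ∨
          9 / 10 * X.B m t < hq (τ 1))}
      (wt D) (C / X.θ ^ K' * GG (X.B m t) D) := by
  classical
  obtain ⟨C₁, hC₁, h₁⟩ := raise_le X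
  obtain ⟨C₂, hC₂, h₂⟩ := flag_le X
  obtain ⟨γ₁, γ₂, hγ₁, hγ₂, hg⟩ := X.g_bounds
  obtain ⟨U₀, hU₀⟩ := nonnormal_rec
  obtain ⟨J₀, hJ₀⟩ := X.eventually_pow U₀
  have ht₁ := X.t₁_pos
  have ht₂ : 0 < X.t₂ := lt_of_lt_of_le ht₁ X.t₁₂
  have hθ := X.θ_pos
  have hθ1 := X.θ_gt
  have ha := aCoef_one_bounds
  have hr0 : 0 < 1 / X.θ := by positivity
  have hr1 : 1 / X.θ < 1 := (div_lt_one hθ).2 hθ1
  have hr2 : 0 < 1 - 1 / X.θ := by linarith
  set c₁ : ℝ := γ₁ * (1 - 1 / X.θ) / (3 * X.t₂) with hc₁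
  have hc₁0 : 0 < c₁ := by positivity
  set c₂ : ℝ := aCoef 1 * X.t₁ / (15 * X.t₂) with hc₂
  have hc₂0 : 0 < c₂ := by have := ha.1; positivity
  set C₃ : ℝ := C₁ / c₁ + 2 * C₂ with hC₃
  have hC₃0 : 0 < C₃ := by positivity
  refine ⟨C₃ * (1 - 1 / X.θ)⁻¹ + C₁, by positivity, J₀, fun K' hK' => ?_⟩
  filter_upwards [eventually_ge_atTop (2 * K' + 2),
    (tendsto_natCast_atTop_atTop (R := ℝ)).eventually_ge_atTop (X.θ ^ K' / c₂)] with m hm hm2
  intro t ht D hD1 hD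
  have hm1 : 1 ≤ m := by omega
  have hB := X.B_pos hm1 ht
  have hG := GG_pos hB D
  have hT : 0 < (X.θ ^ m) ^ 10 := by positivity
  set B := X.B m t with hBdef
  -- the flagged property at level `l`
  set F : ℕ → (ℕ → ℕ) → Prop := fun l τ =>
    (hq (τ l) ≤ (X.θ ^ (m - l)) ^ 11 ∧ ¬ Normal ((X.θ ^ (m - l)) ^ 7) (gpf (τ l))) ∨
      τ l = τ (l + 1) with hF
  set I : Finset ℕ := (Icc 1 D).filter (fun l => K' ≤ m - l) with hI
  set A : ℕ → Set (ℕ → ℕ) := fun l =>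
    {τ | Adm astd B (Function.update (fun _ => 0) l
        ((1 - 1 / X.θ) * (X.θ ^ (m - l)) ^ 11)) D τ} ∪
      {τ | Adm astd B (fun _ => 0) D τ ∧ F l τ} with hA
  have hAbd : ∀ l ∈ I, SumBd (A l) (wt D) (C₃ * GG B D * (1 / X.θ) ^ (m - l)) := by
    intro l hl
    obtain ⟨hl1, hl2⟩ := mem_filter.1 hl
    have hl' := mem_Icc.1 hl1
    have hU : 0 < X.θ ^ (m - l) := by positivity
    have b1 := h₁ m D hm1 hD (by omega) t ht l hl'.2
      ((1 - 1 / X.θ) * (X.θ ^ (m - l)) ^ 11) (by positivity)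
    have b2 := h₂ m D hm1 hD t ht l hl1 (F l)
      (by
        intro τ τ' hτ h
        simp only [hF] at h ⊢
        rwa [← hτ l le_rfl, ← hτ (l + 1) (by omega)])
      2
      (by
        intro τ
        have n1 := (hU₀ (X.θ ^ (m - l)) (hJ₀ _ (by omega)).1).mono_bd
          (show Real.exp (-(X.θ ^ (m - l)) ^ 2) ≤ 1 from
            Real.exp_le_one_iff.2 (neg_nonpos.2 (by positivity)))
        have n2 : SumBd ({τ (l + 1)} : Set ℕ) wq 1 :=
          SumBd.of_subsingleton Set.subsingleton_singleton zero_le_one fun a _ => wq_le_one a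
        refine ((n1.union n2).mono_set ?_).mono_bd (by norm_num)
        rintro Q ⟨hQ, h⟩
        simp only [hF, Function.update_self,
          Function.update_of_ne (show l + 1 ≠ l by omega)] at h
        rcases h with h | h
        · exact Or.inl ⟨hQ, h⟩
        · exact Or.inr h)
    refine (b1.union b2).mono_bd ?_
    have e1 : (X.θ ^ m) ^ 10 = (X.θ ^ l) ^ 10 * (X.θ ^ (m - l)) ^ 10 := by
      rw [← mul_pow, ← pow_add]; congr 2; omega
    have e2 : c₁ * X.θ ^ (m - l) ≤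
        gSeq l * ((1 - 1 / X.θ) * (X.θ ^ (m - l)) ^ 11) / (3 * X.t₂ * (X.θ ^ m) ^ 10) := by
      rw [le_div_iff₀ (by positivity)]
      calc c₁ * X.θ ^ (m - l) * (3 * X.t₂ * (X.θ ^ m) ^ 10)
          = γ₁ * (X.θ ^ l) ^ 10 * ((1 - 1 / X.θ) * (X.θ ^ (m - l)) ^ 11) := by
            rw [e1, hc₁]; field_simp
        _ ≤ gSeq l * ((1 - 1 / X.θ) * (X.θ ^ (m - l)) ^ 11) := by
            gcongr
            exact (hg l).1
    have e3 : Real.exp (-(gSeq l * ((1 - 1 / X.θ) * (X.θ ^ (m - l)) ^ 11) /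
        (3 * X.t₂ * (X.θ ^ m) ^ 10))) ≤ 1 / (c₁ * X.θ ^ (m - l)) := by
      refine (Real.exp_le_exp.2 (neg_le_neg e2)).trans ?_
      rw [Real.exp_neg, one_div]
      refine inv_anti₀ (by positivity) ?_
      linarith [Real.add_one_le_exp (c₁ * X.θ ^ (m - l))]
    calc C₁ * GG B D * Real.exp (-(gSeq l * ((1 - 1 / X.θ) * (X.θ ^ (m - l)) ^ 11) /
          (3 * X.t₂ * (X.θ ^ m) ^ 10))) + 2 * C₂ * GG B D / X.θ ^ (m - l)
        ≤ C₁ * GG B D * (1 / (c₁ * X.θ ^ (m - l))) + 2 * C₂ * GG B D / X.θ ^ (m - l) := by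
          gcongr
      _ = C₃ * GG B D * (1 / X.θ) ^ (m - l) := by
          rw [hC₃, one_div_pow]; field_simp
  have hUn := SumBd.biUnion I hAbd
  have hH := h₁ m D hm1 hD (by omega) t ht 1 (by omega) (B / 5) (by positivity)
  refine ((hUn.union hH).mono_set ?_).mono_bd ?_
  · rintro τ ⟨hτ, hsmall, hbad⟩
    by_cases hex : ∃ l ∈ Icc 1 D, (X.θ ^ (m - l)) ^ 11 < hq (τ l)
    · -- the largest too high level
      left
      obtain ⟨l, hl, hmax⟩ := exists_max_image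
        ((Icc 1 D).filter fun l => (X.θ ^ (m - l)) ^ 11 < hq (τ l)) id
        (by obtain ⟨l, hl, h⟩ := hex; exact ⟨l, mem_filter.2 ⟨hl, h⟩⟩)
      obtain ⟨hl1, hl2⟩ := mem_filter.1 hl
      have hl' := mem_Icc.1 hl1
      have hK : K' ≤ m - l := by
        by_contra hc
        exact absurd (hsmall l hl1 (by omega)) (not_le.2 hl2)
      refine Set.mem_iUnion₂.2 ⟨l, mem_filter.2 ⟨hl1, hK⟩, Or.inl ?_⟩
      refine adm_update hτ (psl_last_high X hD hl1 hl2 fun i hi => ?_)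
      have hi' := mem_Ioc.1 hi
      by_contra hc
      have := hmax i (mem_filter.2 ⟨mem_Icc.2 ⟨by omega, hi'.2⟩, not_le.1 hc⟩)
      simp only [id] at this
      omega
    · push Not at hex
      rcases hbad with ⟨l, hl, hK, h⟩ | h
      · left
        refine Set.mem_iUnion₂.2 ⟨l, mem_filter.2 ⟨hl, hK⟩, Or.inr ⟨hτ, ?_⟩⟩
        rcases h with h | h | h
        · exact absurd (hex l hl) (not_le.2 h)
        · exact Or.inl ⟨hex l hl, h⟩
        · exact Or.inr h.2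
      · right
        refine adm_update hτ ?_
        have p0 := hτ.2 0 (Nat.zero_le _)
        have p3 := sum_astd_split τ (l := 0) (D := D) (by omega)
        have y0 : yv B τ 0 = B := by simp [yv]
        have y1 : yv B τ 1 = hq (τ 1) := by simp [yv]
        unfold psl at p0 ⊢
        rw [y0] at p0
        rw [y1]
        simp only [zero_add] at p0 p3
        have := mul_le_mul_of_nonneg_right ha.1.le (hq_nonneg (τ 1))
        linarith
  · have g1 := geom_le hr0.le hr1 m K' D hD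
    have g2 : ∑ l ∈ I, C₃ * GG B D * (1 / X.θ) ^ (m - l) ≤
        C₃ * GG B D * ((1 / X.θ) ^ K' * (1 - 1 / X.θ)⁻¹) := by
      rw [← mul_sum]
      gcongr
    have hU : 0 < X.θ ^ K' := by positivity
    have e2 : X.θ ^ K' ≤ gSeq 1 * (B / 5) / (3 * X.t₂ * (X.θ ^ m) ^ 10) := by
      rw [div_le_iff₀ hc₂0] at hm2
      refine hm2.trans ?_
      rw [le_div_iff₀ (by positivity), gSeq_one]
      have hm0 : (0 : ℝ) ≤ m := Nat.cast_nonneg m
      have ha0 : 0 < aCoef 1 := by linarith [ha.1]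
      calc m * c₂ * (3 * X.t₂ * (X.θ ^ m) ^ 10)
          = aCoef 1 * (X.t₁ * m * (X.θ ^ m) ^ 10 / 5) := by rw [hc₂]; field_simp; ring
        _ ≤ aCoef 1 * (t * m * (X.θ ^ m) ^ 10 / 5) := by gcongr; exact ht.1
        _ = aCoef 1 * (B / 5) := rfl
    have e3 : Real.exp (-(gSeq 1 * (B / 5) / (3 * X.t₂ * (X.θ ^ m) ^ 10))) ≤ 1 / X.θ ^ K' := by
      refine (Real.exp_le_exp.2 (neg_le_neg e2)).trans ?_
      rw [Real.exp_neg, one_div]
      refine inv_anti₀ hU ?_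
      linarith [Real.add_one_le_exp (X.θ ^ K')]
    calc ∑ l ∈ I, C₃ * GG B D * (1 / X.θ) ^ (m - l) +
          C₁ * GG B D * Real.exp (-(gSeq 1 * (B / 5) / (3 * X.t₂ * (X.θ ^ m) ^ 10)))
        ≤ C₃ * GG B D * ((1 / X.θ) ^ K' * (1 - 1 / X.θ)⁻¹) + C₁ * GG B D * (1 / X.θ ^ K') := by
          gcongr
      _ = (C₃ * (1 - 1 / X.θ)⁻¹ + C₁) / X.θ ^ K' * GG B D := by
          rw [one_div_pow]; ring

/-- `simplex_lower`, `X.shift_le`, `exp_le_pp` (`C₁ T ≤ B/2` for large `m`). -/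
theorem ev_lower : ∃ c : ℝ, 0 < c ∧ ∀ᶠ m : ℕ in atTop, ∀ t ∈ Set.Icc X.t₁ X.t₂, ∀ D ≤ m,
    ∃ S : Finset (ℕ → ℕ),
      (∀ τ ∈ S, Adm astd (X.B m t) (X.cpos m 1) D τ ∧ ∀ l ∈ Icc 1 D, (τ l).Prime) ∧
      c * GG (X.B m t) D ≤ ∑ τ ∈ S, wt D τ := by
  obtain ⟨C₁, hC₁, h₁⟩ := shift_le' X
  have ht₁ := X.t₁_pos
  have hθ := X.θ_pos
  refine ⟨Real.exp (-(2 * C₁ / X.t₁)), Real.exp_pos _, ?_⟩
  filter_upwards [eventually_ge_atTop 1,
    (tendsto_natCast_atTop_atTop (R := ℝ)).eventually_ge_atTop (2 * C₁ / X.t₁)] with m hm hm2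
  intro t ht D hD
  obtain ⟨S, hS, hsum⟩ := simplex_lower astd (fun _ _ h => astd_nonneg h) (X.B m t) gSeq D
    gSeq_zero gpos' grec_ge (X.cpos m 1) (fun l _ => by unfold Ctx.cpos; positivity)
  refine ⟨S, hS, le_trans ?_ hsum⟩
  have hB := X.B_pos hm ht
  have hm0 : (0 : ℝ) < m := by exact_mod_cast hm
  have hT : 0 < (X.θ ^ m) ^ 10 := by positivity
  have hBlow : X.t₁ * m * (X.θ ^ m) ^ 10 ≤ X.B m t := by
    unfold Ctx.B; gcongr; exact ht.1
  have hz : C₁ * (X.θ ^ m) ^ 10 ≤ X.B m t / 2 := by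
    rw [div_le_iff₀ ht₁] at hm2
    nlinarith
  have h2 := exp_le_pp hB (z := C₁ * (X.θ ^ m) ^ 10) (by positivity) hz D
  have h3 : pp (X.B m t - C₁ * (X.θ ^ m) ^ 10) D ≤
      pp (X.B m t - ∑ l ∈ range (D + 1), gSeq l * X.cpos m 1 l -
        eta * ∑ l ∈ Icc 1 D, gSeq l) D := by
    refine pp_mono _ ?_
    have := h₁ m D hD
    simp only [Ctx.cpos, one_mul]
    linarith
  have h4 : Real.exp (-(2 * C₁ / X.t₁)) ≤
      Real.exp (-(2 * D * (C₁ * (X.θ ^ m) ^ 10) / X.B m t)) := by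
    refine Real.exp_le_exp.2 (neg_le_neg ?_)
    rw [div_le_div_iff₀ hB ht₁]
    have hD' : (D : ℝ) ≤ m := by exact_mod_cast hD
    calc 2 * D * (C₁ * (X.θ ^ m) ^ 10) * X.t₁ ≤ 2 * m * (C₁ * (X.θ ^ m) ^ 10) * X.t₁ := by gcongr
      _ = 2 * C₁ * (X.t₁ * m * (X.θ ^ m) ^ 10) := by ring
      _ ≤ 2 * C₁ * X.B m t := by gcongr
  have hden : 0 < (D.factorial : ℝ) * ∏ l ∈ Icc 1 D, gSeq l :=
    mul_pos (by exact_mod_cast D.factorial_pos) (prod_g_pos D)
  rw [GG_eq, ← mul_div_assoc]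
  gcongr
  refine le_trans ?_ (h2.trans h3)
  rw [mul_comm]
  gcongr

end Crest.Agent.R20
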