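import Crest.Agent.R20.Coef

/-!
# R20: existence of `ρ`, the renewal theorem `g_l ρ^l → γ > 0`, existence of contexts
-/

set_option autoImplicit false

open Finset Filter Topology
open Crest.NumberTheoryR.TotientScale

noncomputable section

namespace Crest.Agent.R20

theorem renewal_summable {r : ℝ} (h0 : 0 ≤ r) (h1 : r < 1) :
    Summable fun j : ℕ => ((j : ℝ) + 1) * r ^ j := by
  have h : ‖r‖ < 1 := by rwa [Real.norm_of_nonneg h0]
  have h2 := (summable_pow_mul_geometric_of_norm_lt_one 1 h).add (summable_geometric_of_lt_one h0 h1)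
  refine h2.congr fun j => ?_
  ring

theorem renewal_term_le {r : ℝ} (h0 : 0 ≤ r) (h1 : r ≤ 1) (j : ℕ) :
    aCoef (j + 1) * r ^ (j + 1) ≤ ((j : ℝ) + 1) * r ^ j := by
  have h2 : aCoef (j + 1) ≤ (j : ℝ) + 1 := by
    have := aCoef_le_self (j := j + 1) (by omega)
    push_cast at this
    exact this
  have h3 : r ^ (j + 1) ≤ r ^ j := pow_le_pow_of_le_one h0 h1 (by omega)
  exact mul_le_mul h2 h3 (pow_nonneg h0 _) (by positivity)

/-- The Erdős–Feller–Pollard renewal theorem for a strictly positive step distribution. -/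
theorem renewal_efp (f u : ℕ → ℝ) (hf : ∀ j, 0 < f j) (hs : HasSum f 1)
    (hR : Summable fun l => 1 - ∑ j ∈ range l, f j) (hu0 : u 0 = 1)
    (hu : ∀ n, u (n + 1) = ∑ j ∈ range (n + 1), f j * u (n - j)) :
    ∃ γ : ℝ, 0 < γ ∧ Tendsto u atTop (𝓝 γ) := by
  set R : ℕ → ℝ := fun l => 1 - ∑ j ∈ range l, f j with hRdef
  have hR0 : ∀ l, 0 ≤ R l := fun l =>
    sub_nonneg.2 (sum_le_hasSum _ (fun j _ => (hf j).le) hs)
  have hub : ∀ n, u n ∈ Set.Icc (0 : ℝ) 1 := by
    intro n
    induction n using Nat.strong_induction_on with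
    | _ n ih =>
      rcases n with _ | n
      · rw [hu0]; exact ⟨zero_le_one, le_rfl⟩
      · rw [hu]
        refine ⟨sum_nonneg fun j _ => mul_nonneg (hf j).le (ih _ (by omega)).1, ?_⟩
        refine le_trans (sum_le_sum fun j _ => mul_le_of_le_one_right (hf j).le
          (ih _ (by omega)).2) ?_
        exact sum_le_hasSum _ (fun j _ => (hf j).le) hs
  have hid : ∀ n, ∑ l ∈ range (n + 1), R l * u (n - l) = 1 := by
    intro n
    induction n with
    | zero => simp [hRdef, hu0]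
    | succ n ih =>
      rw [sum_range_succ']
      have h1 : ∀ l ∈ range (n + 1), R (l + 1) * u (n + 1 - (l + 1)) =
          R l * u (n - l) - f l * u (n - l) := fun l _ => by
        simp only [hRdef, sum_range_succ, Nat.add_sub_add_right]
        ring
      rw [sum_congr rfl h1, sum_sub_distrib, ih, ← hu]
      simp [hRdef]
  set v : ℕ → ℕ → ℝ := fun n r => if r ≤ n then u (n - r) else 0 with hv
  have hvb : ∀ n r, v n r ∈ Set.Icc (0 : ℝ) 1 := fun n r => by
    simp only [hv]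
    split_ifs
    · exact hub _
    · exact ⟨le_rfl, zero_le_one⟩
  have hvn : ∀ n r, ‖v n r‖ ≤ 1 := fun n r => by
    rw [Real.norm_of_nonneg (hvb n r).1]; exact (hvb n r).2
  have hu' : ∀ n, 1 ≤ n → u n = ∑' j, f j * v n (j + 1) := by
    intro n hn
    obtain ⟨n, rfl⟩ : ∃ m, n = m + 1 := ⟨n - 1, by omega⟩
    rw [hu, tsum_eq_sum (s := range (n + 1))]
    · refine sum_congr rfl fun j hj => ?_
      have := mem_range.1 hj
      simp only [hv]
      rw [if_pos (by omega), Nat.add_sub_add_right]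
    · intro j hj
      have : ¬ j < n + 1 := fun h => hj (mem_range.2 h)
      simp only [hv]
      rw [if_neg (by omega), mul_zero]
  have hid' : ∀ n, ∑' l, R l * v n l = 1 := by
    intro n
    rw [← hid n, tsum_eq_sum (s := range (n + 1))]
    · refine sum_congr rfl fun j hj => ?_
      have := mem_range.1 hj
      simp only [hv]
      rw [if_pos (by omega)]
    · intro j hj
      have : ¬ j < n + 1 := fun h => hj (mem_range.2 h)
      simp only [hv]
      rw [if_neg (by omega), mul_zero]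
  set μ : ℝ := ∑' l, R l with hμ
  have key : ∀ (c σ : ℝ), σ ≠ 0 → MapClusterPt c atTop u →
      (∀ c', MapClusterPt c' atTop u → σ * c' ≤ σ * c) → μ * c = 1 := by
    intro c σ hσ hc hmax
    obtain ⟨𝒰, h𝒰, hlim⟩ := mapClusterPt_iff_ultrafilter.1 hc
    have hw : ∀ r, ∃ x, Tendsto (fun n => v n r) 𝒰 (𝓝 x) := fun r => by
      obtain ⟨x, -, hx⟩ := (isCompact_Icc (a := (0 : ℝ)) (b := 1)).ultrafilter_le_nhds'
        (𝒰.map fun n => v n r)
        (Ultrafilter.mem_map.2 (Filter.univ_mem' fun n => hvb n r))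
      exact ⟨x, hx⟩
    choose w hw using hw
    have hwc : ∀ r, MapClusterPt (w r) atTop u := fun r => by
      have h1 : Tendsto (fun n : ℕ => n - r) 𝒰 atTop := (tendsto_sub_atTop_nat r).mono_left h𝒰
      refine MapClusterPt.of_comp h1 (Tendsto.mapClusterPt ?_)
      refine (hw r).congr' ?_
      filter_upwards [h𝒰 (eventually_ge_atTop r)] with n hn
      simp [hv, hn]
    have hw0 : w 0 = c := by
      refine tendsto_nhds_unique (hw 0) ?_
      simpa [hv] using hlim
    have hwb : ∀ r, ‖w r‖ ≤ 1 := fun r => le_of_tendsto' (hw r).norm fun n => hvn n r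
    have h1 : ∑' j, f j * w (j + 1) = c := by
      refine tendsto_nhds_unique (tendsto_tsum_of_dominated_convergence
        (f := fun n j => f j * v n (j + 1)) (𝓕 := (𝒰 : Filter ℕ)) hs.summable
        (fun j => (hw (j + 1)).const_mul _) (Eventually.of_forall fun n j => ?_)) ?_
      · rw [norm_mul, Real.norm_of_nonneg (hf j).le]
        exact mul_le_of_le_one_right (hf j).le (hvn _ _)
      · refine hlim.congr' ?_
        filter_upwards [h𝒰 (eventually_ge_atTop 1)] with n hn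
        exact hu' n hn
    have hsw : Summable fun j => f j * w (j + 1) := by
      refine Summable.of_norm_bounded hs.summable fun j => ?_
      rw [norm_mul, Real.norm_of_nonneg (hf j).le]
      exact mul_le_of_le_one_right (hf j).le (hwb _)
    have h2 : HasSum (fun j => f j * (σ * c - σ * w (j + 1))) 0 := by
      have h3 := (hs.mul_right (σ * c)).sub ((h1 ▸ hsw.hasSum).mul_left σ)
      rw [one_mul, sub_self] at h3
      have h3' : (fun j => f j * (σ * c - σ * w (j + 1))) =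
          fun j => f j * (σ * c) - σ * (f j * w (j + 1)) := by
        funext j; ring
      rw [h3']
      exact h3
    have h4 : ∀ r, w r = c := by
      intro r
      rcases r with _ | r
      · exact hw0
      have h5 := le_hasSum h2 r fun j _ => mul_nonneg (hf j).le (sub_nonneg.2 (hmax _ (hwc _)))
      have h6 : σ * c - σ * w (r + 1) ≤ 0 := by
        by_contra h
        exact absurd h5 (not_le.2 (mul_pos (hf r) (not_le.1 h)))
      have h7 : σ * w (r + 1) = σ * c := le_antisymm (hmax _ (hwc _)) (by linarith)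
      exact mul_left_cancel₀ hσ h7
    have h8 : ∑' l, R l * w l = 1 := by
      refine tendsto_nhds_unique (tendsto_tsum_of_dominated_convergence
        (f := fun n l => R l * v n l) (𝓕 := (𝒰 : Filter ℕ)) hR
        (fun l => (hw l).const_mul _) (Eventually.of_forall fun n l => ?_)) ?_
      · rw [norm_mul, Real.norm_of_nonneg (hR0 l)]
        exact mul_le_of_le_one_right (hR0 l) (hvn _ _)
      · simp only [hid']
        exact tendsto_const_nhds
    simp only [h4] at h8
    rwa [tsum_mul_right] at h8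
  have hbd : IsBoundedUnder (· ≤ ·) atTop u := isBoundedUnder_of ⟨1, fun n => (hub n).2⟩
  have hbd' : IsBoundedUnder (· ≥ ·) atTop u := isBoundedUnder_of ⟨0, fun n => (hub n).1⟩
  have hM := key (limsup u atTop) 1 one_ne_zero
    (MapClusterPt.limsup hbd'.isCoboundedUnder_le hbd)
    (fun c' hc' => by simpa using hc'.le_limsup hbd)
  have hm := key (liminf u atTop) (-1) (by norm_num)
    (MapClusterPt.liminf hbd.isCoboundedUnder_ge hbd')
    (fun c' hc' => by simpa using hc'.liminf_le hbd')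
  have hμ0 : 0 ≤ μ := tsum_nonneg hR0
  have hμ1 : μ ≠ 0 := fun h => by simp [h] at hM
  refine ⟨μ⁻¹, inv_pos.2 (lt_of_le_of_ne hμ0 hμ1.symm),
    tendsto_of_liminf_eq_limsup (eq_inv_of_mul_eq_one_right hm) (eq_inv_of_mul_eq_one_right hM)
      hbd hbd'⟩

/-- `F(r) = ∑ a_{j+1} r^{j+1}` is continuous on `[0, 9/10]` (`a_j ≤ j`, `continuousOn_tsum`),
`F(0) = 0`, `F(9/10) ≥ a₃ r³ + a₄ r⁴ ≥ 0.729 + 0.656 > 1`; intermediate value theorem. -/
theorem exists_rho : ∃ ρ : ℝ, 0 < ρ ∧ ρ < 1 ∧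
    HasSum (fun j : ℕ => aCoef (j + 1) * ρ ^ (j + 1)) 1 := by
  set F : ℝ → ℝ := fun r => ∑' j : ℕ, aCoef (j + 1) * r ^ (j + 1) with hF
  have hsum : ∀ r : ℝ, 0 ≤ r → r < 1 → Summable fun j : ℕ => aCoef (j + 1) * r ^ (j + 1) :=
    fun r h0 h1 => Summable.of_nonneg_of_le
      (fun j => mul_nonneg (aCoef_pos (by omega)).le (pow_nonneg h0 _))
      (fun j => renewal_term_le h0 h1.le j) (renewal_summable h0 h1)
  have hcont : ContinuousOn F (Set.Icc 0 (9 / 10)) := by
    refine continuousOn_tsum (u := fun j : ℕ => ((j : ℝ) + 1) * (9 / 10) ^ j)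
      (fun j => by fun_prop) (renewal_summable (by norm_num) (by norm_num)) fun j x hx => ?_
    rw [Real.norm_of_nonneg (mul_nonneg (aCoef_pos (by omega)).le (pow_nonneg hx.1 _))]
    refine (renewal_term_le hx.1 (hx.2.trans (by norm_num)) j).trans ?_
    have := hx.1
    have := hx.2
    gcongr
  have hF0 : F 0 = 0 := by simp [hF]
  have hF1 : 1 ≤ F (9 / 10) := by
    have h := (hsum (9 / 10) (by norm_num) (by norm_num)).sum_le_tsum ({2, 3} : Finset ℕ)
      (fun j _ => mul_nonneg (aCoef_pos (by omega)).le (by positivity))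
    rw [sum_pair (by norm_num)] at h
    have h3 : 1 ≤ aCoef (2 + 1) := one_le_aCoef (by norm_num)
    have h4 : 1 ≤ aCoef (3 + 1) := one_le_aCoef (by norm_num)
    refine le_trans ?_ h
    norm_num at h3 h4 ⊢
    linarith
  obtain ⟨ρ, hρ, hρ1⟩ := intermediate_value_Icc (by norm_num : (0 : ℝ) ≤ 9 / 10) hcont
    (show (1 : ℝ) ∈ Set.Icc (F 0) (F (9 / 10)) from ⟨by rw [hF0]; norm_num, hF1⟩)
  have hlt : ρ < 1 := hρ.2.trans_lt (by norm_num)
  refine ⟨ρ, ?_, hlt, ?_⟩
  · rcases hρ.1.eq_or_lt with h | h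
    · rw [← h, hF0] at hρ1
      norm_num at hρ1
    · exact h
  · have := (hsum ρ hρ.1 hlt).hasSum
    rwa [show ∑' j : ℕ, aCoef (j + 1) * ρ ^ (j + 1) = 1 from hρ1] at this

/-- Erdős–Feller–Pollard.  `f_r = a_r ρ^r > 0` (`r ≥ 1`), `∑ f_r = 1`, `u_n = g_n ρ^n` satisfies
`u_0 = 1`, `u_n = ∑_{r=1}^n f_r u_{n-r}`, so `0 < u_n ≤ 1`.  With `R_l = ∑_{r>l} f_r` (`R_0 = 1`),
`∑_{l=0}^n R_l u_{n-l} = 1` for all `n` (induction) and `μ = ∑_l R_l = ∑ r f_r < ∞` (`a_r ≤ r`).
Let `M = limsup u`.  Along a subsequence `n_k` with `u_{n_k} → M`, for each fixed `r ≥ 1` also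
`u_{n_k - r} → M` (since `u_n ≤ f_r u_{n-r} + (1 - f_r)(M + ε) + tail`); letting `k → ∞` in the identity
(Tannery / `tendsto_tsum_of_dominated_convergence`) gives `μ M = 1`.  Same for `liminf`.
An ultrafilter/subsequence formulation: every cluster point argument via
`tendsto_of_subseq_tendsto` or `IsCompact.tendsto_subseq` on `ℕ → [0,1]` is fine. -/
theorem exists_gamma {ρ : ℝ} (h0 : 0 < ρ) (h1 : ρ < 1)
    (hρ : HasSum (fun j : ℕ => aCoef (j + 1) * ρ ^ (j + 1)) 1) :
    ∃ γ : ℝ, 0 < γ ∧ Tendsto (fun l : ℕ => gSeq l * ρ ^ l) atTop (𝓝 γ) := by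
  refine renewal_efp (fun j => aCoef (j + 1) * ρ ^ (j + 1)) _
    (fun j => mul_pos (aCoef_pos (by omega)) (pow_pos h0 _)) hρ ?_ (by simp [gSeq_zero]) ?_
  · set C : ℝ := ∑' j : ℕ, ((j : ℝ) + 1) * ρ ^ j with hC
    have hs := renewal_summable h0.le h1
    have htail : ∀ l : ℕ, 1 - ∑ j ∈ range l, aCoef (j + 1) * ρ ^ (j + 1) =
        ∑' j : ℕ, aCoef (j + l + 1) * ρ ^ (j + l + 1) := fun l => by
      have := hρ.summable.sum_add_tsum_nat_add l
      rw [hρ.tsum_eq] at this
      linarith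
    refine Summable.of_nonneg_of_le (fun l => ?_) (fun l => ?_) (hs.mul_left C)
    · rw [htail]
      exact tsum_nonneg fun j => (mul_pos (aCoef_pos (by omega)) (pow_pos h0 _)).le
    · rw [htail, hC, ← tsum_mul_right]
      refine Summable.tsum_le_tsum (fun j => ?_)
        ((summable_nat_add_iff (f := fun j : ℕ => aCoef (j + 1) * ρ ^ (j + 1)) l).2 hρ.summable)
        (hs.mul_right _)
      refine (renewal_term_le h0.le h1.le (j + l)).trans ?_
      have h2 : (((j + l : ℕ) : ℝ) + 1) ≤ ((j : ℝ) + 1) * ((l : ℝ) + 1) := by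
        push_cast
        nlinarith [mul_nonneg (Nat.cast_nonneg (α := ℝ) j) (Nat.cast_nonneg (α := ℝ) l)]
      calc (((j + l : ℕ) : ℝ) + 1) * ρ ^ (j + l)
          ≤ ((j : ℝ) + 1) * ((l : ℝ) + 1) * ρ ^ (j + l) := by gcongr
        _ = ((j : ℝ) + 1) * ρ ^ j * (((l : ℝ) + 1) * ρ ^ l) := by rw [pow_add]; ring
  · intro n
    rw [gSeq_rec (by omega), ← sum_range_reflect, sum_mul]
    refine sum_congr rfl fun j hj => ?_
    have hj' : j ≤ n := Nat.lt_succ_iff.1 (mem_range.1 hj)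
    rw [show n + 1 - 1 - j = n - j by omega, show n + 1 - (n - j) = j + 1 by omega,
      show ρ ^ (n + 1) = ρ ^ (j + 1) * ρ ^ (n - j) by rw [← pow_add]; congr 1; omega]
    ring

/-- `θ = ρ^{-1/10}`. -/
theorem exists_ctx {ρ : ℝ} (h0 : 0 < ρ) (h1 : ρ < 1)
    (hρ : HasSum (fun j : ℕ => aCoef (j + 1) * ρ ^ (j + 1)) 1) {t₁ t₂ : ℝ} (ht : 0 < t₁)
    (ht' : t₁ ≤ t₂) : ∃ X : Ctx, X.ρ = ρ ∧ X.t₁ = t₁ ∧ X.t₂ = t₂ := by
  obtain ⟨γ, hγ, hlim⟩ := exists_gamma h0 h1 hρ
  refine ⟨⟨ρ, (ρ⁻¹) ^ ((10 : ℕ) : ℝ)⁻¹, γ, t₁, t₂, h0, h1, hρ, ?_, ?_, hγ, hlim, ht, ht'⟩,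
    rfl, rfl, rfl⟩
  · exact Real.one_lt_rpow ((one_lt_inv₀ h0).2 h1) (by positivity)
  · rw [Real.rpow_inv_natCast_pow (inv_pos.2 h0).le (by norm_num), inv_mul_cancel₀ h0.ne']

end Crest.Agent.R20
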