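import Crest.Agent.R20.Main
import Crest.Agent.R20.Renewal

/-!
# R20: the two statements

Let `λ = lam ρ > 0`, `t₁ = λ/2`, `t₂ = 2 λ e^λ`, `X` from `exists_ctx`, `A∞` from `main_limit`.
For large real `x` put `B = bigB x`, `m = mIndex ρ x → ∞`, `ϑ = phase ρ x ∈ [0,1)`,
`t(x) = B ρ^m/m`, so that `X.B m (t x) = B`, `EE B = x`, `exp B = log x`,
`X.R m (t x) = V(x)/(x/log x · scaleG ρ x)`.  Since `ρ^m = exp (-λ m)` and
`λ (m + ϑ) = log B - log log B`: `B ρ^m = log B · e^{λ ϑ}`, so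
`t(x) = λ e^{λϑ} · (log B/(λ m))` with `log B/(λ m) → 1`; hence `t(x) - λ e^{λ ϑ} → 0` and
`t(x) ∈ [t₁,t₂]` eventually.
* S0027: `A ϑ = A∞ (λ e^{λ ϑ})`; uniform continuity of `A∞` on the compact interval and `A∞ ≥ c`.
* S0026: for `c > 0` let `B' = bigB (c x)`, `t'(x) = B' ρ^m/m` with the same `m = mIndex ρ x`.
  `B' - B = log (1 + log c/log x) = O(e^{-B})`, so `t' - t → 0`, `(B'/B)^m → 1` (`m ≤ B`), and
  `V(cx)/V(x) = (R m t'/R m t) · c · (log x/log (cx)) · (B'/B)^m → c`.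
-/

set_option autoImplicit false

open Finset Filter Topology
open Crest.NumberTheoryR.TotientScale

noncomputable section

namespace Crest.Agent.R20

namespace Final

theorem tendsto_bigB : Tendsto bigB atTop atTop :=
  Real.tendsto_log_atTop.comp Real.tendsto_log_atTop

theorem tendsto_logB : Tendsto (fun x => Real.log (bigB x)) atTop atTop :=
  Real.tendsto_log_atTop.comp tendsto_bigB

theorem tendsto_log_div : Tendsto (fun y : ℝ => Real.log y / y) atTop (𝓝 0) :=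
  Real.isLittleO_log_id_atTop.tendsto_div_nhds_zero

variable {ρ : ℝ}

theorem lam_pos (h0 : 0 < ρ) (h1 : ρ < 1) : 0 < lam ρ :=
  Real.log_pos ((one_lt_div h0).2 h1)

theorem tendsto_arg_div (h0 : 0 < ρ) (h1 : ρ < 1) :
    Tendsto (fun x => phaseArg ρ x / Real.log (bigB x)) atTop (𝓝 (1 / lam ρ)) := by
  have h := ((tendsto_const_nhds (x := (1 : ℝ))).sub
    (tendsto_log_div.comp tendsto_logB)).div_const (lam ρ)
  rw [sub_zero] at h
  refine h.congr' ?_
  filter_upwards [tendsto_logB.eventually_gt_atTop 0] with x hx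
  have := lam_pos h0 h1
  simp only [phaseArg, Function.comp]
  field_simp

theorem tendsto_arg (h0 : 0 < ρ) (h1 : ρ < 1) : Tendsto (phaseArg ρ) atTop atTop := by
  have h := (tendsto_arg_div h0 h1).pos_mul_atTop (one_div_pos.2 (lam_pos h0 h1)) tendsto_logB
  refine h.congr' ?_
  filter_upwards [tendsto_logB.eventually_gt_atTop 0] with x hx
  exact div_mul_cancel₀ _ hx.ne'

theorem tendsto_mIndex (h0 : 0 < ρ) (h1 : ρ < 1) : Tendsto (mIndex ρ) atTop atTop :=
  tendsto_nat_floor_atTop.comp (tendsto_arg h0 h1)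

theorem tendsto_m_div (h0 : 0 < ρ) (h1 : ρ < 1) :
    Tendsto (fun x => (mIndex ρ x : ℝ) / Real.log (bigB x)) atTop (𝓝 (1 / lam ρ)) := by
  have h := ((tendsto_nat_floor_div_atTop (R := ℝ)).comp (tendsto_arg h0 h1)).mul
    (tendsto_arg_div h0 h1)
  rw [one_mul] at h
  refine h.congr' ?_
  filter_upwards [(tendsto_arg h0 h1).eventually_gt_atTop 0] with x hx
  simp only [Function.comp, mIndex]
  rw [div_mul_div_cancel₀ hx.ne']

theorem tendsto_div_m (h0 : 0 < ρ) (h1 : ρ < 1) :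
    Tendsto (fun x => Real.log (bigB x) / (mIndex ρ x : ℝ)) atTop (𝓝 (lam ρ)) := by
  have h := (tendsto_m_div h0 h1).inv₀ (one_div_pos.2 (lam_pos h0 h1)).ne'
  simpa only [inv_div, div_one] using h

theorem phase_mem (h0 : 0 < ρ) (h1 : ρ < 1) :
    ∀ᶠ x in atTop, phase ρ x ∈ Set.Ico (0 : ℝ) 1 := by
  filter_upwards [(tendsto_arg h0 h1).eventually_ge_atTop 0] with x hx
  have h2 := Nat.floor_le hx
  have h3 := Nat.lt_floor_add_one (phaseArg ρ x)
  simp only [phase, mIndex]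
  exact ⟨by linarith, by linarith⟩

/-- The parameter `t` belonging to the height `B` and `m = mIndex ρ x`. -/
def tt (ρ x B : ℝ) : ℝ := B * ρ ^ mIndex ρ x / mIndex ρ x

/-- The limiting parameter. -/
def ss (ρ s : ℝ) : ℝ := lam ρ * Real.exp (lam ρ * s)

theorem tt_eq (h0 : 0 < ρ) (h1 : ρ < 1) : ∀ᶠ x in atTop, tt ρ x (bigB x) =
    Real.log (bigB x) / (mIndex ρ x : ℝ) * Real.exp (lam ρ * phase ρ x) := by
  filter_upwards [tendsto_bigB.eventually_gt_atTop 0, tendsto_logB.eventually_gt_atTop 0]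
    with x hB hL
  have hl := lam_pos h0 h1
  have e1 : lam ρ * phase ρ x = Real.log (bigB x) - Real.log (Real.log (bigB x)) +
      (mIndex ρ x : ℝ) * Real.log ρ := by
    have e2 : Real.log ρ = -lam ρ := by rw [lam, one_div, Real.log_inv, neg_neg]
    rw [e2, phase, phaseArg]
    field_simp
    ring
  rw [e1, Real.exp_add, Real.exp_sub, Real.exp_log hB, Real.exp_log hL, Real.exp_nat_mul,
    Real.exp_log h0, tt]
  field_simp

theorem exp_mem (h0 : 0 < ρ) (h1 : ρ < 1) {s : ℝ} (hs : s ∈ Set.Ico (0 : ℝ) 1) :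
    1 ≤ Real.exp (lam ρ * s) ∧ Real.exp (lam ρ * s) ≤ Real.exp (lam ρ) := by
  have hl := lam_pos h0 h1
  exact ⟨Real.one_le_exp (mul_nonneg hl.le hs.1),
    Real.exp_le_exp.2 (mul_le_of_le_one_right hl.le hs.2.le)⟩

theorem tendsto_tt (h0 : 0 < ρ) (h1 : ρ < 1) :
    Tendsto (fun x => tt ρ x (bigB x) - ss ρ (phase ρ x)) atTop (𝓝 0) := by
  have h2 : Tendsto (fun x => Real.log (bigB x) / (mIndex ρ x : ℝ) - lam ρ) atTop (𝓝 0) :=
    tendsto_sub_nhds_zero_iff.2 (tendsto_div_m h0 h1)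
  have h3 : Tendsto (fun x => (Real.log (bigB x) / (mIndex ρ x : ℝ) - lam ρ) *
      Real.exp (lam ρ * phase ρ x)) atTop (𝓝 0) := by
    refine h2.zero_mul_isBoundedUnder_le (isBoundedUnder_of_eventually_le (a := Real.exp (lam ρ)) ?_)
    filter_upwards [phase_mem h0 h1] with x hx
    simp only [Function.comp, Real.norm_eq_abs, abs_of_pos (Real.exp_pos _)]
    exact (exp_mem h0 h1 hx).2
  refine h3.congr' ?_
  filter_upwards [tt_eq h0 h1] with x hx
  rw [hx, ss]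
  ring

theorem ss_mem (h0 : 0 < ρ) (h1 : ρ < 1) {s : ℝ} (hs : s ∈ Set.Ico (0 : ℝ) 1) :
    lam ρ ≤ ss ρ s ∧ ss ρ s ≤ lam ρ * Real.exp (lam ρ) := by
  have hl := lam_pos h0 h1
  obtain ⟨h2, h3⟩ := exp_mem h0 h1 hs
  exact ⟨le_mul_of_one_le_right hl.le h2, mul_le_mul_of_nonneg_left h3 hl.le⟩

/-- The main theorem along `m = mIndex ρ x`. -/
theorem exists_profile (h0 : 0 < ρ) (h1 : ρ < 1)
    (hρ : HasSum (fun j : ℕ => aCoef (j + 1) * ρ ^ (j + 1)) 1) :
    ∃ (X : Ctx) (A : ℝ → ℝ), X.ρ = ρ ∧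
      (∃ c₁ c₂ : ℝ, 0 < c₁ ∧ ∀ s ∈ Set.Ico (0 : ℝ) 1, c₁ ≤ A s ∧ A s ≤ c₂) ∧
      ∀ u : ℝ → ℝ, Tendsto (fun x => u x - ss ρ (phase ρ x)) atTop (𝓝 0) →
        Tendsto (fun x => X.R (mIndex ρ x) (u x) / A (phase ρ x)) atTop (𝓝 1) := by
  have hl := lam_pos h0 h1
  have he : 1 ≤ Real.exp (lam ρ) := Real.one_le_exp hl.le
  have hle : lam ρ ≤ lam ρ * Real.exp (lam ρ) := le_mul_of_one_le_right hl.le he
  obtain ⟨X, hX, ht₁, ht₂⟩ := exists_ctx h0 h1 hρ (t₁ := lam ρ / 2)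
    (t₂ := 2 * (lam ρ * Real.exp (lam ρ))) (by positivity) (by linarith)
  obtain ⟨A, hA, ⟨c, hc, hcA⟩, hlim⟩ := main_limit X
  have hss : ∀ s ∈ Set.Ico (0 : ℝ) 1, ss ρ s ∈ Set.Icc X.t₁ X.t₂ := fun s hs => by
    obtain ⟨h2, h3⟩ := ss_mem h0 h1 hs
    rw [ht₁, ht₂]
    exact ⟨by linarith, by linarith⟩
  obtain ⟨M, hM⟩ := isCompact_Icc.bddAbove_image hA
  refine ⟨X, fun s => A (ss ρ s), hX, ⟨c, M, hc, fun s hs => ⟨hcA _ (hss s hs),
    hM (Set.mem_image_of_mem _ (hss s hs))⟩⟩, fun u hu => ?_⟩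
  have hum : ∀ᶠ x in atTop, u x ∈ Set.Icc X.t₁ X.t₂ := by
    filter_upwards [phase_mem h0 h1, hu.eventually (Icc_mem_nhds (a := -(lam ρ / 2))
      (b := lam ρ / 2) (by linarith) (by linarith))] with x hx h4
    obtain ⟨h2, h3⟩ := ss_mem h0 h1 hx
    rw [ht₁, ht₂]
    exact ⟨by linarith [h4.1], by linarith [h4.2]⟩
  have huc := Metric.uniformContinuousOn_iff.1
    (isCompact_Icc.uniformContinuousOn_of_continuous hA)
  rw [Metric.tendsto_nhds]
  intro ε hε
  obtain ⟨δ, hδ, hδ'⟩ := huc (ε * c / 2) (by positivity)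
  filter_upwards [phase_mem h0 h1, hum, Metric.tendsto_nhds.1 hu δ hδ,
    (tendsto_mIndex h0 h1).eventually (hlim (ε * c / 2) (by positivity))] with x hx hux hd hR
  have h2 := hδ' _ hux _ (hss _ hx) (by rwa [dist_zero_right, ← dist_eq_norm] at hd)
  have h3 := hR _ hux
  have h4 := hcA _ (hss _ hx)
  have h5 : 0 < A (ss ρ (phase ρ x)) := hc.trans_le h4
  rw [Real.dist_eq] at h2 ⊢
  rw [div_sub_one h5.ne', abs_div, abs_of_pos h5, div_lt_iff₀ h5]
  have h6 := abs_sub_le (X.R (mIndex ρ x) (u x)) (A (u x)) (A (ss ρ (phase ρ x)))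
  nlinarith

theorem B_tt (X : Ctx) {x : ℝ} (hm : 0 < mIndex X.ρ x) (B : ℝ) :
    X.B (mIndex X.ρ x) (tt X.ρ x B) = B := by
  have h : (0 : ℝ) < mIndex X.ρ x := by exact_mod_cast hm
  rw [Ctx.B, tt, div_mul_cancel₀ _ h.ne', mul_assoc, mul_comm (X.ρ ^ _), X.pow_mul_rho, mul_one]

theorem R_tt (X : Ctx) {x y : ℝ} (hm : 0 < mIndex X.ρ x) (hy : 1 < y) :
    X.R (mIndex X.ρ x) (tt X.ρ x (bigB y)) =
      totientCount y / (y / Real.log y * GG (bigB y) (mIndex X.ρ x)) := by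
  have h1 : Real.exp (bigB y) = Real.log y := Real.exp_log (Real.log_pos hy)
  have h2 : EE (bigB y) = y := by rw [EE, h1, Real.exp_log (by linarith)]
  rw [Ctx.R, B_tt X hm, h1, h2]

theorem tendsto_log_ratio {c : ℝ} (hc : 0 < c) :
    Tendsto (fun x => Real.log (c * x) / Real.log x) atTop (𝓝 1) := by
  have h := (tendsto_const_nhds (x := (1 : ℝ))).add
    (Real.tendsto_log_atTop.const_div_atTop (Real.log c))
  rw [add_zero] at h
  refine h.congr' ?_
  filter_upwards [eventually_gt_atTop 1] with x hx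
  have := Real.log_pos hx
  rw [Real.log_mul hc.ne' (by linarith)]
  field_simp
  ring

theorem tendsto_bigB_sub {c : ℝ} (hc : 0 < c) :
    Tendsto (fun x => bigB (c * x) - bigB x) atTop (𝓝 0) := by
  have h := (tendsto_log_ratio hc).log one_ne_zero
  rw [Real.log_one] at h
  refine h.congr' ?_
  filter_upwards [eventually_gt_atTop 1,
    (tendsto_id.const_mul_atTop hc).eventually_gt_atTop 1] with x hx hcx
  have hcx' : 1 < c * x := hcx
  rw [Real.log_div (Real.log_pos hcx').ne' (Real.log_pos hx).ne']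
  rfl

theorem tendsto_ratio_pow (h0 : 0 < ρ) (h1 : ρ < 1) {c : ℝ} (hc : 0 < c) :
    Tendsto (fun x => (bigB (c * x) / bigB x) ^ mIndex ρ x) atTop (𝓝 1) := by
  have h2 : Tendsto (fun x => (mIndex ρ x : ℝ) * (bigB (c * x) / bigB x - 1)) atTop (𝓝 0) := by
    have h := ((tendsto_m_div h0 h1).mul (tendsto_log_div.comp tendsto_bigB)).mul
      (tendsto_bigB_sub hc)
    rw [mul_zero] at h
    refine h.congr' ?_
    filter_upwards [tendsto_bigB.eventually_gt_atTop 0, tendsto_logB.eventually_gt_atTop 0]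
      with x hB hL
    simp only [Function.comp]
    field_simp
  have h3 := (tendsto_const_nhds (x := (1 : ℝ))).add h2
  have h4 := (Real.continuous_exp.tendsto 0).comp h2
  rw [add_zero] at h3
  rw [Real.exp_zero] at h4
  have h5 : ∀ᶠ x in atTop, 0 ≤ bigB (c * x) / bigB x := by
    filter_upwards [tendsto_bigB.eventually_gt_atTop 0,
      (tendsto_bigB.comp (tendsto_id.const_mul_atTop hc)).eventually_gt_atTop 0] with x hB hB'
    exact (div_pos hB' hB).le
  refine tendsto_of_tendsto_of_tendsto_of_le_of_le' h3 h4 ?_ ?_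
  · filter_upwards [h5] with x hx
    have := one_add_mul_le_pow (a := bigB (c * x) / bigB x - 1) (by linarith) (mIndex ρ x)
    rwa [add_sub_cancel] at this
  · filter_upwards [h5] with x hx
    simp only [Function.comp]
    rw [Real.exp_nat_mul]
    refine pow_le_pow_left₀ hx ?_ _
    linarith [Real.add_one_le_exp (bigB (c * x) / bigB x - 1)]

theorem tendsto_tt' (h0 : 0 < ρ) (h1 : ρ < 1) {c : ℝ} (hc : 0 < c) :
    Tendsto (fun x => tt ρ x (bigB (c * x)) - ss ρ (phase ρ x)) atTop (𝓝 0) := by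
  have h2 : Tendsto (fun x => (bigB (c * x) - bigB x) * (ρ ^ mIndex ρ x / mIndex ρ x)) atTop
      (𝓝 0) := by
    refine (tendsto_bigB_sub hc).zero_mul_isBoundedUnder_le
      (isBoundedUnder_of_eventually_le (a := 1) ?_)
    filter_upwards [(tendsto_mIndex h0 h1).eventually_ge_atTop 1] with x hx
    have h3 : (1 : ℝ) ≤ mIndex ρ x := by exact_mod_cast hx
    simp only [Function.comp, Real.norm_eq_abs]
    rw [abs_of_nonneg (by positivity), div_le_one (by linarith)]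
    exact (pow_le_one₀ h0.le h1.le).trans h3
  have h3 := h2.add (tendsto_tt h0 h1)
  rw [add_zero] at h3
  refine h3.congr fun x => ?_
  simp only [tt]
  ring

end Final

open _root_.Crest.Agent.R20.Final

theorem final_S0027 (ρ : ℝ) (hρ0 : 0 < ρ) (hρ1 : ρ < 1)
    (hρ : HasSum (fun j : ℕ => aCoef (j + 1) * ρ ^ (j + 1)) 1) :
    ∃ A : ℝ → ℝ, (∃ c₁ c₂ : ℝ, 0 < c₁ ∧ ∀ s ∈ Set.Ico (0 : ℝ) 1, c₁ ≤ A s ∧ A s ≤ c₂) ∧
      Tendsto (fun x : ℝ =>
          (totientCount x : ℝ) / (x / Real.log x * scaleG ρ x * A (phase ρ x)))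
        atTop (𝓝 1) := by
  obtain ⟨X, A, rfl, hA, h⟩ := exists_profile hρ0 hρ1 hρ
  refine ⟨A, hA, (h _ (tendsto_tt hρ0 hρ1)).congr' ?_⟩
  filter_upwards [(tendsto_mIndex hρ0 hρ1).eventually_gt_atTop 0, eventually_gt_atTop 1]
    with x hm hx
  rw [R_tt X hm hx, div_div]
  rfl

theorem final_S0026 (c : ℝ) (hc : 0 < c) :
    Tendsto (fun x : ℝ => (totientCount (c * x) : ℝ) / (totientCount x : ℝ)) atTop (𝓝 c) := by
  obtain ⟨ρ, h0, h1, hρ⟩ := exists_rho
  obtain ⟨X, A, rfl, ⟨c₁, c₂, hc₁, hA⟩, h⟩ := exists_profile h0 h1 hρ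
  have h2 := ((((h _ (tendsto_tt' h0 h1 hc)).div (h _ (tendsto_tt h0 h1)) one_ne_zero).mul
    (tendsto_ratio_pow h0 h1 hc)).div (tendsto_log_ratio hc) one_ne_zero).const_mul c
  simp only [div_one, mul_one] at h2
  refine h2.congr' ?_
  filter_upwards [(tendsto_mIndex h0 h1).eventually_gt_atTop 0, eventually_gt_atTop 1,
    (tendsto_id.const_mul_atTop hc).eventually_gt_atTop 1, phase_mem h0 h1,
    tendsto_bigB.eventually_gt_atTop 0,
    (tendsto_bigB.comp (tendsto_id.const_mul_atTop hc)).eventually_gt_atTop 0]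
    with x hm hx hcx hp hB hB'
  have hcx' : 1 < c * x := hcx
  have hB'' : 0 < bigB (c * x) := hB'
  have e1 : 0 < A (phase X.ρ x) := hc₁.trans_le (hA _ hp).1
  have e2 := Real.log_pos hx
  have e3 := Real.log_pos hcx'
  have e4 : (0 : ℝ) < ((mIndex X.ρ x).factorial : ℝ) *
      ∏ i ∈ range (mIndex X.ρ x), gSeq (i + 1) :=
    mul_pos (by exact_mod_cast Nat.factorial_pos _) (prod_pos fun _ _ => gSeq_pos _)
  have e5 : 0 < x := by linarith
  simp only [Pi.div_apply]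
  rw [R_tt X hm hx, R_tt X hm hcx', GG, GG, div_pow]
  generalize ((mIndex X.ρ x).factorial : ℝ) * ∏ i ∈ range (mIndex X.ρ x), gSeq (i + 1) = P at e4
  rcases eq_or_ne (totientCount x : ℝ) 0 with h3 | h3
  · simp [h3]
  · field_simp

end Crest.Agent.R20
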