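import Crest.Agent.R20.PNT
import Crest.Agent.R20.BasicOm
import Crest.Agent.R20.SumBd

/-!
# R20: counting the top prime `q` with `(q - 1) D ≤ x`
-/

set_option autoImplicit false

open Finset Filter Topology

noncomputable section

namespace Crest.Agent.R20

private theorem pc_cnt (y : ℝ) :
    CntBd {q : ℕ | q.Prime ∧ (q : ℝ) ≤ y} (Nat.primeCounting ⌊y⌋₊) := by
  have := SumBd.of_card (Nat.primesLE ⌊y⌋₊) (A := {q : ℕ | q.Prime ∧ (q : ℝ) ≤ y})
    (f := fun _ => (1 : ℝ)) (M := 1) (fun q hq => by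
      simp only [Finset.mem_coe, Nat.mem_primesLE]
      exact ⟨Nat.le_floor hq.2, hq.1⟩) zero_le_one fun _ _ => le_rfl
  rw [Nat.primesLE_card_eq_primeCounting, mul_one] at this
  exact this

private theorem pc_le {q D : ℕ} {x : ℝ} (hq : q.Prime) (hD : 0 < D)
    (h : (((q - 1) * D : ℕ) : ℝ) ≤ x) : (q : ℝ) ≤ x / D + 1 := by
  have hD' : (0 : ℝ) < D := by exact_mod_cast hD
  rw [Nat.cast_mul, Nat.cast_sub hq.one_le, Nat.cast_one, ← le_div_iff₀ hD'] at h
  linarith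

private theorem pc_cheb {y : ℝ} (hy : 2 ≤ y) :
    (Nat.primeCounting ⌊y⌋₊ : ℝ) ≤ (2 * Real.log 4 + 2) * y / Real.log y := by
  have h1 := Chebyshev.pi_le_log4_mul_div (x := y) (by linarith)
  have hl : 0 < Real.log y := Real.log_pos (by linarith)
  have h2 : Real.log (Real.sqrt y) = Real.log y / 2 := Real.log_sqrt (by linarith)
  have h3 : Real.log (Real.sqrt y) ≤ Real.sqrt y - 1 :=
    Real.log_le_sub_one_of_pos (Real.sqrt_pos.2 (by linarith))
  have h4 : Real.sqrt y * Real.sqrt y = y := Real.mul_self_sqrt (by linarith)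
  have h5 : Real.sqrt y ≤ 2 * y / Real.log y := by
    rw [le_div_iff₀ hl]
    have := Real.sqrt_nonneg y
    nlinarith
  rw [h2] at h1
  have h6 : Real.log 4 * y / (Real.log y / 2) + 2 * y / Real.log y =
      (2 * Real.log 4 + 2) * y / Real.log y := by
    field_simp
  linarith

private theorem pc_unif {η : ℝ} (hη : 0 < η) (Y : ℝ) : ∀ᶠ B : ℝ in atTop, ∀ D : ℕ, 0 < D →
    Real.log D ≤ Real.exp (19 / 20 * B) →
    (1 - η) * Real.exp B ≤ Real.log (EE B / D) ∧ Real.log (EE B / D) ≤ Real.exp B ∧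
      Real.exp (Real.exp B / 2) * Real.exp B ≤ η * (EE B / D) ∧ Y ≤ EE B / D := by
  have h1 : ∀ᶠ B : ℝ in atTop, Real.exp (-(1 / 20 * B)) ≤ min η (1 / 4) := by
    have : Tendsto (fun B : ℝ => Real.exp (-(1 / 20 * B))) atTop (𝓝 0) :=
      Real.tendsto_exp_neg_atTop_nhds_zero.comp
        (tendsto_id.const_mul_atTop (by norm_num : (0 : ℝ) < 1 / 20))
    exact this.eventually (ge_mem_nhds (lt_min hη (by norm_num)))
  have h2 : ∀ᶠ B : ℝ in atTop, 32 / η ≤ Real.exp B :=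
    Real.tendsto_exp_atTop.eventually_ge_atTop _
  have h3 : ∀ᶠ B : ℝ in atTop, 2 * Y ≤ Real.exp B :=
    Real.tendsto_exp_atTop.eventually_ge_atTop _
  filter_upwards [h1, h2, h3] with B h1 h2 h3 D hD hlog
  have hD' : (1 : ℝ) ≤ D := by exact_mod_cast hD
  have hL : 0 < Real.exp B := Real.exp_pos B
  have hx : 0 < EE B := Real.exp_pos _
  have hu : 0 < EE B / D := by positivity
  have e1 : Real.log (EE B / D) = Real.exp B - Real.log D := by
    rw [Real.log_div hx.ne' (by positivity), EE, Real.log_exp]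
  have e2 : Real.exp (19 / 20 * B) = Real.exp (-(1 / 20 * B)) * Real.exp B := by
    rw [← Real.exp_add]; congr 1; ring
  have a1 : Real.log D ≤ η * Real.exp B := by
    rw [e2] at hlog
    exact hlog.trans (mul_le_mul_of_nonneg_right (h1.trans (min_le_left _ _)) hL.le)
  have a2 : Real.log D ≤ 1 / 4 * Real.exp B := by
    rw [e2] at hlog
    exact hlog.trans (mul_le_mul_of_nonneg_right (h1.trans (min_le_right _ _)) hL.le)
  have a3 : 0 ≤ Real.log D := Real.log_nonneg hD'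
  have a4 : Real.exp (Real.exp B / 2) * Real.exp (Real.exp B / 4) ≤ EE B / D := by
    rw [← Real.exp_add, ← Real.exp_log hu, e1]
    exact Real.exp_le_exp.2 (by linarith)
  have a5 : Real.exp B ≤ η * Real.exp (Real.exp B / 4) := by
    have b1 := Real.quadratic_le_exp_of_nonneg (x := Real.exp B / 4) (by positivity)
    have b2 : 32 ≤ η * Real.exp B := by
      rw [div_le_iff₀ hη] at h2
      linarith
    have b3 : η * ((Real.exp B / 4) ^ 2 / 2) ≤ η * Real.exp (Real.exp B / 4) :=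
      mul_le_mul_of_nonneg_left (by nlinarith) hη.le
    nlinarith
  refine ⟨by rw [e1]; linarith, by rw [e1]; linarith, ?_, ?_⟩
  · have := Real.exp_pos (Real.exp B / 2)
    calc _ ≤ Real.exp (Real.exp B / 2) * (η * Real.exp (Real.exp B / 4)) :=
          mul_le_mul_of_nonneg_left a5 this.le
      _ = η * (Real.exp (Real.exp B / 2) * Real.exp (Real.exp B / 4)) := by ring
      _ ≤ _ := mul_le_mul_of_nonneg_left a4 hη.le
  · have b1 := Real.add_one_le_exp (Real.exp B / 2)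
    have b2 := Real.add_one_le_exp (Real.exp B / 4)
    nlinarith

/-- Chebyshev (no PNT needed): `π(y) ≤ C y / log y` for `y ≥ 2` (`Chebyshev.pi_le_log4_mul_div` and
`√y ≤ C y/log y`).  If the set is non-empty then `y = x/D + 1 ≥ q ≥ max z 2`, `y ≤ 2x/D`. -/
theorem cnt_prime_cheb : ∃ C : ℝ, 1 ≤ C ∧ ∀ x z : ℝ, 0 ≤ x → 1 < z → ∀ D : ℕ, 0 < D →
    CntBd {q : ℕ | q.Prime ∧ z ≤ q ∧ (((q - 1) * D : ℕ) : ℝ) ≤ x}
      (C * x / Real.log z / D) := by
  have hl4 : 0 ≤ Real.log 4 := Real.log_nonneg (by norm_num)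
  refine ⟨2 * (2 * Real.log 4 + 2), by linarith, fun x z hx hz D hD => ?_⟩
  have hD' : (0 : ℝ) < D := by exact_mod_cast hD
  have hlz : 0 < Real.log z := Real.log_pos hz
  by_cases hne : ∃ q : ℕ, q.Prime ∧ z ≤ q ∧ (((q - 1) * D : ℕ) : ℝ) ≤ x
  · obtain ⟨q₀, hq₀, hz₀, hx₀⟩ := hne
    have h1 := pc_le hq₀ hD hx₀
    have h2 : (2 : ℝ) ≤ q₀ := by exact_mod_cast hq₀.two_le
    refine ((pc_cnt (x / D + 1)).mono_set fun q hq => ⟨hq.1, pc_le hq.1 hD hq.2.2⟩).mono_bd ?_
    refine (pc_cheb (h2.trans h1)).trans ?_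
    have h3 : Real.log z ≤ Real.log (x / D + 1) :=
      Real.log_le_log (by linarith) (hz₀.trans h1)
    calc (2 * Real.log 4 + 2) * (x / D + 1) / Real.log (x / D + 1)
        ≤ (2 * Real.log 4 + 2) * (2 * (x / D)) / Real.log z := by
          gcongr
          linarith
      _ = _ := by field_simp
  · refine (SumBd.empty _ (by positivity)).mono_set fun q hq => hne ⟨q, hq⟩

/-- PNT, upper bound: `y = x/D + 1` with `log y = (1 + o(1)) e^B` uniformly, since
`log D ≤ e^{0.95 B}`. -/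
theorem cnt_prime_upper {ε : ℝ} (hε : 0 < ε) : ∀ᶠ B : ℝ in atTop, ∀ D : ℕ, 0 < D →
    Real.log D ≤ Real.exp (19 / 20 * B) →
    CntBd {q : ℕ | q.Prime ∧ (((q - 1) * D : ℕ) : ℝ) ≤ EE B}
      ((1 + ε) * (EE B / Real.exp B) / D) := by
  obtain ⟨η, hη, hη1, hηε⟩ : ∃ η : ℝ, 0 < η ∧ η ≤ 1 / 2 ∧ (1 + η) * (1 + η) ≤ (1 + ε) * (1 - η) := by
    refine ⟨min (ε / 8) (1 / 8), lt_min (by positivity) (by norm_num),
      (min_le_right _ _).trans (by norm_num), ?_⟩
    have h1 := min_le_left (ε / 8) (1 / 8)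
    have h2 := min_le_right (ε / 8) (1 / 8)
    have h3 : 0 < min (ε / 8) (1 / 8) := lt_min (by positivity) (by norm_num)
    nlinarith
  obtain ⟨Y, hY⟩ := eventually_atTop.1 (pnt.eventually (ge_mem_nhds (by linarith : 1 < 1 + η)))
  filter_upwards [pc_unif hη (max Y (max 2 (1 / η)))] with B hB D hD hlog
  obtain ⟨h1, -, -, h4⟩ := hB D hD hlog
  have hD' : (0 : ℝ) < D := by exact_mod_cast hD
  have hL : 0 < Real.exp B := Real.exp_pos B
  set u := EE B / D with hu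
  have hu2 : 2 ≤ u := (le_max_left _ _).trans ((le_max_right _ _).trans h4)
  have hu3 : 1 / η ≤ u := (le_max_right _ _).trans ((le_max_right _ _).trans h4)
  have hu4 : Y ≤ u := (le_max_left _ _).trans h4
  refine ((pc_cnt (u + 1)).mono_set fun q hq => ⟨hq.1, pc_le hq.1 hD hq.2⟩).mono_bd ?_
  have h5 := hY (u + 1) (by linarith)
  have hl : 0 < Real.log (u + 1) := Real.log_pos (by linarith)
  rw [div_le_iff₀ (by positivity)] at h5
  refine h5.trans ?_
  have h6 : (1 - η) * Real.exp B ≤ Real.log (u + 1) :=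
    h1.trans (Real.log_le_log (by linarith) (by linarith))
  have h7 : u + 1 ≤ (1 + η) * u := by
    rw [div_le_iff₀ hη] at hu3
    linarith
  have h8 : 0 < 1 - η := by linarith
  calc (1 + η) * ((u + 1) / Real.log (u + 1))
      ≤ (1 + η) * ((1 + η) * u / ((1 - η) * Real.exp B)) := by gcongr
    _ = ((1 + η) * (1 + η)) * (u / ((1 - η) * Real.exp B)) := by ring
    _ ≤ ((1 + ε) * (1 - η)) * (u / ((1 - η) * Real.exp B)) := by gcongr
    _ = _ := by rw [hu]; field_simp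

/-- PNT, lower bound, for the primes `q ≥ √x = exp (e^B/2)`; the discarded primes number at most
`√x = o(x/(D log x))` uniformly. -/
theorem cnt_prime_lower {ε : ℝ} (hε : 0 < ε) : ∀ᶠ B : ℝ in atTop, ∀ D : ℕ, 0 < D →
    Real.log D ≤ Real.exp (19 / 20 * B) →
    ∃ T : Finset ℕ, (∀ q ∈ T, q.Prime ∧ Real.exp (Real.exp B / 2) ≤ q ∧
        (((q - 1) * D : ℕ) : ℝ) ≤ EE B) ∧
      (1 - ε) * (EE B / Real.exp B) / D ≤ T.card := by
  classical
  obtain ⟨η, hη, hη1, hηε⟩ : ∃ η : ℝ, 0 < η ∧ η ≤ 1 / 2 ∧ 2 * η ≤ ε :=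
    ⟨min (ε / 2) (1 / 2), lt_min (by positivity) (by norm_num), min_le_right _ _, by
      linarith [min_le_left (ε / 2) (1 / 2)]⟩
  obtain ⟨Y, hY⟩ := eventually_atTop.1 (pnt.eventually (le_mem_nhds (by linarith : 1 - η < 1)))
  filter_upwards [pc_unif hη (max Y 2)] with B hB D hD hlog
  obtain ⟨-, h2, h3, h4⟩ := hB D hD hlog
  have hD' : (0 : ℝ) < D := by exact_mod_cast hD
  have hL : 0 < Real.exp B := Real.exp_pos B
  set u := EE B / D with hu
  have hu2 : 2 ≤ u := (le_max_right _ _).trans h4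
  have hu4 : Y ≤ u := (le_max_left _ _).trans h4
  refine ⟨(Nat.primesLE ⌊u⌋₊).filter fun q => Real.exp (Real.exp B / 2) ≤ q, fun q hq => ?_, ?_⟩
  · rw [Finset.mem_filter, Nat.mem_primesLE] at hq
    refine ⟨hq.1.2, hq.2, ?_⟩
    have a1 : (q : ℝ) ≤ u := (Nat.le_floor_iff (by linarith)).1 hq.1.1
    rw [hu, le_div_iff₀ hD'] at a1
    refine le_trans ?_ a1
    exact_mod_cast Nat.mul_le_mul_right D (Nat.sub_le q 1)
  · have a1 := Finset.card_filter_add_card_filter_not (s := Nat.primesLE ⌊u⌋₊)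
      (fun q : ℕ => Real.exp (Real.exp B / 2) ≤ q)
    have a2 : ((Nat.primesLE ⌊u⌋₊).filter
        fun q : ℕ => ¬ Real.exp (Real.exp B / 2) ≤ q).card ≤ ⌊Real.exp (Real.exp B / 2)⌋₊ := by
      calc _ ≤ (Finset.Icc 1 ⌊Real.exp (Real.exp B / 2)⌋₊).card := by
            refine Finset.card_le_card fun q hq => ?_
            rw [Finset.mem_filter, Nat.mem_primesLE] at hq
            exact Finset.mem_Icc.2 ⟨hq.1.2.one_le, Nat.le_floor (not_le.1 hq.2).le⟩
        _ = _ := by simp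
    have a3 : (⌊Real.exp (Real.exp B / 2)⌋₊ : ℝ) ≤ Real.exp (Real.exp B / 2) :=
      Nat.floor_le (Real.exp_pos _).le
    rw [Nat.primesLE_card_eq_primeCounting] at a1
    have a4 : (Nat.primeCounting ⌊u⌋₊ : ℝ) ≤
        (((Nat.primesLE ⌊u⌋₊).filter fun q : ℕ => Real.exp (Real.exp B / 2) ≤ q).card : ℝ) +
          Real.exp (Real.exp B / 2) := by
      rw [← a1]
      push_cast
      have : (((Nat.primesLE ⌊u⌋₊).filter
        fun q : ℕ => ¬ Real.exp (Real.exp B / 2) ≤ q).card : ℝ) ≤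
          ⌊Real.exp (Real.exp B / 2)⌋₊ := by exact_mod_cast a2
      linarith
    have h5 := hY u hu4
    have hl : 0 < Real.log u := Real.log_pos (by linarith)
    rw [le_div_iff₀ (by positivity)] at h5
    have h6 : (1 - η) * (u / Real.exp B) ≤ (1 - η) * (u / Real.log u) := by
      have : 0 ≤ 1 - η := by linarith
      gcongr
    have h7 : Real.exp (Real.exp B / 2) ≤ η * (u / Real.exp B) := by
      rw [← mul_div_assoc, le_div_iff₀ hL]
      exact h3
    have h8 : (1 - ε) * (EE B / Real.exp B) / D = (1 - ε) * (u / Real.exp B) := by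
      rw [hu]; field_simp
    have h9 : 0 ≤ u / Real.exp B := by positivity
    rw [h8]
    nlinarith

/-- Values `(q-1) D(a)` counted through a reciprocal bound for the `D(a)`
(`SumBd.sigma`, `SumBd.of_map`). -/
theorem cntBd_values {α : Type*} {A : Set α} {D : α → ℕ} {Q : α → Set ℕ} {Λ β : ℝ} (hΛ : 0 ≤ Λ)
    (hA : SumBd A (fun a => 1 / (D a : ℝ)) β) (hQ : ∀ a ∈ A, CntBd (Q a) (Λ / D a)) :
    CntBd {p : α × ℕ | p.1 ∈ A ∧ p.2 ∈ Q p.1} (Λ * β) ∧
      CntBd {v : ℕ | ∃ a ∈ A, ∃ q ∈ Q a, v = (q - 1) * D a} (Λ * β) := by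
  have h1 : CntBd {p : α × ℕ | p.1 ∈ A ∧ p.2 ∈ Q p.1} (Λ * β) := by
    refine SumBd.sigma (B := A) (g := fun a => Λ * (1 / (D a : ℝ))) (fun p hp => hp.1)
      (fun a ha => ?_) (hA.const_mul hΛ)
    rw [mul_one_div]
    exact (hQ a ha).mono_set fun q hq => hq.2
  refine ⟨h1, h1.of_map (fun p => (p.2 - 1) * D p.1) ?_⟩
  rintro v ⟨a, ha, q, hq, rfl⟩
  exact ⟨(a, q), ⟨ha, hq⟩, rfl, le_rfl⟩

end Crest.Agent.R20
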