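import Crest.Agent.R20.NiceFacts
import Crest.Agent.R20.NonNormal
import Crest.Agent.R20.PrimeCount

/-!
# R20: counting nice tuples with the prime number theorem
-/

set_option autoImplicit false

open Finset Filter Topology
open Crest.NumberTheoryR.TotientScale

noncomputable section

namespace Crest.Agent.R20

private theorem tup_EE_add_one_le {B : ℝ} (hB : 0 ≤ B) : EE B + 1 ≤ EE (B + 1) := by
  have h1 : 1 ≤ Real.exp B := Real.one_le_exp hB
  have h2 : (2 : ℝ) ≤ Real.exp 1 := by linarith [Real.add_one_le_exp (1 : ℝ)]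
  have h3 : Real.exp B + 1 ≤ Real.exp (B + 1) := by rw [Real.exp_add]; nlinarith
  have h4 : 1 ≤ EE B := Real.one_le_exp (Real.exp_pos B).le
  calc EE B + 1 ≤ EE B * Real.exp 1 := by nlinarith
    _ = Real.exp (Real.exp B + 1) := by rw [EE, Real.exp_add]
    _ ≤ EE (B + 1) := Real.exp_le_exp.2 h3

private theorem tup_cnt_nonnormal {E x z ε X₀ : ℝ} (hz : 1 < z) (hε : 0 ≤ ε) (hx : 0 ≤ x)
    (hX : x + 1 ≤ X₀)
    (h : ∀ X : ℝ, 2 ≤ X → X ≤ X₀ →
      CntBd {p : ℕ | p.Prime ∧ (p : ℝ) ≤ X ∧ ¬ Normal E p} (X / Real.log X * ε))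
    {w : ℕ} (hw : 0 < w) :
    CntBd {q : ℕ | q.Prime ∧ z ≤ q ∧ (((q - 1) * w : ℕ) : ℝ) ≤ x ∧ ¬ Normal E q}
      (2 * x / Real.log z * ε / w) := by
  have hw' : (1 : ℝ) ≤ w := by exact_mod_cast hw
  have hlz : 0 < Real.log z := Real.log_pos hz
  have key : ∀ q : ℕ, q.Prime → (((q - 1) * w : ℕ) : ℝ) ≤ x → (q : ℝ) ≤ x / w + 1 := by
    intro q hq h1
    rw [Nat.cast_mul, Nat.cast_sub hq.one_le, ← le_div_iff₀ (by linarith)] at h1
    push_cast at h1
    linarith
  rcases Set.eq_empty_or_nonempty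
    {q : ℕ | q.Prime ∧ z ≤ q ∧ (((q - 1) * w : ℕ) : ℝ) ≤ x ∧ ¬ Normal E q} with he | ⟨q, hq⟩
  · rw [he]
    exact SumBd.empty _ (by positivity)
  have h1 := key q hq.1 hq.2.2.1
  have h2 : (2 : ℝ) ≤ q := by exact_mod_cast hq.1.two_le
  have h3 : x / w ≤ x := div_le_self hx hw'
  refine ((h (x / w + 1) (by linarith) (by linarith)).mono_set
    fun p hp => ⟨hp.1, key p hp.1 hp.2.2.1, hp.2.2.2⟩).mono_bd ?_
  have h4 : Real.log z ≤ Real.log (x / w + 1) :=
    Real.log_le_log (by linarith) (hq.2.1.trans h1)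
  calc (x / w + 1) / Real.log (x / w + 1) * ε ≤ (2 * (x / w)) / Real.log z * ε := by
        gcongr
        linarith
    _ = 2 * x / Real.log z * ε / w := by ring

private theorem tup_obj_inj {d q q' s s' : ℕ} (hq : q.Prime) (hq' : q'.Prime) (hs : 0 < s)
    (hs' : 0 < s') (h : gpf s < q) (h' : gpf s' < q')
    (he : obj (d + 1) (q * s) = obj (d + 1) (q' * s')) : q = q' ∧ obj d s = obj d s' := by
  obtain ⟨-, h1, h2⟩ := top_prime_mul hq hs h
  obtain ⟨-, h1', h2'⟩ := top_prime_mul hq' hs' h'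
  simp only [obj, Prod.mk.injEq] at he ⊢
  obtain ⟨e1, e2⟩ := he
  refine ⟨?_, funext fun l => ?_, ?_⟩
  · have := congrFun e1 1
    rw [tup_apply _ (by simp), tup_apply _ (by simp)] at this
    simpa [lev, h1, h1'] using this
  · by_cases hl : l ∈ Icc 1 d
    · have hl' : l + 1 ∈ Icc 1 (d + 1) := by simp only [mem_Icc] at hl ⊢; omega
      have := congrFun e1 (l + 1)
      rw [tup_apply _ hl', tup_apply _ hl', Nat.add_sub_cancel] at this
      rw [tup_apply _ hl, tup_apply _ hl]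
      obtain ⟨j, rfl⟩ : ∃ j, l = j + 1 := ⟨l - 1, by have := (mem_Icc.1 hl).1; omega⟩
      rw [lev, lev, tail_succ', tail_succ', h2, h2'] at this
      exact this
    · simp only [tup, hl, if_false]
  · rwa [tail_succ', tail_succ', h2, h2'] at e2

/-- For `o ∈ S` choose a nice `s_o` with `obj (m-k) s_o = o`, `D = φ(s_o) = oval o`; by `nice_size`,
`cnt_prime_lower` and `nonnormal_count` (with `X = x/D + 1 ≤ 2x/D`, `log X ≥ e^B/2`) there are at least
`(1 - ε') x/(e^B D)` normal primes `q ≥ √x` with `(q-1) D ≤ x`.  The map `(o, q) ↦ obj (m-k+1) (q s_o)`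
is injective (`lev (q s) 0 = q`, `lev (q s) (j+1) = lev s j`). -/
theorem tuples_ge (X : Ctx) : ∃ k₁ : ℕ, ∀ k, k₁ ≤ k → ∀ ε' : ℝ, 0 < ε' →
    ∀ᶠ m : ℕ in atTop, ∀ t ∈ Set.Icc X.t₁ X.t₂, ∀ S : Finset ((ℕ → ℕ) × ℕ),
    (↑S : Set _) ⊆ NiceT X.θ (X.B m t) m k →
    ∃ 𝒩 : Finset ℕ, (∀ n ∈ 𝒩, TopNice X.θ (X.B m t) m k n) ∧
      EE (X.B m t) / Real.exp (X.B m t) * ((1 - ε') * ∑ o ∈ S, owt (m - k) o) ≤
        Set.ncard (obj (m - k + 1) '' (↑𝒩 : Set ℕ)) := by
  classical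
  refine ⟨4, fun k hk ε' hε => ?_⟩
  obtain ⟨U₀, hU₀⟩ := nonnormal_count
  obtain ⟨J₀, hJ₀⟩ := X.eventually_pow (max U₀ (8 / ε'))
  filter_upwards [nice_size X (k := k) (by omega), nice_top X hk,
    X.eventually_B (cnt_prime_lower (half_pos hε)), X.B_bounds, eventually_ge_atTop J₀]
    with m hsize htop hlow hB hm t ht S hS
  set B := X.B m t with hBdef
  set U := X.θ ^ m with hU
  have hU1 : 1 ≤ U := X.one_le_pow m
  have hUU : max U₀ (8 / ε') ≤ U := (hJ₀ m hm).1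
  have hB0 : 0 ≤ B := le_trans (by positivity) (hB t ht).1
  have hx : EE B + 1 ≤ EE (2 * U ^ 11) := by
    refine (tup_EE_add_one_le hB0).trans (EE_mono ?_)
    have := (hB t ht).2
    have h11 : 0 ≤ U ^ 11 := by positivity
    linarith
  have hsmall : 4 * Real.exp (-(2 * U ^ 2)) ≤ ε' / 2 := by
    have h1 : 8 / ε' ≤ U := (le_max_right _ _).trans hUU
    have h2 : U ≤ Real.exp (2 * U ^ 2) := by
      have := Real.add_one_le_exp (2 * U ^ 2)
      nlinarith
    rw [Real.exp_neg, ← div_eq_mul_inv, div_le_iff₀ (Real.exp_pos _)]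
    rw [div_le_iff₀ hε] at h1
    nlinarith
  have hS' : ∀ o ∈ S, ∃ s, Nice X.θ B m k s ∧ obj (m - k) s = o := fun o ho => hS ho
  choose! s hs hso using hS'
  have hspos : ∀ o ∈ S, 0 < s o := fun o ho => (hs o ho).1.1
  have hT := fun o (ho : o ∈ S) => hlow t ht (Nat.totient (s o))
    (Nat.totient_pos.2 (hspos o ho)) (hsize t ht _ (hs o ho))
  choose! T hT hTc using hT
  set T' : (ℕ → ℕ) × ℕ → Finset ℕ := fun o => (T o).filter (Normal (U ^ 7)) with hT'
  have hcard : ∀ o ∈ S, EE B / Real.exp B * ((1 - ε') * owt (m - k) o) ≤ (T' o).card := by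
    intro o ho
    have hD : (0 : ℝ) < Nat.totient (s o) := by exact_mod_cast Nat.totient_pos.2 (hspos o ho)
    have h1 := (tup_cnt_nonnormal (z := Real.exp (Real.exp B / 2))
      (Real.one_lt_exp_iff.2 (by positivity)) (Real.exp_pos _).le (EE_pos B).le hx
      (hU₀ U ((le_max_left _ _).trans hUU)) (Nat.totient_pos.2 (hspos o ho))).card_le
      ((T o).filter fun q => ¬ Normal (U ^ 7) q) (by
        intro q hq
        obtain ⟨h1, h2⟩ := mem_filter.1 (mem_coe.1 hq)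
        exact ⟨(hT o ho q h1).1, (hT o ho q h1).2.1, (hT o ho q h1).2.2, h2⟩)
    have h2 : ((T' o).card : ℝ) + ((T o).filter fun q => ¬ Normal (U ^ 7) q).card = (T o).card := by
      exact_mod_cast card_filter_add_card_filter_not _
    have h3 := hTc o ho
    rw [Real.log_exp] at h1
    have h4 : owt (m - k) o = 1 / (Nat.totient (s o) : ℝ) := by
      conv_lhs => rw [← hso o ho]
      exact owt_obj (hspos o ho) _
    have h5 : 2 * EE B / (Real.exp B / 2) * Real.exp (-(2 * U ^ 2)) / Nat.totient (s o) ≤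
        ε' / 2 * (EE B / Real.exp B) / Nat.totient (s o) := by
      refine div_le_div_of_nonneg_right ?_ hD.le
      have : 2 * EE B / (Real.exp B / 2) * Real.exp (-(2 * U ^ 2)) =
          4 * Real.exp (-(2 * U ^ 2)) * (EE B / Real.exp B) := by field_simp; ring
      rw [this]
      exact mul_le_mul_of_nonneg_right hsmall (div_nonneg (EE_pos B).le (Real.exp_pos B).le)
    have h6 : EE B / Real.exp B * ((1 - ε') * (1 / (Nat.totient (s o) : ℝ))) =
        (1 - ε' / 2) * (EE B / Real.exp B) / Nat.totient (s o) -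
          ε' / 2 * (EE B / Real.exp B) / Nat.totient (s o) := by ring
    rw [h4, h6]
    linarith
  have hmem : ∀ x ∈ S.sigma T', x.2.Prime ∧ Nice X.θ B m k (s x.1) ∧
      Real.exp (Real.exp B / 2) ≤ x.2 ∧ Normal (U ^ 7) x.2 ∧
      (((x.2 - 1) * Nat.totient (s x.1) : ℕ) : ℝ) ≤ EE B := by
    rintro ⟨o, q⟩ hx
    obtain ⟨ho, hq⟩ := mem_sigma.1 hx
    obtain ⟨h1, h2⟩ := mem_filter.1 hq
    exact ⟨(hT o ho q h1).1, hs o ho, (hT o ho q h1).2.1, h2, (hT o ho q h1).2.2⟩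
  refine ⟨(S.sigma T').image fun x => x.2 * s x.1, fun n hn => ?_, ?_⟩
  · obtain ⟨x, hx, rfl⟩ := mem_image.1 hn
    obtain ⟨h1, h2, h3, h4, h5⟩ := hmem x hx
    exact ⟨x.2, s x.1, h1, h2, h3, h4, h5, rfl⟩
  · rw [coe_image, Set.image_image, Set.InjOn.ncard_image, Set.ncard_coe_finset, card_sigma,
      mul_sum, mul_sum]
    · push_cast
      exact sum_le_sum hcard
    · rintro ⟨o, q⟩ hx ⟨o', q'⟩ hx' he
      obtain ⟨h1, h2, h3, h4, h5⟩ := hmem _ (mem_coe.1 hx)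
      obtain ⟨h1', h2', h3', h4', h5'⟩ := hmem _ (mem_coe.1 hx')
      have ho := (mem_sigma.1 (mem_coe.1 hx)).1
      have ho' := (mem_sigma.1 (mem_coe.1 hx')).1
      obtain ⟨e1, e2⟩ := tup_obj_inj h1 h1' (hspos o ho) (hspos o' ho')
        (htop t ht _ _ h1 h2 h3 h4 h5).1 (htop t ht _ _ h1' h2' h3' h4' h5').1 he
      rw [hso o ho, hso o' ho'] at e2
      simp only at e1
      subst e1 e2
      rfl

end Crest.Agent.R20
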