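import Crest.Agent.R20.Values
import Crest.Agent.R20.Tuples

/-!
# R20: lower bound for `V(x)` by the weight of the nice objects
-/

set_option autoImplicit false

open Finset Filter Topology
open Crest.NumberTheoryR.TotientScale

noncomputable section

namespace Crest.Agent.R20

theorem thmB (X : Ctx) : ∃ C : ℝ, 0 < C ∧ ∃ k₁ : ℕ, ∀ k, k₁ ≤ k → ∀ ε' : ℝ, 0 < ε' →
    ∀ᶠ m : ℕ in atTop, ∀ t ∈ Set.Icc X.t₁ X.t₂, ∀ S : Finset ((ℕ → ℕ) × ℕ),
    (↑S : Set _) ⊆ NiceT X.θ (X.B m t) m k →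
    EE (X.B m t) / Real.exp (X.B m t) *
        ((1 - ε') * ∑ o ∈ S, owt (m - k) o - C * Real.exp (-X.θ ^ k) * GG (X.B m t) m) ≤
      totientCount (EE (X.B m t)) := by
  obtain ⟨C, hC, k₁, h₁⟩ := values_ge X
  obtain ⟨k₂, h₂⟩ := tuples_ge X
  refine ⟨C, hC, max k₁ k₂, fun k hk ε' hε' => ?_⟩
  filter_upwards [h₁ k (le_of_max_le_left hk), h₂ k (le_of_max_le_right hk) ε' hε'] with m a b
  intro t ht S hS
  obtain ⟨𝒩, h𝒩, hb⟩ := b t ht S hS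
  have := a t ht 𝒩 h𝒩
  rw [mul_sub]
  linarith

end Crest.Agent.R20
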