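import Crest.Agent.R20.ViolationCore
import Crest.Agent.R20.PrimeCount

/-!
# R20: totients of normal integers rarely violate the simplex inequality

Notation as in `ViolationCore`: `E = U^7`, `e = ⌊E⌋`, pattern `b l = max ⌊ht s l⌋ e`.
-/

set_option autoImplicit false

open Finset Filter Topology
open Crest.NumberTheoryR.TotientScale

noncomputable section

namespace Crest.Agent.R20

/-- Covering by the finitely many patterns `b : [0,K] → [0,M]`. -/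
private theorem cover_patterns {α : Type*} {A : Set α} {f : α → ℝ} (K M : ℕ) {β : ℝ}
    (S : (ℕ → ℕ) → Set α) (hS : ∀ b, SumBd (S b) f β)
    (hA : ∀ a ∈ A, ∃ b : ℕ → ℕ, (∀ l ≤ K, b l ≤ M) ∧
      ∀ b' : ℕ → ℕ, (∀ l ≤ K, b' l = b l) → a ∈ S b') :
    SumBd A f (((M : ℝ) + 1) ^ (K + 1) * β) := by
  classical
  let ext : (Fin (K + 1) → ℕ) → ℕ → ℕ := fun c l => if h : l < K + 1 then c ⟨l, h⟩ else 0
  let I : Finset (Fin (K + 1) → ℕ) := Fintype.piFinset fun _ => range (M + 1)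
  have h1 := SumBd.of_cover I (A := fun c => S (ext c)) (f := f) (b := fun _ => β)
    (fun c _ => hS _) (A' := A) (by
      intro a ha
      obtain ⟨b, hb, hb'⟩ := hA a ha
      refine ⟨fun i => b i, ?_, hb' _ ?_⟩
      · simp only [I, Fintype.mem_piFinset, mem_range]
        intro i
        have := hb i (by omega)
        omega
      · intro l hl
        simp only [ext]
        rw [dif_pos (by omega)])
  have hc : I.card = (M + 1) ^ (K + 1) := by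
    simp [I, Fintype.card_piFinset]
  rw [sum_const, hc, nsmul_eq_mul] at h1
  exact_mod_cast h1

private theorem patPhi_congr {K e : ℕ} {b b' : ℕ → ℕ} (h : ∀ l ≤ K, b' l = b l) (w : ℕ) :
    patPhi K e b' w = patPhi K e b w := by
  unfold patPhi
  refine sum_congr rfl fun j hj => ?_
  rw [h j (mem_Icc.1 hj).2]

/-- Removing one prime factor lowers `patPhi` by at most `K`. -/
private theorem patPhi_prime_mul_le {K e : ℕ} (b : ℕ → ℕ) {p w : ℕ} (hp : p.Prime) (hw : 0 < w) :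
    patPhi K e b (p * w) ≤ patPhi K e b w + K := by
  unfold patPhi
  have hK : (K : ℝ) = ∑ _j ∈ Icc 1 K, (1 : ℝ) := by simp
  rw [hK, ← sum_add_distrib]
  refine sum_le_sum fun j hj => ?_
  have hj1 : (1 : ℝ) ≤ j := by exact_mod_cast (mem_Icc.1 hj).1
  have hj0 : (0 : ℝ) < j := by linarith
  have hl0 : 0 ≤ Real.log (((j : ℝ) + 1) / j) := by
    apply Real.log_nonneg
    rw [le_div_iff₀ hj0]; linarith
  have hl1 : Real.log (((j : ℝ) + 1) / j) ≤ 1 := by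
    have := Real.log_le_sub_one_of_pos (x := ((j : ℝ) + 1) / j) (by positivity)
    have h2 : ((j : ℝ) + 1) / j ≤ 2 := by rw [div_le_iff₀ hj0]; linarith
    linarith
  rw [OmB_mul _ hp.pos hw, OmB_mul _ hp.pos hw, OmB_prime _ hp, OmB_prime _ hp]
  push_cast
  have h1 : (if win p ≤ b j then (1 : ℝ) else 0) ≤ 1 := by split_ifs <;> norm_num
  have h2 : (0 : ℝ) ≤ (if win p ≤ e then (1 : ℝ) else 0) := by split_ifs <;> norm_num
  nlinarith

/-- The conditions on a pattern `(N, b) = (b 0, b|[1,K])`. -/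
private def PatOK (U : ℝ) (K : ℕ) (b : ℕ → ℕ) : Prop :=
  (∀ i j, 1 ≤ i → i ≤ j → j ≤ K → b j ≤ b i) ∧ (∀ j ∈ Icc 1 K, ⌊U ^ 7⌋₊ ≤ b j ∧ b j ≤ b 0) ∧
    (b 0 : ℝ) - ∑ l ∈ Icc 1 K, aCoef l * ((b l : ℝ) - ⌊U ^ 7⌋₊) ≤ -U ^ 9 + 5 * U ^ 8

/-- The integers with a violating pattern. -/
private def PatSet (U : ℝ) (K : ℕ) : Set ℕ :=
  {w | 0 < w ∧ ∃ b : ℕ → ℕ, (b 0 : ℝ) ≤ U ^ 11 + 1 ∧ PatOK U K b ∧ hq w ≤ b 0 ∧
    ∑ l ∈ Icc 1 K, (aCoef l + 1) * ((b l : ℝ) - ⌊U ^ 7⌋₊) - 5 * U ^ 8 ≤ patPhi K ⌊U ^ 7⌋₊ b w}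

private theorem K_facts {U : ℝ} {K : ℕ} (hK : (K : ℝ) ^ 4 ≤ U) : (K : ℝ) ≤ U ∧ (K : ℝ) ^ 2 ≤ U := by
  have h1 : K ≤ K ^ 4 := Nat.le_self_pow (by norm_num) K
  have h2 : K ^ 2 ≤ K ^ 4 := by
    rcases Nat.eq_zero_or_pos K with h | h
    · simp [h]
    · exact Nat.pow_le_pow_right h (by norm_num)
  have h1' : (K : ℝ) ≤ (K : ℝ) ^ 4 := by exact_mod_cast h1
  have h2' : (K : ℝ) ^ 2 ≤ (K : ℝ) ^ 4 := by exact_mod_cast h2
  exact ⟨h1'.trans hK, h2'.trans hK⟩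

private theorem recBd_patSet : ∃ U₀ : ℝ, 4 ≤ U₀ ∧ ∀ U : ℝ, U₀ ≤ U → ∀ K : ℕ, (K : ℝ) ^ 4 ≤ U →
    RecBd (PatSet U K) (Real.exp (-U ^ 8)) := by
  obtain ⟨C, hC, hpat⟩ := recBd_pattern
  refine ⟨40 + 4 * C, by linarith, fun U hU K hK => ?_⟩
  obtain ⟨hK1, hK2⟩ := K_facts hK
  have hU4 : 4 ≤ U := by linarith
  have hU1 : 1 ≤ U := by linarith
  have hU0 : 0 < U := by linarith
  have hK0 : (0 : ℝ) ≤ K := Nat.cast_nonneg K
  set e := ⌊U ^ 7⌋₊ with he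
  have hEE : 2 * ((K : ℝ) + 1) ≤ EE e := by
    have h1 : U ^ 7 < e + 1 := Nat.lt_floor_add_one _
    have h2 : (e : ℝ) + 1 ≤ Real.exp e := Real.add_one_le_exp _
    have h3 : Real.exp e + 1 ≤ EE e := Real.add_one_le_exp _
    have h4 : U ^ 2 ≤ U ^ 7 := pow_le_pow_right₀ hU1 (by norm_num)
    nlinarith
  set β : ℝ := Real.exp (-U ^ 9 + 10 * U ^ 8 + 4 * C * U) with hβ
  let S : (ℕ → ℕ) → Set ℕ := fun b => {w | PatOK U K b ∧ 0 < w ∧ hq w ≤ b 0 ∧
    ∑ l ∈ Icc 1 K, (aCoef l + 1) * ((b l : ℝ) - e) - 5 * U ^ 8 ≤ patPhi K e b w}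
  have hS : ∀ b, RecBd (S b) β := by
    intro b
    by_cases hb : PatOK U K b
    · obtain ⟨hb1, hb2, hb3⟩ := hb
      have h := hpat K e (b 0) b
        (∑ l ∈ Icc 1 K, (aCoef l + 1) * ((b l : ℝ) - e) - 5 * U ^ 8) hEE hb1 hb2
      refine (h.mono_set fun w hw => hw.2).mono_bd ?_
      rw [hβ, Real.exp_le_exp]
      have hsum : ∑ l ∈ Icc 1 K, (aCoef l + 1) * ((b l : ℝ) - e) =
          ∑ l ∈ Icc 1 K, aCoef l * ((b l : ℝ) - e) + ∑ l ∈ Icc 1 K, ((b l : ℝ) - e) := by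
        rw [← sum_add_distrib]
        exact sum_congr rfl fun l _ => by ring
      have hK3 : ((K : ℝ) + 1) ^ 2 ≤ 4 * U := by nlinarith
      have hK4 : C * ((K : ℝ) + 1) ^ 2 ≤ C * (4 * U) := mul_le_mul_of_nonneg_left hK3 hC.le
      rw [hsum]
      rw [← he] at hb3
      linarith
    · have : S b = ∅ := by
        ext w
        simp only [S, Set.mem_ofPred_eq, Set.mem_empty_iff_false, iff_false]
        exact fun h => hb h.1
      rw [this]
      exact SumBd.empty _ (Real.exp_pos _).le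
  have hcov := cover_patterns (A := PatSet U K) K (⌈U ^ 11⌉₊ + 1) S hS (by
    rintro w ⟨hw, b, hb0, ⟨hb1, hb2, hb3⟩, hb4, hb5⟩
    have hb0' : b 0 ≤ ⌈U ^ 11⌉₊ + 1 := by
      have : (b 0 : ℝ) ≤ ((⌈U ^ 11⌉₊ + 1 : ℕ) : ℝ) := by
        push_cast
        have := Nat.le_ceil (U ^ 11)
        linarith
      exact_mod_cast this
    refine ⟨b, fun l hl => ?_, fun b' hb' => ?_⟩
    · rcases Nat.eq_zero_or_pos l with h | h
      · rw [h]; exact hb0'
      · exact (hb2 l (mem_Icc.2 ⟨h, hl⟩)).2.trans hb0'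
    · have hsum : ∀ g : ℕ → ℝ, ∑ l ∈ Icc 1 K, g l * ((b' l : ℝ) - e) =
          ∑ l ∈ Icc 1 K, g l * ((b l : ℝ) - e) := fun g =>
        sum_congr rfl fun l hl => by rw [hb' l (mem_Icc.1 hl).2]
      refine ⟨⟨fun i j hi hij hj => ?_, fun j hj => ?_, ?_⟩, hw, ?_, ?_⟩
      · rw [hb' j hj, hb' i (hij.trans hj)]; exact hb1 i j hi hij hj
      · rw [hb' j (mem_Icc.1 hj).2, hb' 0 (Nat.zero_le _)]; exact hb2 j hj
      · rw [hb' 0 (Nat.zero_le _), ← he, hsum]; exact hb3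
      · rw [hb' 0 (Nat.zero_le _)]; exact hb4
      · rw [patPhi_congr hb', hsum (fun l => aCoef l + 1)]; exact hb5)
  refine hcov.mono_bd ?_
  have hM : (((⌈U ^ 11⌉₊ + 1 : ℕ) : ℝ) + 1) ≤ Real.exp (12 * U) := by
    push_cast
    have h1 : (⌈U ^ 11⌉₊ : ℝ) < U ^ 11 + 1 := Nat.ceil_lt_add_one (by positivity)
    have h2 : 1 ≤ U ^ 11 := one_le_pow₀ hU1
    have h3 : U ^ 12 ≤ Real.exp (12 * U) := by
      have : U ≤ Real.exp U := by linarith [Real.add_one_le_exp U]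
      calc U ^ 12 ≤ (Real.exp U) ^ 12 := pow_le_pow_left₀ hU0.le this 12
        _ = Real.exp (12 * U) := by rw [← Real.exp_nat_mul]; norm_num
    have h4 : U ^ 12 = U * U ^ 11 := by ring
    nlinarith
  have hM2 : (((⌈U ^ 11⌉₊ + 1 : ℕ) : ℝ) + 1) ^ (K + 1) ≤ Real.exp (24 * U ^ 2) := by
    calc (((⌈U ^ 11⌉₊ + 1 : ℕ) : ℝ) + 1) ^ (K + 1) ≤ (Real.exp (12 * U)) ^ (K + 1) :=
          pow_le_pow_left₀ (by positivity) hM _
      _ = Real.exp (((K + 1 : ℕ) : ℝ) * (12 * U)) := by rw [← Real.exp_nat_mul]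
      _ ≤ Real.exp (24 * U ^ 2) := by
          rw [Real.exp_le_exp]; push_cast; nlinarith
  calc (((⌈U ^ 11⌉₊ + 1 : ℕ) : ℝ) + 1) ^ (K + 1) * β ≤ Real.exp (24 * U ^ 2) * β :=
        mul_le_mul_of_nonneg_right hM2 (Real.exp_pos _).le
    _ = Real.exp (24 * U ^ 2 + (-U ^ 9 + 10 * U ^ 8 + 4 * C * U)) := by rw [hβ, ← Real.exp_add]
    _ ≤ Real.exp (-U ^ 8) := by
        rw [Real.exp_le_exp]
        have h1 : U ^ 2 ≤ U ^ 8 := pow_le_pow_right₀ hU1 (by norm_num)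
        have h2 : U ≤ U ^ 8 := le_self_pow₀ hU1 (by norm_num)
        have h3 : U ^ 9 = U * U ^ 8 := by ring
        have h4 : (40 + 4 * C) * U ^ 8 ≤ U * U ^ 8 := mul_le_mul_of_nonneg_right hU (by positivity)
        have h5 : C * U ≤ C * U ^ 8 := mul_le_mul_of_nonneg_left h2 hC.le
        have h6 : 0 ≤ U ^ 8 := by positivity
        nlinarith

/-- The pattern of `n` with top entry `N`. -/
private def patOf (U : ℝ) (N n : ℕ) : ℕ → ℕ := fun l => if l = 0 then N else max ⌊ht n l⌋₊ ⌊U ^ 7⌋₊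

private theorem patOf_facts {U : ℝ} (hU : 4 ≤ U) {K : ℕ} (hK : (K : ℝ) ^ 4 ≤ U) {N n : ℕ} (hn : 0 < n)
    (hnorm : AllNormal (U ^ 7) n) (hN1 : ht n 0 ≤ N) (hN2 : ⌊U ^ 7⌋₊ ≤ N)
    (hviol : (N : ℝ) - ∑ i ∈ Icc 1 K, aCoef i * ht n i ≤ -U ^ 9 + 3 * U ^ 8) :
    PatOK U K (patOf U N n) ∧
      ∑ l ∈ Icc 1 K, (aCoef l + 1) * ((patOf U N n l : ℝ) - ⌊U ^ 7⌋₊) - 4 * U ^ 8 ≤
        patPhi K ⌊U ^ 7⌋₊ (patOf U N n) (Nat.totient n) := by
  obtain ⟨hK1, hK2⟩ := K_facts hK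
  have hU1 : 1 ≤ U := by linarith
  have hU0 : 0 < U := by linarith
  have hK0 : (0 : ℝ) ≤ K := Nat.cast_nonneg K
  have hE : (0 : ℝ) ≤ U ^ 7 := by positivity
  have hE1 : (1 : ℝ) ≤ U ^ 7 := one_le_pow₀ hU1
  have h8 : U ^ 8 = U * U ^ 7 := by ring
  have hpos : ∀ l, 1 ≤ l → patOf U N n l = max ⌊ht n l⌋₊ ⌊U ^ 7⌋₊ := fun l hl => by
    simp only [patOf]; rw [if_neg (by omega)]
  have h0 : patOf U N n 0 = N := by simp [patOf]
  refine ⟨⟨fun i j hi hij _ => ?_, fun j hj => ?_, ?_⟩, ?_⟩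
  · rw [hpos i hi, hpos j (hi.trans hij)]
    exact max_le_max (Nat.floor_le_floor (ht_anti n hij)) le_rfl
  · rw [hpos j (mem_Icc.1 hj).1, h0]
    refine ⟨le_max_right _ _, max_le ?_ hN2⟩
    have h1 : ht n j ≤ N := (ht_anti n (Nat.zero_le j)).trans hN1
    simpa using Nat.floor_le_floor h1
  · rw [h0]
    have h1 : ∑ i ∈ Icc 1 K, aCoef i * ht n i - ∑ i ∈ Icc 1 K, aCoef i * (1 + U ^ 7) ≤
        ∑ l ∈ Icc 1 K, aCoef l * ((patOf U N n l : ℝ) - ⌊U ^ 7⌋₊) := by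
      rw [← sum_sub_distrib]
      refine sum_le_sum fun l hl => ?_
      have hl1 := (mem_Icc.1 hl).1
      rw [← mul_sub, hpos l hl1]
      refine mul_le_mul_of_nonneg_left ?_ (aCoef_pos hl1).le
      have h2 : ht n l < ⌊ht n l⌋₊ + 1 := Nat.lt_floor_add_one _
      have h3 : (⌊U ^ 7⌋₊ : ℝ) ≤ U ^ 7 := Nat.floor_le hE
      have h4 : (⌊ht n l⌋₊ : ℝ) ≤ ((max ⌊ht n l⌋₊ ⌊U ^ 7⌋₊ : ℕ) : ℝ) := by
        exact_mod_cast le_max_left _ _
      linarith
    have h2 : ∑ i ∈ Icc 1 K, aCoef i * (1 + U ^ 7) ≤ 2 * U ^ 8 := by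
      rw [← sum_mul]
      have h3 := sum_aCoef_le K
      calc (∑ i ∈ Icc 1 K, aCoef i) * (1 + U ^ 7) ≤ U * (1 + U ^ 7) :=
            mul_le_mul_of_nonneg_right (h3.trans hK2) (by positivity)
        _ ≤ 2 * U ^ 8 := by nlinarith
    linarith
  · have h1 := patPhi_ge (K := K) hE hn hnorm
    have h2 : patPhi K ⌊U ^ 7⌋₊ (patOf U N n) (Nat.totient n) =
        patPhi K ⌊U ^ 7⌋₊ (fun l => max ⌊ht n l⌋₊ ⌊U ^ 7⌋₊) (Nat.totient n) := by
      unfold patPhi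
      exact sum_congr rfl fun j hj => by rw [hpos j (mem_Icc.1 hj).1]
    have h3 : ∑ l ∈ Icc 1 K, (aCoef l + 1) * ((patOf U N n l : ℝ) - ⌊U ^ 7⌋₊) =
        ∑ l ∈ Icc 1 K, (aCoef l + 1) * (((max ⌊ht n l⌋₊ ⌊U ^ 7⌋₊ : ℕ) : ℝ) - ⌊U ^ 7⌋₊) :=
      sum_congr rfl fun j hj => by rw [hpos j (mem_Icc.1 hj).1]
    have h4 : Real.log ((K : ℝ) + 1) ≤ K := by
      have := Real.log_le_sub_one_of_pos (x := (K : ℝ) + 1) (by positivity)
      linarith
    have h5 : ((K : ℝ) + 1) * Real.log ((K : ℝ) + 1) ≤ 2 * U := by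
      calc ((K : ℝ) + 1) * Real.log ((K : ℝ) + 1) ≤ ((K : ℝ) + 1) * K :=
            mul_le_mul_of_nonneg_left h4 (by positivity)
        _ ≤ 2 * U := by nlinarith
    have h6 : 2 * U ^ 7 * ((K : ℝ) + 1) * Real.log ((K : ℝ) + 1) ≤ 4 * U ^ 8 := by
      have := mul_le_mul_of_nonneg_left h5 (show (0 : ℝ) ≤ 2 * U ^ 7 by positivity)
      nlinarith
    rw [h2, h3]
    linarith

/-- Cover by the data `N = max ⌈ht s 0⌉ e ≤ U^11 + 1` and `b` on `[1,K]` (at most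
`(U^11 + 2)^{K+1}` choices; normalise `b` outside `[1,K]`), restricted to data with
`N - ∑ a_l (b l - e) ≤ -U^9 + 1 + E + K² (1 + E)` (true for a violating `s` because
`b l - e ≥ ht s l - 1 - E`, `N ≤ ht s 0 + 1 + E`).  For such data `recBd_pattern` with
`Φ = ∑ (a_l+1)(b l - e) - 2E(K+1) log (K+1)` gives `exp (-U^9 + O(U^8))`. -/
theorem violation_rec : ∃ U₀ : ℝ, ∀ U : ℝ, U₀ ≤ U → ∀ K : ℕ, (K : ℝ) ^ 4 ≤ U →
    RecBd (phiSet fun s => ht s 0 ≤ U ^ 11 ∧ AllNormal (U ^ 7) s ∧ slack K s < -U ^ 9)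
      (Real.exp (-U ^ 2)) := by
  obtain ⟨U₀, hU₀, h⟩ := recBd_patSet
  refine ⟨U₀, fun U hU K hK => ?_⟩
  have hU4 : 4 ≤ U := hU₀.trans hU
  have hU1 : 1 ≤ U := by linarith
  have hE : (0 : ℝ) ≤ U ^ 7 := by positivity
  refine ((h U hU K hK).mono_set ?_).mono_bd ?_
  · rintro w ⟨s, hs, ⟨h1, h2, h3⟩, rfl⟩
    set N : ℕ := max ⌈ht s 0⌉₊ ⌊U ^ 7⌋₊ with hN
    have hc : (⌈ht s 0⌉₊ : ℝ) < ht s 0 + 1 := Nat.ceil_lt_add_one (ht_nonneg s 0)
    have hf : (⌊U ^ 7⌋₊ : ℝ) ≤ U ^ 7 := Nat.floor_le hE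
    have h711 : U ^ 7 ≤ U ^ 11 := pow_le_pow_right₀ hU1 (by norm_num)
    have h78 : U ^ 7 ≤ U ^ 8 := pow_le_pow_right₀ hU1 (by norm_num)
    have h18 : 1 ≤ U ^ 8 := one_le_pow₀ hU1
    have hN1 : ht s 0 ≤ N := by
      have : (⌈ht s 0⌉₊ : ℝ) ≤ N := by exact_mod_cast le_max_left _ _
      exact (Nat.le_ceil _).trans this
    have hNc : (N : ℝ) = max (⌈ht s 0⌉₊ : ℝ) (⌊U ^ 7⌋₊ : ℝ) := by rw [hN]; push_cast; rfl
    have hN3 : (N : ℝ) ≤ ht s 0 + 1 + U ^ 7 := by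
      rw [hNc]
      have := ht_nonneg s 0
      exact max_le (by linarith) (by linarith)
    have hN4 : (N : ℝ) ≤ U ^ 11 + 1 := by
      rw [hNc]
      exact max_le (by linarith) (by linarith)
    obtain ⟨hok, hphi⟩ := patOf_facts hU4 hK hs h2 hN1 (le_max_right _ _) (by
      unfold slack at h3
      linarith)
    have h0 : patOf U N s 0 = N := by simp [patOf]
    refine ⟨Nat.totient_pos.2 hs, patOf U N s, by rw [h0]; exact hN4, hok, ?_, by linarith⟩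
    rw [h0]
    exact (hq_totient_le hs).trans hN1
  · rw [Real.exp_le_exp]
    have : U ^ 2 ≤ U ^ 8 := pow_le_pow_right₀ hU1 (by norm_num)
    linarith

/-- Counting version at level `0`, `x = EE B`.  Write `v = π v'` with `π = gpf v`,
`log π ≥ log v / Om v ≥ e^B/(20 U^11)`; `patPhi v' ≥ patPhi v - log (K+1)`; `hq v' ≤ N := ⌈B⌉ + 1` and
`b l ≤ N` because `q_l - 1 ∣ v ≤ x`, so `ell q_l ≤ B + 1`.  For fixed `v'` the number of `π` is at
most `C x · 20 U^11/(e^B v')` (`cnt_prime_cheb`, `π v' ≤ x ⇒ (π-1) v' ≤ x`).  Sum over `v'` with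
`recBd_pattern` and over the patterns as in `violation_rec`. -/
theorem violation_count : ∃ U₀ : ℝ, ∀ U : ℝ, U₀ ≤ U → ∀ K : ℕ, (K : ℝ) ^ 4 ≤ U →
    ∀ B : ℝ, U ^ 10 ≤ B → B ≤ U ^ 11 - 1 →
    CntBd {v : ℕ | Real.exp (Real.exp B / 2) ≤ v ∧ (v : ℝ) ≤ EE B ∧ (Om v : ℝ) ≤ 10 * U ^ 11 ∧
        ∃ n, 0 < n ∧ Nat.totient n = v ∧ AllNormal (U ^ 7) n ∧
          B + U ^ 9 < ∑ i ∈ Icc 1 K, aCoef i * ht n i}
      (EE B / Real.exp B) := by
  obtain ⟨U₀, hU₀, h⟩ := recBd_patSet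
  obtain ⟨C, hC, hcheb⟩ := cnt_prime_cheb
  refine ⟨max U₀ (20 * C), fun U hU K hK B hB1 hB2 => ?_⟩
  have hU' : U₀ ≤ U := (le_max_left _ _).trans hU
  have hUC : 20 * C ≤ U := (le_max_right _ _).trans hU
  have hU4 : 4 ≤ U := hU₀.trans hU'
  have hU1 : 1 ≤ U := by linarith
  have hU0 : 0 < U := by linarith
  have hE : (0 : ℝ) ≤ U ^ 7 := by positivity
  obtain ⟨hK1, hK2⟩ := K_facts hK
  have h710 : U ^ 7 ≤ U ^ 10 := pow_le_pow_right₀ hU1 (by norm_num)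
  have h18 : 1 ≤ U ^ 8 := one_le_pow₀ hU1
  have hU8 : U ≤ U ^ 8 := le_self_pow₀ hU1 (by norm_num)
  have hB0 : 0 ≤ B := by linarith
  have hx : 0 < EE B := EE_pos B
  have heB : 0 < Real.exp B := Real.exp_pos B
  have hU11 : 0 < U ^ 11 := by positivity
  set z : ℝ := Real.exp (Real.exp B / (20 * U ^ 11)) with hz
  have hz1 : 1 < z := Real.one_lt_exp_iff.2 (by positivity)
  have hlogz : Real.log z = Real.exp B / (20 * U ^ 11) := Real.log_exp _
  set Λ : ℝ := C * EE B / Real.log z with hΛ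
  have hΛ0 : 0 ≤ Λ := by
    rw [hΛ, hlogz]; positivity
  have hval := (cntBd_values (A := PatSet U K) (D := fun w => w)
    (Q := fun w => {q : ℕ | q.Prime ∧ z ≤ q ∧ (((q - 1) * w : ℕ) : ℝ) ≤ EE B}) hΛ0
    (h U hU' K hK) (fun w hw => hcheb (EE B) z hx.le hz1 w hw.1)).1
  refine (hval.of_map (fun p => p.2 * p.1) ?_).mono_bd ?_
  · rintro v ⟨hv1, hv2, hv3, n, hn, rfl, hnorm, hviol⟩
    have hvpos : 0 < Nat.totient n := Nat.totient_pos.2 hn
    have hv0 : (0 : ℝ) < Nat.totient n := by exact_mod_cast hvpos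
    have hvgt : 1 < Nat.totient n := by
      have : (1 : ℝ) < Real.exp (Real.exp B / 2) := Real.one_lt_exp_iff.2 (by positivity)
      exact_mod_cast this.trans_le hv1
    have hπ : (gpf (Nat.totient n)).Prime := gpf_prime hvgt
    obtain ⟨w, hw⟩ := gpf_dvd (Nat.totient n)
    set π := gpf (Nat.totient n) with hπdef
    have hwpos : 0 < w := by
      rcases Nat.eq_zero_or_pos w with h0 | h0
      · rw [h0, mul_zero] at hw; omega
      · exact h0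
    set N : ℕ := ⌈B⌉₊ + 1 with hN
    have hNc : (N : ℝ) = ⌈B⌉₊ + 1 := by rw [hN]; push_cast; rfl
    have hc1 : (⌈B⌉₊ : ℝ) < B + 1 := Nat.ceil_lt_add_one hB0
    have hc2 : B ≤ (⌈B⌉₊ : ℝ) := Nat.le_ceil _
    have hN1 : ht n 0 ≤ N := by
      have h1 : ht n 0 ≤ B + 1 := by
        rw [ht_zero, hq, ell_le_iff (by linarith)]
        have hEE : EE B + 1 ≤ EE (B + 1) := by
          have e1 : Real.exp B + 1 ≤ Real.exp (B + 1) := by
            rw [Real.exp_add]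
            have := Real.add_one_le_exp (1 : ℝ)
            have := Real.one_le_exp hB0
            nlinarith
          have e2 : Real.exp (Real.exp B + 1) ≤ EE (B + 1) := Real.exp_le_exp.2 e1
          have e3 : 1 ≤ EE B := Real.one_le_exp heB.le
          have e4 := Real.add_one_le_exp (1 : ℝ)
          rw [Real.exp_add] at e2
          have e5 : Real.exp (Real.exp B) = EE B := rfl
          rw [e5] at e2
          nlinarith
        have hn1 : 1 < n := by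
          by_contra hcon
          have : n = 1 := by omega
          rw [this] at hvgt
          simp at hvgt
        have hq1 : (gpf n).Prime := gpf_prime hn1
        have hq2 : Nat.totient (gpf n) ≤ Nat.totient n :=
          Nat.le_of_dvd hvpos (Nat.totient_dvd_of_dvd (gpf_dvd n))
        rw [Nat.totient_prime hq1] at hq2
        have hq3 : gpf n ≤ Nat.totient n + 1 := by omega
        have hq4 : (gpf n : ℝ) ≤ Nat.totient n + 1 := by exact_mod_cast hq3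
        linarith
      linarith
    have hN2 : ⌊U ^ 7⌋₊ ≤ N := by
      have : (⌊U ^ 7⌋₊ : ℝ) ≤ N := by
        have := Nat.floor_le hE
        linarith
      exact_mod_cast this
    obtain ⟨hok, hphi⟩ := patOf_facts hU4 hK hn hnorm hN1 hN2 (by linarith)
    have h0 : patOf U N n 0 = N := by simp [patOf]
    refine ⟨(w, π), ⟨⟨hwpos, patOf U N n, by rw [h0]; linarith, hok, ?_, ?_⟩, hπ, ?_, ?_⟩,
      hw.symm, le_rfl⟩
    · rw [h0]
      exact ((hq_le_of_dvd hvpos (Dvd.intro_left π hw.symm)).trans (hq_totient_le hn)).trans hN1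
    · have h1 := patPhi_prime_mul_le (K := K) (e := ⌊U ^ 7⌋₊) (patOf U N n) hπ hwpos
      rw [← hw] at h1
      linarith
    · have h1 : Nat.totient n ≤ π ^ Om (Nat.totient n) := le_gpf_pow_Om hvpos
      have h2 : (Nat.totient n : ℝ) ≤ (π : ℝ) ^ Om (Nat.totient n) := by exact_mod_cast h1
      have hπ0 : (0 : ℝ) < π := by exact_mod_cast hπ.pos
      have hπ1 : (1 : ℝ) ≤ π := by exact_mod_cast hπ.one_lt.le
      have h3 : Real.exp B / 2 ≤ Om (Nat.totient n) * Real.log π := by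
        have := Real.log_le_log (Real.exp_pos _) (hv1.trans h2)
        rwa [Real.log_exp, Real.log_pow] at this
      have h4 : (Om (Nat.totient n) : ℝ) * Real.log π ≤ 10 * U ^ 11 * Real.log π :=
        mul_le_mul_of_nonneg_right hv3 (Real.log_nonneg hπ1)
      have h5 : Real.exp B / (20 * U ^ 11) ≤ Real.log π := by
        rw [div_le_iff₀ (by positivity)]
        linarith
      show z ≤ (π : ℝ)
      rw [hz]
      exact (Real.le_log_iff_exp_le hπ0).1 h5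
    · show (((π - 1) * w : ℕ) : ℝ) ≤ EE B
      have h1 : (π - 1) * w ≤ Nat.totient n := by
        rw [hw]
        exact Nat.mul_le_mul_right _ (Nat.sub_le _ _)
      have h2 : (((π - 1) * w : ℕ) : ℝ) ≤ Nat.totient n := by exact_mod_cast h1
      exact h2.trans hv2
  · have h1 : Λ = EE B / Real.exp B * (20 * C * U ^ 11) := by
      rw [hΛ, hlogz]
      field_simp
    have h2 : 20 * C * U ^ 11 ≤ Real.exp (U ^ 8) := by
      have e1 : U ≤ Real.exp U := by linarith [Real.add_one_le_exp U]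
      have e2 : U ^ 2 ≤ U ^ 7 := pow_le_pow_right₀ hU1 (by norm_num)
      have e3 : 12 * U ≤ U ^ 8 := by
        have : U ^ 8 = U * U ^ 7 := by ring
        nlinarith
      calc 20 * C * U ^ 11 ≤ U * U ^ 11 := mul_le_mul_of_nonneg_right hUC hU11.le
        _ = U ^ 12 := by ring
        _ ≤ (Real.exp U) ^ 12 := pow_le_pow_left₀ hU0.le e1 12
        _ = Real.exp (12 * U) := by rw [← Real.exp_nat_mul]; norm_num
        _ ≤ Real.exp (U ^ 8) := Real.exp_le_exp.2 e3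
    have h3 : 20 * C * U ^ 11 * Real.exp (-U ^ 8) ≤ 1 := by
      calc 20 * C * U ^ 11 * Real.exp (-U ^ 8) ≤ Real.exp (U ^ 8) * Real.exp (-U ^ 8) :=
            mul_le_mul_of_nonneg_right h2 (Real.exp_pos _).le
        _ = 1 := by rw [← Real.exp_add]; simp
    rw [h1, mul_assoc]
    exact mul_le_of_le_one_right (by positivity) h3

end Crest.Agent.R20
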