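import Crest.Agent.R20.NonNormal
import Crest.Agent.R20.Violation

/-!
# R20: total and bad reciprocal weights of totient values of bounded height
-/

set_option autoImplicit false

open Finset Filter Topology
open Crest.NumberTheoryR.TotientScale

noncomputable section

namespace Crest.Agent.R20

/-- If `s` has a non-normal prime `p`, write `s = p^e s'` with `p ∤ s'`; `φ(s) = φ(p^e) φ(s')`,
`hq s' ≤ hq s` (`SumBd.prod`, `SumBd.of_map`). -/
theorem recBd_nonnormal {E Y ν W : ℝ}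
    (hν : SumBd {Q : ℕ | IsPP Q ∧ hq Q ≤ Y ∧ ¬ Normal E (gpf Q)} wq ν)
    (hW : RecBd (phiSet fun s => ht s 0 ≤ Y) W) :
    RecBd (phiSet fun s => ht s 0 ≤ Y ∧ ¬ AllNormal E s) (ν * W) := by
  refine (SumBd.prod hν hW fun Q _ => wq_nonneg Q).of_map
    (fun o => Nat.totient o.1 * o.2) ?_
  rintro w ⟨s, hs, ⟨hY, hn⟩, rfl⟩
  rw [AllNormal] at hn
  push Not at hn
  obtain ⟨p, hp, hps, hpn⟩ := hn
  have he : 0 < s.factorization p := hp.factorization_pos_of_dvd hs.ne' hps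
  have hmul : p ^ s.factorization p * (s / p ^ s.factorization p) = s :=
    Nat.ordProj_mul_ordCompl_eq_self s p
  have hcop : Nat.Coprime (p ^ s.factorization p) (s / p ^ s.factorization p) :=
    Nat.Coprime.pow_left _ (Nat.coprime_ordCompl hp hs.ne')
  have htot : Nat.totient (p ^ s.factorization p) * Nat.totient (s / p ^ s.factorization p) =
      Nat.totient s := by rw [← Nat.totient_mul hcop, hmul]
  refine ⟨(p ^ s.factorization p, Nat.totient (s / p ^ s.factorization p)),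
    ⟨⟨Or.inr (hp.isPrimePow.pow he.ne'), ?_, ?_⟩, s / p ^ s.factorization p,
      Nat.ordCompl_pos p hs.ne', ?_, rfl⟩, htot, le_of_eq ?_⟩
  · exact (hq_le_of_dvd hs (Nat.ordProj_dvd s p)).trans hY
  · rwa [gpf_prime_pow hp he]
  · exact (hq_le_of_dvd hs (Nat.ordCompl_dvd s p)).trans hY
  · rw [← htot, wq]
    push_cast
    rw [one_div_mul_one_div]

theorem WBound.triv : ∃ C : ℝ, 1 ≤ C ∧ ∀ Y : ℝ, 0 ≤ Y →
    RecBd (phiSet fun s => ht s 0 ≤ Y) (C * Real.exp Y) := by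
  obtain ⟨C, hC, h⟩ := recBd_smooth
  refine ⟨C, hC, fun Y hY => (h Y hY).mono_set ?_⟩
  rintro w ⟨s, hs, h0, rfl⟩
  exact ⟨Nat.totient_pos.2 hs, (hq_totient_le hs).trans h0⟩

theorem WBound.split {U W' : ℝ} (hU : 1 ≤ U) (hW' : RecBd (phiSet fun s => ht s 0 ≤ U ^ 11 / 2) W') :
    RecBd (phiSet fun s => ht s 0 ≤ U ^ 11 ∧ -U ^ 9 ≤ slack 5 s) ((U ^ 11 + eta) ^ 5 * W') := by
  have h1 := SumBd.pi (Icc 1 5) (1 : ℕ) (A := fun _ => {Q : ℕ | IsPP Q ∧ hq Q ≤ U ^ 11})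
    (f := fun _ => wq) (b := fun _ => U ^ 11 + eta)
    (fun _ _ => sumBd_wq_le (by positivity)) (fun _ _ Q _ => wq_nonneg Q)
  rw [Finset.prod_const, Nat.card_Icc] at h1
  refine recBd_of_obj (d := 5) h1 hW' ?_
  rintro s hs ⟨h0, hsl⟩
  refine ⟨⟨fun l hl => ⟨(tup_Tup 5 s).2 l hl, ?_⟩, (tup_Tup 5 s).1⟩, tail s 5, tail_pos hs 5, ?_, rfl⟩
  · rw [hq_tup s hl]
    exact (ht_anti s (Nat.zero_le _)).trans h0
  · beta_reduce
    rw [ht_tail, add_zero]
    have a1 : ∑ i ∈ Icc 1 5, aCoef i * ht s 5 ≤ ∑ i ∈ Icc 1 5, aCoef i * ht s i :=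
      Finset.sum_le_sum fun i hi => mul_le_mul_of_nonneg_left
        (ht_anti s (Finset.mem_Icc.1 hi).2) (aCoef_pos (Finset.mem_Icc.1 hi).1).le
    rw [← Finset.sum_mul] at a1
    have a2 := mul_le_mul_of_nonneg_right four_le_sum_aCoef (ht_nonneg s 5)
    have a3 : U ^ 9 ≤ U ^ 11 := pow_le_pow_right₀ hU (by norm_num)
    rw [slack] at hsl
    linarith

theorem WBound.step : ∃ U₁ : ℝ, 1 ≤ U₁ ∧ ∀ U : ℝ, U₁ ≤ U → ∀ W' : ℝ,
    RecBd (phiSet fun s => ht s 0 ≤ U ^ 11 / 2) W' →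
    RecBd (phiSet fun s => ht s 0 ≤ U ^ 11) (2 + 2 * ((U ^ 11 + eta) ^ 5 * W')) := by
  obtain ⟨U₁, h₁⟩ := nonnormal_rec
  obtain ⟨U₃, h₃⟩ := violation_rec
  obtain ⟨C₀, -, hsm⟩ := WBound.triv
  refine ⟨max (max U₁ U₃) 625, le_max_of_le_right (by norm_num), fun U hU W' hW' => ?_⟩
  have hU₁ : U₁ ≤ U := ((le_max_left _ _).trans (le_max_left _ _)).trans hU
  have hU₃ : U₃ ≤ U := ((le_max_right _ _).trans (le_max_left _ _)).trans hU
  have hU₄ : 625 ≤ U := (le_max_right _ _).trans hU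
  obtain ⟨W, hW, hmin⟩ := (hsm (U ^ 11) (by positivity)).exists_least
  have a := ((recBd_nonnormal (h₁ U hU₁) hW).union (h₃ U hU₃ 5 (by norm_num; linarith))).union
    (WBound.split (by linarith) hW')
  have b := hmin _ (a.mono_set (by
    rintro w ⟨s, hs, h0, rfl⟩
    by_cases c1 : AllNormal (U ^ 7) s
    · rcases lt_or_ge (slack 5 s) (-U ^ 9) with c2 | c2
      · exact Or.inl (Or.inr ⟨s, hs, ⟨h0, c1, c2⟩, rfl⟩)
      · exact Or.inr ⟨s, hs, ⟨h0, c2⟩, rfl⟩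
    · exact Or.inl (Or.inl ⟨s, hs, ⟨h0, c1⟩, rfl⟩)))
  refine hW.mono_bd ?_
  have c1 : Real.exp (-U ^ 2) ≤ 1 / 2 := by
    rw [Real.exp_neg, ← one_div]
    refine one_div_le_one_div_of_le (by norm_num) ?_
    have := Real.add_one_le_exp (U ^ 2)
    nlinarith
  have c2 := mul_le_mul_of_nonneg_right c1 hW.nonneg
  linarith

/-- Let `W(Y)` be the least bound (`SumBd.exists_least`; finite by `recBd_smooth` and
`hq_totient_le`).  For `Y ≥ Y₀` let `U = Y^{1/11}`, `K = 5`.  An `s` with `ht s 0 ≤ Y` is non-normal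
(weight `≤ W(Y)/2` by `recBd_nonnormal`, `nonnormal_rec`), or violating (weight `≤ 1`), or
`4 ht s 5 ≤ ∑_{i ≤ 5} a_i ht s i ≤ Y + U^9 ≤ 2Y`, in which case `recBd_of_obj` with `d = 5`
(`SumBd.pi`, `sumBd_wq_le`) gives weight `≤ (Y + eta)^5 W(Y/2)`.  So
`W(Y) ≤ 2 + 2 (Y + eta)^5 W(Y/2)`; conclude by induction on `n` with `Y ≤ 2^n`, using
`(log Y)² - (log (Y/2))² ≥ log 2 · log Y` for `Y ≥ 2`… and the trivial bound for `Y ≤ Y₀`. -/
theorem W_bound : ∃ C : ℝ, 0 < C ∧ ∀ Y : ℝ, 2 ≤ Y →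
    RecBd (phiSet fun s => ht s 0 ≤ Y) (Real.exp (C * Real.log Y ^ 2)) := by
  obtain ⟨U₁, hU₁, hstep⟩ := WBound.step
  obtain ⟨C₀, hC₀, hsm⟩ := WBound.triv
  have hl2 : (0.69 : ℝ) < Real.log 2 := by have := Real.log_two_gt_d9; linarith
  have heta := one_le_eta
  set Y₁ : ℝ := max (max (U₁ ^ 11) 4) eta with hY₁
  have hY₁a : U₁ ^ 11 ≤ Y₁ := (le_max_left _ _).trans (le_max_left _ _)
  have hY₁b : 4 ≤ Y₁ := (le_max_right _ _).trans (le_max_left _ _)
  have hY₁c : eta ≤ Y₁ := le_max_right _ _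
  set C : ℝ := 14 + 4 * (C₀ + Y₁) with hC
  have hC14 : 14 ≤ C := by linarith
  refine ⟨C, by linarith, ?_⟩
  have key : ∀ n : ℕ, ∀ Y : ℝ, 2 ≤ Y → Y ≤ 2 ^ n →
      RecBd (phiSet fun s => ht s 0 ≤ Y) (Real.exp (C * Real.log Y ^ 2)) := by
    intro n
    induction n with
    | zero => intro Y h1 h2; norm_num at h2; linarith
    | succ n ih =>
      intro Y h1 h2
      have hlog : Real.log 2 ≤ Real.log Y := Real.log_le_log (by norm_num) h1
      rcases le_or_gt Y Y₁ with hY | hY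
      · refine (hsm Y (by linarith)).mono_bd ?_
        have a1 : C₀ ≤ Real.exp C₀ := by linarith [Real.add_one_le_exp C₀]
        have a2 : (1 / 4 : ℝ) ≤ Real.log Y ^ 2 := by nlinarith
        calc C₀ * Real.exp Y ≤ Real.exp C₀ * Real.exp Y₁ :=
              mul_le_mul a1 (Real.exp_le_exp.2 hY) (Real.exp_pos _).le (Real.exp_pos _).le
          _ = Real.exp (C₀ + Y₁) := (Real.exp_add _ _).symm
          _ ≤ _ := by
              refine Real.exp_le_exp.2 ?_
              have : C * (1 / 4) ≤ C * Real.log Y ^ 2 :=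
                mul_le_mul_of_nonneg_left a2 (by linarith)
              linarith
      · have hY0 : 0 < Y := by linarith
        have hU : (Y ^ (1 / 11 : ℝ)) ^ 11 = Y := by
          rw [← Real.rpow_natCast, ← Real.rpow_mul hY0.le]; norm_num
        have hUU : U₁ ≤ Y ^ (1 / 11 : ℝ) := by
          refine le_of_pow_le_pow_left₀ (n := 11) (by norm_num) (by positivity) ?_
          rw [hU]; linarith
        have ih' := ih (Y / 2) (by linarith) (by rw [pow_succ] at h2; linarith)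
        have h3 := hstep _ hUU (Real.exp (C * Real.log (Y / 2) ^ 2)) (by rwa [hU])
        rw [hU] at h3
        refine h3.mono_bd ?_
        have b1 : 1 ≤ Real.exp (C * Real.log (Y / 2) ^ 2) :=
          Real.one_le_exp (by positivity)
        have b2 : (Y + eta) ^ 5 ≤ (2 * Y) ^ 5 :=
          pow_le_pow_left₀ (by linarith) (by linarith) 5
        have b3 : (4 : ℝ) ^ 4 ≤ Y ^ 4 := pow_le_pow_left₀ (by norm_num) (by linarith) 4
        have b4 : (1 : ℝ) ≤ Y ^ 5 := one_le_pow₀ (by linarith)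
        have b5 : 2 + 2 * (Y + eta) ^ 5 ≤ Y ^ 9 := by
          have : Y ^ 9 = Y ^ 4 * Y ^ 5 := by ring
          nlinarith
        have b6 : Y ^ 9 = Real.exp (9 * Real.log Y) := by
          rw [show (9 : ℝ) * Real.log Y = Real.log (Y ^ 9) by rw [Real.log_pow]; norm_num,
            Real.exp_log (by positivity)]
        have b7 : 9 * Real.log Y + C * Real.log (Y / 2) ^ 2 ≤ C * Real.log Y ^ 2 := by
          rw [Real.log_div hY0.ne' (by norm_num)]
          have c1 : 9 ≤ C * Real.log 2 := by nlinarith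
          have c2 : 0 ≤ Real.log Y := by linarith
          have c3 : 9 * Real.log Y ≤ C * Real.log 2 * Real.log Y :=
            mul_le_mul_of_nonneg_right c1 c2
          have c4 : C * Real.log 2 * Real.log 2 ≤ C * Real.log 2 * Real.log Y :=
            mul_le_mul_of_nonneg_left hlog (by linarith)
          nlinarith
        calc 2 + 2 * ((Y + eta) ^ 5 * Real.exp (C * Real.log (Y / 2) ^ 2))
            ≤ (2 + 2 * (Y + eta) ^ 5) * Real.exp (C * Real.log (Y / 2) ^ 2) := by nlinarith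
          _ ≤ Y ^ 9 * Real.exp (C * Real.log (Y / 2) ^ 2) :=
              mul_le_mul_of_nonneg_right b5 (Real.exp_pos _).le
          _ = Real.exp (9 * Real.log Y + C * Real.log (Y / 2) ^ 2) := by
              rw [b6, ← Real.exp_add]
          _ ≤ _ := Real.exp_le_exp.2 b7
  intro Y hY
  obtain ⟨n, hn⟩ := pow_unbounded_of_one_lt Y (show (1 : ℝ) < 2 by norm_num)
  exact key n Y hY hn.le

/-- `p² ∣ s` gives `p (p-1) ∣ φ(s)`; `φ(s) = p(p-1) w'` with `hq w' ≤ U^11`; use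
`sumBd_inv_mul_pred` with `Z = EE (U^7)` and `recBd_smooth`: `(2/Z) C exp (U^11) ≤ exp (-U²)`. -/
theorem square_rec : ∃ U₀ : ℝ, ∀ U : ℝ, U₀ ≤ U →
    RecBd (phiSet fun s => ht s 0 ≤ U ^ 11 ∧ ¬ NoSq (U ^ 7) s) (Real.exp (-U ^ 2)) := by
  obtain ⟨C, hC, hsm⟩ := recBd_smooth
  refine ⟨max 2 C, fun U hU => ?_⟩
  have hU2 : 2 ≤ U := (le_max_left _ _).trans hU
  have hUC : C ≤ U := (le_max_right _ _).trans hU
  have hZ : 1 ≤ EE (U ^ 7) := Real.one_le_exp (Real.exp_pos _).le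
  have h1 := SumBd.prod (sumBd_inv_mul_pred hZ) (hsm (U ^ 11) (by positivity)) (fun n hn => by
    have : (1 : ℝ) < n := hZ.trans_lt hn
    have h2 : (0 : ℝ) < (n : ℝ) - 1 := by linarith
    positivity)
  refine (h1.of_map (fun o => o.1 * (o.1 - 1) * o.2) ?_).mono_bd ?_
  · rintro w ⟨s, hs, ⟨hY, hn⟩, rfl⟩
    rw [NoSq] at hn
    push Not at hn
    obtain ⟨p, hp, hps, hpn⟩ := hn
    have hd : p * (p - 1) ∣ Nat.totient s := by
      have := Nat.totient_dvd_of_dvd hps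
      rwa [Nat.totient_prime_pow hp (by norm_num), show 2 - 1 = 1 from rfl, pow_one] at this
    obtain ⟨w', hw'⟩ := hd
    have hφ : 0 < Nat.totient s := Nat.totient_pos.2 hs
    have hw0 : 0 < w' := Nat.pos_of_mul_pos_left (a := p * (p - 1)) (hw' ▸ hφ)
    refine ⟨(p, w'), ⟨(lt_ell_iff (by positivity)).1 hpn, hw0, ?_⟩, hw'.symm, le_of_eq ?_⟩
    · exact ((hq_le_of_dvd hφ (Dvd.intro_left _ hw'.symm)).trans (hq_totient_le hs)).trans hY
    · rw [hw']
      push_cast [Nat.cast_sub hp.one_le]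
      rw [one_div_mul_one_div]
  · have a1 : (U ^ 7) ^ 2 / 2 ≤ Real.exp (U ^ 7) := by
      have := Real.pow_div_factorial_le_exp (U ^ 7) (by positivity) 2
      simpa using this
    have a2 : (2 : ℝ) ^ 3 ≤ U ^ 3 := pow_le_pow_left₀ (by norm_num) hU2 3
    have a3 : U ≤ U ^ 11 := le_self_pow₀ (by linarith) (by norm_num)
    have a4 : U ^ 2 ≤ U ^ 11 := pow_le_pow_right₀ (by linarith) (by norm_num)
    have a5 : 2 * C + U ^ 11 + U ^ 2 ≤ Real.exp (U ^ 7) := by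
      have : (U ^ 7) ^ 2 = U ^ 3 * U ^ 11 := by ring
      have a6 : (0 : ℝ) ≤ U ^ 11 := by positivity
      nlinarith
    have a7 : 2 * C ≤ Real.exp (2 * C) := by linarith [Real.add_one_le_exp (2 * C)]
    rw [div_mul_eq_mul_div, div_le_iff₀ (EE_pos _), EE, ← Real.exp_add, ← mul_assoc]
    calc 2 * C * Real.exp (U ^ 11) ≤ Real.exp (2 * C) * Real.exp (U ^ 11) :=
          mul_le_mul_of_nonneg_right a7 (Real.exp_pos _).le
      _ = Real.exp (2 * C + U ^ 11) := (Real.exp_add _ _).symm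
      _ ≤ _ := Real.exp_le_exp.2 (by linarith)

/-- Union of the three ways of failing `Good`; `exp (-U²) exp (C (11 log U)²) + 2 exp (-U²) ≤ exp (-U)`. -/
theorem beta_bound : ∃ U₀ : ℝ, ∀ U : ℝ, U₀ ≤ U → ∀ K : ℕ, (K : ℝ) ^ 4 ≤ U →
    RecBd (phiSet fun s => ht s 0 ≤ U ^ 11 ∧ ¬ Good U K s) (Real.exp (-U)) := by
  obtain ⟨C, hC, hW⟩ := W_bound
  obtain ⟨U₁, h₁⟩ := nonnormal_rec
  obtain ⟨U₂, h₂⟩ := square_rec
  obtain ⟨U₃, h₃⟩ := violation_rec
  refine ⟨max (max U₁ U₂) (max U₃ (484 * C + 3)), fun U hU K hK => ?_⟩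
  have hU₁ : U₁ ≤ U := ((le_max_left _ _).trans (le_max_left _ _)).trans hU
  have hU₂ : U₂ ≤ U := ((le_max_right _ _).trans (le_max_left _ _)).trans hU
  have hU₃ : U₃ ≤ U := ((le_max_left _ _).trans (le_max_right _ _)).trans hU
  have hU₄ : 484 * C + 3 ≤ U := ((le_max_right _ _).trans (le_max_right _ _)).trans hU
  have hU3 : 3 ≤ U := by linarith
  have hY : 2 ≤ U ^ 11 := by
    have : U ≤ U ^ 11 := le_self_pow₀ (by linarith) (by norm_num)
    linarith
  have a1 := recBd_nonnormal (h₁ U hU₁) (hW _ hY)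
  have a := (a1.union (h₂ U hU₂)).union (h₃ U hU₃ K hK)
  refine (a.mono_set ?_).mono_bd ?_
  · rintro w ⟨s, hs, ⟨h0, hn⟩, rfl⟩
    by_cases c1 : AllNormal (U ^ 7) s
    · by_cases c2 : NoSq (U ^ 7) s
      · refine Or.inr ⟨s, hs, ⟨h0, c1, ?_⟩, rfl⟩
        by_contra c3
        exact hn ⟨h0, c1, c2, not_lt.1 c3⟩
      · exact Or.inl (Or.inr ⟨s, hs, ⟨h0, c2⟩, rfl⟩)
    · exact Or.inl (Or.inl ⟨s, hs, ⟨h0, c1⟩, rfl⟩)
  · have b0 : 0 ≤ Real.log U := Real.log_nonneg (by linarith)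
    have b1 : Real.log U ≤ 2 * Real.sqrt U := by
      have h5 : 0 < Real.sqrt U := Real.sqrt_pos.2 (by linarith)
      have h6 := Real.log_le_sub_one_of_pos h5
      rw [Real.log_sqrt (by linarith)] at h6
      linarith
    have b2 : Real.log U ^ 2 ≤ 4 * U := by
      have h7 := pow_le_pow_left₀ b0 b1 2
      rw [mul_pow, Real.sq_sqrt (by linarith)] at h7
      linarith
    have b3 : C * Real.log (U ^ 11) ^ 2 ≤ 484 * C * U := by
      rw [Real.log_pow]
      push_cast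
      nlinarith
    have b4 : 1 ≤ Real.exp (484 * C * U) := Real.one_le_exp (by positivity)
    have b5 : (3 : ℝ) ≤ Real.exp 2 := by linarith [Real.add_one_le_exp (2 : ℝ)]
    have b6 := Real.exp_pos (-U ^ 2)
    have b7 := Real.exp_le_exp.2 b3
    calc Real.exp (-U ^ 2) * Real.exp (C * Real.log (U ^ 11) ^ 2) + Real.exp (-U ^ 2) +
          Real.exp (-U ^ 2) ≤ 3 * (Real.exp (-U ^ 2) * Real.exp (484 * C * U)) := by nlinarith
      _ ≤ Real.exp 2 * (Real.exp (-U ^ 2) * Real.exp (484 * C * U)) :=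
          mul_le_mul_of_nonneg_right b5 (by positivity)
      _ = Real.exp (2 + (-U ^ 2 + 484 * C * U)) := by rw [Real.exp_add, Real.exp_add]
      _ ≤ _ := Real.exp_le_exp.2 (by nlinarith)

end Crest.Agent.R20
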