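import Crest.Agent.R20.SimpleSum
import Crest.Agent.R20.Events2
import Crest.Agent.R20.WBound

/-!
# R20: the weight of the nice objects is asymptotically `A_{k,K}(t) G_m`
-/

set_option autoImplicit false

open Finset Filter Topology
open Crest.NumberTheoryR.TotientScale

noncomputable section

namespace Crest.Agent.R20

variable (X : Ctx)

theorem thmC_sum_tail (n k : ℕ) {J Y : ℝ} (hY : 0 ≤ Y) (hJ : ((n + k : ℕ) : ℝ) ≤ J) (y : ℕ → ℝ)
    (hy : ∀ i, n < i → y i ≤ Y) :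
    ∑ i ∈ Icc 1 (n + k), aCoef i * y i ≤ ∑ i ∈ Icc 1 n, aCoef i * y i + k * J * Y := by
  induction k with
  | zero => simp
  | succ k ih =>
    have h1 : ((n + k : ℕ) : ℝ) ≤ J := le_trans (by exact_mod_cast Nat.le_succ _) hJ
    rw [← add_assoc, sum_Icc_succ_top (by omega)]
    have h2 : aCoef (n + k + 1) * y (n + k + 1) ≤ J * Y :=
      (mul_le_mul_of_nonneg_left (hy _ (by omega)) (aCoef_pos (by omega)).le).trans
        (mul_le_mul_of_nonneg_right ((aCoef_le_self (by omega)).trans hJ) hY)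
    have := ih h1
    push_cast
    linarith

theorem thmC_num {θ : ℝ} (hθ : 1 < θ) {k J : ℕ} (hk : 2 * k ≤ J) (hJ : (J : ℝ) ^ 4 ≤ θ ^ J) :
    (k : ℝ) * J * (θ ^ k) ^ 11 ≤ (θ ^ J) ^ 9 := by
  have h1 : (k : ℝ) * J ≤ θ ^ J := by
    refine le_trans ?_ hJ
    have : k * J ≤ J ^ 4 := by
      rcases Nat.eq_zero_or_pos J with rfl | hpos
      · simp
      · calc k * J ≤ J * J := Nat.mul_le_mul_right _ (by omega)
          _ = J ^ 2 := (sq J).symm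
          _ ≤ J ^ 4 := Nat.pow_le_pow_right hpos (by norm_num)
    exact_mod_cast this
  have h0 : 0 < θ := zero_lt_one.trans hθ
  calc (k : ℝ) * J * (θ ^ k) ^ 11 ≤ θ ^ J * (θ ^ k) ^ 11 :=
        mul_le_mul_of_nonneg_right h1 (by positivity)
    _ = θ ^ (J + k * 11) := by rw [← pow_mul, ← pow_add]
    _ ≤ θ ^ (J * 9) := pow_le_pow_right₀ hθ.le (by omega)
    _ = _ := pow_mul _ _ _

theorem thmC_geom {r : ℝ} (h0 : 0 ≤ r) (h1 : r < 1) (d M : ℕ) :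
    ∑ l ∈ Icc 1 M, r ^ (M + d - l) ≤ r ^ d / (1 - r) := by
  have hr : 0 < 1 - r := sub_pos.2 h1
  induction M with
  | zero => simp only [zero_lt_one, Icc_eq_empty_of_lt, sum_empty]; positivity
  | succ M ih =>
    rw [sum_Icc_succ_top (by omega)]
    have e : ∑ l ∈ Icc 1 M, r ^ (M + 1 + d - l) = r * ∑ l ∈ Icc 1 M, r ^ (M + d - l) := by
      rw [mul_sum]
      refine sum_congr rfl fun l hl => ?_
      have := (mem_Icc.1 hl).2
      rw [← pow_succ']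
      congr 1
      omega
    have e2 : M + 1 + d - (M + 1) = d := by omega
    rw [e, e2]
    have h2 := mul_le_mul_of_nonneg_left ih h0
    have e3 : r * (r ^ d / (1 - r)) + r ^ d = r ^ d / (1 - r) := by field_simp; ring
    linarith

theorem thmC_W (Y : ℝ) : ∃ W : ℝ, 0 < W ∧ RecBd (phiSet fun r => ht r 0 ≤ Y) W := by
  obtain ⟨C, -, hC⟩ := W_bound
  refine ⟨_, Real.exp_pos _, (hC (max 2 Y) (le_max_left _ _)).mono_set ?_⟩
  rintro w ⟨s, hs, h1, h2⟩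
  exact ⟨s, hs, h1.trans (le_max_right _ _), h2⟩

theorem thmC_GG : ∃ C : ℝ, 0 < C ∧ ∀ m : ℕ, 1 ≤ m → ∀ t ∈ Set.Icc X.t₁ X.t₂, ∀ D ≤ m,
    GG (X.B m t) D ≤ C * GG (X.B m t) m := by
  obtain ⟨C, hC, h⟩ := X.GG_le
  refine ⟨C, hC, fun m hm t ht D hD => (h m hm t ht D hD).trans ?_⟩
  refine mul_le_mul_of_nonneg_right ?_ (GG_pos (X.B_pos hm ht) m).le
  exact mul_le_of_le_one_right hC.le (pow_le_one₀ (by norm_num) (by norm_num))

/-- A simple object (`κ = 2`) with no disorder at the pairs `(l, l+1)`, `1 ≤ l ≤ M`, and no bad event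
(`K' = K + 1`) is nice.  Use `low_build` with `s = (∏ τ) s₀` (`hq (o.1 (l+1)) < hq (o.1 l)` gives
`τ (l+1) < τ l`, and `gpf s₀ < τ M`, by `lt_of_ell_lt`).  The full slack at level `l ≤ M` (index
`J = m - l > K`; for `l = 0` the top slack) is the partial slack of depth `m - k`
(`≥ 2δ_J` by `psl_merge_top`) minus `∑_{m-k < l' ≤ m} a_{l'-l} ht s (l'-1) ≤ k J Y_k ≤ δ_J`, the last
inequality holding when `K ≥ 2k` and `J^4 ≤ θ^J` (`k J ≤ J² ≤ θ^J`, `11 k + J ≤ 9 J`). -/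
theorem nice_of_simple : ∃ J₀ : ℕ, ∀ k K m : ℕ, 1 ≤ k → 2 * k ≤ K → J₀ ≤ K → K + 2 ≤ m → ∀ B : ℝ,
    ∀ o ∈ Simple X.θ B m k K 2,
    (∀ l, 1 ≤ l → l ≤ m - K - 1 → hq (o.1 (l + 1)) < hq (o.1 l)) →
    (∀ l ∈ Icc 1 (m - k), K + 1 ≤ m - l → hq (o.1 l) ≤ (X.θ ^ (m - l)) ^ 11 ∧
      Normal ((X.θ ^ (m - l)) ^ 7) (gpf (o.1 l))) →
    hq (o.1 1) ≤ 9 / 10 * B → o ∈ NiceT X.θ B m k := by
  obtain ⟨J₀, hJ₀⟩ := X.eventually_pow 0
  refine ⟨J₀, fun k K m hk hkK hJK hm B o ho hord hgood htop => ?_⟩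
  obtain ⟨M, rfl⟩ : ∃ M, m = M + K + 1 := ⟨m - K - 1, by omega⟩
  obtain ⟨d, hd⟩ : ∃ d, d = K + 1 - k := ⟨_, rfl⟩
  have eM : M + K + 1 - K - 1 = M := by omega
  have eD : M + K + 1 - k = M + d := by omega
  obtain ⟨o1, o2⟩ := o
  obtain ⟨τ, σ, ⟨s₀, hlow, hobj⟩, hadm, hp, ho1⟩ := ho
  simp only [eM, eD, ← hd] at hobj hadm hp ho1 hord hgood htop
  obtain ⟨hσ, ho2⟩ := Prod.mk.inj hobj
  subst ho1 hσ ho2
  have hM : 1 ≤ M := by omega
  have hd1 : 1 ≤ d := by omega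
  have mtop : ∀ l ≤ M, merge M τ (tup d s₀) l = τ l := fun l hl => if_pos hl
  have hdec : ∀ l, 1 ≤ l → l < M → τ (l + 1) < τ l := fun l h1 h2 => by
    have := hord l h1 h2.le
    rw [mtop _ h2, mtop _ h2.le, hq_of_prime (hp _ (mem_Icc.2 ⟨by omega, h2⟩)),
      hq_of_prime (hp _ (mem_Icc.2 ⟨h1, h2.le⟩))] at this
    exact lt_of_ell_lt this
  have hlo : 1 ≤ M → gpf s₀ < τ M := fun _ => by
    have := hord M hM le_rfl
    have e : merge M τ (tup d s₀) (M + 1) = tup d s₀ 1 := by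
      simp [merge]
    rw [e, mtop _ le_rfl, hq_of_prime (hp _ (mem_Icc.2 ⟨hM, le_rfl⟩)),
      hq_tup _ (mem_Icc.2 ⟨le_rfl, hd1⟩)] at this
    exact lt_of_ell_lt this
  obtain ⟨hb1, hb2⟩ := build hlow.1 hp hdec hlo
  set s := (∏ l ∈ Icc 1 M, τ l) * s₀ with hs
  have htail : tail s M = s₀ := by rw [hb2 M le_rfl]; simp
  have htup : tup (M + d) s = merge M τ (tup d s₀) := by
    rw [tup_eq_merge, htail]
    congr 1
    funext l
    by_cases hl : l ∈ Icc 1 M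
    · rw [tup_apply _ hl, hb1 l hl]
    · rw [hadm.1.1 l hl]
      simp only [tup, hl, if_false]
  have hθ0 := X.θ_pos
  have hht : ∀ j, M + d ≤ j + 1 → ht s j ≤ (X.θ ^ k) ^ 11 := fun j hj => by
    have h1 : ht s j ≤ ht s (M + (K - k)) := ht_anti s (by omega)
    rw [← ht_tail, htail] at h1
    exact h1.trans (hlow.ht_le (Nat.div_le_self _ _) (by omega))
  have hps : ∀ l ≤ M, 2 * (X.θ ^ (M + K + 1 - l)) ^ 9 ≤ psl astd B (M + d) (tup (M + d) s) l :=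
    fun l hl => by
      rw [htup, psl_merge_top B _ _ hl]
      have := hadm.2 l hl
      linarith
  have hnum : ∀ J, K + 1 ≤ J → (k : ℝ) * J * (X.θ ^ k) ^ 11 ≤ (X.θ ^ J) ^ 9 := fun J hJ =>
    thmC_num X.θ_gt (by omega) (hJ₀ J (by omega)).2
  have hmem : ∀ l ∈ Icc 1 M, l ∈ Icc 1 (M + d) := fun l hl =>
    mem_Icc.2 ⟨(mem_Icc.1 hl).1, (mem_Icc.1 hl).2.trans (Nat.le_add_right _ _)⟩
  obtain ⟨hL, hO⟩ := low_build X.θ_gt hk (by omega) (by omega) hlow hp hdec hlo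
    (fun l hl => by
      have := (hgood l (hmem l hl) (by have := (mem_Icc.1 hl).2; omega)).1
      rwa [mtop _ (mem_Icc.1 hl).2, hq_of_prime (hp l hl)] at this)
    (fun l hl => by
      have := (hgood l (hmem l hl) (by have := (mem_Icc.1 hl).2; omega)).2
      rwa [mtop _ (mem_Icc.1 hl).2, gpf_of_prime (hp l hl)] at this)
    (fun l hl => by
      obtain ⟨hl1, hl2⟩ := mem_Icc.1 hl
      have h1 := hps l hl2
      rw [psl_tup B s (hmem l hl)] at h1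
      have h2 := hnum (M + K + 1 - l) (by omega)
      have e : M + K + 1 - l = M + d - l + k := by omega
      have h3 := thmC_sum_tail (M + d - l) k (J := ((M + K + 1 - l : ℕ) : ℝ))
        (Y := (X.θ ^ k) ^ 11) (by positivity) (by rw [e]) (fun i => ht (tail s (l - 1)) i)
        (fun i hi => by
          simp only [ht_tail]
          exact hht _ (by omega))
      rw [← e] at h3
      rw [← hs]
      simp only [slack] at h1 ⊢
      linarith)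
    hadm.1.1
  rw [← hs] at hL hO
  refine ⟨s, ⟨hL, ?_, ?_⟩, ?_⟩
  · have h1 := hps 0 (Nat.zero_le _)
    rw [psl_tup_zero, Nat.sub_zero] at h1
    have h2 := hnum (M + K + 1) (by omega)
    have e : M + K + 1 = M + d + k := by omega
    have h3 := thmC_sum_tail (M + d) k (J := ((M + K + 1 : ℕ) : ℝ))
      (Y := (X.θ ^ k) ^ 11) (by positivity) (by rw [e]) (fun i => ht s (i - 1))
      (fun i hi => hht _ (by omega))
    rw [← e] at h3
    linarith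
  · rwa [← htup, hq_tup _ (mem_Icc.2 ⟨le_rfl, by omega⟩)] at htop
  · rw [hO, ← hd]

/-- By `nice_of_simple`, `simple_adm`: the set is covered by (events for `o.1`) `×ˢ phiSet (ht ≤ Y_k)`;
`ev_ord` summed over `l ≤ M` gives `C G ∑_{n ≥ K+1-k} (1+c)^{-n}`, `ev_bad` gives `C θ^{-(K+1)} G`;
multiply by `W_bound` at `max 2 Y_k` (a constant depending on `k` only), `X.GG_le`. -/
theorem simple_not_nice (k : ℕ) (hk : 1 ≤ k) {ε : ℝ} (hε : 0 < ε) : ∃ K₁ : ℕ, ∀ K, K₁ ≤ K →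
    ∀ᶠ m : ℕ in atTop, ∀ t ∈ Set.Icc X.t₁ X.t₂,
    SumBd (Simple X.θ (X.B m t) m k K 2 \ NiceT X.θ (X.B m t) m k) (owt (m - k))
      (ε * GG (X.B m t) m) := by
  obtain ⟨J₀, hJ₀⟩ := nice_of_simple X
  obtain ⟨C₁, c, hC₁, hc, hord⟩ := ev_ord X
  obtain ⟨C₂, hC₂, J₁, hbad⟩ := ev_bad X
  obtain ⟨C₃, hC₃, hGG⟩ := thmC_GG X
  obtain ⟨W, hW, hWb⟩ := thmC_W ((X.θ ^ k) ^ 11)
  have hθ0 := X.θ_pos
  set r : ℝ := (1 + c)⁻¹ with hr
  have hr0 : 0 ≤ r := by positivity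
  have hr1 : r < 1 := inv_lt_one_of_one_lt₀ (by linarith)
  have hlim : Tendsto (fun K : ℕ => (C₁ * (r ^ (K + 1 - k) / (1 - r)) + C₂ / X.θ ^ (K + 1)) *
      C₃ * W) atTop (𝓝 ((C₁ * (0 / (1 - r)) + 0) * C₃ * W)) := by
    refine (Tendsto.add (Tendsto.const_mul _ (Tendsto.div_const ?_ _)) ?_).mul_const _ |>.mul_const _
    · exact (tendsto_pow_atTop_nhds_zero_of_lt_one hr0 hr1).comp
        ((tendsto_sub_atTop_nat k).comp (tendsto_add_atTop_nat 1))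
    · exact tendsto_const_nhds.div_atTop
        ((tendsto_pow_atTop_atTop_of_one_lt X.θ_gt).comp (tendsto_add_atTop_nat 1))
  simp only [zero_div, mul_zero, add_zero, zero_mul] at hlim
  obtain ⟨K₀, hK₀⟩ := eventually_atTop.1 (hlim.eventually (ge_mem_nhds hε))
  refine ⟨K₀ + 2 * k + J₀ + J₁, fun K hK => ?_⟩
  filter_upwards [hbad (K + 1) (by omega), eventually_ge_atTop (K + 2)] with m hb hm t ht
  have hm1 : 1 ≤ m := by omega
  have hG := GG_pos (X.B_pos hm1 ht)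
  have h1 := SumBd.biUnion (Icc 1 (m - K - 1)) fun l hl =>
    hord m hm1 t ht (m - k) (Nat.sub_le _ _) l (mem_Icc.1 hl).1
      (by have := (mem_Icc.1 hl).2; omega)
  have h2 := ((h1.union (hb t ht (m - k) (by omega) (Nat.sub_le _ _))).prod hWb
    fun τ _ => wt_nonneg _ _)
  refine (h2.mono_set fun o ho => ?_).mono_bd ?_
  · obtain ⟨ha, hb, hc⟩ := simple_adm X hk (by omega) (by omega) (by norm_num) ho.1
    refine ⟨?_, hb⟩
    by_contra hcon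
    refine ho.2 (hJ₀ k K m hk (by omega) (by omega) hm _ o ho.1 (fun l h1 h2 => ?_)
      (fun l hl hK => ⟨?_, ?_⟩) ?_)
    · by_contra hlt
      exact hcon (Or.inl (Set.mem_biUnion (mem_coe.2 (mem_Icc.2 ⟨h1, h2⟩)) ⟨ha, not_lt.1 hlt⟩))
    · by_contra hlt
      exact hcon (Or.inr ⟨ha, hc, Or.inl ⟨l, hl, hK, Or.inl (not_le.1 hlt)⟩⟩)
    · by_contra hlt
      exact hcon (Or.inr ⟨ha, hc, Or.inl ⟨l, hl, hK, Or.inr (Or.inl hlt)⟩⟩)
    · by_contra hlt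
      exact hcon (Or.inr ⟨ha, hc, Or.inr (not_le.1 hlt)⟩)
  · have e : ∑ l ∈ Icc 1 (m - K - 1), C₁ * GG (X.B m t) (m - k) / (1 + c) ^ (m - k - l) =
        C₁ * GG (X.B m t) (m - k) * ∑ l ∈ Icc 1 (m - K - 1), r ^ (m - K - 1 + (K + 1 - k) - l) := by
      rw [mul_sum]
      refine sum_congr rfl fun l _ => ?_
      have : m - K - 1 + (K + 1 - k) = m - k := by omega
      rw [this, hr, inv_pow, div_eq_mul_inv]
    have h3 := thmC_geom hr0 hr1 (K + 1 - k) (m - K - 1)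
    have h4 := hK₀ K (by omega)
    have h5 := hGG m hm1 t ht (m - k) (Nat.sub_le _ _)
    have hr2 : 0 < 1 - r := sub_pos.2 hr1
    have hG1 := hG (m - k)
    rw [e]
    calc _ ≤ (C₁ * GG (X.B m t) (m - k) * (r ^ (K + 1 - k) / (1 - r)) +
          C₂ / X.θ ^ (K + 1) * GG (X.B m t) (m - k)) * W := by gcongr
      _ = (C₁ * (r ^ (K + 1 - k) / (1 - r)) + C₂ / X.θ ^ (K + 1)) * W * GG (X.B m t) (m - k) := by
          ring
      _ ≤ (C₁ * (r ^ (K + 1 - k) / (1 - r)) + C₂ / X.θ ^ (K + 1)) * W * (C₃ * GG (X.B m t) m) := by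
          gcongr
      _ = (C₁ * (r ^ (K + 1 - k) / (1 - r)) + C₂ / X.θ ^ (K + 1)) * C₃ * W * GG (X.B m t) m := by
          ring
      _ ≤ _ := mul_le_mul_of_nonneg_right h4 (hG m).le

/-- `simple_lower` with `ε = 1/2` at some large `m`, against the upper bound `C W_k G_m` for the weight of
the simple objects (`simple_adm`, `Adm.mono`, `ev_total`, `W_bound`, `X.GG_le`). -/
theorem Afun_le (k : ℕ) (hk : 1 ≤ k) : ∃ C : ℝ, 0 < C ∧ ∃ K₁ : ℕ, ∀ K, K₁ ≤ K →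
    ∀ S₀ : Finset ((ℕ → ℕ) × ℕ), (↑S₀ : Set _) = LowT X.θ k K →
    ∀ t ∈ Set.Icc X.t₁ X.t₂, X.Afun k K S₀ t ≤ C := by
  obtain ⟨K₁, hK₁⟩ := simple_lower X (ε := 1 / 2) (by norm_num)
  obtain ⟨C₁, hC₁, htot⟩ := ev_total X
  obtain ⟨C₃, hC₃, hGG⟩ := thmC_GG X
  obtain ⟨W, hW, hWb⟩ := thmC_W ((X.θ ^ k) ^ 11)
  have hθ0 := X.θ_pos
  refine ⟨2 * (C₁ * C₃ * W), by positivity, K₁ + k, fun K hK S₀ hS₀ t ht => ?_⟩
  obtain ⟨m, h1, hm⟩ := ((hK₁ k K hk (by omega) (by omega) S₀ hS₀).and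
    (eventually_ge_atTop (K + 1))).exists
  obtain ⟨S, hS, hle⟩ := h1 t ht
  have hm1 : 1 ≤ m := by omega
  have hG := GG_pos (X.B_pos hm1 ht) m
  have h2 := (htot m hm1 t ht (m - k) (Nat.sub_le _ _)).prod hWb fun τ _ => wt_nonneg _ _
  have h3 : ∑ o ∈ S, owt (m - k) o ≤ C₁ * GG (X.B m t) (m - k) * W := by
    refine h2 S fun o ho => ?_
    obtain ⟨ha, hb, -⟩ := simple_adm X hk (by omega) hm (by norm_num) (hS ho)
    refine ⟨ha.mono fun l _ => ?_, hb⟩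
    simp only [Ctx.cneg, Left.neg_nonpos_iff]
    positivity
  have h5 := hGG m hm1 t ht (m - k) (Nat.sub_le _ _)
  have h6 : C₁ * GG (X.B m t) (m - k) * W ≤ C₁ * (C₃ * GG (X.B m t) m) * W := by gcongr
  refine le_of_mul_le_mul_right ?_ hG
  linarith

/-- Take `K` large, `S₀ = (lowT_finite …).toFinset`, `A = X.Afun k K S₀`, and `ε/(2C)` in
`simple_upper`, `simple_lower`; the finite set is the part of `S` inside `NiceT`. -/
theorem thmC (k : ℕ) (hk : 1 ≤ k) {ε : ℝ} (hε : 0 < ε) :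
    ∃ A : ℝ → ℝ, ContinuousOn A (Set.Icc X.t₁ X.t₂) ∧
    ∀ᶠ m : ℕ in atTop, ∀ t ∈ Set.Icc X.t₁ X.t₂,
      SumBd (NiceT X.θ (X.B m t) m k) (owt (m - k)) ((A t + ε) * GG (X.B m t) m) ∧
      ∃ S : Finset ((ℕ → ℕ) × ℕ), (↑S : Set _) ⊆ NiceT X.θ (X.B m t) m k ∧
        (A t - ε) * GG (X.B m t) m ≤ ∑ o ∈ S, owt (m - k) o := by
  classical
  obtain ⟨C, hC, K₁, hA⟩ := Afun_le X k hk
  have hε₁ : 0 < ε / (2 * C) := by positivity
  obtain ⟨K₂, hup⟩ := simple_upper X hε₁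
  obtain ⟨K₃, hlo⟩ := simple_lower X hε₁
  obtain ⟨K₄, hnn⟩ := simple_not_nice X k hk (half_pos hε)
  obtain ⟨K, hK⟩ : ∃ K, K = K₁ + K₂ + K₃ + K₄ + k := ⟨_, rfl⟩
  have hkK : k ≤ K := by omega
  let S₀ := (lowT_finite X.θ_gt hk hkK).toFinset
  have hS₀ : (↑S₀ : Set _) = LowT X.θ k K := Set.Finite.coe_toFinset _
  refine ⟨X.Afun k K S₀, continuousOn_Afun X k K S₀, ?_⟩
  filter_upwards [hup k K hk hkK (by omega) S₀ hS₀, hlo k K hk hkK (by omega) S₀ hS₀,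
    hnn K (by omega), eventually_ge_atTop (K + 1)] with m h1 h2 h3 hm t ht
  have hm1 : 1 ≤ m := by omega
  have hG := GG_pos (X.B_pos hm1 ht) m
  have hAe : ε / (2 * C) * X.Afun k K S₀ t ≤ ε / 2 := by
    refine (mul_le_mul_of_nonneg_left (hA K (by omega) S₀ hS₀ t ht) hε₁.le).trans (le_of_eq ?_)
    field_simp
  have hAG := mul_le_mul_of_nonneg_right hAe hG.le
  have hεG := mul_pos hε hG
  refine ⟨((h1 t ht).mono_set (niceT_subset_simple X hk hkK hm _)).mono_bd (by linarith), ?_⟩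
  obtain ⟨S, hS, hle⟩ := h2 t ht
  refine ⟨S.filter fun o => o ∈ NiceT X.θ (X.B m t) m k, fun o ho => (mem_filter.1 ho).2, ?_⟩
  have h4 := h3 t ht (S.filter fun o => o ∉ NiceT X.θ (X.B m t) m k) fun o ho =>
    ⟨hS (mem_filter.1 ho).1, (mem_filter.1 ho).2⟩
  rw [← sum_filter_add_sum_filter_not S fun o => o ∈ NiceT X.θ (X.B m t) m k] at hle
  linarith

end Crest.Agent.R20
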