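import Crest.Agent.R20.NiceFacts

/-!
# R20: merging tuples; building `Low` integers
-/

set_option autoImplicit false

open Finset Filter Topology
open Crest.NumberTheoryR.TotientScale

noncomputable section

namespace Crest.Agent.R20

theorem merge_of_le {M l : ℕ} (τ σ : ℕ → ℕ) (h : l ≤ M) : merge M τ σ l = τ l := if_pos h

theorem merge_add {M i : ℕ} (τ σ : ℕ → ℕ) (h : 0 < i) : merge M τ σ (M + i) = σ i := by
  unfold merge
  rw [if_neg (by omega), Nat.add_sub_cancel_left]

theorem merge_Icc_eq (d : ℕ) : Icc 1 d = Ioc 0 d := by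
  ext x; simp only [mem_Icc, mem_Ioc]; omega

theorem merge_prod_shift (f : ℕ → ℝ) (M i d : ℕ) :
    ∏ x ∈ Ioc (M + i) (M + d), f x = ∏ x ∈ Ioc i d, f (M + x) := by
  rw [← map_add_left_Ioc, prod_map]
  rfl

theorem merge_sum_shift (f : ℕ → ℝ) (M i d : ℕ) :
    ∑ x ∈ Ioc (M + i) (M + d), f x = ∑ x ∈ Ioc i d, f (M + x) := by
  rw [← map_add_left_Ioc, sum_map]
  rfl

/-- Weight of a merged object. -/
theorem owt_merge (M d : ℕ) (τ σ : ℕ → ℕ) (w : ℕ) :
    owt (M + d) (merge M τ σ, w) = wt M τ * owt d (σ, w) := by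
  simp only [owt, wt, merge_Icc_eq]
  rw [← prod_Ioc_consecutive _ (Nat.zero_le M) (Nat.le_add_right M d), ← mul_assoc]
  congr 2
  · exact prod_congr rfl fun l hl => by rw [merge_of_le τ σ (mem_Ioc.1 hl).2]
  · have := merge_prod_shift (fun l => wq (merge M τ σ l)) M 0 d
    rw [add_zero] at this
    rw [this]
    exact prod_congr rfl fun i hi => by rw [merge_add τ σ (mem_Ioc.1 hi).1]

/-- Partial slacks of a merged tuple at the top levels. -/
theorem psl_merge_top (B : ℝ) {M d l : ℕ} (τ σ : ℕ → ℕ) (hl : l ≤ M) :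
    psl astd B (M + d) (merge M τ σ) l = psl astd B M τ l - lowShift M d σ l := by
  unfold psl lowShift
  rw [← sum_Ioc_consecutive _ hl (Nat.le_add_right M d), merge_Icc_eq]
  have h1 : yv B (merge M τ σ) l = yv B τ l := by simp only [yv, merge_of_le τ σ hl]
  have h2 : ∑ l' ∈ Ioc l M, astd l l' * hq (merge M τ σ l') = ∑ l' ∈ Ioc l M, astd l l' * hq (τ l') :=
    sum_congr rfl fun l' hl' => by rw [merge_of_le τ σ (mem_Ioc.1 hl').2]
  have h3 := merge_sum_shift (fun l' => astd l l' * hq (merge M τ σ l')) M 0 d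
  rw [add_zero] at h3
  have h4 : ∑ i ∈ Ioc 0 d, astd l (M + i) * hq (merge M τ σ (M + i)) =
      ∑ i ∈ Ioc 0 d, aCoef (M + i - l) * hq (σ i) :=
    sum_congr rfl fun i hi => by rw [merge_add τ σ (mem_Ioc.1 hi).1, astd]
  rw [h1, h2, h3, h4]
  ring

/-- Partial slacks of a merged tuple at the lower levels. -/
theorem psl_merge_low (B : ℝ) {M d i : ℕ} (τ σ : ℕ → ℕ) (hi : 1 ≤ i) :
    psl astd B (M + d) (merge M τ σ) (M + i) = psl astd B d σ i := by
  unfold psl
  rw [merge_sum_shift]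
  congr 1
  · simp only [yv, merge_add τ σ hi]
    rw [if_neg (by omega), if_neg (by omega)]
  · refine sum_congr rfl fun j hj => ?_
    rw [merge_add τ σ (by have := (mem_Ioc.1 hj).1; omega), astd, astd, Nat.add_sub_add_left]

theorem tup_merge {M d : ℕ} {τ σ : ℕ → ℕ} (hτ : Tup M τ) (hσ : Tup d σ) :
    Tup (M + d) (merge M τ σ) := by
  refine ⟨fun l hl => ?_, fun l hl => ?_⟩
  · rw [mem_Icc] at hl
    unfold merge
    split_ifs with h
    · exact hτ.1 l (by rw [mem_Icc]; omega)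
    · exact hσ.1 _ (by rw [mem_Icc]; omega)
  · rw [mem_Icc] at hl
    unfold merge
    split_ifs with h
    · exact hτ.2 l (by rw [mem_Icc]; omega)
    · exact hσ.2 _ (by rw [mem_Icc]; omega)

/-- `merge` is injective on normalised tuples. -/
theorem merge_inj {M d : ℕ} {τ σ τ' σ' : ℕ → ℕ} (hτ : Tup M τ) (hσ : Tup d σ) (hτ' : Tup M τ')
    (hσ' : Tup d σ') (h : merge M τ σ = merge M τ' σ') : τ = τ' ∧ σ = σ' := by
  constructor
  · funext l
    by_cases hl : l ≤ M
    · rw [← merge_of_le τ σ hl, h, merge_of_le τ' σ' hl]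
    · rw [hτ.1 l (by rw [mem_Icc]; omega), hτ'.1 l (by rw [mem_Icc]; omega)]
  · funext i
    by_cases hi : 0 < i
    · rw [← merge_add (M := M) τ σ hi, h, merge_add τ' σ' hi]
    · rw [hσ.1 i (by rw [mem_Icc]; omega), hσ'.1 i (by rw [mem_Icc]; omega)]

theorem tup_eq_merge (M d s : ℕ) : tup (M + d) s = merge M (tup M s) (tup d (tail s M)) := by
  funext l
  simp only [tup, merge, mem_Icc, lev_tail]
  by_cases h : l ≤ M
  · rw [if_pos h]
    by_cases h1 : 1 ≤ l
    · rw [if_pos ⟨h1, by omega⟩, if_pos ⟨h1, h⟩]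
    · rw [if_neg (by omega), if_neg (by omega)]
  · rw [if_neg h]
    by_cases h1 : l ≤ M + d
    · rw [if_pos ⟨by omega, h1⟩, if_pos ⟨by omega, by omega⟩]
      congr 1
      omega
    · rw [if_neg (by omega), if_neg (by omega)]

/-- Building a `Low` integer from a sorted tuple of normal primes on top of a `Low` integer
(`build`).  For indices `J ≤ K` the tails are tails of `s₀`; for `J > K` normality and `NoSq` follow
by monotonicity in `E` (a prime whose square divides the tail divides `s₀` twice).  If `K + 1 = k`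
and `s₀ = 1` everything about `s₀` is trivial; in general the primes of `s₀` are controlled by
`Good` at index `K ≥ k/2`. -/
theorem low_build {θ : ℝ} (hθ : 1 < θ) {k K M s₀ : ℕ} {τ : ℕ → ℕ} (hk : 1 ≤ k) (hkK : k ≤ K + 1)
    (hK : k / 2 ≤ K) (h₀ : Low θ k K s₀) (hp : ∀ l ∈ Icc 1 M, (τ l).Prime)
    (hdec : ∀ l, 1 ≤ l → l < M → τ (l + 1) < τ l) (hlow : 1 ≤ M → gpf s₀ < τ M)
    (hY : ∀ l ∈ Icc 1 M, ell (τ l) ≤ (θ ^ (M + K + 1 - l)) ^ 11)
    (hN : ∀ l ∈ Icc 1 M, Normal ((θ ^ (M + K + 1 - l)) ^ 7) (τ l))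
    (hs : ∀ l ∈ Icc 1 M, (θ ^ (M + K + 1 - l)) ^ 9 ≤
      slack (M + K + 1 - l) (tail ((∏ l ∈ Icc 1 M, τ l) * s₀) (l - 1)))
    (hτ : ∀ l, l ∉ Icc 1 M → τ l = 1) :
    Low θ k (M + K) ((∏ l ∈ Icc 1 M, τ l) * s₀) ∧
      obj (M + K + 1 - k) ((∏ l ∈ Icc 1 M, τ l) * s₀) =
        (merge M τ (tup (K + 1 - k) s₀), Nat.totient (tail s₀ (K + 1 - k))) := by
  obtain ⟨hs₀, hG, hS, hO⟩ := h₀
  obtain ⟨hlev, htail⟩ := build hs₀ hp hdec hlow
  set n := (∏ l ∈ Icc 1 M, τ l) * s₀ with hn
  have hn0 : 0 < n := Nat.mul_pos (prod_pos fun l hl => (hp l hl).pos) hs₀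
  have hM : tail n M = s₀ := by
    rw [htail M le_rfl, Icc_eq_empty (by omega), prod_empty, one_mul]
  have hMi : ∀ i, tail n (M + i) = tail s₀ i := fun i => by rw [← tail_tail, hM]
  have hGK := hG K hK le_rfl
  rw [Nat.sub_self, tail_zero] at hGK
  have hpow : ∀ {a b : ℕ}, a ≤ b → (θ ^ a) ^ 7 ≤ (θ ^ b) ^ 7 := fun h =>
    pow_le_pow_left₀ (by positivity) (pow_le_pow_right₀ hθ.le h) 7
  have hsq : ∀ p : ℕ, p.Prime → ∀ i j, j + i = M → p ^ 2 ∣ tail n j → p ^ 2 ∣ s₀ := by
    intro p hpp i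
    induction i with
    | zero => intro j hj h; rwa [show j = M by omega, hM] at h
    | succ i ih =>
      intro j hj h
      refine ih (j + 1) (by omega) ?_
      have hj1 : j + 1 ∈ Icc 1 M := by rw [mem_Icc]; omega
      have h1 : lev n j = τ (j + 1) := hlev (j + 1) hj1
      have hq' := hp _ hj1
      have h2 : τ (j + 1) * tail n (j + 1) = tail n j := by rw [← h1, lev_mul_tail]
      have h3 : gpf (tail n j) = τ (j + 1) := by rw [← gpf_lev, h1, gpf_of_prime hq']
      have h4 : 1 < tail n j := by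
        rw [← h2]
        exact lt_of_lt_of_le hq'.one_lt (Nat.le_mul_of_pos_right _ (tail_pos hn0 _))
      have h5 : gpf (tail n (j + 1)) < gpf (tail n j) := gpf_tail_lt (Nat.lt_succ_self j) h4
      rw [← h2] at h
      by_cases hpq : p = τ (j + 1)
      · rw [sq, ← hpq] at h
        have h6 := le_gpf (tail_pos hn0 _) hpp (Nat.dvd_of_mul_dvd_mul_left hpp.pos h)
        omega
      · exact (((Nat.coprime_primes hpp hq').2 hpq).pow_left 2).dvd_of_dvd_mul_left h
  have hs' : ∀ J, K < J → J ≤ M + K → (θ ^ J) ^ 9 ≤ slack J (tail n (M + K - J)) := by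
    intro J h1 h2
    have := hs (M + K + 1 - J) (by rw [mem_Icc]; omega)
    rwa [show M + K + 1 - (M + K + 1 - J) = J by omega,
      show M + K + 1 - J - 1 = M + K - J by omega] at this
  refine ⟨⟨hn0, fun J h1 h2 => ?_, fun J h1 h2 => ?_, ?_⟩, ?_⟩
  · by_cases hJ : J ≤ K
    · rw [show M + K - J = M + (K - J) by omega, hMi]
      exact hG J h1 hJ
    · have hl : M + K + 1 - J ∈ Icc 1 M := by rw [mem_Icc]; omega
      refine ⟨?_, fun p hpp hd => ?_, fun p hpp hd => ?_, ?_⟩
      · have h3 := hY _ hl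
        have h4 := hlev _ hl
        rw [show M + K + 1 - J - 1 = M + K - J by omega] at h4
        rw [show M + K + 1 - (M + K + 1 - J) = J by omega] at h3
        rw [ht_tail, add_zero, ← hq_lev, h4, hq_of_prime (hp _ hl)]
        exact h3
      · rw [htail _ (by omega)] at hd
        rcases (Nat.Prime.dvd_mul hpp).1 hd with h | h
        · obtain ⟨l, hl', h3⟩ := hpp.prime.exists_mem_finset_dvd h
          rw [mem_Icc] at hl'
          have hl1 : l ∈ Icc 1 M := by rw [mem_Icc]; omega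
          rw [(Nat.prime_dvd_prime_iff_eq hpp (hp l hl1)).1 h3]
          exact (hN l hl1).mono (hpow (by omega))
        · exact (hGK.2.1 p hpp h).mono (hpow (by omega))
      · exact (hGK.2.2.1 p hpp (hsq p hpp (J - K) _ (by omega) hd)).trans (hpow (by omega))
      · have h3 := hs' J (by omega) h2
        have h4 : 0 ≤ (θ ^ J) ^ 9 := by positivity
        linarith
  · by_cases hJ : J ≤ K
    · rw [show M + K - J = M + (K - J) by omega, hMi]
      exact hS J h1 hJ
    · exact hs' J (by omega) h2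
  · rwa [show M + K + 1 - k = M + (K + 1 - k) by omega, hMi]
  · rw [show M + K + 1 - k = M + (K + 1 - k) by omega, obj, hMi, tup_eq_merge, hM]
    congr 2
    funext l
    by_cases hl : l ∈ Icc 1 M
    · rw [tup_apply _ hl, hlev l hl]
    · rw [hτ l hl, (tup_Tup M n).1 l hl]

end Crest.Agent.R20
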