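import Crest.Agent.R20.Events2
import Crest.Agent.R20.MergeFacts

/-!
# R20: the nice objects carry a positive proportion of `G_{m-k}`
-/

set_option autoImplicit false

open Finset Filter Topology
open Crest.NumberTheoryR.TotientScale

noncomputable section

namespace Crest.Agent.R20

/-- In an admissible tuple with positive lower limits, `hq (τ (l+2)) < hq (τ l)`:
`y_l > a₁ y_{l+1} + a₂ y_{l+2} ≥ (a₁² + a₂) y_{l+2} ≥ y_{l+2}`. -/
theorem adm_two_step {B : ℝ} {c : ℕ → ℝ} {D : ℕ} {τ : ℕ → ℕ} (h : Adm astd B c D τ)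
    (hc : ∀ l ≤ D, 0 < c l) {l : ℕ} (hl : 1 ≤ l) (hlD : l + 2 ≤ D) :
    hq (τ (l + 2)) < hq (τ l) := by
  have hy := fun i => hq_nonneg (τ i)
  have h1 := h.2 l (by omega)
  have h2 := h.2 (l + 1) (by omega)
  have c1 := hc l (by omega)
  have c2 := hc (l + 1) (by omega)
  unfold psl yv at h1 h2
  rw [if_neg (by omega)] at h1 h2
  have s1 : ∑ i ∈ ({l + 1, l + 2} : Finset ℕ), astd l i * hq (τ i) ≤
      ∑ i ∈ Ioc l D, astd l i * hq (τ i) := by
    refine sum_le_sum_of_subset_of_nonneg ?_ fun i hi _ =>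
      mul_nonneg (astd_nonneg (mem_Ioc.1 hi).1) (hy i)
    intro i hi
    simp only [mem_insert, mem_singleton] at hi
    rw [mem_Ioc]; omega
  have s2 : astd (l + 1) (l + 2) * hq (τ (l + 2)) ≤
      ∑ i ∈ Ioc (l + 1) D, astd (l + 1) i * hq (τ i) :=
    single_le_sum (f := fun i => astd (l + 1) i * hq (τ i))
      (fun i hi => mul_nonneg (astd_nonneg (mem_Ioc.1 hi).1) (hy i)) (by rw [mem_Ioc]; omega)
  rw [sum_pair (by omega)] at s1
  have e1 : astd l (l + 1) = aCoef 1 := by unfold astd; congr 1; omega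
  have e2 : astd l (l + 2) = aCoef 2 := by unfold astd; congr 1; omega
  have e3 : astd (l + 1) (l + 2) = aCoef 1 := by unfold astd; congr 1; omega
  rw [e1, e2] at s1
  rw [e3] at s2
  have ha := aCoef_pos (le_refl 1)
  have hg := one_lt_g_two
  have h3 : aCoef 1 * hq (τ (l + 2)) ≤ hq (τ (l + 1)) := by linarith
  have h4 := mul_le_mul_of_nonneg_left h3 ha.le
  have h5 := mul_le_mul_of_nonneg_right hg.le (hy (l + 2))
  nlinarith

/-- Swapping an adjacent disordered pair preserves admissibility when `c` is antitone.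
With `y_j ≤ y_{j+1}`: new level `j+1`: `y_j ≥ c_j + a₁ y_{j+1} + ∑_{i ≥ j+2} a_{i-j} y_i ≥ c_{j+1} +
∑_{i ≥ j+2} a_{i-j-1} y_i`; new level `j`: `y_{j+1} ≥ y_j ≥ c_j + a₁ y_j + ∑_{i ≥ j+2} a_{i-j} y_i`; levels
`l < j`: `a_{j-l} y_{j+1} + a_{j+1-l} y_j ≤ a_{j-l} y_j + a_{j+1-l} y_{j+1}`; levels `l > j+1` unchanged. -/
theorem adm_swap {B : ℝ} {c : ℕ → ℝ} (hc : Antitone c) {D : ℕ} {τ : ℕ → ℕ} (h : Adm astd B c D τ)
    {j : ℕ} (hj : 1 ≤ j) (hjD : j + 1 ≤ D) (hy : hq (τ j) ≤ hq (τ (j + 1))) :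
    Adm astd B c D (τ ∘ Equiv.swap j (j + 1)) ∧ wt D (τ ∘ Equiv.swap j (j + 1)) = wt D τ := by
  have hy0 := fun i => hq_nonneg (τ i)
  have hfix : ∀ i, i ≠ j → i ≠ j + 1 → (τ ∘ Equiv.swap j (j + 1)) i = τ i := fun i h1 h2 => by
    simp only [Function.comp, Equiv.swap_apply_of_ne_of_ne h1 h2]
  have hj1 : (τ ∘ Equiv.swap j (j + 1)) j = τ (j + 1) := by simp
  have hj2 : (τ ∘ Equiv.swap j (j + 1)) (j + 1) = τ j := by simp
  have hmem : ∀ i, Equiv.swap j (j + 1) i ∈ Icc 1 D ↔ i ∈ Icc 1 D := by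
    intro i
    simp only [mem_Icc, Equiv.swap_apply_def]
    split_ifs <;> omega
  have hsplit : ∀ g : ℕ → ℝ, ∑ i ∈ Ioc j D, g i = g (j + 1) + ∑ i ∈ Ioc (j + 1) D, g i := by
    intro g
    rw [← sum_Ioc_consecutive g (Nat.le_succ j) hjD, Nat.Ioc_succ_singleton, sum_singleton]
  have hjj : astd j (j + 1) = aCoef 1 := by unfold astd; congr 1; omega
  have ha := aCoef_pos (le_refl 1)
  refine ⟨⟨⟨fun l hl => ?_, fun l hl => h.1.2 _ ((hmem l).2 hl)⟩, fun l hl => ?_⟩, ?_⟩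
  · exact h.1.1 _ fun h' => hl ((hmem l).1 h')
  · have hlev := h.2 j (by omega)
    unfold psl yv at hlev
    rw [if_neg (by omega), hsplit, hjj] at hlev
    have htail : ∀ l', ∑ i ∈ Ioc (j + 1) D, astd l' i * hq ((τ ∘ Equiv.swap j (j + 1)) i) =
        ∑ i ∈ Ioc (j + 1) D, astd l' i * hq (τ i) := fun l' =>
      sum_congr rfl fun i hi => by
        have := (mem_Ioc.1 hi).1
        rw [hfix i (by omega) (by omega)]
    rcases lt_trichotomy l j with hlj | hlj | hlj
    · refine (h.2 l hl).trans ?_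
      unfold psl yv
      rw [hfix l (by omega) (by omega)]
      refine sub_le_sub_left ?_ _
      rw [← sub_nonneg, ← sum_sub_distrib,
        ← sum_subset (s₁ := ({j, j + 1} : Finset ℕ)) ?_ ?_, sum_pair (by omega), hj1, hj2]
      · have hm : astd l j ≤ astd l (j + 1) := aCoef_mono (by omega) (by omega)
        nlinarith [mul_nonneg (sub_nonneg.2 hm) (sub_nonneg.2 hy)]
      · intro i hi
        simp only [mem_insert, mem_singleton] at hi
        rw [mem_Ioc]; omega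
      · intro i _ hi
        simp only [mem_insert, mem_singleton, not_or] at hi
        rw [hfix i hi.1 hi.2, sub_self]
    · subst hlj
      unfold psl yv
      rw [if_neg (by omega), hsplit, hjj, htail, hj1, hj2]
      nlinarith [mul_nonneg ha.le (sub_nonneg.2 hy)]
    · rcases Nat.lt_or_ge (j + 1) l with hl' | hl'
      · refine (h.2 l hl).trans (le_of_eq ?_)
        unfold psl yv
        rw [hfix l (by omega) (by omega)]
        congr 1
        refine sum_congr rfl fun i hi => ?_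
        have := (mem_Ioc.1 hi).1
        rw [hfix i (by omega) (by omega)]
      · obtain rfl : l = j + 1 := by omega
        unfold psl yv
        rw [if_neg (by omega), htail, hj2]
        have h1 : ∑ i ∈ Ioc (j + 1) D, astd (j + 1) i * hq (τ i) ≤
            ∑ i ∈ Ioc (j + 1) D, astd j i * hq (τ i) := by
          refine sum_le_sum fun i hi => mul_le_mul_of_nonneg_right ?_ (hy0 i)
          have := (mem_Ioc.1 hi).1
          exact aCoef_mono (by omega) (by omega)
        have h2 := hc (Nat.le_succ j)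
        have h3 := mul_nonneg ha.le (hy0 (j + 1))
        simp only [Nat.succ_eq_add_one] at h2
        linarith
  · unfold wt
    exact prod_equiv (Equiv.swap j (j + 1)) (fun i => (hmem i).symm) fun i _ => rfl

/-- Sorting the last levels costs a factor `2` per level.  Induction on `n`: given `S` whose elements
satisfy `τ (l+1) ≤ τ l` for `1 ≤ l < j`, either the elements with `τ (j+1) ≤ τ j` carry half of the
weight, or the others do, and their images under the (injective) swap are sorted up to `j + 1`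
(`adm_two_step` gives `τ (j+1) < τ (j-1)`). -/
theorem sort_tail {B : ℝ} {c : ℕ → ℝ} (hc : Antitone c) {D : ℕ} (hc0 : ∀ l ≤ D, 0 < c l) (n : ℕ)
    (S : Finset (ℕ → ℕ)) (hS : ∀ τ ∈ S, Adm astd B c D τ ∧ (∀ l ∈ Icc 1 D, (τ l).Prime) ∧
      ∀ l, 1 ≤ l → l + n < D → τ (l + 1) ≤ τ l) :
    ∃ S' : Finset (ℕ → ℕ), (∀ τ ∈ S', Adm astd B c D τ ∧ (∀ l ∈ Icc 1 D, (τ l).Prime) ∧
      ∀ l, 1 ≤ l → l < D → τ (l + 1) ≤ τ l) ∧
      (1 / 2) ^ n * ∑ τ ∈ S, wt D τ ≤ ∑ τ ∈ S', wt D τ := by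
  classical
  induction n generalizing S with
  | zero => exact ⟨S, fun τ hτ => by simpa using hS τ hτ, by simp⟩
  | succ n ih =>
    have hnn : ∀ T : Finset (ℕ → ℕ), 0 ≤ ∑ τ ∈ T, wt D τ := fun T =>
      sum_nonneg fun τ _ => wt_nonneg D τ
    have hhalf : ∀ T : Finset (ℕ → ℕ), (∀ τ ∈ T, Adm astd B c D τ ∧ (∀ l ∈ Icc 1 D, (τ l).Prime) ∧
        ∀ l, 1 ≤ l → l + n < D → τ (l + 1) ≤ τ l) → ∑ τ ∈ S, wt D τ ≤ 2 * ∑ τ ∈ T, wt D τ →
        ∃ S' : Finset (ℕ → ℕ), (∀ τ ∈ S', Adm astd B c D τ ∧ (∀ l ∈ Icc 1 D, (τ l).Prime) ∧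
          ∀ l, 1 ≤ l → l < D → τ (l + 1) ≤ τ l) ∧
          (1 / 2) ^ (n + 1) * ∑ τ ∈ S, wt D τ ≤ ∑ τ ∈ S', wt D τ := by
      intro T hT hST
      obtain ⟨S', h1, h2⟩ := ih T hT
      refine ⟨S', h1, le_trans ?_ h2⟩
      have : (0 : ℝ) ≤ (1 / 2) ^ n := by positivity
      rw [pow_succ]
      nlinarith [mul_le_mul_of_nonneg_left hST this]
    rcases Nat.lt_or_ge (n + 1) D with hD | hD
    swap
    · refine hhalf S (fun τ hτ => ⟨(hS τ hτ).1, (hS τ hτ).2.1, fun l h1 h2 => by omega⟩) ?_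
      linarith [hnn S]
    obtain ⟨j, hj⟩ : ∃ j, D = j + n + 1 := ⟨D - n - 1, by omega⟩
    have hj1 : 1 ≤ j := by omega
    have hsp := sum_filter_add_sum_filter_not S (fun τ => τ (j + 1) ≤ τ j) (wt D)
    rcases le_total (∑ τ ∈ S.filter (fun τ => ¬ τ (j + 1) ≤ τ j), wt D τ)
      (∑ τ ∈ S.filter (fun τ => τ (j + 1) ≤ τ j), wt D τ) with hle | hle
    · refine hhalf (S.filter fun τ => τ (j + 1) ≤ τ j) (fun τ hτ => ?_) (by linarith)
      rw [mem_filter] at hτ
      refine ⟨(hS τ hτ.1).1, (hS τ hτ.1).2.1, fun l h1 h2 => ?_⟩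
      rcases Nat.lt_or_ge (l + (n + 1)) D with h3 | h3
      · exact (hS τ hτ.1).2.2 l h1 h3
      · obtain rfl : l = j := by omega
        exact hτ.2
    · have hsw : ∀ τ ∈ S.filter (fun τ => ¬ τ (j + 1) ≤ τ j),
          Adm astd B c D (τ ∘ Equiv.swap j (j + 1)) ∧
            wt D (τ ∘ Equiv.swap j (j + 1)) = wt D τ := by
        intro τ hτ
        rw [mem_filter] at hτ
        obtain ⟨h1, h2, -⟩ := hS τ hτ.1
        refine adm_swap hc h1 hj1 (by omega) ?_
        rw [hq_of_prime (h2 j (by rw [mem_Icc]; omega)),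
          hq_of_prime (h2 (j + 1) (by rw [mem_Icc]; omega))]
        exact ell_mono (not_le.1 hτ.2).le
      refine hhalf ((S.filter fun τ => ¬ τ (j + 1) ≤ τ j).image
        fun τ => τ ∘ Equiv.swap j (j + 1)) (fun τ' hτ' => ?_) ?_
      · obtain ⟨τ, hτ, rfl⟩ := mem_image.1 hτ'
        have hA := (hsw τ hτ).1
        rw [mem_filter] at hτ
        obtain ⟨h1, h2, h3⟩ := hS τ hτ.1
        refine ⟨hA, fun l hl => h2 _ ?_, fun l hl1 hl2 => ?_⟩
        · simp only [mem_Icc, Equiv.swap_apply_def] at hl ⊢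
          split_ifs <;> omega
        · simp only [Function.comp]
          rcases Nat.lt_or_ge (l + 1) j with h4 | h4
          · rw [Equiv.swap_apply_of_ne_of_ne (by omega) (by omega),
              Equiv.swap_apply_of_ne_of_ne (by omega) (by omega)]
            exact h3 l hl1 (by omega)
          · rcases Nat.lt_or_ge l j with h5 | h5
            · obtain rfl : j = l + 1 := by omega
              rw [Equiv.swap_apply_left, Equiv.swap_apply_of_ne_of_ne (by omega) (by omega)]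
              have h6 := adm_two_step h1 hc0 hl1 (by omega)
              rw [hq_of_prime (h2 l (by rw [mem_Icc]; omega)),
                hq_of_prime (h2 (l + 2) (by rw [mem_Icc]; omega))] at h6
              exact (lt_of_ell_lt h6).le
            · obtain rfl : l = j := by omega
              rw [Equiv.swap_apply_left, Equiv.swap_apply_right]
              exact (not_le.1 hτ.2).le
      · rw [sum_image, sum_congr rfl fun τ hτ => (hsw τ hτ).2]
        · linarith
        · intro τ _ τ' _ hh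
          exact (Equiv.swap j (j + 1)).surjective.injective_comp_right hh

private theorem thmD_geom {c : ℝ} (hc : 0 < c) (N n₀ : ℕ) :
    ∑ l ∈ range N, 1 / (1 + c) ^ (N + n₀ - l) ≤ 1 / (c * (1 + c) ^ n₀) := by
  induction N generalizing n₀ with
  | zero => simp only [range_zero, sum_empty]; positivity
  | succ N ih =>
    have h := ih (n₀ + 1)
    rw [sum_range_succ, show N + 1 + n₀ - N = n₀ + 1 by omega,
      show N + 1 + n₀ = N + (n₀ + 1) by omega]
    refine (add_le_add h le_rfl).trans (le_of_eq ?_)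
    field_simp
    ring

private theorem thmD_nice (X : Ctx) {B : ℝ} {m k : ℕ} (hk : 1 ≤ k) (hm : k + 1 ≤ m) {τ : ℕ → ℕ}
    (hA : Adm astd B (X.cpos m 1) (m - k) τ) (hp : ∀ l ∈ Icc 1 (m - k), (τ l).Prime)
    (hdec : ∀ l, 1 ≤ l → l < m - k → τ (l + 1) < τ l)
    (hY : ∀ l ∈ Icc 1 (m - k), ell (τ l) ≤ (X.θ ^ (m - l)) ^ 11)
    (hN : ∀ l ∈ Icc 1 (m - k), Normal ((X.θ ^ (m - l)) ^ 7) (τ l))
    (h1 : hq (τ 1) ≤ 9 / 10 * B) : (τ, 1) ∈ NiceT X.θ B m k := by
  have hlow : 1 ≤ m - k → gpf 1 < τ (m - k) := fun h => by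
    rw [gpf_one]; exact (hp _ (by rw [mem_Icc]; omega)).one_lt
  obtain ⟨hlev, htl⟩ := build (s₀ := 1) one_pos hp hdec hlow
  have hidx : m - k + (k - 1) + 1 = m := by omega
  have hb := low_build X.θ_gt (K := k - 1) (M := m - k) (s₀ := 1) (τ := τ) hk (by omega)
    (by omega) (low_one X.θ_gt hk) hp hdec hlow (by rw [hidx]; exact hY) (by rw [hidx]; exact hN)
  generalize (∏ l ∈ Icc 1 (m - k), τ l) * 1 = s at hlev htl hb
  have htup : tup (m - k) s = τ := by
    funext l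
    by_cases hl : l ∈ Icc 1 (m - k)
    · rw [tup_apply s hl, hlev l hl]
    · rw [hA.1.1 l hl]
      simp only [tup, hl, if_false]
  have hD : tail s (m - k) = 1 := by
    rw [htl _ le_rfl, Icc_eq_empty (by omega), prod_empty, mul_one]
  have hz : ∀ j, m - k ≤ j → ht s j = 0 := by
    intro j hj
    obtain ⟨i, rfl⟩ := Nat.exists_eq_add_of_le hj
    rw [ht, ← tail_tail, hD, tail_one, hq_one]
  have hb' := hb (fun l hl => ?_) hA.1.1
  · refine ⟨s, ⟨?_, ?_, ?_⟩, ?_⟩
    · have := hb'.1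
      rwa [show m - k + (k - 1) = m - 1 by omega] at this
    · have h2 := hA.2 0 (Nat.zero_le _)
      rw [← htup, psl_tup_zero] at h2
      rw [← sum_subset (s₁ := Icc 1 (m - k)) (Icc_subset_Icc_right (by omega))]
      · simpa [Ctx.cpos] using h2
      · intro i hi hi'
        rw [mem_Icc] at hi hi'
        rw [hz _ (by omega), mul_zero]
    · have h2 := hq_tup (d := m - k) (l := 1) s (by rw [mem_Icc]; omega)
      rw [htup] at h2
      rwa [h2] at h1
    · rw [obj, htup, hD, Nat.totient_one]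
  · have hl' := mem_Icc.1 hl
    have h2 := hA.2 l hl'.2
    rw [← htup, psl_tup B s hl] at h2
    rw [hidx]
    have h3 : slack (m - l) (tail s (l - 1)) = slack (m - k - l) (tail s (l - 1)) := by
      unfold slack
      rw [← sum_subset (s₁ := Icc 1 (m - k - l)) (Icc_subset_Icc_right (by omega))]
      intro i hi hi'
      rw [mem_Icc] at hi hi'
      rw [ht_tail, hz _ (by omega), mul_zero]
    rw [h3]
    simpa [Ctx.cpos] using h2

/-- `D = m - k`.  Start from `ev_lower` (weight `≥ c₁ G_D`), remove the tuples with a disorder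
`τ l < τ (l+1)` for some `l < D - n₀` (`ev_ord`, weight `≤ C G_D ∑_{n > n₀} (1+c)^{-n} ≤ c₁ G_D/2` for a fixed
`n₀`), sort (`sort_tail`), remove the events of `ev_bad` with `K' = k` (weight
`≤ C θ^{-k} G_D ≤ 2^{-n₀} c₁ G_D/4` for `k ≥ k₁`; the hypothesis on levels of index `< k` is vacuous).
The remaining `τ` are strictly decreasing; `low_build` with `K = k - 1`, `s₀ = 1` (`low_one`), `M = D`
shows `s = ∏ τ` is nice (full slacks = partial slacks because `ht s j = 0` for `j ≥ D`) with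
`obj D s = (τ, 1)`. -/
theorem thmD (X : Ctx) : ∃ c : ℝ, 0 < c ∧ ∃ k₁ : ℕ, ∀ k, k₁ ≤ k →
    ∀ᶠ m : ℕ in atTop, ∀ t ∈ Set.Icc X.t₁ X.t₂,
    ∃ S : Finset ((ℕ → ℕ) × ℕ), (↑S : Set _) ⊆ NiceT X.θ (X.B m t) m k ∧
      c * GG (X.B m t) (m - k) ≤ ∑ o ∈ S, owt (m - k) o := by
  classical
  obtain ⟨c₁, hc₁, hlow⟩ := ev_lower X
  obtain ⟨C, c, hC, hc, hord⟩ := ev_ord X
  obtain ⟨C', hC', J₀, hbad⟩ := ev_bad X
  obtain ⟨n₀, hn₀⟩ := pow_unbounded_of_one_lt (2 * C / (c * c₁)) (by linarith : 1 < 1 + c)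
  obtain ⟨J₁, hJ₁⟩ := X.eventually_pow (C' / ((1 / 2) ^ n₀ * c₁ / 4))
  refine ⟨(1 / 2) ^ n₀ * c₁ / 4, by positivity, max 1 (max J₀ J₁), fun k hk => ?_⟩
  have hk1 : 1 ≤ k := by omega
  filter_upwards [hlow, hbad k (by omega), eventually_ge_atTop (k + 1)] with m hm1 hm2 hm t ht
  obtain ⟨S, hS, hSw⟩ := hm1 t ht (m - k) (by omega)
  have hG := GG_pos (X.B_pos (by omega : 1 ≤ m) ht) (m - k)
  have hcpos : ∀ l, 0 < X.cpos m 1 l := fun l => by
    have := X.θ_pos
    unfold Ctx.cpos; positivity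
  have hanti : Antitone (X.cpos m 1) := by
    intro a b hab
    unfold Ctx.cpos
    rw [one_mul, one_mul]
    exact pow_le_pow_left₀ (pow_nonneg X.θ_pos.le _) (pow_le_pow_right₀ X.θ_gt.le (by omega)) 9
  -- remove the disordered tuples
  set P : (ℕ → ℕ) → Prop := fun τ => ∀ l, 1 ≤ l → l + n₀ < m - k → τ (l + 1) ≤ τ l with hP
  have hdis : ∑ τ ∈ S.filter (fun τ => ¬ P τ), wt (m - k) τ ≤ c₁ / 2 * GG (X.B m t) (m - k) := by
    have h1 := SumBd.of_cover (Ico 1 (m - k - n₀))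
      (fun l hl => hord m (by omega) t ht (m - k) (by omega) l (mem_Ico.1 hl).1
        (by have := (mem_Ico.1 hl).2; omega))
      (A' := ↑(S.filter fun τ => ¬ P τ)) (fun τ hτ => by
        rw [mem_coe, mem_filter] at hτ
        obtain ⟨hτ, hn⟩ := hτ
        simp only [hP, not_forall, not_le] at hn
        obtain ⟨l, h1, h2, h3⟩ := hn
        refine ⟨l, by rw [mem_Ico]; omega, (hS τ hτ).1.mono fun l _ => (hcpos l).le, ?_⟩
        rw [hq_of_prime ((hS τ hτ).2 l (by rw [mem_Icc]; omega)),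
          hq_of_prime ((hS τ hτ).2 (l + 1) (by rw [mem_Icc]; omega))]
        exact ell_mono h3.le)
    refine (h1 _ subset_rfl).trans ?_
    have h2 : ∑ l ∈ Ico 1 (m - k - n₀), C * GG (X.B m t) (m - k) / (1 + c) ^ (m - k - l) ≤
        C * GG (X.B m t) (m - k) * ∑ l ∈ range (m - k - n₀), 1 / (1 + c) ^ (m - k - n₀ + n₀ - l) := by
      rw [mul_sum]
      refine le_trans (le_of_eq (sum_congr rfl fun l hl => ?_))
        (sum_le_sum_of_subset_of_nonneg (s := Ico 1 (m - k - n₀)) ?_ fun l _ _ => by positivity)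
      · have := mem_Ico.1 hl
        rw [show m - k - n₀ + n₀ - l = m - k - l by omega, mul_one_div]
      · intro l hl
        exact mem_range.2 (mem_Ico.1 hl).2
    refine h2.trans ((mul_le_mul_of_nonneg_left (thmD_geom hc _ _) (by positivity)).trans ?_)
    rw [div_lt_iff₀ (by positivity)] at hn₀
    rw [mul_one_div, div_le_iff₀ (by positivity)]
    nlinarith [mul_le_mul_of_nonneg_left hn₀.le hG.le]
  have hsp := sum_filter_add_sum_filter_not S P (wt (m - k))
  obtain ⟨S₂, hS₂, hS₂w⟩ := sort_tail (B := X.B m t) hanti (D := m - k) (fun l _ => hcpos l) n₀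
    (S.filter P) fun τ hτ => by
      rw [mem_filter] at hτ
      exact ⟨(hS τ hτ.1).1, (hS τ hτ.1).2, hτ.2⟩
  -- remove the bad tuples
  set Q : (ℕ → ℕ) → Prop := fun τ =>
    (∃ l ∈ Icc 1 (m - k), k ≤ m - l ∧ ((X.θ ^ (m - l)) ^ 11 < hq (τ l) ∨
      ¬ Normal ((X.θ ^ (m - l)) ^ 7) (gpf (τ l)) ∨ (l < m - k ∧ τ l = τ (l + 1)))) ∨
        9 / 10 * X.B m t < hq (τ 1) with hQ
  have hb : ∑ τ ∈ S₂.filter Q, wt (m - k) τ ≤ (1 / 2) ^ n₀ * c₁ / 4 * GG (X.B m t) (m - k) := by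
    refine (hm2 t ht (m - k) le_rfl (by omega) (S₂.filter Q) fun τ hτ => ?_).trans ?_
    · rw [mem_coe, mem_filter] at hτ
      refine ⟨(hS₂ τ hτ.1).1.mono fun l _ => (hcpos l).le, fun l hl h => ?_, hτ.2⟩
      rw [mem_Icc] at hl
      omega
    · refine mul_le_mul_of_nonneg_right ?_ hG.le
      have h1 := (hJ₁ k (by omega)).1
      rw [div_le_iff₀ (by positivity)] at h1
      rw [div_le_iff₀ (pow_pos X.θ_pos k)]
      linarith
  have hsp₂ := sum_filter_add_sum_filter_not S₂ Q (wt (m - k))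
  refine ⟨(S₂.filter fun τ => ¬ Q τ).image fun τ => (τ, 1), fun o ho => ?_, ?_⟩
  · obtain ⟨τ, hτ, rfl⟩ := mem_image.1 (mem_coe.1 ho)
    rw [mem_filter] at hτ
    obtain ⟨hτ, hn⟩ := hτ
    obtain ⟨h1, h2, h3⟩ := hS₂ τ hτ
    simp only [hQ, not_or, not_exists, not_and, not_lt, not_not] at hn
    have h4 := fun l (hl : l ∈ Icc 1 (m - k)) =>
      hn.1 l hl (by have := mem_Icc.1 hl; omega)
    refine thmD_nice X hk1 hm h1 h2 (fun l hl1 hl2 => ?_) (fun l hl => ?_) (fun l hl => ?_) hn.2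
    · exact lt_of_le_of_ne (h3 l hl1 hl2)
        fun h => (h4 l (by rw [mem_Icc]; omega)).2.2 hl2 h.symm
    · rw [← hq_of_prime (h2 l hl)]
      exact (h4 l hl).1
    · have := (h4 l hl).2.1
      rwa [gpf_of_prime (h2 l hl)] at this
  · rw [sum_image fun τ _ τ' _ h => (Prod.ext_iff.1 h).1]
    simp only [owt, Nat.cast_one, div_one, mul_one]
    have h5 : (0 : ℝ) ≤ (1 / 2) ^ n₀ := by positivity
    have h6 : c₁ / 2 * GG (X.B m t) (m - k) ≤ ∑ τ ∈ S.filter P, wt (m - k) τ := by linarith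
    nlinarith [mul_le_mul_of_nonneg_left h6 h5]

end Crest.Agent.R20
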