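import Crest.Agent.R20.ThmA
import Crest.Agent.R20.ThmB
import Crest.Agent.R20.ThmC
import Crest.Agent.R20.ThmD

/-!
# R20: the main theorem for pairs `(m, t)`
-/

set_option autoImplicit false

open Finset Filter Topology
open Crest.NumberTheoryR.TotientScale

noncomputable section

namespace Crest.Agent.R20

variable (X : Ctx)

private theorem main_aux_exp {U L : ℝ} (hL : 0 < L) (h : L ≤ U) : Real.exp (-U) ≤ 1 / L := by
  rw [Real.exp_neg, one_div]
  exact inv_anti₀ hL (by linarith [Real.add_one_le_exp U])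

private theorem main_aux_R_le {m : ℕ} (hm : 1 ≤ m) {t : ℝ} (ht : t ∈ Set.Icc X.t₁ X.t₂) {a : ℝ} :
    X.R m t ≤ a ↔ (totientCount (EE (X.B m t)) : ℝ) ≤
      EE (X.B m t) / Real.exp (X.B m t) * (a * GG (X.B m t) m) := by
  have h1 : 0 < EE (X.B m t) / Real.exp (X.B m t) := div_pos (EE_pos _) (Real.exp_pos _)
  have h2 := GG_pos (X.B_pos hm ht) m
  rw [Ctx.R, div_le_iff₀ (mul_pos h1 h2)]
  exact iff_of_eq (by congr 1; ring)

private theorem main_aux_le_R {m : ℕ} (hm : 1 ≤ m) {t : ℝ} (ht : t ∈ Set.Icc X.t₁ X.t₂) {a : ℝ} :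
    a ≤ X.R m t ↔ EE (X.B m t) / Real.exp (X.B m t) * (a * GG (X.B m t) m) ≤
      (totientCount (EE (X.B m t)) : ℝ) := by
  have h1 : 0 < EE (X.B m t) / Real.exp (X.B m t) := div_pos (EE_pos _) (Real.exp_pos _)
  have h2 := GG_pos (X.B_pos hm ht) m
  rw [Ctx.R, le_div_iff₀ (mul_pos h1 h2)]
  exact iff_of_eq (by congr 1; ring)

/-- Choose `k` large for `thmA` (`ε/4`) and with `C exp (-θ^k) ≤ ε/4` in `thmB`; `A` from `thmC` (`ε/4`),
bounded by `M` on the compact interval; `ε' = ε/(4 (M + ε))`. -/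
theorem main_approx {ε : ℝ} (hε : 0 < ε) : ∃ A : ℝ → ℝ, ContinuousOn A (Set.Icc X.t₁ X.t₂) ∧
    ∀ᶠ m : ℕ in atTop, ∀ t ∈ Set.Icc X.t₁ X.t₂, |X.R m t - A t| ≤ ε := by
  have hε4 : 0 < ε / 4 := by positivity
  obtain ⟨kA, hA⟩ := thmA X hε4
  obtain ⟨C, hC, kB, hB⟩ := thmB X
  obtain ⟨J₀, hJ⟩ := X.eventually_pow (4 * C / ε)
  set k := max (max kA kB) (max J₀ 1) with hk
  have hCk : C * Real.exp (-X.θ ^ k) ≤ ε / 4 := by
    have h1 := main_aux_exp (by positivity) (hJ k (by omega)).1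
    calc C * Real.exp (-X.θ ^ k) ≤ C * (1 / (4 * C / ε)) := by gcongr
      _ = ε / 4 := by field_simp
  obtain ⟨A, hAc, hCm⟩ := thmC X k (by omega) hε4
  obtain ⟨M, hM⟩ := (isCompact_Icc (a := X.t₁) (b := X.t₂)).exists_bound_of_continuousOn hAc
  have hM0 : 0 ≤ M := (norm_nonneg _).trans (hM X.t₁ ⟨le_rfl, X.t₁₂⟩)
  set ε' := ε / (4 * (M + ε)) with hε'
  have hε'0 : 0 < ε' := by positivity
  have hε'1 : ε' * (M + ε) = ε / 4 := by rw [hε']; field_simp
  have hε'2 : ε' ≤ 1 := by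
    rw [hε', div_le_one (by positivity)]; linarith
  refine ⟨A, hAc, ?_⟩
  filter_upwards [hA k (by omega) ε' hε'0, hB k (by omega) ε' hε'0, hCm, eventually_ge_atTop 1]
    with m h1 h2 h3 hm t ht
  obtain ⟨h4, S, hS, h5⟩ := h3 t ht
  have hF : 0 < EE (X.B m t) / Real.exp (X.B m t) := div_pos (EE_pos _) (Real.exp_pos _)
  have hG := GG_pos (X.B_pos hm ht) m
  have hAt := abs_le.1 ((Real.norm_eq_abs _).symm.trans_le (hM t ht))
  rw [abs_le]
  constructor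
  · rw [le_sub_iff_add_le, main_aux_le_R X hm ht]
    refine le_trans (mul_le_mul_of_nonneg_left ?_ hF.le) (h2 t ht S hS)
    have e1 := mul_le_mul_of_nonneg_left h5 (sub_nonneg.2 hε'2)
    have e2 := mul_le_mul_of_nonneg_right hCk hG.le
    have e3 : -ε + A t ≤ (1 - ε') * (A t - ε / 4) - ε / 4 := by
      have : ε' * (A t - ε / 4) ≤ ε' * (M + ε) :=
        mul_le_mul_of_nonneg_left (by linarith) hε'0.le
      linarith
    have e4 := mul_le_mul_of_nonneg_right e3 hG.le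
    linarith
  · rw [sub_le_iff_le_add, main_aux_R_le X hm ht]
    refine (h1 t ht _ h4).trans (mul_le_mul_of_nonneg_left ?_ hF.le)
    have e3 : (1 + ε') * (A t + ε / 4) + ε / 4 ≤ ε + A t := by
      have : ε' * (A t + ε / 4) ≤ ε' * (M + ε) :=
        mul_le_mul_of_nonneg_left (by linarith) hε'0.le
      linarith
    have e4 := mul_le_mul_of_nonneg_right e3 hG.le
    linarith

/-- `thmB` with `ε' = 1/2`, `thmD`, `X.GG_ge`: `R ≥ (c/2) exp (-C'(k²+1)) - C exp (-θ^k) > 0` for a fixed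
large `k`. -/
theorem main_pos : ∃ c : ℝ, 0 < c ∧
    ∀ᶠ m : ℕ in atTop, ∀ t ∈ Set.Icc X.t₁ X.t₂, c ≤ X.R m t := by
  obtain ⟨C, hC, kB, hB⟩ := thmB X
  obtain ⟨c, hc, kD, hD⟩ := thmD X
  obtain ⟨C', hC', hG'⟩ := X.GG_ge
  obtain ⟨J₀, hJ⟩ := X.eventually_pow 0
  set k := max (max kB kD) (max J₀ (⌈2 * C' + 4 * C / c⌉₊ + 1)) with hk
  have hk1 : (1 : ℝ) ≤ k := by exact_mod_cast (by omega : 1 ≤ k)
  have hk2 : 2 * C' + 4 * C / c ≤ k :=
    (Nat.le_ceil _).trans (by exact_mod_cast (by omega : ⌈2 * C' + 4 * C / c⌉₊ ≤ k))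
  have hL : 0 < 4 * C / c := by positivity
  set E := Real.exp (-(C' * ((k : ℝ) ^ 2 + 1))) with hE
  have hE0 : 0 < E := Real.exp_pos _
  have hCk : C * Real.exp (-X.θ ^ k) ≤ c / 4 * E := by
    have h0 := (hJ k (by omega)).2
    have h1 : (1 : ℝ) ≤ (k : ℝ) ^ 2 := one_le_pow₀ hk1
    have h2 : (k : ℝ) ≤ (k : ℝ) ^ 2 := by nlinarith
    have h3 : (k : ℝ) ^ 2 * (2 * C' + 4 * C / c) ≤ (k : ℝ) ^ 2 * (k : ℝ) ^ 2 := by
      gcongr; linarith
    have h4 : 4 * C / c ≤ X.θ ^ k - C' * ((k : ℝ) ^ 2 + 1) := by nlinarith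
    have h5 := main_aux_exp hL h4
    have h6 : Real.exp (-X.θ ^ k) = Real.exp (-(X.θ ^ k - C' * ((k : ℝ) ^ 2 + 1))) * E := by
      rw [hE, ← Real.exp_add]; congr 1; ring
    calc C * Real.exp (-X.θ ^ k) ≤ C * (1 / (4 * C / c) * E) := by rw [h6]; gcongr
      _ = c / 4 * E := by field_simp
  refine ⟨c / 4 * E, by positivity, ?_⟩
  filter_upwards [hB k (by omega) (1 / 2) (by norm_num), hD k (by omega),
    eventually_ge_atTop (2 * k + 1)] with m h2 h3 hm t ht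
  obtain ⟨S, hS, h5⟩ := h3 t ht
  have hF : 0 < EE (X.B m t) / Real.exp (X.B m t) := div_pos (EE_pos _) (Real.exp_pos _)
  have hG := GG_pos (X.B_pos (by omega : 1 ≤ m) ht) m
  rw [main_aux_le_R X (by omega) ht]
  refine le_trans (mul_le_mul_of_nonneg_left ?_ hF.le) (h2 t ht S hS)
  have e1 := mul_le_mul_of_nonneg_left (hG' m k (by omega) (by omega) t ht) hc.le
  have e2 := mul_le_mul_of_nonneg_right hCk hG.le
  rw [← hE] at e1
  linarith

/-- The approximants `A_n` (`ε = 1/(n+1)`) are uniformly Cauchy on `[t₁, t₂]`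
(`|A_n t - A_{n'} t| ≤ 1/(n+1) + 1/(n'+1)` by comparing with `R m t` for a large `m`); equivalently
`R m t` converges for each `t` to some `A t` with `|A t - A_n t| ≤ 1/(n+1)`, so `A` is a uniform limit of
continuous functions. -/
theorem main_limit : ∃ A : ℝ → ℝ, ContinuousOn A (Set.Icc X.t₁ X.t₂) ∧
    (∃ c : ℝ, 0 < c ∧ ∀ t ∈ Set.Icc X.t₁ X.t₂, c ≤ A t) ∧
    ∀ ε : ℝ, 0 < ε → ∀ᶠ m : ℕ in atTop, ∀ t ∈ Set.Icc X.t₁ X.t₂, |X.R m t - A t| ≤ ε := by
  have hpos : ∀ n : ℕ, (0 : ℝ) < 1 / ((n : ℝ) + 1) := fun n => by positivity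
  choose A hAc hA using fun n : ℕ => main_approx X (hpos n)
  have h0 : Tendsto (fun n : ℕ => 1 / ((n : ℝ) + 1)) atTop (𝓝 0) :=
    tendsto_one_div_add_atTop_nhds_zero_nat
  have hcau : ∀ t ∈ Set.Icc X.t₁ X.t₂, ∀ n n' : ℕ,
      |A n t - A n' t| ≤ 1 / ((n : ℝ) + 1) + 1 / ((n' : ℝ) + 1) := by
    intro t ht n n'
    obtain ⟨m, h1, h2⟩ := ((hA n).and (hA n')).exists
    have a := abs_le.1 (h1 t ht)
    have b := abs_le.1 (h2 t ht)
    rw [abs_le]
    constructor <;> linarith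
  have hlim : ∀ t ∈ Set.Icc X.t₁ X.t₂, ∃ a, Tendsto (fun n => A n t) atTop (𝓝 a) := by
    intro t ht
    refine cauchySeq_tendsto_of_complete (cauchySeq_of_le_tendsto_0'
      (fun n : ℕ => 1 / ((n : ℝ) + 1) + 1 / ((n : ℝ) + 1)) (fun n n' h => ?_)
      (by simpa using h0.add h0))
    refine (hcau t ht n n').trans (add_le_add le_rfl ?_)
    gcongr
  choose! L hL using hlim
  have hd : ∀ t ∈ Set.Icc X.t₁ X.t₂, ∀ n : ℕ, |A n t - L t| ≤ 1 / ((n : ℝ) + 1) := by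
    intro t ht n
    have h1 : Tendsto (fun n' => |A n t - A n' t|) atTop (𝓝 |A n t - L t|) :=
      ((hL t ht).const_sub _).abs
    have h2 := h0.const_add (1 / ((n : ℝ) + 1))
    rw [add_zero] at h2
    exact le_of_tendsto_of_tendsto' h1 h2 (hcau t ht n)
  have happ : ∀ ε : ℝ, 0 < ε →
      ∀ᶠ m : ℕ in atTop, ∀ t ∈ Set.Icc X.t₁ X.t₂, |X.R m t - L t| ≤ ε := by
    intro ε hε
    obtain ⟨n, hn⟩ := (h0.eventually (gt_mem_nhds (half_pos hε))).exists
    filter_upwards [hA n] with m hm t ht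
    have a := abs_le.1 (hm t ht)
    have b := abs_le.1 (hd t ht n)
    rw [abs_le]
    constructor <;> linarith
  refine ⟨L, ?_, ?_, happ⟩
  · refine TendstoUniformlyOn.continuousOn (F := A) (p := atTop) ?_
      (Frequently.of_forall hAc)
    rw [Metric.tendstoUniformlyOn_iff]
    intro ε hε
    filter_upwards [h0.eventually (gt_mem_nhds hε)] with n hn t ht
    rw [dist_comm, Real.dist_eq]
    exact (hd t ht n).trans_lt hn
  · obtain ⟨c, hc, h⟩ := main_pos X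
    refine ⟨c / 2, half_pos hc, fun t ht => ?_⟩
    obtain ⟨m, h1, h2⟩ := (h.and (happ _ (half_pos hc))).exists
    have a := h1 t ht
    have b := abs_le.1 (h2 t ht)
    linarith

end Crest.Agent.R20
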