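import Crest.Agent.R20.GRatio
import Crest.Agent.R20.SumBd

/-!
# R20: structural facts about `Low`, `Nice`, `LowT`, `Simple`
-/

set_option autoImplicit false

open Finset Filter Topology
open Crest.NumberTheoryR.TotientScale

noncomputable section

namespace Crest.Agent.R20

/-- Levels with index in `[k, K]` are primes: `ht ≥ slack ≥ U^9 > U^7` (`NoSq.lev_eq`). -/
theorem Low.lev_prime {θ : ℝ} (hθ : 1 < θ) {k K s : ℕ} (hk : 1 ≤ k) (h : Low θ k K s) {j : ℕ}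
    (hj : j + k ≤ K) : (lev s j).Prime ∧ lev s j = gpf (tail s j) := by
  have e : K - (K - j) = j := by omega
  have h1 := h.2.1 (K - j) (by omega) (Nat.sub_le _ _)
  have h2 := h.2.2.1 (K - j) (by omega) (Nat.sub_le _ _)
  rw [e] at h1 h2
  have hU : 1 < θ ^ (K - j) := one_lt_pow₀ hθ (by omega)
  have h3 : (θ ^ (K - j)) ^ 7 < ht (tail s j) 0 :=
    (pow_lt_pow_right₀ hU (by norm_num)).trans_le (h2.trans (slack_le_ht _ _))
  obtain ⟨h4, h5⟩ := h1.2.2.1.lev_eq (tail_pos h.1 j) (by positivity) h3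
  have h6 : lev s j = gpf (tail s j) := h5
  exact ⟨h6 ▸ h4, h6⟩

theorem Low.ht_le {θ : ℝ} {k K s : ℕ} (h : Low θ k K s) {J : ℕ} (hJ : k / 2 ≤ J) (hJK : J ≤ K) :
    ht s (K - J) ≤ (θ ^ J) ^ 11 :=
  (h.2.1 J hJ hJK).1

theorem Low.nf_ht_cut {θ : ℝ} {k K s : ℕ} (h : Low θ k K s) (hkK : k ≤ K) :
    ht s (K + 1 - k) ≤ (θ ^ k) ^ 11 :=
  (ht_anti s (by omega : K - k ≤ K + 1 - k)).trans (h.ht_le (Nat.div_le_self _ _) hkK)

theorem Low.nf_log_cut {θ : ℝ} {k K s : ℕ} (h : Low θ k K s) (hkK : k ≤ K) :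
    Real.log (Nat.totient (tail s (K + 1 - k))) ≤ 10 * (θ ^ k) ^ 11 * Real.exp ((θ ^ k) ^ 11) := by
  have h0 := tail_pos h.1 (K + 1 - k)
  refine (log_le_Om_mul (Nat.totient_pos.2 h0)).trans ?_
  refine mul_le_mul h.2.2.2 (Real.exp_le_exp.2 ((hq_totient_le h0).trans (h.nf_ht_cut hkK)))
    (Real.exp_pos _).le ((Nat.cast_nonneg _).trans h.2.2.2)

/-- The tail below the cut has height `≤ Y_k` (`ht s (K+1-k) ≤ ht s (K - k)`). -/
theorem Low.mem_phiSet {θ : ℝ} {k K s : ℕ} (h : Low θ k K s) (hk : 1 ≤ k) (hkK : k ≤ K) :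
    Nat.totient (tail s (K + 1 - k)) ∈ phiSet fun r => ht r 0 ≤ (θ ^ k) ^ 11 :=
  have _ := hk
  ⟨tail s (K + 1 - k), tail_pos h.1 _, h.nf_ht_cut hkK, rfl⟩

/-- `ht (tail s (K-J)) (J+1) ≤ ht s (K - J')` with `J' = (J+1)/2 ≥ k/2`, and `11 J' ≤ 7 J` for `J ≥ 4`. -/
theorem Low.niceAt {θ : ℝ} (hθ : 1 < θ) {k K s : ℕ} (hk : 4 ≤ k) (h : Low θ k K s) {J : ℕ}
    (hJ : k ≤ J) (hJK : J ≤ K) : NiceAt (θ ^ J) J (tail s (K - J)) := by
  have _ := hk
  obtain ⟨h1, h2, h3, -⟩ := h.2.1 J (by omega) hJK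
  refine ⟨tail_pos h.1 _, h1, h2, h3, ?_⟩
  rw [ht_tail]
  refine (ht_anti s (by omega : K - k / 2 ≤ K - J + (J + 1))).trans
    ((h.ht_le le_rfl (by omega)).trans ?_)
  rw [← pow_mul, ← pow_mul]
  exact pow_le_pow_right₀ hθ.le (by omega)

/-- The entries of the tuple are primes `≤ EE ((θ^K)^11)` or `1`, and
`log w ≤ Om w · exp (hq w) ≤ 10 Y_k exp Y_k`. -/
theorem lowT_finite {θ : ℝ} (hθ : 1 < θ) {k K : ℕ} (hk : 1 ≤ k) (hkK : k ≤ K) :
    (LowT θ k K).Finite := by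
  classical
  have h0 : 0 < θ := zero_lt_one.trans hθ
  let N : ℕ := ⌊EE ((θ ^ K) ^ 11)⌋₊
  let N' : ℕ := ⌊Real.exp (10 * (θ ^ k) ^ 11 * Real.exp ((θ ^ k) ^ 11))⌋₊
  have hT : ((fun (f : ↥(Icc 1 (K + 1 - k)) → ℕ) (l : ℕ) =>
      if h : l ∈ Icc 1 (K + 1 - k) then f ⟨l, h⟩ else 1) '' {f | ∀ i, f i ∈ Set.Iic N}).Finite :=
    (Set.Finite.pi' fun _ => Set.finite_Iic N).image _
  refine (hT.prod (Set.finite_Iic N')).subset ?_
  rintro o ⟨s, hs, rfl⟩
  refine ⟨⟨fun i => lev s (i.1 - 1), fun i => ?_, ?_⟩, ?_⟩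
  · obtain ⟨hi1, hi2⟩ := mem_Icc.1 i.2
    refine Nat.le_floor ((ell_le_iff (by positivity)).1 ?_)
    change ell (lev s (i.1 - 1)) ≤ _
    rw [(hs.lev_prime hθ hk (j := i.1 - 1) (by omega)).2]
    have h1 := hs.ht_le (J := K) (by omega) le_rfl
    exact (ht_anti s (by omega : K - K ≤ i.1 - 1)).trans h1
  · funext l
    simp only [obj, tup]
    split_ifs <;> rfl
  · refine Nat.le_floor ?_
    have h1 : (0 : ℝ) < Nat.totient (tail s (K + 1 - k)) := by
      exact_mod_cast Nat.totient_pos.2 (tail_pos hs.1 _)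
    exact (Real.log_le_iff_le_exp h1).1 (hs.nf_log_cut hkK)

/-- Passing to a tail: `tail (tail s i) (K' - J) = tail s (K - J)` for `K = i + K'`. -/
theorem Low.of_tail {θ : ℝ} {k K K' s : ℕ} (h : Low θ k K s) (hk : k ≤ K') (hK : K' ≤ K) :
    Low θ k K' (tail s (K - K')) := by
  have e : ∀ J ≤ K', tail (tail s (K - K')) (K' - J) = tail s (K - J) := fun J hJ => by
    rw [tail_tail]
    congr 1
    omega
  refine ⟨tail_pos h.1 _, fun J h1 h2 => ?_, fun J h1 h2 => ?_, ?_⟩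
  · rw [e J h2]
    exact h.2.1 J h1 (h2.trans hK)
  · rw [e J h2]
    exact h.2.2.1 J h1 (h2.trans hK)
  · have e' : K - K' + (K' + 1 - k) = K + 1 - k := by omega
    rw [tail_tail, e']
    exact h.2.2.2

theorem low_one {θ : ℝ} (hθ : 1 < θ) {k : ℕ} (hk : 1 ≤ k) : Low θ k (k - 1) 1 := by
  have h0 : 0 < θ := zero_lt_one.trans hθ
  have h1 : ∀ i, ht 1 i = 0 := fun i => by rw [ht, tail_one, hq_one]
  refine ⟨one_pos, fun J _ _ => ?_, fun J h2 h3 => by omega, ?_⟩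
  · rw [tail_one]
    refine ⟨by rw [h1]; positivity, fun p hp hd => absurd (Nat.dvd_one.1 hd) hp.ne_one,
      fun p hp hd => absurd (Nat.dvd_one.1 ((dvd_pow_self p two_ne_zero).trans hd)) hp.ne_one, ?_⟩
    simp only [slack, h1, mul_zero, sum_const_zero, sub_zero, Left.neg_nonpos_iff]
    positivity
  · rw [tail_one, Nat.totient_one, Om_one, Nat.cast_zero]
    positivity

/-- The top tuple of a nice integer is admissible with lower limits `δ` (partial slacks dominate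
full slacks: `psl_tup`, `psl_tup_zero`, `slack_anti`). -/
theorem Nice.adm (X : Ctx) {B : ℝ} {m k s D : ℕ} (h : Nice X.θ B m k s) (hk : 1 ≤ k)
    (hD : D + k ≤ m) : Adm astd B (X.cpos m 1) D (tup D s) := by
  refine ⟨tup_Tup D s, fun l hl => ?_⟩
  rw [Ctx.cpos, one_mul]
  rcases Nat.eq_zero_or_pos l with rfl | hpos
  · rw [psl_tup_zero, Nat.sub_zero]
    refine h.2.1.trans (sub_le_sub_left ?_ _)
    exact sum_le_sum_of_subset_of_nonneg (Icc_subset_Icc_right (by omega)) fun i hi _ =>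
      mul_nonneg (aCoef_pos (mem_Icc.1 hi).1).le (ht_nonneg _ _)
  · rw [psl_tup B s (mem_Icc.2 ⟨hpos, hl⟩)]
    have h1 := h.1.2.2.1 (m - l) (by omega) (by omega)
    have e : m - 1 - (m - l) = l - 1 := by omega
    rw [e] at h1
    exact h1.trans (slack_anti _ (by omega))

theorem Adm.mono {α : ℕ → ℕ → ℝ} {B : ℝ} {c c' : ℕ → ℝ} {d : ℕ} {τ : ℕ → ℕ} (h : Adm α B c d τ)
    (hc : ∀ l ≤ d, c' l ≤ c l) : Adm α B c' d τ :=
  ⟨h.1, fun l hl => (hc l hl).trans (h.2 l hl)⟩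

/-- `log φ(s) ≤ (m - k) e^{0.9 B} + 10 Y_k e^{Y_k} ≤ e^{0.95 B}` (levels are primes of height
`≤ 0.9 B`; `m ≤ B` for large `m`). -/
theorem nice_size (X : Ctx) {k : ℕ} (hk : 1 ≤ k) : ∀ᶠ m : ℕ in atTop, ∀ t ∈ Set.Icc X.t₁ X.t₂,
    ∀ s, Nice X.θ (X.B m t) m k s →
      Real.log (Nat.totient s) ≤ Real.exp (19 / 20 * X.B m t) := by
  have h0 := X.θ_pos
  set C := 10 * (X.θ ^ k) ^ 11 * Real.exp ((X.θ ^ k) ^ 11) with hC
  have hC0 : 0 ≤ C := by positivity
  obtain ⟨J₀, hJ₀⟩ := X.eventually_pow 0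
  filter_upwards [X.B_bounds, X.eventually_B (eventually_ge_atTop (max 3200 C)),
    eventually_ge_atTop J₀, eventually_ge_atTop (k + 1)] with m hB hB' hm hm' t ht s hs
  set B := X.B m t with hBdef
  have hB1 : 3200 ≤ B := (le_max_left _ _).trans (hB' t ht)
  have hB2 : C ≤ B := (le_max_right _ _).trans (hB' t ht)
  have hmB : (m : ℝ) ≤ B := by
    have a1 : (m : ℝ) ≤ (m : ℝ) ^ 4 := by exact_mod_cast Nat.le_self_pow (by norm_num) m
    have a2 : X.θ ^ m ≤ (X.θ ^ m) ^ 10 := le_self_pow₀ (X.one_le_pow m) (by norm_num)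
    exact a1.trans ((hJ₀ m hm).2.trans (a2.trans (hB t ht).1))
  have hlow := hs.1
  have e : m - 1 + 1 - k = m - k := by omega
  have h1 := hlow.nf_log_cut (by omega)
  rw [e, ← hC] at h1
  have hpos : ∀ i, (0 : ℝ) < Nat.totient (lev s i) := fun i => by
    exact_mod_cast Nat.totient_pos.2 (isPP_lev s i).pos
  have hpos' : (0 : ℝ) < Nat.totient (tail s (m - k)) := by
    exact_mod_cast Nat.totient_pos.2 (tail_pos hlow.1 _)
  have h2 : ∀ i ∈ range (m - k), Real.log (Nat.totient (lev s i)) ≤ Real.exp (9 / 10 * B) := by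
    intro i hi
    have hi' := mem_range.1 hi
    have a1 : (Nat.totient (lev s i) : ℝ) ≤ lev s i := by exact_mod_cast Nat.totient_le _
    refine (Real.log_le_log (hpos i) a1).trans ((log_le_exp_ell _).trans (Real.exp_le_exp.2 ?_))
    rw [(hlow.lev_prime X.θ_gt hk (by omega)).2]
    exact (ht_anti s (Nat.zero_le i)).trans hs.2.2
  rw [totient_eq_prod_lev hlow.1 (m - k)]
  push_cast
  rw [Real.log_mul (prod_pos fun i _ => hpos i).ne' hpos'.ne', Real.log_prod fun i _ => (hpos i).ne']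
  have h3 := sum_le_card_nsmul _ _ _ h2
  rw [card_range, nsmul_eq_mul] at h3
  have h4 : ((m - k : ℕ) : ℝ) ≤ B := le_trans (by exact_mod_cast Nat.sub_le m k) hmB
  have h5 : 1 ≤ Real.exp (9 / 10 * B) := Real.one_le_exp (by linarith)
  have h6 : B + C ≤ Real.exp (B / 20) := by
    have := Real.quadratic_le_exp_of_nonneg (x := B / 20) (by linarith)
    nlinarith
  have h7 : Real.exp (19 / 20 * B) = Real.exp (B / 20) * Real.exp (9 / 10 * B) := by
    rw [← Real.exp_add]; congr 1; ring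
  rw [h7]
  have h8 := mul_le_mul_of_nonneg_right h6 (zero_le_one.trans h5)
  have h9 := mul_le_mul_of_nonneg_right h4 (zero_le_one.trans h5)
  nlinarith

/-- Adjoining a large normal prime to a nice integer gives a collision-nice integer at index `m`:
`ell q ≥ B - log 2 > 0.9 B ≥ ht s 0`, so `gpf s < q` (`top_prime_mul`); `ell q ≤ B + 1` because
`q - 1 ≤ φ(q s) ≤ x`; normality and `NoSq` by monotonicity from index `m - 1`;
`slack m (q s) = ell q - ∑ a_i ht s (i-1) ≥ δ_m - 1`. -/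
theorem nice_top (X : Ctx) {k : ℕ} (hk : 4 ≤ k) : ∀ᶠ m : ℕ in atTop, ∀ t ∈ Set.Icc X.t₁ X.t₂,
    ∀ q s : ℕ, q.Prime → Nice X.θ (X.B m t) m k s → Real.exp (Real.exp (X.B m t) / 2) ≤ q →
      Normal ((X.θ ^ m) ^ 7) q → (((q - 1) * Nat.totient s : ℕ) : ℝ) ≤ EE (X.B m t) →
      gpf s < q ∧ NiceAt (X.θ ^ m) m (q * s) ∧ (X.θ ^ m) ^ 9 / 2 ≤ slack m (q * s) ∧
        X.B m t - 1 ≤ ht (q * s) 0 := by
  have h0 := X.θ_pos
  obtain ⟨J₀, hJ₀⟩ := X.eventually_pow 2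
  filter_upwards [X.B_bounds, X.eventually_B (eventually_gt_atTop 10),
    eventually_ge_atTop J₀, eventually_ge_atTop (k + 1)] with m hB hB' hm hm' t htt q s hq hs hqB hqN hx
  set B := X.B m t with hBdef
  have hB1 : 10 < B := hB' t htt
  have hlow := hs.1
  have hs0 := hlow.1
  have hell : B - 1 ≤ ell q := by
    have a1 : Real.exp B / 2 ≤ Real.log q :=
      (Real.le_log_iff_exp_le (by exact_mod_cast hq.pos)).2 hqB
    have a2 : Real.exp (B - 1) ≤ Real.exp B / 2 := by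
      rw [Real.exp_sub]
      exact div_le_div_of_nonneg_left (Real.exp_pos _).le two_pos
        (by have := Real.add_one_le_exp (1 : ℝ); linarith)
    have a3 : B - 1 ≤ Real.log (Real.log q) :=
      (Real.le_log_iff_exp_le ((Real.exp_pos _).trans_le (a2.trans a1))).2 (a2.trans a1)
    exact a3.trans (le_max_right _ _)
  have hlt : gpf s < q := lt_of_ell_lt (lt_of_le_of_lt hs.2.2 (by linarith))
  obtain ⟨g1, -, g3⟩ := top_prime_mul hq hs0 hlt
  have ht0 : ht (q * s) 0 = ell q := by rw [ht_zero, R20.hq, g1]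
  have hts : ∀ i, ht (q * s) (i + 1) = ht s i := fun i => by rw [R20.ht, tail_succ', g3]; rfl
  have hup : ell q ≤ B + 1 := by
    refine (ell_le_iff (by linarith)).2 ?_
    have a1 : (q : ℝ) - 1 ≤ EE B := by
      refine le_trans ?_ hx
      have : q - 1 ≤ (q - 1) * Nat.totient s := Nat.le_mul_of_pos_right _ (Nat.totient_pos.2 hs0)
      rw [← Nat.cast_pred hq.pos]
      exact_mod_cast this
    have a2 : Real.exp B + 1 ≤ Real.exp (B + 1) := by
      rw [Real.exp_add]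
      have b1 := Real.add_one_le_exp (1 : ℝ)
      have b2 : 1 ≤ Real.exp B := Real.one_le_exp (by linarith)
      nlinarith
    have a3 : EE B + 1 ≤ Real.exp (Real.exp B + 1) := by
      rw [Real.exp_add, EE]
      have b1 := Real.add_one_le_exp (1 : ℝ)
      have b2 : 1 ≤ Real.exp (Real.exp B) := Real.one_le_exp (Real.exp_pos _).le
      nlinarith
    have a4 : Real.exp (Real.exp B + 1) ≤ EE (B + 1) := Real.exp_le_exp.2 a2
    linarith
  have hn := hlow.niceAt X.θ_gt hk (J := m - 1) (by omega) le_rfl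
  rw [Nat.sub_self, tail_zero] at hn
  have hE : (X.θ ^ (m - 1)) ^ 7 ≤ (X.θ ^ m) ^ 7 :=
    pow_le_pow_left₀ (by positivity) (pow_le_pow_right₀ X.θ_gt.le (Nat.sub_le _ _)) 7
  refine ⟨hlt, ⟨Nat.mul_pos hq.pos hs0, ?_, fun p hp hd => ?_, fun p hp hd => ?_, ?_⟩, ?_, ?_⟩
  · rw [ht0]
    have := (hB t htt).2
    linarith
  · rcases (Nat.Prime.dvd_mul hp).1 hd with h | h
    · rw [(Nat.prime_dvd_prime_iff_eq hp hq).1 h]
      exact hqN
    · exact (hn.2.2.1 p hp h).mono hE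
  · by_cases hpq : p = q
    · subst hpq
      rw [sq] at hd
      exact absurd (le_gpf hs0 hp (Nat.dvd_of_mul_dvd_mul_left hp.pos hd)) (not_le.2 hlt)
    · have hc : Nat.Coprime (p ^ 2) q := ((Nat.coprime_primes hp hq).2 hpq).pow_left 2
      exact (hn.2.2.2.1 p hp (hc.dvd_of_dvd_mul_left hd)).trans hE
  · rw [hts]
    have := hn.2.2.2.2
    rw [Nat.sub_add_cancel (by omega)] at this
    exact this.trans hE
  · have e : ∑ i ∈ Icc 1 m, aCoef i * R20.ht (q * s) i =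
        ∑ i ∈ Icc 1 m, aCoef i * R20.ht s (i - 1) := by
      refine sum_congr rfl fun i hi => ?_
      rw [← hts, Nat.sub_add_cancel (mem_Icc.1 hi).1]
    rw [slack, ht0, e]
    have a1 := hs.2.1
    have a2 : 2 ≤ (X.θ ^ m) ^ 9 := (hJ₀ m hm).1.trans (le_self_pow₀ (X.one_le_pow m) (by norm_num))
    linarith
  · rw [ht0]
    exact hell

end Crest.Agent.R20
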