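import Crest.Agent.R20.Sieve

/-!
# R20: the sieve in a window, and the two weights used in the collision lemma
-/

set_option autoImplicit false

open Finset Filter Topology

noncomputable section

namespace Crest.Agent.R20

private theorem exp_le_log_of_win {π n : ℕ} (hπ : π.Prime) (hn : win π = n) :
    Real.exp ((n : ℝ) - 1) ≤ Real.log π := by
  have h2 : (2 : ℝ) ≤ π := by exact_mod_cast hπ.two_le
  rcases Nat.eq_zero_or_pos n with rfl | hpos
  · have h1 : Real.log 2 ≤ Real.log π := Real.log_le_log (by norm_num) h2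
    have h3 := Real.log_two_gt_d9
    have h4 : Real.exp (-1) ≤ 1 / 2 := by
      rw [Real.exp_neg, one_div]
      refine inv_anti₀ (by norm_num) ?_
      have := Real.add_one_le_exp 1
      linarith
    simp only [Nat.cast_zero, zero_sub]
    linarith
  · obtain ⟨m, rfl⟩ : ∃ m, n = m + 1 := ⟨n - 1, by omega⟩
    have h1 : (m : ℝ) < ell π := lt_win_iff.1 (by omega)
    have h3 := (lt_ell_iff (Nat.cast_nonneg m)).1 h1
    have h4 := Real.log_le_log (EE_pos _) h3.le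
    rw [log_EE] at h4
    push_cast
    rwa [add_sub_cancel_right]

private theorem le_EE_of_win {π n : ℕ} (hn : win π = n) : (π : ℝ) ≤ EE n :=
  (ell_le_iff (Nat.cast_nonneg n)).1 (win_le_iff.1 hn.le)

private theorem growth (C : ℝ) (hC : 0 ≤ C) {U : ℝ} (hU : C + 81 ≤ U) :
    C * (U ^ 11 + 1) ^ 6 * Real.exp (2 * U ^ 7 + 7) ≤ Real.exp (U ^ 8) := by
  have hU1 : 1 ≤ U := by linarith
  have h1 : U + 1 ≤ Real.exp U := Real.add_one_le_exp U
  have h2 : U ^ 11 ≤ Real.exp U ^ 11 := pow_le_pow_left₀ (by linarith) (by linarith) _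
  have h3 : 1 ≤ Real.exp U ^ 11 := one_le_pow₀ (by linarith)
  have h4 : U ^ 11 + 1 ≤ Real.exp U ^ 12 := by
    rw [pow_succ (Real.exp U) 11]
    nlinarith
  have h5 : (U ^ 11 + 1) ^ 6 ≤ Real.exp (72 * U) := by
    calc (U ^ 11 + 1) ^ 6 ≤ (Real.exp U ^ 12) ^ 6 := pow_le_pow_left₀ (by positivity) h4 _
      _ = Real.exp (72 * U) := by
        rw [← pow_mul, ← Real.exp_nat_mul]; norm_num
  have h6 : C ≤ Real.exp C := by
    have := Real.add_one_le_exp C
    linarith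
  have h7 : 1 ≤ U ^ 7 := one_le_pow₀ hU1
  have h8 : U ≤ U ^ 7 := le_self_pow₀ hU1 (by norm_num)
  calc C * (U ^ 11 + 1) ^ 6 * Real.exp (2 * U ^ 7 + 7)
      ≤ Real.exp C * Real.exp (72 * U) * Real.exp (2 * U ^ 7 + 7) := by gcongr
    _ = Real.exp (C + 72 * U + (2 * U ^ 7 + 7)) := by rw [← Real.exp_add, ← Real.exp_add]
    _ ≤ Real.exp (U ^ 8) := by
      refine Real.exp_le_exp.2 ?_
      rw [pow_succ U 7]
      nlinarith

/-- Dyadic decomposition. For `n = 0` the set is inside `{2}`. For `n ≥ 1` cover the window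
`EE (n-1) < π ≤ EE n` by the blocks `2^i < π ≤ 2^{i+1}`, `i < exp n / log 2`; in a non-empty block
apply `sieve_count` with `N = min (2^{i+1}) (EE n) ≥ π > EE (n-1)`, so `log N ≥ exp (n-1)`, and
`1/π ≤ 2^{-i}`. -/
theorem sieve_rec : ∃ C : ℝ, 1 ≤ C ∧ ∀ Y : ℝ, 1 ≤ Y → ∀ n : ℕ, (n : ℝ) ≤ Y →
    ∀ 𝒜 : Finset ℕ, 𝒜.card ≤ 2 → (∀ a ∈ 𝒜, 0 < a ∧ (a : ℝ) ≤ EE Y) →
    RecBd {π : ℕ | π.Prime ∧ win π = n ∧ ∀ a ∈ 𝒜, (a * π + 1).Prime}
      (C * Y ^ 6 * Real.exp (-((𝒜.card : ℝ) * n))) := by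
  obtain ⟨C, hC, h⟩ := sieve_count
  have he3 : 1 ≤ Real.exp 3 := Real.one_le_exp (by norm_num)
  refine ⟨6 * Real.exp 3 * C, by nlinarith, fun Y hY n hn 𝒜 hc h𝒜 => ?_⟩
  have hE := Real.exp_pos ((n : ℝ) - 1)
  set β : ℝ := 2 * C * Y ^ 6 / Real.exp ((n : ℝ) - 1) ^ (1 + 𝒜.card) with hβ
  have hβ0 : 0 ≤ β := by positivity
  have hblock : ∀ i : ℕ, SumBd {π : ℕ | (π.Prime ∧ win π = n ∧ ∀ a ∈ 𝒜, (a * π + 1).Prime) ∧
      Nat.log 2 π = i} (fun w => 1 / (w : ℝ)) β := by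
    intro i
    rcases Set.eq_empty_or_nonempty {π : ℕ | (π.Prime ∧ win π = n ∧
      ∀ a ∈ 𝒜, (a * π + 1).Prime) ∧ Nat.log 2 π = i} with he | ⟨π₀, hπ₀⟩
    · rw [he]; exact SumBd.empty _ hβ0
    set N : ℝ := min (2 ^ (i + 1)) (EE n) with hN
    have hle : ∀ π : ℕ, win π = n → Nat.log 2 π = i → (π : ℝ) ≤ N := by
      intro π h1 h2
      refine le_min ?_ (le_EE_of_win h1)
      have := Nat.lt_pow_succ_log_self (b := 2) (by norm_num) π
      rw [h2] at this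
      exact_mod_cast this.le
    have h2 : (2 : ℝ) ≤ π₀ := by exact_mod_cast hπ₀.1.1.two_le
    have h3 := hle π₀ hπ₀.1.2.1 hπ₀.2
    have h4 : Real.exp ((n : ℝ) - 1) ≤ Real.log N :=
      (exp_le_log_of_win hπ₀.1.1 hπ₀.1.2.1).trans (Real.log_le_log (by linarith) h3)
    have h5 := (h Y hY N (h2.trans h3) ((min_le_right _ _).trans (EE_mono hn)) 𝒜 hc h𝒜).mono_set
      (A' := {π : ℕ | (π.Prime ∧ win π = n ∧ ∀ a ∈ 𝒜, (a * π + 1).Prime) ∧ Nat.log 2 π = i})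
      fun π hπ => ⟨hπ.1.1, hle π hπ.1.2.1 hπ.2, hπ.1.2.2⟩
    refine (CntBd.mul h5 (M := 1 / 2 ^ i) (by positivity) fun π hπ => ?_).mono_bd ?_
    · refine one_div_le_one_div_of_le (by positivity) ?_
      have := Nat.pow_log_le_self 2 hπ.1.1.ne_zero
      rw [hπ.2] at this
      exact_mod_cast this
    · have hN2 : N ≤ 2 ^ (i + 1) := min_le_left _ _
      calc C * Y ^ 6 * N / Real.log N ^ (1 + 𝒜.card) * (1 / 2 ^ i)
          ≤ C * Y ^ 6 * 2 ^ (i + 1) / Real.exp ((n : ℝ) - 1) ^ (1 + 𝒜.card) * (1 / 2 ^ i) := by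
            gcongr
        _ = β := by rw [hβ]; field_simp; ring
  have hEn : 1 ≤ Real.exp n := Real.one_le_exp (Nat.cast_nonneg n)
  refine (SumBd.of_cover (range (⌊2 * Real.exp n⌋₊ + 1)) (fun i _ => hblock i)
    fun π hπ => ⟨Nat.log 2 π, ?_, hπ, rfl⟩).mono_bd ?_
  · rw [mem_range, Nat.lt_succ_iff]
    refine Nat.le_floor ?_
    have h1 : ((2 ^ Nat.log 2 π : ℕ) : ℝ) ≤ π := by
      exact_mod_cast Nat.pow_log_le_self 2 hπ.1.ne_zero
    have h2 := Real.log_le_log (by positivity) (h1.trans (le_EE_of_win hπ.2.1))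
    rw [log_EE] at h2
    push_cast at h2
    rw [Real.log_pow] at h2
    have h3 := Real.log_two_gt_d9
    have h4 : (0 : ℝ) ≤ Nat.log 2 π := Nat.cast_nonneg _
    nlinarith
  · rw [sum_const, card_range, nsmul_eq_mul]
    have h1 : ((⌊2 * Real.exp n⌋₊ + 1 : ℕ) : ℝ) ≤ 3 * Real.exp n := by
      have := Nat.floor_le (a := 2 * Real.exp n) (by positivity)
      push_cast
      linarith
    have hc' : (𝒜.card : ℝ) ≤ 2 := by exact_mod_cast hc
    have h2 : Real.exp n / Real.exp ((n : ℝ) - 1) ^ (1 + 𝒜.card) ≤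
        Real.exp 3 * Real.exp (-((𝒜.card : ℝ) * n)) := by
      rw [← Real.exp_nat_mul, ← Real.exp_sub, ← Real.exp_add]
      refine Real.exp_le_exp.2 ?_
      push_cast
      linarith
    calc ((⌊2 * Real.exp n⌋₊ + 1 : ℕ) : ℝ) * β ≤ 3 * Real.exp n * β := by gcongr
      _ = 6 * C * Y ^ 6 * (Real.exp n / Real.exp ((n : ℝ) - 1) ^ (1 + 𝒜.card)) := by
        rw [hβ]; ring
      _ ≤ 6 * C * Y ^ 6 * (Real.exp 3 * Real.exp (-((𝒜.card : ℝ) * n))) := by gcongr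
      _ = _ := by ring

/-- Hypotheses on the weight `ν` in the collision lemma. -/
structure NuOK (ν : ℕ → ℝ) (Y Λ H : ℝ) : Prop where
  nonneg : ∀ w, 0 ≤ ν w
  le : ∀ w : ℕ, 0 < w → ν w ≤ Real.exp Y / w
  sieve : ∀ n : ℕ, H ≤ n → (n : ℝ) ≤ Y + 1 → ∀ v a a' : ℕ, 0 < v → 0 < a → 0 < a' → a ≠ a' →
    (a : ℝ) ≤ EE Y → (a' : ℝ) ≤ EE Y →
    SumBd {π : ℕ | π.Prime ∧ win π = n ∧ (a * π + 1).Prime ∧ (a' * π + 1).Prime}
      (fun π => ν (π * v)) (Λ * Real.exp (-(2 * (n : ℝ))) / v)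

/-- The reciprocal weight (`sieve_rec` with `Y + 1`, `𝒜 = {a, a'}`; `C (U^11+1)^6 ≤ exp (U^8)`). -/
theorem nuOK_rec : ∃ U₀ : ℝ, ∀ U : ℝ, U₀ ≤ U → ∀ H : ℝ,
    NuOK (fun w => 1 / (w : ℝ)) (U ^ 11) (Real.exp (U ^ 8)) H := by
  obtain ⟨C, hC, h⟩ := sieve_rec
  refine ⟨C + 81, fun U hU H => ?_⟩
  have hU1 : 1 ≤ U := by linarith
  have hY : 1 ≤ U ^ 11 := one_le_pow₀ hU1
  refine ⟨fun w => by positivity, fun w _ => ?_, fun n _ hn v a a' hv ha ha' hne h1 h2 => ?_⟩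
  · exact div_le_div_of_nonneg_right (Real.one_le_exp (by linarith)) (Nat.cast_nonneg _)
  · have hm : EE (U ^ 11) ≤ EE (U ^ 11 + 1) := EE_mono (by linarith)
    have hcard : ({a, a'} : Finset ℕ).card = 2 := card_pair hne
    have h3 := h (U ^ 11 + 1) (by linarith) n hn {a, a'} hcard.le (by
      intro b hb
      rcases mem_insert.1 hb with rfl | hb
      · exact ⟨ha, h1.trans hm⟩
      · rw [mem_singleton.1 hb]; exact ⟨ha', h2.trans hm⟩)
    have hv' : (0 : ℝ) < v := by exact_mod_cast hv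
    have h4 := ((h3.mul_const (c := 1 / (v : ℝ)) (by positivity)).mono_set
      (A' := {π : ℕ | π.Prime ∧ win π = n ∧ (a * π + 1).Prime ∧ (a' * π + 1).Prime})
      fun π hπ => ⟨hπ.1, hπ.2.1, by simpa using hπ.2.2⟩).mono_fun
      (f' := fun π => 1 / ((π * v : ℕ) : ℝ)) fun π _ => by
        push_cast
        rw [one_div_mul_one_div]
    refine h4.mono_bd ?_
    have h5 := growth C (by linarith) hU
    have h6 : 1 ≤ Real.exp (2 * U ^ 7 + 7) := Real.one_le_exp (by positivity)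
    have h7 : C * (U ^ 11 + 1) ^ 6 ≤ Real.exp (U ^ 8) :=
      (le_mul_of_one_le_right (by positivity) h6).trans h5
    rw [hcard, mul_one_div]
    push_cast
    gcongr

/-- The counting weight `1[w ≤ x] log x / x`, `x = EE B`.  `le`: `log x / x ≤ e^B / w` for `w ≤ x`.
`sieve`: here `n ≥ B - 2U^7 - 4 ≥ 1`; if some `π` in the window has `π v ≤ x` then
`N = x/v ≥ π > EE (n-1)`, `N ≤ x ≤ EE (U^11)`, and `sieve_count` bounds the number of such `π` by
`C Y^6 (x/v) e^{-3(n-1)}`; multiply by `e^B/x` and use `e^{B-n+3} C Y^6 ≤ exp (U^8)`. -/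
theorem nuOK_count : ∃ U₀ : ℝ, ∀ U : ℝ, U₀ ≤ U → ∀ B : ℝ, U ^ 10 ≤ B → B ≤ U ^ 11 - 1 →
    NuOK (fun w => if (w : ℝ) ≤ EE B then Real.exp B / EE B else 0) (U ^ 11) (Real.exp (U ^ 8))
      (B - 1 - 2 * U ^ 7 - 3) := by
  obtain ⟨C, hC, h⟩ := sieve_count
  refine ⟨C + 81, fun U hU B _ hB => ?_⟩
  have hU1 : 1 ≤ U := by linarith
  have hY : 1 ≤ U ^ 11 := one_le_pow₀ hU1
  have hx := EE_pos B
  refine ⟨fun w => ?_, fun w hw => ?_, fun n hH _ v a a' hv ha ha' hne h1 h2 => ?_⟩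
  · split_ifs
    · positivity
    · exact le_rfl
  · have hw' : (0 : ℝ) < w := by exact_mod_cast hw
    split_ifs with hwx
    · exact div_le_div₀ (Real.exp_pos _).le (Real.exp_le_exp.2 (by linarith)) hw' hwx
    · positivity
  · have hv' : (0 : ℝ) < v := by exact_mod_cast hv
    have hv1 : (1 : ℝ) ≤ v := by exact_mod_cast hv
    have hcard : ({a, a'} : Finset ℕ).card = 2 := card_pair hne
    have h0 : SumBd {π : ℕ | ¬ ((π * v : ℕ) : ℝ) ≤ EE B}
        (fun π => if ((π * v : ℕ) : ℝ) ≤ EE B then Real.exp B / EE B else 0) 0 :=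
      fun S hS => (sum_eq_zero fun π hπ => if_neg (hS hπ)).le
    have hmain : SumBd {π : ℕ | (π.Prime ∧ win π = n ∧ (a * π + 1).Prime ∧ (a' * π + 1).Prime) ∧
        ((π * v : ℕ) : ℝ) ≤ EE B}
        (fun π => if ((π * v : ℕ) : ℝ) ≤ EE B then Real.exp B / EE B else 0)
        (Real.exp (U ^ 8) * Real.exp (-(2 * (n : ℝ))) / v) := by
      rcases Set.eq_empty_or_nonempty {π : ℕ | (π.Prime ∧ win π = n ∧ (a * π + 1).Prime ∧
        (a' * π + 1).Prime) ∧ ((π * v : ℕ) : ℝ) ≤ EE B} with he | ⟨π₀, hπ₀⟩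
      · rw [he]; exact SumBd.empty _ (by positivity)
      set N : ℝ := EE B / v with hN
      have hle : ∀ π : ℕ, ((π * v : ℕ) : ℝ) ≤ EE B → (π : ℝ) ≤ N := by
        intro π hπ
        rw [hN, le_div_iff₀ hv']
        exact_mod_cast hπ
      have h3 : (2 : ℝ) ≤ π₀ := by exact_mod_cast hπ₀.1.1.two_le
      have h4 := hle π₀ hπ₀.2
      have h5 : Real.exp ((n : ℝ) - 1) ≤ Real.log N :=
        (exp_le_log_of_win hπ₀.1.1 hπ₀.1.2.1).trans (Real.log_le_log (by linarith) h4)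
      have h6 : N ≤ EE (U ^ 11) := (div_le_self hx.le hv1).trans (EE_mono (by linarith))
      have h7 := (h (U ^ 11) hY N (h3.trans h4) h6 {a, a'} hcard.le (by
        intro b hb
        rcases mem_insert.1 hb with rfl | hb
        · exact ⟨ha, h1⟩
        · rw [mem_singleton.1 hb]; exact ⟨ha', h2⟩)).mono_set
        (A' := {π : ℕ | (π.Prime ∧ win π = n ∧ (a * π + 1).Prime ∧ (a' * π + 1).Prime) ∧
          ((π * v : ℕ) : ℝ) ≤ EE B})
        fun π hπ => ⟨hπ.1.1, hle π hπ.2, by simpa using hπ.1.2.2⟩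
      refine (CntBd.mul h7 (M := Real.exp B / EE B) (by positivity)
        fun π hπ => (if_pos hπ.2).le).mono_bd ?_
      have hE := Real.exp_pos ((n : ℝ) - 1)
      have h8 : Real.exp B / Real.exp ((n : ℝ) - 1) ^ 3 ≤
          Real.exp (2 * U ^ 7 + 7) * Real.exp (-(2 * (n : ℝ))) := by
        rw [← Real.exp_nat_mul, ← Real.exp_sub, ← Real.exp_add]
        refine Real.exp_le_exp.2 ?_
        push_cast
        linarith
      have h9 := growth C (by linarith) hU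
      rw [hcard]
      calc C * (U ^ 11) ^ 6 * N / Real.log N ^ (1 + 2) * (Real.exp B / EE B)
          ≤ C * (U ^ 11 + 1) ^ 6 * N / Real.exp ((n : ℝ) - 1) ^ (1 + 2) * (Real.exp B / EE B) := by
            gcongr
            linarith
        _ = C * (U ^ 11 + 1) ^ 6 * (Real.exp B / Real.exp ((n : ℝ) - 1) ^ 3) / v := by
            rw [hN]; field_simp
        _ ≤ C * (U ^ 11 + 1) ^ 6 * (Real.exp (2 * U ^ 7 + 7) * Real.exp (-(2 * (n : ℝ)))) / v := by
            gcongr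
        _ ≤ _ := by
            rw [← mul_assoc]
            gcongr
    have := (hmain.union h0).mono_set
      (A' := {π : ℕ | π.Prime ∧ win π = n ∧ (a * π + 1).Prime ∧ (a' * π + 1).Prime})
      fun π hπ => by
        by_cases hh : ((π * v : ℕ) : ℝ) ≤ EE B
        · exact Or.inl ⟨hπ, hh⟩
        · exact Or.inr hh
    rwa [add_zero] at this

end Crest.Agent.R20
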