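import Crest.Agent.R20.Step

/-!
# R20: sums over prime tuples in a simplex

All three main lemmas are proved by induction on the depth `d`, with the lower limits `c`
universally quantified, peeling off the LAST coordinate `Q = τ (d+1)`: if `Adm α B c (d+1) τ` then
`c (d+1) ≤ hq Q` and `Adm α B c' d (update τ (d+1) 1)` with `c' l = c l + α l (d+1) * hq Q`, and
`∑_{l ≤ d} gt l * c' l = ∑_{l ≤ d} gt l * c l + (∑_{l ≤ d} gt l * α l (d+1)) * hq Q`.
Use `SumBd.fiber` along `τ ↦ τ (d+1)` and `SumBd.of_injOn` along `τ ↦ update τ (d+1) 1`.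
-/

set_option autoImplicit false

open Finset Filter Topology

noncomputable section

namespace Crest.Agent.R20

private lemma wt_update (d : ℕ) (σ : ℕ → ℕ) (Q : ℕ) :
    wt (d + 1) (Function.update σ (d + 1) Q) = wq Q * wt d σ := by
  unfold wt
  rw [prod_Icc_succ_top (by omega), Function.update_self, mul_comm]
  congr 1
  refine prod_congr rfl fun l hl => ?_
  rw [Function.update_of_ne (by have := (mem_Icc.1 hl).2; omega)]

private lemma psl_update (α : ℕ → ℕ → ℝ) (B : ℝ) (d : ℕ) (σ : ℕ → ℕ) (Q : ℕ) {l : ℕ}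
    (hl : l ≤ d) :
    psl α B (d + 1) (Function.update σ (d + 1) Q) l = psl α B d σ l - α l (d + 1) * hq Q := by
  unfold psl
  rw [sum_Ioc_succ_top hl, Function.update_self]
  have h1 : yv B (Function.update σ (d + 1) Q) l = yv B σ l := by
    unfold yv
    rw [Function.update_of_ne (by omega)]
  have h2 : ∑ l' ∈ Ioc l d, α l l' * hq (Function.update σ (d + 1) Q l') =
      ∑ l' ∈ Ioc l d, α l l' * hq (σ l') := sum_congr rfl fun l' hl' => by
    rw [Function.update_of_ne (by have := (mem_Ioc.1 hl').2; omega)]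
  rw [h1, h2]
  ring

private lemma psl_top (α : ℕ → ℕ → ℝ) (B : ℝ) (d : ℕ) (τ : ℕ → ℕ) :
    psl α B (d + 1) τ (d + 1) = hq (τ (d + 1)) := by
  simp [psl, yv]

private lemma adm_update (α : ℕ → ℕ → ℝ) (B : ℝ) (c : ℕ → ℝ) (d : ℕ) {σ : ℕ → ℕ} (Q : ℕ)
    (hσ : σ (d + 1) = 1) :
    Adm α B c (d + 1) (Function.update σ (d + 1) Q) ↔
      IsPP Q ∧ c (d + 1) ≤ hq Q ∧ Adm α B (fun l => c l + α l (d + 1) * hq Q) d σ := by
  constructor
  · rintro ⟨⟨h1, h2⟩, h3⟩
    refine ⟨by simpa using h2 (d + 1) (by simp), by simpa [psl_top] using h3 (d + 1) le_rfl,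
      ⟨fun l hl => ?_, fun l hl => ?_⟩, fun l hl => ?_⟩
    · by_cases h : l = d + 1
      · rw [h, hσ]
      · have := h1 l (by simp only [mem_Icc] at hl ⊢; omega)
        rwa [Function.update_of_ne h] at this
    · have := h2 l (by simp only [mem_Icc] at hl ⊢; omega)
      rwa [Function.update_of_ne (by have := (mem_Icc.1 hl).2; omega)] at this
    · have := h3 l (by omega)
      rw [psl_update α B d σ Q hl] at this
      linarith
  · rintro ⟨h1, h2, ⟨h3, h4⟩, h5⟩
    refine ⟨⟨fun l hl => ?_, fun l hl => ?_⟩, fun l hl => ?_⟩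
    · have h : l ≠ d + 1 := fun h => hl (by simp [h])
      rw [Function.update_of_ne h]
      exact h3 l (by simp only [mem_Icc] at hl ⊢; omega)
    · by_cases h : l = d + 1
      · rw [h, Function.update_self]; exact h1
      · rw [Function.update_of_ne h]
        exact h4 l (by simp only [mem_Icc] at hl ⊢; omega)
    · by_cases h : l = d + 1
      · rw [h, psl_top, Function.update_self]; exact h2
      · rw [psl_update α B d σ Q (by omega)]
        have := h5 l (by omega)
        linarith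

private lemma peel (α : ℕ → ℕ → ℝ) (B : ℝ) (c : ℕ → ℝ) (d : ℕ) (F : (ℕ → ℕ) → Prop)
    (P : ℕ → Prop) (hP : ∀ τ, Adm α B c (d + 1) τ → F τ → P (τ (d + 1))) (G : ℕ → ℝ) {β : ℝ}
    (hin : ∀ Q, IsPP Q → c (d + 1) ≤ hq Q →
      SumBd {σ | Adm α B (fun l => c l + α l (d + 1) * hq Q) d σ ∧
        F (Function.update σ (d + 1) Q)} (wt d) (G Q))
    (hout : SumBd {Q | IsPP Q ∧ c (d + 1) ≤ hq Q ∧ P Q} (fun Q => wq Q * G Q) β) :
    SumBd {τ | Adm α B c (d + 1) τ ∧ F τ} (wt (d + 1)) β := by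
  have key : ∀ τ : ℕ → ℕ,
      Function.update (Function.update τ (d + 1) 1) (d + 1) (τ (d + 1)) = τ := by
    intro τ; simp
  refine SumBd.fiber (fun τ => τ (d + 1)) (fun τ hτ => ?_) (fun Q hQ => ?_) hout
  · have h := hτ.1
    rw [← key τ, adm_update α B c d _ (by simp)] at h
    exact ⟨h.1, h.2.1, hP τ hτ.1 hτ.2⟩
  · refine ((hin Q hQ.1 hQ.2.1).const_mul (wq_nonneg Q)).of_injOn
      (fun τ => Function.update τ (d + 1) 1) ?_ ?_
    · rintro τ ⟨-, h⟩ τ' ⟨-, h'⟩ he
      simp only at h h' he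
      rw [← key τ, ← key τ', he, h, h']
    · rintro τ ⟨⟨h1, h2⟩, h3⟩
      subst h3
      refine ⟨⟨?_, by rwa [key]⟩, ?_⟩
      · rw [← key τ, adm_update α B c d _ (by simp)] at h1
        exact h1.2.2
      · rw [← wt_update, key]

private lemma shift_eq (α : ℕ → ℕ → ℝ) (gt c : ℕ → ℝ) (d : ℕ) (y : ℝ) :
    ∑ l ∈ range (d + 1), gt l * (c l + α l (d + 1) * y) =
      ∑ l ∈ range (d + 1), gt l * c l + (∑ l ∈ range (d + 1), gt l * α l (d + 1)) * y := by
  rw [sum_mul, ← sum_add_distrib]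
  exact sum_congr rfl fun l _ => by ring

private lemma Icc_sub {d : ℕ} {l : ℕ} (hl : l ∈ Icc 1 d) : l ∈ Icc 1 (d + 1) := by
  simp only [mem_Icc] at hl ⊢; omega

theorem simplex_upper (α : ℕ → ℕ → ℝ) (B : ℝ) (gt : ℕ → ℝ) (d : ℕ) (h0 : gt 0 = 1)
    (hpos : ∀ l ∈ Icc 1 d, 0 < gt l)
    (hrec : ∀ l ∈ Icc 1 d, gt l ≤ ∑ s ∈ range l, gt s * α s l) (c : ℕ → ℝ) :
    SumBd {τ | Adm α B c d τ} (wt d)
      (pp (B - ∑ l ∈ range (d + 1), gt l * c l + eta * ∑ l ∈ Icc 1 d, gt l) d /
        ((d.factorial : ℝ) * ∏ l ∈ Icc 1 d, gt l)) := by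
  induction d generalizing c with
  | zero =>
    refine SumBd.of_subsingleton (fun τ hτ τ' hτ' => funext fun l => ?_)
      (div_nonneg (pp_nonneg _ _) (by simp)) fun τ hτ => ?_
    · rw [hτ.1.1 l (by simp), hτ'.1.1 l (by simp)]
    · have := hτ.2 0 le_rfl
      simp only [psl, yv, if_true, Ioc_self, sum_empty, sub_zero] at this
      rw [pp_of_nonneg (by simp [h0, this])]
      simp [wt]
  | succ d ih =>
    have hg := hpos (d + 1) (by simp)
    have hD : 0 < (d.factorial : ℝ) * ∏ l ∈ Icc 1 d, gt l :=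
      mul_pos (by positivity) (prod_pos fun l hl => hpos l (Icc_sub hl))
    set A := B - ∑ l ∈ range (d + 1), gt l * c l + eta * ∑ l ∈ Icc 1 d, gt l with hA
    have := peel α B c d (fun _ => True) (fun _ => True) (fun _ _ _ => trivial)
      (fun Q => pp (A - gt (d + 1) * hq Q) d / ((d.factorial : ℝ) * ∏ l ∈ Icc 1 d, gt l))
      (β := pp (A - gt (d + 1) * (c (d + 1) - eta)) (d + 1) / (gt (d + 1) * (d + 1)) *
        ((d.factorial : ℝ) * ∏ l ∈ Icc 1 d, gt l)⁻¹) (fun Q _ _ => ?_) ?_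
    · refine (this.mono_set fun τ hτ => ⟨hτ, trivial⟩).mono_bd (le_of_eq ?_)
      rw [sum_range_succ _ (d + 1), sum_Icc_succ_top (by omega), prod_Icc_succ_top (by omega),
        Nat.factorial_succ]
      have e : A - gt (d + 1) * (c (d + 1) - eta) = B - (∑ l ∈ range (d + 1), gt l * c l +
          gt (d + 1) * c (d + 1)) + eta * (∑ l ∈ Icc 1 d, gt l + gt (d + 1)) := by
        rw [hA]; ring
      rw [e]
      push_cast
      field_simp
    · refine ((ih (fun l hl => hpos l (Icc_sub hl)) (fun l hl => hrec l (Icc_sub hl)) _).mono_set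
        fun σ hσ => hσ.1).mono_bd (div_le_div_of_nonneg_right (pp_mono _ ?_) hD.le)
      rw [shift_eq, hA]
      have := mul_le_mul_of_nonneg_right (hrec (d + 1) (by simp)) (hq_nonneg Q)
      linarith
    · refine (((step_upper hg A (c (d + 1)) d).mul_const (inv_nonneg.2 hD.le)).mono_set
        fun Q hQ => ⟨hQ.1, hQ.2.1⟩).mono_fun fun Q _ => le_of_eq ?_
      ring

/-- One flagged level `j`, where the entry is confined to a set of weight `≤ h` depending only on
the lower entries.  Induct on `d ≥ j`: for `d = j` bound the inner sum by `simplex_upper` and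
`pp (A - gt j * hq Q) (j-1) ≤ pp (A - gt j * (c j - η)) (j-1)`; for `d + 1 > j` replace `F` by
`σ ↦ F (update σ (d+1) Q)` and use `step_upper` with exponent `d - 1`. -/
theorem simplex_flag (α : ℕ → ℕ → ℝ) (B : ℝ) (gt : ℕ → ℝ) (d : ℕ) (h0 : gt 0 = 1)
    (hpos : ∀ l ∈ Icc 1 d, 0 < gt l)
    (hrec : ∀ l ∈ Icc 1 d, gt l ≤ ∑ s ∈ range l, gt s * α s l) (c : ℕ → ℝ)
    {j : ℕ} (hj : j ∈ Icc 1 d) (F : (ℕ → ℕ) → Prop)
    (hdep : ∀ τ τ' : ℕ → ℕ, (∀ l, j ≤ l → τ l = τ' l) → F τ → F τ') {h : ℝ}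
    (hF : ∀ τ : ℕ → ℕ, SumBd {Q : ℕ | IsPP Q ∧ F (Function.update τ j Q)} wq h) :
    SumBd {τ | Adm α B c d τ ∧ F τ} (wt d)
      (h * pp (B - ∑ l ∈ range (d + 1), gt l * c l + eta * ∑ l ∈ Icc 1 d, gt l) (d - 1) /
        (((d - 1).factorial : ℝ) * ∏ l ∈ (Icc 1 d).erase j, gt l)) := by
  have hh : 0 ≤ h := (hF fun _ => 1).nonneg
  have hη : 0 ≤ eta := zero_le_one.trans one_le_eta
  induction d generalizing c F with
  | zero => simp at hj
  | succ d ih =>
    have hg := hpos (d + 1) (by simp)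
    set A := B - ∑ l ∈ range (d + 1), gt l * c l + eta * ∑ l ∈ Icc 1 d, gt l with hA
    have e : A - gt (d + 1) * (c (d + 1) - eta) = B - ∑ l ∈ range (d + 1 + 1), gt l * c l +
        eta * ∑ l ∈ Icc 1 (d + 1), gt l := by
      rw [hA, sum_range_succ _ (d + 1), sum_Icc_succ_top (by omega)]; ring
    have hsh : ∀ Q : ℕ, B - ∑ l ∈ range (d + 1), gt l * (c l + α l (d + 1) * hq Q) +
        eta * ∑ l ∈ Icc 1 d, gt l ≤ A - gt (d + 1) * hq Q := by
      intro Q
      rw [shift_eq, hA]
      have := mul_le_mul_of_nonneg_right (hrec (d + 1) (by simp)) (hq_nonneg Q)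
      linarith
    rw [← e]
    by_cases hjd : j = d + 1
    · subst hjd
      have hD : 0 < (d.factorial : ℝ) * ∏ l ∈ Icc 1 d, gt l :=
        mul_pos (by positivity) (prod_pos fun l hl => hpos l (Icc_sub hl))
      have hI : (Icc 1 (d + 1)).erase (d + 1) = Icc 1 d := by
        ext l; simp only [mem_erase, mem_Icc]; omega
      rw [hI, Nat.add_sub_cancel, mul_div_assoc]
      refine peel α B c d F (fun Q => F (Function.update (fun _ => 1) (d + 1) Q))
        (fun τ hτ hFτ => hdep _ _ (fun l hl => ?_) hFτ)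
        (fun _ => pp (A - gt (d + 1) * (c (d + 1) - eta)) d /
          ((d.factorial : ℝ) * ∏ l ∈ Icc 1 d, gt l)) (fun Q _ hQ => ?_) ?_
      · by_cases h' : l = d + 1
        · rw [h', Function.update_self]
        · rw [Function.update_of_ne h']
          exact hτ.1.1 l (by simp only [mem_Icc]; omega)
      · refine ((simplex_upper α B gt d h0 (fun l hl => hpos l (Icc_sub hl))
          (fun l hl => hrec l (Icc_sub hl)) _).mono_set
          fun σ hσ => hσ.1).mono_bd (div_le_div_of_nonneg_right (pp_mono _ ?_) hD.le)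
        refine (hsh Q).trans ?_
        have := mul_le_mul_of_nonneg_left (show c (d + 1) - eta ≤ hq Q by linarith) hg.le
        linarith
      · exact ((hF fun _ => 1).mul_const (div_nonneg (pp_nonneg _ _) hD.le)).mono_set
          fun Q hQ => ⟨hQ.1, hQ.2.2⟩
    · have hj' : j ∈ Icc 1 d := by simp only [mem_Icc] at hj ⊢; omega
      obtain ⟨d, rfl⟩ : ∃ d', d = d' + 1 := ⟨d - 1, by have := mem_Icc.1 hj'; omega⟩
      have hD : 0 < (d.factorial : ℝ) * ∏ l ∈ (Icc 1 (d + 1)).erase j, gt l :=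
        mul_pos (by positivity) (prod_pos fun l hl => hpos l (Icc_sub (mem_of_mem_erase hl)))
      have hI : ∏ l ∈ (Icc 1 (d + 1 + 1)).erase j, gt l =
          (∏ l ∈ (Icc 1 (d + 1)).erase j, gt l) * gt (d + 1 + 1) := by
        have : (Icc 1 (d + 1 + 1)).erase j = insert (d + 1 + 1) ((Icc 1 (d + 1)).erase j) := by
          ext l; simp only [mem_erase, mem_Icc, mem_insert]; omega
        rw [this, prod_insert (by simp), mul_comm]
      have := peel α B c (d + 1) F (fun _ => True) (fun _ _ _ => trivial)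
        (fun Q => h * pp (A - gt (d + 1 + 1) * hq Q) d /
          ((d.factorial : ℝ) * ∏ l ∈ (Icc 1 (d + 1)).erase j, gt l))
        (β := pp (A - gt (d + 1 + 1) * (c (d + 1 + 1) - eta)) (d + 1) / (gt (d + 1 + 1) * (d + 1)) *
          (h * ((d.factorial : ℝ) * ∏ l ∈ (Icc 1 (d + 1)).erase j, gt l)⁻¹)) (fun Q _ _ => ?_) ?_
      · refine this.mono_bd (le_of_eq ?_)
        rw [hI, Nat.add_sub_cancel, Nat.factorial_succ]
        push_cast
        field_simp
      · refine (ih (fun l hl => hpos l (Icc_sub hl)) (fun l hl => hrec l (Icc_sub hl)) _ hj'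
          (fun σ => F (Function.update σ (d + 1 + 1) Q)) (fun τ τ' hτ hFτ => hdep _ _ ?_ hFτ)
          fun τ => ?_).mono_bd ?_
        · intro l hl
          by_cases h' : l = d + 1 + 1
          · rw [h', Function.update_self, Function.update_self]
          · rw [Function.update_of_ne h', Function.update_of_ne h', hτ l hl]
        · refine (hF (Function.update τ (d + 1 + 1) Q)).mono_set fun Q' hQ' => ⟨hQ'.1, ?_⟩
          rw [← Function.update_comm hjd]
          exact hQ'.2
        · rw [Nat.add_sub_cancel]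
          exact div_le_div_of_nonneg_right
            (mul_le_mul_of_nonneg_left (pp_mono _ (hsh Q)) hh) hD.le
      · refine (((step_upper hg A (c (d + 1 + 1)) d).mul_const
          (mul_nonneg hh (inv_nonneg.2 hD.le))).mono_set
          fun Q hQ => ⟨hQ.1, hQ.2.1⟩).mono_fun fun Q _ => le_of_eq ?_
        ring

theorem simplex_lower (α : ℕ → ℕ → ℝ) (hα : ∀ l l', l < l' → 0 ≤ α l l') (B : ℝ) (gt : ℕ → ℝ)
    (d : ℕ) (h0 : gt 0 = 1) (hpos : ∀ l ∈ Icc 1 d, 0 < gt l)
    (hrec : ∀ l ∈ Icc 1 d, ∑ s ∈ range l, gt s * α s l ≤ gt l) (c : ℕ → ℝ)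
    (hc : ∀ l ∈ Icc 1 d, 0 ≤ c l) :
    ∃ S : Finset (ℕ → ℕ), (∀ τ ∈ S, Adm α B c d τ ∧ ∀ l ∈ Icc 1 d, (τ l).Prime) ∧
      pp (B - ∑ l ∈ range (d + 1), gt l * c l - eta * ∑ l ∈ Icc 1 d, gt l) d /
        ((d.factorial : ℝ) * ∏ l ∈ Icc 1 d, gt l) ≤ ∑ τ ∈ S, wt d τ := by
  classical
  induction d generalizing c with
  | zero =>
    by_cases hB : c 0 ≤ B
    · refine ⟨{fun _ => 1}, fun τ hτ => ?_, ?_⟩
      · rw [mem_singleton.1 hτ]
        refine ⟨⟨⟨fun _ _ => rfl, by simp⟩, fun l hl => ?_⟩, by simp⟩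
        rw [Nat.le_zero.1 hl]
        simpa [psl, yv] using hB
      · rw [pp_of_nonneg (by simp [h0, hB])]
        simp [wt]
    · refine ⟨∅, by simp, ?_⟩
      rw [pp_of_neg (by simpa [h0] using hB)]
      simp
  | succ d ih =>
    have hg := hpos (d + 1) (by simp)
    have hD : 0 < (d.factorial : ℝ) * ∏ l ∈ Icc 1 d, gt l :=
      mul_pos (by positivity) (prod_pos fun l hl => hpos l (Icc_sub hl))
    set A := B - ∑ l ∈ range (d + 1), gt l * c l - eta * ∑ l ∈ Icc 1 d, gt l with hA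
    obtain ⟨T, hT, hTs⟩ := step_lower hg A (hc (d + 1) (by simp)) d
    have hS := fun p : ℕ => ih (fun l hl => hpos l (Icc_sub hl)) (fun l hl => hrec l (Icc_sub hl))
      (fun l => c l + α l (d + 1) * hq p) fun l hl => add_nonneg (hc l (Icc_sub hl))
        (mul_nonneg (hα l (d + 1) (by have := (mem_Icc.1 hl).2; omega)) (hq_nonneg p))
    choose S hS hSs using hS
    have h1 : ∀ p, ∀ σ ∈ S p, σ (d + 1) = 1 := fun p σ hσ => (hS p σ hσ).1.1.1 _ (by simp)
    refine ⟨(T.sigma S).image fun x => Function.update x.2 (d + 1) x.1, fun τ hτ => ?_, ?_⟩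
    · obtain ⟨⟨p, σ⟩, hx, rfl⟩ := mem_image.1 hτ
      obtain ⟨hp, hσ⟩ := mem_sigma.1 hx
      refine ⟨(adm_update α B c d p (h1 p σ hσ)).2
        ⟨IsPP.of_prime (hT p hp).1, (hT p hp).2, (hS p σ hσ).1⟩, fun l hl => ?_⟩
      by_cases h' : l = d + 1
      · rw [h', Function.update_self]; exact (hT p hp).1
      · rw [Function.update_of_ne h']
        exact (hS p σ hσ).2 l (by simp only [mem_Icc] at hl ⊢; omega)
    · rw [sum_image, sum_sigma]
      · have e : A - gt (d + 1) * (c (d + 1) + eta) = B - ∑ l ∈ range (d + 1 + 1), gt l * c l -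
            eta * ∑ l ∈ Icc 1 (d + 1), gt l := by
          rw [hA, sum_range_succ _ (d + 1), sum_Icc_succ_top (by omega)]; ring
        rw [← e]
        calc _ = pp (A - gt (d + 1) * (c (d + 1) + eta)) (d + 1) / (gt (d + 1) * (d + 1)) /
              ((d.factorial : ℝ) * ∏ l ∈ Icc 1 d, gt l) := by
              rw [prod_Icc_succ_top (by omega), Nat.factorial_succ]
              push_cast
              field_simp
          _ ≤ (∑ p ∈ T, wq p * pp (A - gt (d + 1) * hq p) d) /
              ((d.factorial : ℝ) * ∏ l ∈ Icc 1 d, gt l) := div_le_div_of_nonneg_right hTs hD.le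
          _ ≤ _ := by
              rw [sum_div]
              refine sum_le_sum fun p _ => ?_
              simp only [wt_update]
              rw [← mul_sum, mul_div_assoc]
              refine mul_le_mul_of_nonneg_left (le_trans ?_ (hSs p)) (wq_nonneg p)
              refine div_le_div_of_nonneg_right (pp_mono _ ?_) hD.le
              rw [shift_eq, hA]
              have := mul_le_mul_of_nonneg_right (hrec (d + 1) (by simp)) (hq_nonneg p)
              linarith
      · rintro ⟨p, σ⟩ hx ⟨p', σ'⟩ hx' he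
        obtain ⟨-, hσ⟩ := mem_sigma.1 (mem_coe.1 hx)
        obtain ⟨-, hσ'⟩ := mem_sigma.1 (mem_coe.1 hx')
        simp only at he hσ hσ'
        have hp : p = p' := by simpa using congrFun he (d + 1)
        subst hp
        have : σ = σ' := by
          funext l
          by_cases h' : l = d + 1
          · rw [h', h1 p σ hσ, h1 p σ' hσ']
          · simpa [Function.update_of_ne h'] using congrFun he l
        rw [this]

end Crest.Agent.R20
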