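import Crest.Agent.R20.TopLimit
import Crest.Agent.R20.Simplex
import Crest.Agent.R20.MergeFacts

/-!
# R20: the weight of the simple objects

`M = m - K - 1`, `d = K + 1 - k`, so `M + d = m - k` for `m ≥ K + 1 ≥ k`.  For a fixed lower object
`(σ, w) ∈ S₀` the top tuples have lower limits `c l = κ δ_{m-l} + lowShift M d σ l ≥ 0`, and
`∑_{l ≤ M} g_l c l ± η ∑ g_l = cost_m(σ) + Δ` with `|Δ| ≤ 2 C₁ T θ^{-(K+1)}` (`X.shift_le`), i.e.
`|Δ| ≤ ζ T` with `ζ = 2C₁/θ^K` small for large `K`.  By `pp_mono`, `top_limit` (with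
`z m = cost_m/T ∓ ζ`, `cost_tendsto`), `Phi_add` and `exp (ζ/t₁) ≤ 1 + small`, the simplex bounds are
`(1 ± ε) Phi K t (zlim σ) G_m`, eventually in `m` for all the finitely many `σ`
(`Finset.eventually_all`).  `owt_merge` gives the weights.
-/

set_option autoImplicit false

open Finset Filter Topology
open Crest.NumberTheoryR.TotientScale

noncomputable section

namespace Crest.Agent.R20

variable (X : Ctx)

/-- `s` nice ⇒ `s₀ = tail s M ∈ Low θ k K` (`Low.of_tail`), `obj (m-k) s = (merge M (tup M s) (tup d s₀), …)`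
(`tup_eq_merge`), top slacks from `Nice.adm` at depth `m - k` and `psl_merge_top`. -/
theorem niceT_subset_simple {k K m : ℕ} (hk : 1 ≤ k) (hkK : k ≤ K) (hm : K + 1 ≤ m) (B : ℝ) :
    NiceT X.θ B m k ⊆ Simple X.θ B m k K 1 := by
  rintro o ⟨s, hs, rfl⟩
  have hMd : m - K - 1 + (K + 1 - k) = m - k := by omega
  have hmer : tup (m - k) s = merge (m - K - 1) (tup (m - K - 1) s)
      (tup (K + 1 - k) (tail s (m - K - 1))) := by rw [← tup_eq_merge, hMd]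
  refine ⟨tup (m - K - 1) s, tup (K + 1 - k) (tail s (m - K - 1)), ⟨tail s (m - K - 1), ?_, ?_⟩,
    ⟨tup_Tup _ _, fun l hl => ?_⟩, fun l hl => ?_, hmer⟩
  · have := hs.1.of_tail hkK (by omega)
    rwa [show m - 1 - K = m - K - 1 by omega] at this
  · simp only [obj, tail_tail, hMd]
  · have h1 := (hs.adm X hk (D := m - k) (by omega)).2 l (by omega)
    rw [hmer, ← hMd, psl_merge_top B _ _ hl] at h1
    simp only [Ctx.cpos] at h1
    linarith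
  · rw [tup_apply s hl]
    rw [mem_Icc] at hl
    exact (hs.1.lev_prime X.θ_gt hk (by omega)).1

theorem ss_lowShift_nonneg {M d l : ℕ} (σ : ℕ → ℕ) (hl : l ≤ M) : 0 ≤ lowShift M d σ l :=
  sum_nonneg fun i hi => mul_nonneg (aCoef_pos (by have := (mem_Icc.1 hi).1; omega)).le (hq_nonneg _)

theorem ss_zeta (C : ℝ) : Tendsto (fun K : ℕ => C / X.θ ^ (K + 1) / X.t₁) atTop (𝓝 0) := by
  have h1 : Tendsto (fun K : ℕ => X.θ ^ (K + 1)) atTop atTop :=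
    (tendsto_pow_atTop_atTop_of_one_lt X.θ_gt).comp (tendsto_add_atTop_nat 1)
  simpa using (h1.const_div_atTop C).div_const X.t₁

theorem ss_shift {C : ℝ} (hC : ∀ m D : ℕ, D ≤ m →
      ∑ l ∈ range (D + 1), gSeq l * ((X.θ ^ (m - l)) ^ 9 + eta) ≤
        C * (X.θ ^ m) ^ 10 / X.θ ^ (m - D)) {m K : ℕ} (hm : K + 1 ≤ m) :
    0 ≤ ∑ l ∈ range (m - K - 1 + 1), gSeq l * (X.θ ^ (m - l)) ^ 9 ∧
    0 ≤ eta * ∑ l ∈ Icc 1 (m - K - 1), gSeq l ∧
    ∑ l ∈ range (m - K - 1 + 1), gSeq l * (X.θ ^ (m - l)) ^ 9 +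
      eta * ∑ l ∈ Icc 1 (m - K - 1), gSeq l ≤ C / X.θ ^ (K + 1) * (X.θ ^ m) ^ 10 := by
  have hθ := X.θ_pos
  have he : 0 ≤ eta := zero_le_one.trans one_le_eta
  refine ⟨sum_nonneg fun l _ => mul_nonneg (gSeq_pos l).le (by positivity),
    mul_nonneg he (sum_nonneg fun l _ => (gSeq_pos l).le), ?_⟩
  have h1 := hC m (m - K - 1) (by omega)
  rw [show m - (m - K - 1) = K + 1 by omega] at h1
  have h2 : ∑ l ∈ Icc 1 (m - K - 1), gSeq l ≤ ∑ l ∈ range (m - K - 1 + 1), gSeq l :=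
    sum_le_sum_of_subset_of_nonneg (fun l hl => by
      rw [mem_Icc] at hl
      rw [mem_range]
      omega) fun l _ _ => (gSeq_pos l).le
  have h3 := mul_le_mul_of_nonneg_left h2 he
  simp only [mul_add, sum_add_distrib, ← sum_mul] at h1
  rw [div_mul_eq_mul_div]
  linarith

theorem ss_upper {ε : ℝ} (hε : 0 < ε) : ∃ K₁ : ℕ, ∀ K d : ℕ, K₁ ≤ K → d ≤ K + 1 → ∀ σ : ℕ → ℕ,
    ∀ᶠ m : ℕ in atTop, ∀ t ∈ Set.Icc X.t₁ X.t₂,
      SumBd {τ | Adm astd (X.B m t)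
          (fun l => 1 * (X.θ ^ (m - l)) ^ 9 + lowShift (m - K - 1) d σ l) (m - K - 1) τ}
        (wt (m - K - 1)) ((1 + ε) * X.Phi K t (X.zlim K d σ) * GG (X.B m t) m) := by
  obtain ⟨C, hC0, hC⟩ := X.shift_le
  have h1 : Tendsto (fun K : ℕ => (1 + ε / 2) * Real.exp (C / X.θ ^ (K + 1) / X.t₁)) atTop
      (𝓝 ((1 + ε / 2) * Real.exp 0)) :=
    tendsto_const_nhds.mul ((Real.continuous_exp.tendsto 0).comp (ss_zeta X C))
  obtain ⟨K₁, hK₁⟩ := eventually_atTop.1 (h1.eventually (gt_mem_nhds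
    (show (1 + ε / 2) * Real.exp 0 < 1 + ε by rw [Real.exp_zero]; linarith)))
  refine ⟨K₁, fun K d hK hd σ => ?_⟩
  have hθ := X.θ_pos
  obtain ⟨ζ, hζ⟩ : ∃ ζ, ζ = C / X.θ ^ (K + 1) := ⟨_, rfl⟩
  have hζ0 : 0 ≤ ζ := by rw [hζ]; positivity
  have hz := (cost_tendsto X hd σ).add_const (-ζ)
  filter_upwards [top_limit X K hz (half_pos hε), eventually_ge_atTop (K + 1)] with m hm hmK t ht
  have ht0 : 0 < t := X.t₁_pos.trans_le ht.1
  refine (simplex_upper astd (X.B m t) gSeq (m - K - 1) gSeq_zero (fun l _ => gSeq_pos l)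
    (fun l hl => (gSeq_rec_astd (mem_Icc.1 hl).1).le) _).mono_bd ?_
  obtain ⟨s1, s2, s3⟩ := ss_shift X hC hmK
  rw [← hζ] at s3
  have hG := (GG_pos (X.B_pos (by omega : 1 ≤ m) ht) m).le
  have hP := (Phi_pos X K ht0 (X.zlim K d σ)).le
  refine le_trans (div_le_div_of_nonneg_right (pp_mono _ ?_)
    (mul_nonneg (Nat.cast_nonneg _) (prod_nonneg fun l _ => (gSeq_pos l).le))) ((hm t ht).2.trans ?_)
  · simp only [mul_add, sum_add_distrib, one_mul]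
    rw [add_mul, div_mul_cancel₀ _ (by positivity)]
    linarith
  · rw [Phi_add]
    refine mul_le_mul_of_nonneg_right ?_ hG
    have h2 : Real.exp (-(-ζ / t)) ≤ Real.exp (ζ / X.t₁) := by
      rw [neg_div, neg_neg]
      exact Real.exp_le_exp.2 (div_le_div_of_nonneg_left hζ0 X.t₁_pos ht.1)
    have h3 := (hK₁ K hK).le
    rw [← hζ] at h3
    calc _ = (1 + ε / 2) * Real.exp (-(-ζ / t)) * X.Phi K t (X.zlim K d σ) := by ring
      _ ≤ _ := mul_le_mul_of_nonneg_right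
        ((mul_le_mul_of_nonneg_left h2 (by linarith)).trans h3) hP

theorem ss_lower {ε : ℝ} (hε : 0 < ε) : ∃ K₁ : ℕ, ∀ K d : ℕ, K₁ ≤ K → d ≤ K + 1 → ∀ σ : ℕ → ℕ,
    ∀ᶠ m : ℕ in atTop, ∀ t ∈ Set.Icc X.t₁ X.t₂, ∃ S : Finset (ℕ → ℕ),
      (∀ τ ∈ S, Adm astd (X.B m t)
          (fun l => 2 * (X.θ ^ (m - l)) ^ 9 + lowShift (m - K - 1) d σ l) (m - K - 1) τ ∧
        ∀ l ∈ Icc 1 (m - K - 1), (τ l).Prime) ∧
      (1 - ε) * X.Phi K t (X.zlim K d σ) * GG (X.B m t) m ≤ ∑ τ ∈ S, wt (m - K - 1) τ := by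
  obtain ⟨C, hC0, hC⟩ := X.shift_le
  obtain ⟨ε', hε0, hε1, hε2⟩ : ∃ ε' : ℝ, 0 < ε' ∧ ε' < ε ∧ ε' ≤ 1 :=
    ⟨min (ε / 2) 1, lt_min (half_pos hε) one_pos, (min_le_left _ _).trans_lt (half_lt_self hε),
      min_le_right _ _⟩
  have h1 : Tendsto (fun K : ℕ => (1 - ε') * Real.exp (-(2 * C / X.θ ^ (K + 1) / X.t₁))) atTop
      (𝓝 ((1 - ε') * Real.exp (-0))) :=
    tendsto_const_nhds.mul ((Real.continuous_exp.tendsto _).comp (ss_zeta X (2 * C)).neg)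
  obtain ⟨K₁, hK₁⟩ := eventually_atTop.1 (h1.eventually (lt_mem_nhds
    (show 1 - ε < (1 - ε') * Real.exp (-0) by rw [neg_zero, Real.exp_zero]; linarith)))
  refine ⟨K₁, fun K d hK hd σ => ?_⟩
  have hθ := X.θ_pos
  obtain ⟨ζ, hζ⟩ : ∃ ζ, ζ = C / X.θ ^ (K + 1) := ⟨_, rfl⟩
  have hζ0 : 0 ≤ ζ := by rw [hζ]; positivity
  have hz := (cost_tendsto X hd σ).add_const (2 * ζ)
  filter_upwards [top_limit X K hz hε0, eventually_ge_atTop (K + 1)] with m hm hmK t ht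
  have ht0 : 0 < t := X.t₁_pos.trans_le ht.1
  obtain ⟨S, hS1, hS2⟩ := simplex_lower astd (fun _ _ h => astd_nonneg h) (X.B m t) gSeq (m - K - 1)
    gSeq_zero (fun l _ => gSeq_pos l) (fun l hl => (gSeq_rec_astd (mem_Icc.1 hl).1).ge)
    (fun l => 2 * (X.θ ^ (m - l)) ^ 9 + lowShift (m - K - 1) d σ l)
    fun l hl => add_nonneg (by positivity) (ss_lowShift_nonneg σ (mem_Icc.1 hl).2)
  refine ⟨S, hS1, le_trans ?_ hS2⟩
  obtain ⟨s1, s2, s3⟩ := ss_shift X hC hmK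
  rw [← hζ] at s3
  have hG := (GG_pos (X.B_pos (by omega : 1 ≤ m) ht) m).le
  have hP := (Phi_pos X K ht0 (X.zlim K d σ)).le
  refine le_trans (le_trans ?_ (hm t ht).1) (div_le_div_of_nonneg_right (pp_mono _ ?_)
    (mul_nonneg (Nat.cast_nonneg _) (prod_nonneg fun l _ => (gSeq_pos l).le)))
  · rw [Phi_add]
    refine mul_le_mul_of_nonneg_right ?_ hG
    have h2 : Real.exp (-(2 * ζ / X.t₁)) ≤ Real.exp (-(2 * ζ / t)) :=
      Real.exp_le_exp.2 (neg_le_neg (div_le_div_of_nonneg_left (by linarith) X.t₁_pos ht.1))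
    have h3 := (hK₁ K hK).le
    rw [mul_div_assoc 2 C, ← hζ] at h3
    calc _ ≤ (1 - ε') * Real.exp (-(2 * ζ / t)) * X.Phi K t (X.zlim K d σ) :=
          mul_le_mul_of_nonneg_right (h3.trans (mul_le_mul_of_nonneg_left h2 (by linarith))) hP
      _ = _ := by ring
  · simp only [mul_add, sum_add_distrib, mul_left_comm _ (2 : ℝ), ← mul_sum]
    rw [add_mul, div_mul_cancel₀ _ (by positivity)]
    linarith

/-- `SumBd.of_map` from pairs (lower object, top tuple), `SumBd.sigma`, `simplex_upper`. -/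
theorem simple_upper {ε : ℝ} (hε : 0 < ε) : ∃ K₁ : ℕ, ∀ k K : ℕ, 1 ≤ k → k ≤ K → K₁ ≤ K →
    ∀ S₀ : Finset ((ℕ → ℕ) × ℕ), (↑S₀ : Set _) = LowT X.θ k K →
    ∀ᶠ m : ℕ in atTop, ∀ t ∈ Set.Icc X.t₁ X.t₂,
    SumBd (Simple X.θ (X.B m t) m k K 1) (owt (m - k))
      ((1 + ε) * X.Afun k K S₀ t * GG (X.B m t) m) := by
  obtain ⟨K₁, hK₁⟩ := ss_upper X hε
  refine ⟨K₁, fun k K hk hkK hK S₀ hS₀ => ?_⟩
  have h1 := (eventually_all_finset S₀).2 fun o _ => hK₁ K (K + 1 - k) hK (by omega) o.1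
  filter_upwards [h1, eventually_ge_atTop (K + 1)] with m hm hmK t ht
  have ht0 : 0 < t := X.t₁_pos.trans_le ht.1
  have hMd : m - K - 1 + (K + 1 - k) = m - k := by omega
  have hG := (GG_pos (X.B_pos (by omega : 1 ≤ m) ht) m).le
  have h2 : SumBd {p : ((ℕ → ℕ) × ℕ) × (ℕ → ℕ) | p.1 ∈ S₀ ∧ Adm astd (X.B m t)
      (fun l => 1 * (X.θ ^ (m - l)) ^ 9 + lowShift (m - K - 1) (K + 1 - k) p.1.1 l) (m - K - 1) p.2}
      (fun p => owt (K + 1 - k) p.1 * wt (m - K - 1) p.2)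
      (∑ o ∈ S₀, owt (K + 1 - k) o *
        ((1 + ε) * X.Phi K t (X.zlim K (K + 1 - k) o.1) * GG (X.B m t) m)) := by
    refine SumBd.sigma (B := ↑S₀) (fun p hp => hp.1) (fun o ho => ?_)
      (SumBd.of_finset S₀ subset_rfl fun o _ => mul_nonneg (owt_nonneg _ _)
        (mul_nonneg (mul_nonneg (by linarith) (Phi_pos X K ht0 _).le) hG))
    exact ((hm o ho t ht).const_mul (owt_nonneg _ o)).mono_set fun τ hτ => hτ.2
  refine (h2.of_map (fun p => (merge (m - K - 1) p.2 p.1.1, p.1.2)) ?_).mono_bd (le_of_eq ?_)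
  · rintro ⟨o₁, w⟩ ⟨τ, σ, h3, h4, -, h5⟩
    simp only at h3 h5
    subst h5
    refine ⟨((σ, w), τ), ⟨by rwa [← hS₀] at h3, h4⟩, rfl, le_of_eq ?_⟩
    rw [← hMd, owt_merge, mul_comm]
  · unfold Ctx.Afun
    rw [mul_sum, sum_mul]
    exact sum_congr rfl fun o _ => by ring

/-- `simplex_lower` for each lower object; the merged objects are distinct by `merge_inj`
(`Finset.sum_sigma`/`sum_image`, or `biUnion` of pairwise disjoint images). -/
theorem simple_lower {ε : ℝ} (hε : 0 < ε) : ∃ K₁ : ℕ, ∀ k K : ℕ, 1 ≤ k → k ≤ K → K₁ ≤ K →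
    ∀ S₀ : Finset ((ℕ → ℕ) × ℕ), (↑S₀ : Set _) = LowT X.θ k K →
    ∀ᶠ m : ℕ in atTop, ∀ t ∈ Set.Icc X.t₁ X.t₂,
    ∃ S : Finset ((ℕ → ℕ) × ℕ), (↑S : Set _) ⊆ Simple X.θ (X.B m t) m k K 2 ∧
      (1 - ε) * X.Afun k K S₀ t * GG (X.B m t) m ≤ ∑ o ∈ S, owt (m - k) o := by
  classical
  obtain ⟨K₁, hK₁⟩ := ss_lower X hε
  refine ⟨K₁, fun k K hk hkK hK S₀ hS₀ => ?_⟩
  have h1 := (eventually_all_finset S₀).2 fun o _ => hK₁ K (K + 1 - k) hK (by omega) o.1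
  filter_upwards [h1, eventually_ge_atTop (K + 1)] with m hm hmK t ht
  have hMd : m - K - 1 + (K + 1 - k) = m - k := by omega
  choose! T hT1 hT2 using fun o ho => hm o ho t ht
  have hlow : ∀ o ∈ S₀, o ∈ LowT X.θ k K := fun o ho => by rw [← hS₀]; exact ho
  have htup : ∀ o ∈ S₀, Tup (K + 1 - k) o.1 := fun o ho => by
    obtain ⟨s, -, rfl⟩ := hlow o ho
    exact tup_Tup _ _
  refine ⟨(S₀.sigma T).image fun p => (merge (m - K - 1) p.2 p.1.1, p.1.2), ?_, ?_⟩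
  · intro o ho
    obtain ⟨p, hp, rfl⟩ := mem_image.1 ho
    obtain ⟨h2, h3⟩ := mem_sigma.1 hp
    exact ⟨p.2, p.1.1, hlow _ h2, (hT1 _ h2 _ h3).1, (hT1 _ h2 _ h3).2, rfl⟩
  · rw [sum_image, sum_sigma]
    · unfold Ctx.Afun
      rw [mul_sum, sum_mul]
      refine sum_le_sum fun o ho => ?_
      have h2 : ∀ τ, owt (m - k) (merge (m - K - 1) τ o.1, o.2) =
          wt (m - K - 1) τ * owt (K + 1 - k) o := fun τ => by rw [← hMd, owt_merge]
      simp only [h2]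
      rw [← sum_mul]
      calc _ = (1 - ε) * X.Phi K t (X.zlim K (K + 1 - k) o.1) * GG (X.B m t) m *
            owt (K + 1 - k) o := by ring
        _ ≤ _ := mul_le_mul_of_nonneg_right (hT2 o ho) (owt_nonneg _ _)
    · rintro ⟨⟨σ, w⟩, τ⟩ hp ⟨⟨σ', w'⟩, τ'⟩ hp' h
      obtain ⟨h2, h3⟩ := mem_sigma.1 hp
      obtain ⟨h2', h3'⟩ := mem_sigma.1 hp'
      simp only [Prod.mk.injEq] at h
      obtain ⟨rfl, rfl⟩ := merge_inj (hT1 _ h2 _ h3).1.1 (htup _ h2) (hT1 _ h2' _ h3').1.1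
        (htup _ h2') h.1
      obtain rfl := h.2
      rfl

/-- A simple object has an admissible tuple (lower limits `0`: `psl_merge_top`, `psl_merge_low`,
`psl_tup`, `slack_anti`) and second component in `phiSet (ht · 0 ≤ Y_k)`; its entries of index `≤ K`
have height `≤ Y_index` (`Low.ht_le`). -/
theorem simple_adm {k K m : ℕ} (hk : 1 ≤ k) (hkK : k ≤ K) (hm : K + 1 ≤ m) {B κ : ℝ} (hκ : 0 ≤ κ)
    {o : (ℕ → ℕ) × ℕ} (ho : o ∈ Simple X.θ B m k K κ) :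
    Adm astd B (fun _ => 0) (m - k) o.1 ∧ o.2 ∈ (phiSet fun r => ht r 0 ≤ (X.θ ^ k) ^ 11) ∧
      ∀ l ∈ Icc 1 (m - k), m - l < K + 1 → hq (o.1 l) ≤ (X.θ ^ (m - l)) ^ 11 := by
  obtain ⟨τ, σ, ⟨s, hs, h1⟩, h2, -, h3⟩ := ho
  simp only [obj, Prod.mk.injEq] at h1
  obtain ⟨rfl, h1⟩ := h1
  have hθ := X.θ_pos
  have hMd : m - K - 1 + (K + 1 - k) = m - k := by omega
  rw [h3, ← h1]
  refine ⟨?_, hs.mem_phiSet hk hkK, fun l hl hl' => ?_⟩
  · rw [← hMd]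
    refine ⟨tup_merge h2.1 (tup_Tup _ _), fun l hl => ?_⟩
    rcases le_or_gt l (m - K - 1) with h | h
    · rw [psl_merge_top B _ _ h]
      have h4 := h2.2 l h
      have h5 : 0 ≤ κ * (X.θ ^ (m - l)) ^ 9 := by positivity
      simp only at h4
      linarith
    · obtain ⟨i, rfl⟩ : ∃ i, l = m - K - 1 + i := ⟨l - (m - K - 1), by omega⟩
      rw [psl_merge_low B _ _ (by omega), psl_tup B s (mem_Icc.2 ⟨by omega, by omega⟩)]
      have h4 := hs.2.2.1 (K + 1 - i) (by omega) (by omega)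
      rw [show K - (K + 1 - i) = i - 1 by omega] at h4
      exact le_trans (by positivity) (h4.trans (slack_anti _ (by omega)))
  · rw [mem_Icc] at hl
    have h4 := hs.ht_le (J := m - l) (by omega) (by omega)
    unfold merge
    rw [if_neg (by omega), hq_tup s (mem_Icc.2 ⟨by omega, by omega⟩)]
    rwa [show l - (m - K - 1) - 1 = K - (m - l) by omega]

end Crest.Agent.R20
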