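import Crest.Agent.R20.Mertens
import Crest.Agent.R20.Coef

/-!
# R20: one step of the simplex sums (`η = eta`)
-/

set_option autoImplicit false

open Finset Filter Topology
open Crest.NumberTheoryR.TotientScale

noncomputable section

namespace Crest.Agent.R20

private lemma pp_monotone (b : ℝ) (e : ℕ) : Monotone fun u : ℝ => pp (u - b) e :=
  fun _ _ h => pp_mono e (by linarith)

private lemma pp_ii (b : ℝ) (e : ℕ) (x y : ℝ) :
    IntervalIntegrable (fun u : ℝ => pp (u - b) e) MeasureTheory.volume x y :=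
  (pp_monotone b e).intervalIntegrable

private lemma pp_int_zero {b lo A : ℝ} (h : lo ≤ A) (hA : A ≤ b) (e : ℕ) :
    ∫ u in lo..A, pp (u - b) e = 0 := by
  rw [intervalIntegral.integral_of_le h, MeasureTheory.integral_Ioc_eq_integral_Ioo,
    MeasureTheory.setIntegral_congr_fun measurableSet_Ioo (g := fun _ => (0 : ℝ))]
  · simp
  · intro u hu
    exact pp_of_neg (by linarith [hu.2]) e

private lemma pp_int {b lo A : ℝ} (hb : lo ≤ b) (h : lo ≤ A) (e : ℕ) :
    ∫ u in lo..A, pp (u - b) e = pp (A - b) (e + 1) / (e + 1) := by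
  rcases le_total A b with hA | hA
  · rw [pp_int_zero h hA]
    rcases hA.eq_or_lt with rfl | hA
    · rw [sub_self, pp_of_nonneg le_rfl]; simp
    · rw [pp_of_neg (by linarith), zero_div]
  · rw [← intervalIntegral.integral_add_adjacent_intervals (pp_ii b e lo b) (pp_ii b e b A),
      pp_int_zero hb le_rfl, zero_add, pp_of_nonneg (by linarith),
      intervalIntegral.integral_congr (g := fun u => (u - b) ^ e)]
    · rw [intervalIntegral.integral_comp_sub_right (fun u => u ^ e) b, integral_pow]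
      simp
    · intro u hu
      rw [Set.uIcc_of_le hA] at hu
      exact pp_of_nonneg (by linarith [hu.1]) e

private lemma sum_pp_ii (S : Finset ℕ) (w y : ℕ → ℝ) (e : ℕ) (lo A : ℝ) :
    IntervalIntegrable (fun u : ℝ => ∑ Q ∈ S, w Q * pp (u - y Q) e) MeasureTheory.volume lo A := by
  have := IntervalIntegrable.sum (μ := MeasureTheory.volume) (a := lo) (b := A) S
    (f := fun Q u => w Q * pp (u - y Q) e) fun Q _ => (pp_ii (y Q) e lo A).const_mul (w Q)
  have e : (fun u : ℝ => ∑ Q ∈ S, w Q * pp (u - y Q) e) =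
      ∑ Q ∈ S, fun u => w Q * pp (u - y Q) e := by
    ext u; simp
  rwa [e]

private lemma sum_pp_int (S : Finset ℕ) (w y : ℕ → ℝ) {lo A : ℝ} (hlo : ∀ Q ∈ S, lo ≤ y Q)
    (hA : lo ≤ A) (e : ℕ) :
    ∑ Q ∈ S, w Q * pp (A - y Q) (e + 1) =
      (e + 1) * ∫ u in lo..A, ∑ Q ∈ S, w Q * pp (u - y Q) e := by
  rw [intervalIntegral.integral_finsetSum fun Q _ => (pp_ii (y Q) e lo A).const_mul (w Q),
    mul_sum]
  refine sum_congr rfl fun Q hQ => ?_
  rw [intervalIntegral.integral_const_mul, pp_int (hlo Q hQ) hA]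
  field_simp

private lemma rhs_int {g b lo A : ℝ} (hg : 0 < g) (hb : lo ≤ b) (h : lo ≤ A) (e : ℕ) :
    ((e : ℝ) + 1) * ∫ u in lo..A, pp (u - b) (e + 1) / (g * (e + 1)) =
      pp (A - b) (e + 1 + 1) / (g * ((e + 1 : ℕ) + 1)) := by
  rw [intervalIntegral.integral_div, pp_int hb h]
  field_simp

private lemma pp_zero_eq (A : ℝ) : pp A 0 = if 0 ≤ A then 1 else 0 := by simp [pp]

/-- One step, upper bound.  If `A < g c` every term vanishes.  Otherwise, for `e = 0` use `mertU` on
`[c, A/g]`; for `e ≥ 1`, `pp (A - g y) e = ∫_c^{A/g} 1[y ≤ s] e g (A - g s)^{e-1} ds` for `y ≥ c`, so the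
sum is `≤ ∫_c^{A/g} e g (A - gs)^{e-1} (s - c + η) ds = η a^e + a^{e+1}/(g(e+1))` with `a = A - gc`, and
`a^{e+1} + (e+1) g η a^e ≤ (a + gη)^{e+1}`.  (A discrete Abel summation is equally good.) -/
theorem step_upper {g : ℝ} (hg : 0 < g) (A c : ℝ) (e : ℕ) :
    SumBd {Q : ℕ | IsPP Q ∧ c ≤ hq Q} (fun Q => wq Q * pp (A - g * hq Q) e)
      (pp (A - g * (c - eta)) (e + 1) / (g * (e + 1))) := by
  intro S hS
  have hη : 0 ≤ eta := zero_le_one.trans one_le_eta
  have hc : ∀ Q ∈ S, g * c ≤ g * hq Q := fun Q hQ => mul_le_mul_of_nonneg_left (hS hQ).2 hg.le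
  have hneg : ∀ (e : ℕ) (A : ℝ), A < g * c → ∑ Q ∈ S, wq Q * pp (A - g * hq Q) e ≤
      pp (A - g * (c - eta)) (e + 1) / (g * (e + 1)) := by
    intro e A hA
    rw [sum_eq_zero fun Q hQ => by rw [pp_of_neg (by linarith [hc Q hQ]), mul_zero]]
    exact div_nonneg (pp_nonneg _ _) (by positivity)
  induction e generalizing A with
  | zero =>
    rcases lt_or_ge A (g * c) with hA | hA
    · exact hneg 0 A hA
    have hcA : c ≤ A / g := by rw [le_div_iff₀ hg]; linarith
    have h1 := mertU c (A / g) hcA (S.filter fun Q => hq Q ≤ A / g) (by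
      intro Q hQ
      obtain ⟨h1, h2⟩ := mem_filter.1 (mem_coe.1 hQ)
      exact ⟨(hS h1).1, (hS h1).2, h2⟩)
    rw [sum_filter] at h1
    have hpos : 0 ≤ A - g * (c - eta) := by nlinarith
    rw [pp_of_nonneg hpos]
    refine le_of_eq_of_le (sum_congr rfl fun Q _ => ?_) (h1.trans (le_of_eq ?_))
    · beta_reduce
      rw [pp_zero_eq]
      have : 0 ≤ A - g * hq Q ↔ hq Q ≤ A / g := by
        rw [le_div_iff₀ hg]; constructor <;> intro h <;> linarith
      simp only [this]
      split_ifs <;> simp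
    · field_simp
      push_cast
      ring
  | succ e ih =>
    rcases lt_or_ge A (g * c) with hA | hA
    · exact hneg (e + 1) A hA
    have hlo : g * (c - eta) ≤ g * c := by nlinarith
    rw [sum_pp_int S wq (fun Q => g * hq Q) (lo := g * (c - eta))
      (fun Q hQ => hlo.trans (hc Q hQ)) (hlo.trans hA), ← rhs_int hg le_rfl (hlo.trans hA)]
    refine mul_le_mul_of_nonneg_left ?_ (by positivity)
    exact intervalIntegral.integral_mono_on (hlo.trans hA) (sum_pp_ii _ _ _ _ _ _)
      ((pp_ii _ _ _ _).div_const _) fun u _ => ih u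

/-- One step, lower bound: `T` = primes with `c ≤ ell p ≤ A/g`; as above with `mertL`,
`μ[c,s] ≥ (s - c - η)_+` and `∫_{c+η}^{A/g} e g (A - gs)^{e-1} (s - c - η) ds =
(A - g(c+η))^{e+1}/(g(e+1))` (if `A < g (c + η)` take `T = ∅`). -/
theorem step_lower {g : ℝ} (hg : 0 < g) (A : ℝ) {c : ℝ} (hc : 0 ≤ c) (e : ℕ) :
    ∃ T : Finset ℕ, (∀ p ∈ T, p.Prime ∧ c ≤ hq p) ∧
      pp (A - g * (c + eta)) (e + 1) / (g * (e + 1)) ≤ ∑ p ∈ T, wq p * pp (A - g * hq p) e := by
  classical
  have hη : 0 ≤ eta := zero_le_one.trans one_le_eta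
  set T : Finset ℕ := (range (⌊EE (max (A / g) 0)⌋₊ + 1)).filter fun p => p.Prime ∧ c ≤ hq p
    with hT
  have hTp : ∀ p ∈ T, p.Prime ∧ c ≤ hq p := fun p hp => (mem_filter.1 hp).2
  refine ⟨T, hTp, ?_⟩
  have hc' : ∀ Q ∈ T, g * c ≤ g * hq Q := fun Q hQ =>
    mul_le_mul_of_nonneg_left (hTp Q hQ).2 hg.le
  have hneg : ∀ (e : ℕ) (u : ℝ), u < g * (c + eta) →
      pp (u - g * (c + eta)) (e + 1) / (g * (e + 1)) ≤ ∑ p ∈ T, wq p * pp (u - g * hq p) e := by
    intro e u hu
    rw [pp_of_neg (by linarith), zero_div]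
    exact sum_nonneg fun p _ => mul_nonneg (wq_nonneg _) (pp_nonneg _ _)
  suffices h : ∀ u ≤ A, pp (u - g * (c + eta)) (e + 1) / (g * (e + 1)) ≤
      ∑ p ∈ T, wq p * pp (u - g * hq p) e from h A le_rfl
  have hlo : g * c ≤ g * (c + eta) := by nlinarith
  induction e with
  | zero =>
    intro u huA
    rcases lt_or_ge u (g * (c + eta)) with hu | hu
    · exact hneg 0 u hu
    have hcA : c ≤ u / g := by rw [le_div_iff₀ hg]; linarith
    have h1 := mertL c (u / g) hc hcA (T.filter fun Q => hq Q ≤ u / g) (by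
      intro p hp h1 h2
      rw [← hq_of_prime hp] at h1
      refine mem_filter.2 ⟨mem_filter.2 ⟨mem_range.2 (Nat.lt_succ_of_le (Nat.le_floor ?_)), hp, h1⟩,
        by rwa [hq_of_prime hp]⟩
      rw [← ell_le_iff (le_max_right _ _)]
      exact h2.trans ((div_le_div_of_nonneg_right huA hg.le).trans (le_max_left _ _)))
    rw [sum_filter] at h1
    rw [pp_of_nonneg (by linarith)]
    refine le_of_le_of_eq (le_of_eq_of_le ?_ h1) (sum_congr rfl fun Q _ => ?_)
    · field_simp
      push_cast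
      ring
    · rw [pp_zero_eq]
      have : 0 ≤ u - g * hq Q ↔ hq Q ≤ u / g := by
        rw [le_div_iff₀ hg]; constructor <;> intro h <;> linarith
      simp only [this]
      split_ifs <;> simp
  | succ e ih =>
    intro u huA
    rcases lt_or_ge u (g * (c + eta)) with hu | hu
    · exact hneg (e + 1) u hu
    rw [sum_pp_int T wq (fun Q => g * hq Q) (lo := g * c) hc' (hlo.trans hu),
      ← rhs_int hg hlo (hlo.trans hu)]
    refine mul_le_mul_of_nonneg_left ?_ (by positivity)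
    exact intervalIntegral.integral_mono_on (hlo.trans hu) ((pp_ii _ _ _ _).div_const _)
      (sum_pp_ii _ _ _ _ _ _) fun v hv => ih v (hv.2.trans huA)

end Crest.Agent.R20
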