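import Mathlib

/-!
# R20: a Tauberian theorem (Ingham / Wiener–Ikehara type) for bounded slowly decreasing functions

Proof (Fourier, no contour integration).  Let `ψ : ℝ → ℂ` be continuous with compact support such
that `φ(u) = ∫ ψ(τ) e^{-iτu} dτ` is real, `≥ 0`, integrable with `∫ φ > 0` (Fejér:
`ψ(τ) = (1 - |τ|)_+`, `φ(u) = (sin (u/2)/(u/2))²`; or `ψ = b * b` for a smooth even bump `b`, `φ = |b̂|²`
Schwartz).  Scale: `ψ_λ(τ) = ψ(τ/λ)`, `φ_λ(u) = λ φ(λ u)`, same integral `I`.
For `ε > 0`, Fubini gives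
`∫_0^∞ f(t) e^{-εt} φ_λ(t - T) dt = ∫ ψ_λ(τ) e^{iτT} G(ε + iτ) dτ`.
Let `ε → 0` (dominated convergence on the left: `f` bounded, `φ_λ` integrable; on the right `G` is
continuous hence bounded on the compact `[0,1] × supp`), then `T → ∞` (Riemann–Lebesgue,
`Real.tendsto_integral_exp_smul_cocompact` / `tendsto_integral_exp_inner_smul_cocompact`):
`∫_0^∞ f(t) φ_λ(t - T) dt → 0` for each `λ`.
Tauberian step: given `ε`, take `δ` from slow decrease and `λ` with `∫_{|u|>δ/2} φ_λ ≤ ε`.
If `f(T) ≥ 3ε'`, then `f ≥ f(T) - ε` on `[T, T+δ]`; centre the kernel at `T + δ/2`: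
`o(1) = ∫ f φ_λ(· - T - δ/2) ≥ (f(T) - ε)(I - ε) - Mε`, so `limsup f ≤ O(ε)`.
Likewise `f ≤ f(T) + ε` on `[T-δ, T]`, centre at `T - δ/2`, so `liminf f ≥ -O(ε)`.
(Newman's contour proof is also acceptable if you strengthen nothing in the statement.)
-/

set_option autoImplicit false

open Filter Topology MeasureTheory

noncomputable section

namespace Crest.Agent.R20

namespace Tauber

open scoped FourierTransform Real Convolution
open Set

theorem fourier_eq (g : ℝ → ℂ) (w : ℝ) :
    𝓕 g w = ∫ v : ℝ, Complex.exp (↑(-2 * π * v * w) * Complex.I) * g v :=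
  Real.fourier_real_eq_integral_exp_smul g w

theorem fourier_flip {f g : ℝ → ℂ} (hf : Integrable f) (hg : Integrable g) :
    ∫ x, 𝓕 f x * g x = ∫ x, f x * 𝓕 g x := by
  simpa using! (VectorFourier.integral_fourierIntegral_smul_eq_flip (L := innerₗ ℝ)
    Real.continuous_fourierChar continuous_inner hf hg)

/-- a nonnegative integrable function whose (inverse) Fourier transform has compact support -/
structure Kern (ψ : ℝ → ℂ) (φ : ℝ → ℝ) : Prop where
  cont : Continuous ψ
  supp : HasCompactSupport ψ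
  four : ∀ u, 𝓕 ψ u = φ u
  nonneg : ∀ u, 0 ≤ φ u
  int : Integrable φ

theorem exists_base : ∃ ψ φ, Kern ψ φ ∧ 0 < ∫ u, φ u := by
  let c : ContDiffBump (0 : ℝ) := ⟨1, 2, by norm_num, by norm_num⟩
  let b : ℝ → ℂ := fun x => (c x : ℂ)
  have hb : ContDiff ℝ (⊤ : ℕ∞) b := Complex.ofRealCLM.contDiff.comp c.contDiff
  have hs : HasCompactSupport b := c.hasCompactSupport.comp_left (g := Complex.ofReal) rfl
  have hi : Integrable b := hb.continuous.integrable_of_hasCompactSupport hs
  let B : SchwartzMap ℝ ℂ := 𝓕 (hs.toSchwartzMap hb)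
  have hB : ∀ u, B u = 𝓕 b u := fun u => rfl
  have hreal : ∀ u, ((B u).re : ℂ) = B u := by
    intro u
    rw [← Complex.conj_eq_iff_re, hB, fourier_eq, ← integral_conj, ← integral_neg_eq_self]
    refine integral_congr_ae (Eventually.of_forall fun v => ?_)
    simp only [b, map_mul, Complex.conj_ofReal, c.neg, ← Complex.exp_conj, Complex.conj_I]
    congr 2
    push_cast
    ring
  have hint : Integrable fun u => (B u).re * (B u).re := by
    refine Integrable.bdd_mul (c := SchwartzMap.seminorm ℝ 0 0 B) B.integrable.re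
      (Complex.continuous_re.comp B.continuous).aestronglyMeasurable
      (Eventually.of_forall fun u => ?_)
    exact (Complex.abs_re_le_norm _).trans (B.norm_le_seminorm ℝ u)
  refine ⟨b ⋆[ContinuousLinearMap.mul ℂ ℂ] b, fun u => (B u).re * (B u).re,
    ⟨hs.continuous_convolution_right _ hi.locallyIntegrable hb.continuous, hs.convolution _ hs,
      fun u => ?_, fun u => mul_self_nonneg _, hint⟩, ?_⟩
  · rw [Real.fourier_mul_convolution_eq hi hi, Complex.ofReal_mul, hreal, hB]
  · have hc : Continuous fun u => (B u).re := Complex.continuous_re.comp B.continuous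
    refine integral_pos_of_integrable_nonneg_nonzero (x := 0) (hc.mul hc) hint
      (fun u => mul_self_nonneg _) (mul_self_ne_zero.2 ?_)
    have h0 : B 0 = ((∫ x, c x : ℝ) : ℂ) := by
      rw [hB, fourier_eq, ← integral_complex_ofReal]
      simp [b]
    rw [h0, Complex.ofReal_re]
    exact c.integral_pos.ne'

theorem exists_kern {δ η : ℝ} (hδ : 0 < δ) (hη : 0 < η) : ∃ ψ φ, Kern ψ φ ∧ ∫ u, φ u = 1 ∧
    ∫ u, {u | δ < |u|}.indicator φ u ≤ η := by
  obtain ⟨ψ, φ, h, hI⟩ := exists_base
  set I := ∫ u, φ u with hIdef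
  have hm : ∀ R : ℝ, MeasurableSet {u : ℝ | R < |u|} := fun R =>
    (isOpen_lt continuous_const continuous_abs).measurableSet
  have ht : Tendsto (fun n : ℕ => ∫ u, {u | (n : ℝ) < |u|}.indicator φ u) atTop (𝓝 (∫ _ : ℝ, 0)) := by
    refine tendsto_integral_of_dominated_convergence φ
      (fun n => (h.int.indicator (hm n)).aestronglyMeasurable) h.int
      (fun n => Eventually.of_forall fun u => ?_) (Eventually.of_forall fun u => ?_)
    · exact (norm_indicator_le_norm_self _ _).trans (Real.norm_of_nonneg (h.nonneg u)).le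
    · refine tendsto_const_nhds.congr' ?_
      filter_upwards [tendsto_natCast_atTop_atTop.eventually_ge_atTop |u|] with n hn
      rw [indicator_of_notMem (by simpa using hn)]
  rw [integral_zero] at ht
  obtain ⟨n, hn, hn0⟩ := ((ht.eventually (eventually_le_nhds (mul_pos hI hη))).and
    (eventually_gt_atTop 0)).exists
  have hn' : (0 : ℝ) < n := by exact_mod_cast hn0
  set lam := (n : ℝ) / δ with hlam
  have hl : 0 < lam := by positivity
  refine ⟨fun τ => (I⁻¹ : ℝ) * ψ (τ / lam), fun u => I⁻¹ * lam * φ (lam * u),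
    ⟨by have := h.cont; fun_prop, ?_, fun u => ?_, fun u => ?_, ?_⟩, ?_, ?_⟩
  · refine HasCompactSupport.mul_left ?_
    exact h.supp.comp_homeomorph (Homeomorph.mulRight₀ lam⁻¹ (inv_ne_zero hl.ne'))
  · have h1 := Measure.integral_comp_div
      (fun s : ℝ => Complex.exp (↑(-2 * π * s * (lam * u)) * Complex.I) * ψ s) lam
    rw [← fourier_eq, h.four, abs_of_pos hl] at h1
    rw [fourier_eq]
    have h2 : ∀ v : ℝ, Complex.exp (↑(-2 * π * v * u) * Complex.I) * ((I⁻¹ : ℝ) * ψ (v / lam)) =
        (I⁻¹ : ℝ) * (Complex.exp (↑(-2 * π * (v / lam) * (lam * u)) * Complex.I) * ψ (v / lam)) := by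
      intro v
      have : -2 * π * (v / lam) * (lam * u) = -2 * π * v * u := by field_simp
      rw [this]; ring
    simp only [h2]
    rw [integral_const_mul, h1]
    simp [mul_assoc]
  · have := h.nonneg (lam * u)
    positivity
  · exact ((integrable_comp_mul_left_iff φ hl.ne').2 h.int).const_mul _
  · rw [integral_const_mul, Measure.integral_comp_mul_left, abs_of_pos (inv_pos.2 hl), smul_eq_mul]
    field_simp
    rfl
  · have h1 : ∀ u : ℝ, {u | δ < |u|}.indicator (fun u => I⁻¹ * lam * φ (lam * u)) u =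
        I⁻¹ * lam * {u | (n : ℝ) < |u|}.indicator φ (lam * u) := by
      intro u
      have : (n : ℝ) < |lam * u| ↔ δ < |u| := by
        rw [abs_mul, abs_of_pos hl, hlam, div_mul_eq_mul_div, lt_div_iff₀ hδ,
          mul_lt_mul_iff_right₀ hn']
      by_cases hu : δ < |u|
      · rw [indicator_of_mem (by exact hu), indicator_of_mem (by exact this.2 hu)]
      · rw [indicator_of_notMem (by exact hu), indicator_of_notMem (by exact fun h => hu (this.1 h)),
          mul_zero]
    simp only [h1]
    rw [integral_const_mul, Measure.integral_comp_mul_left, abs_of_pos (inv_pos.2 hl), smul_eq_mul]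
    calc I⁻¹ * lam * (lam⁻¹ * ∫ u, {u | (n : ℝ) < |u|}.indicator φ u) =
          I⁻¹ * ∫ u, {u | (n : ℝ) < |u|}.indicator φ u := by field_simp
      _ ≤ I⁻¹ * (I * η) := by gcongr
      _ = η := by field_simp

section core
variable {f : ℝ → ℝ} {M : ℝ} (hmeas : Measurable f) (hbd : ∀ t, |f t| ≤ M)
  (h0 : ∀ t, t ≤ 0 → f t = 0) {G : ℂ → ℂ} (hG : ContinuousOn G {z : ℂ | 0 ≤ z.re})
  (hGf : ∀ z : ℂ, 0 < z.re → G z = ∫ t, (f t : ℂ) * Complex.exp (-(z * t)))
  {ψ : ℝ → ℂ} {φ : ℝ → ℝ} (hk : Kern ψ φ)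

include hmeas hbd h0 hGf hk in
theorem ident_eps (T : ℝ) {ε : ℝ} (hε : 0 < ε) :
    ∫ t, ((f t * Real.exp (-ε * t) * φ (t - T) : ℝ) : ℂ) =
      ∫ τ : ℝ, G (ε + 2 * π * τ * Complex.I) *
        (Complex.exp (↑(-2 * π * τ * (-T)) * Complex.I) * ψ τ) := by
  have h1 : Integrable fun t : ℝ => f t * Real.exp (-ε * t) := by
    have a1 : IntegrableOn (fun t : ℝ => f t * Real.exp (-ε * t)) (Ioi 0) :=
      Integrable.bdd_mul (c := M) (exp_neg_integrableOn_Ioi 0 hε) hmeas.aestronglyMeasurable
        (Eventually.of_forall hbd)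
    refine a1.integrable_of_forall_notMem_eq_zero fun t ht => ?_
    rw [h0 t (not_lt.1 ht), zero_mul]
  have h2 : Integrable fun τ : ℝ => Complex.exp (↑(-2 * π * τ * (-T)) * Complex.I) * ψ τ := by
    have := hk.cont
    exact Continuous.integrable_of_hasCompactSupport (by fun_prop) hk.supp.mul_left
  have h3 := fourier_flip h1.ofReal h2
  refine Eq.trans ?_ (h3.symm.trans ?_)
  · refine integral_congr_ae (Eventually.of_forall fun t => ?_)
    simp only
    rw [Complex.ofReal_mul, ← hk.four, fourier_eq, fourier_eq]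
    congr 1
    refine integral_congr_ae (Eventually.of_forall fun v => ?_)
    simp only
    rw [← mul_assoc, ← Complex.exp_add]
    congr 2
    push_cast
    ring
  · refine integral_congr_ae (Eventually.of_forall fun τ => ?_)
    simp only
    rw [hGf _ (by simpa using hε), fourier_eq]
    congr 1
    refine integral_congr_ae (Eventually.of_forall fun v => ?_)
    simp only [RCLike.ofReal_mul, Complex.coe_algebraMap, Complex.ofReal_exp]
    rw [mul_left_comm, ← Complex.exp_add]
    congr 2
    push_cast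
    ring

include hmeas hbd h0 hG hGf hk in
theorem ident (T : ℝ) : ((∫ t, f t * φ (t - T) : ℝ) : ℂ) =
    𝓕 (fun τ : ℝ => G (2 * π * τ * Complex.I) * ψ τ) (-T) := by
  have he : Tendsto (fun n : ℕ => 1 / ((n : ℝ) + 1)) atTop (𝓝 0) :=
    tendsto_one_div_add_atTop_nhds_zero_nat
  have hp : ∀ n : ℕ, 0 < 1 / ((n : ℝ) + 1) := fun n => by positivity
  have hφ : Integrable fun t => φ (t - T) := hk.int.comp_sub_right T
  have h1 : Tendsto (fun n : ℕ => ∫ t, ((f t * Real.exp (-(1 / ((n : ℝ) + 1)) * t) *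
      φ (t - T) : ℝ) : ℂ)) atTop (𝓝 (∫ t, ((f t * φ (t - T) : ℝ) : ℂ))) := by
    refine tendsto_integral_of_dominated_convergence (fun t => M * φ (t - T)) (fun n => ?_)
      (hφ.const_mul M) (fun n => Eventually.of_forall fun t => ?_) (Eventually.of_forall fun t => ?_)
    · refine Complex.continuous_ofReal.comp_aestronglyMeasurable ?_
      exact (hmeas.aestronglyMeasurable.mul (by fun_prop)).mul hφ.aestronglyMeasurable
    · rw [Complex.norm_real, Real.norm_eq_abs, abs_mul, abs_of_nonneg (hk.nonneg _)]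
      refine mul_le_mul_of_nonneg_right ?_ (hk.nonneg _)
      rcases le_total t 0 with ht | ht
      · simpa [h0 t ht] using (abs_nonneg _).trans (hbd t)
      · rw [abs_mul, abs_of_pos (Real.exp_pos _)]
        refine (mul_le_of_le_one_right (abs_nonneg _) ?_).trans (hbd t)
        rw [Real.exp_le_one_iff]
        nlinarith [hp n]
    · have : Continuous fun e : ℝ => ((f t * Real.exp (-e * t) * φ (t - T) : ℝ) : ℂ) := by fun_prop
      simpa [Function.comp_def] using (this.tendsto 0).comp he
  have hline : ∀ e : ℝ, 0 ≤ e → Continuous fun τ : ℝ => G (e + 2 * π * τ * Complex.I) :=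
    fun e he => hG.comp_continuous (by fun_prop) fun τ => by simpa using he
  obtain ⟨C, hC⟩ := ((isCompact_Icc (a := (0 : ℝ)) (b := 1)).prod hk.supp.isCompact).exists_bound_of_continuousOn
    (f := fun p : ℝ × ℝ => G (p.1 + 2 * π * p.2 * Complex.I))
    (hG.comp (by fun_prop) fun p hp => by simpa using hp.1.1)
  have h2 : Tendsto (fun n : ℕ => ∫ τ : ℝ, G ((1 / ((n : ℝ) + 1) : ℝ) + 2 * π * τ * Complex.I) *
      (Complex.exp (↑(-2 * π * τ * (-T)) * Complex.I) * ψ τ)) atTop
      (𝓝 (∫ τ : ℝ, G (2 * π * τ * Complex.I) *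
        (Complex.exp (↑(-2 * π * τ * (-T)) * Complex.I) * ψ τ))) := by
    have hc := hk.cont
    refine tendsto_integral_of_dominated_convergence (fun τ => C * ‖ψ τ‖) (fun n => ?_)
      ((hc.integrable_of_hasCompactSupport hk.supp).norm.const_mul C)
      (fun n => Eventually.of_forall fun τ => ?_) (Eventually.of_forall fun τ => ?_)
    · exact ((hline _ (hp n).le).mul (by fun_prop)).aestronglyMeasurable
    · rw [norm_mul, norm_mul, Complex.norm_exp_ofReal_mul_I, one_mul]
      by_cases hτ : τ ∈ tsupport ψ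
      · refine mul_le_mul_of_nonneg_right (hC (_, τ) ⟨⟨(hp n).le, ?_⟩, hτ⟩) (norm_nonneg _)
        rw [div_le_one (by positivity)]
        linarith [(Nat.cast_nonneg n : (0 : ℝ) ≤ n)]
      · simp [image_eq_zero_of_notMem_tsupport hτ]
    · refine Tendsto.mul_const _ ?_
      have hre : ∀ e : ℝ, 0 ≤ e → (e : ℂ) + 2 * π * τ * Complex.I ∈ {z : ℂ | 0 ≤ z.re} :=
        fun e he => by simpa using he
      refine (hG (2 * π * τ * Complex.I) (by simp)).tendsto.comp
        (tendsto_nhdsWithin_iff.2 ⟨?_, Eventually.of_forall fun n => hre _ (hp n).le⟩)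
      have : Continuous fun e : ℝ => (e : ℂ) + 2 * π * τ * Complex.I := by fun_prop
      simpa [Function.comp_def] using (this.tendsto 0).comp he
  simp only [ident_eps hmeas hbd h0 hGf hk T (hp _)] at h1
  rw [← integral_complex_ofReal, fourier_eq]
  refine (tendsto_nhds_unique h1 h2).trans ?_
  refine integral_congr_ae (Eventually.of_forall fun τ => ?_)
  simp only
  ring

include hmeas hbd h0 hG hGf hk in
theorem core : Tendsto (fun T => ∫ t, f t * φ (t - T)) atTop (𝓝 0) := by
  have h1 := (Real.zero_at_infty_fourier (fun τ : ℝ => G (2 * π * τ * Complex.I) * ψ τ)).comp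
    (tendsto_neg_atTop_atBot.mono_right atBot_le_cocompact)
  have h2 := (Complex.continuous_re.tendsto 0).comp h1
  refine h2.congr fun T => ?_
  simp only [Function.comp]
  rw [← ident hmeas hbd h0 hG hGf hk, Complex.ofReal_re]

end core

theorem window {f : ℝ → ℝ} {M : ℝ} (hmeas : Measurable f) (hbd : ∀ t, |f t| ≤ M) {φ : ℝ → ℝ}
    (hφ0 : ∀ u, 0 ≤ φ u) (hφ : Integrable φ) (h1 : ∫ u, φ u = 1) {δ η : ℝ}
    (h2 : ∫ u, {u | δ < |u|}.indicator φ u ≤ η) {c a : ℝ} (ha : a ≤ M)
    (h : ∀ t, |t - c| ≤ δ → a ≤ f t) : a - 2 * M * η ≤ ∫ t, f t * φ (t - c) := by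
  have hM : 0 ≤ M := (abs_nonneg _).trans (hbd 0)
  have hm : MeasurableSet {u : ℝ | δ < |u|} :=
    (isOpen_lt continuous_const continuous_abs).measurableSet
  have i1 : Integrable fun t => a * φ (t - c) := (hφ.comp_sub_right c).const_mul a
  have i2 : Integrable fun t => 2 * M * {u | δ < |u|}.indicator φ (t - c) :=
    ((hφ.indicator hm).comp_sub_right c).const_mul _
  have i3 : Integrable fun t => f t * φ (t - c) :=
    Integrable.bdd_mul (c := M) (hφ.comp_sub_right c) hmeas.aestronglyMeasurable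
      (Eventually.of_forall hbd)
  have h3 := integral_mono (i1.sub i2) i3 fun t => by
    simp only [Pi.sub_apply]
    by_cases ht : δ < |t - c|
    · rw [indicator_of_mem (by exact ht), ← sub_mul]
      exact mul_le_mul_of_nonneg_right (by linarith [(abs_le.1 (hbd t)).1]) (hφ0 _)
    · rw [indicator_of_notMem (by exact ht), mul_zero, sub_zero]
      exact mul_le_mul_of_nonneg_right (h t (not_lt.1 ht)) (hφ0 _)
  simp only [Pi.sub_apply] at h3
  rw [integral_sub i1 i2, integral_const_mul, integral_const_mul, integral_sub_right_eq_self,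
    integral_sub_right_eq_self ({u | δ < |u|}.indicator φ), h1] at h3
  have := mul_le_mul_of_nonneg_left h2 (by positivity : 0 ≤ 2 * M)
  linarith

end Tauber

open Tauber in
theorem tauber (f : ℝ → ℝ) (M : ℝ) (hmeas : Measurable f) (hbd : ∀ t, 0 ≤ t → |f t| ≤ M)
    (G : ℂ → ℂ) (hG : ContinuousOn G {z : ℂ | 0 ≤ z.re})
    (hGf : ∀ z : ℂ, 0 < z.re →
      G z = ∫ t in Set.Ioi (0 : ℝ), (f t : ℂ) * Complex.exp (-(z * t)))
    (hslow : ∀ ε : ℝ, 0 < ε → ∃ δ : ℝ, 0 < δ ∧ ∀ t s : ℝ, 0 ≤ t → t ≤ s → s ≤ t + δ →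
      f t - ε ≤ f s) :
    Tendsto f atTop (𝓝 0) := by
  have hM : 0 ≤ M := (abs_nonneg _).trans (hbd 0 le_rfl)
  set g : ℝ → ℝ := (Set.Ioi 0).indicator f with hg
  have gm : Measurable g := hmeas.indicator measurableSet_Ioi
  have gpos : ∀ t, 0 < t → g t = f t := fun t ht => Set.indicator_of_mem (by exact ht) _
  have g0 : ∀ t, t ≤ 0 → g t = 0 := fun t ht => Set.indicator_of_notMem (by simpa using ht) _
  have gbd : ∀ t, |g t| ≤ M := fun t => by
    rcases lt_or_ge 0 t with ht | ht
    · rw [gpos t ht]; exact hbd t ht.le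
    · rw [g0 t ht, abs_zero]; exact hM
  have hGg : ∀ z : ℂ, 0 < z.re → G z = ∫ t, (g t : ℂ) * Complex.exp (-(z * t)) := by
    intro z hz
    rw [hGf z hz, ← integral_indicator measurableSet_Ioi]
    refine integral_congr_ae (Eventually.of_forall fun t => ?_)
    rcases lt_or_ge 0 t with ht | ht
    · simp only [gpos t ht]
      exact Set.indicator_of_mem (by exact ht) _
    · simp only [g0 t ht]
      rw [Set.indicator_of_notMem (by simpa using ht)]
      simp
  rw [Metric.tendsto_nhds]
  intro ε hε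
  obtain ⟨δ, hδ, hs⟩ := hslow (ε / 4) (by positivity)
  obtain ⟨ψ, φ, hk, h1, h2⟩ := exists_kern (half_pos hδ) (η := ε / (8 * (M + 1))) (by positivity)
  have hη : 2 * M * (ε / (8 * (M + 1))) ≤ ε / 4 := by
    rw [mul_div_assoc', div_le_div_iff₀ (by positivity) (by positivity)]
    nlinarith
  have hc := Metric.tendsto_nhds.1 (core gm gbd g0 hG hGg hk) (ε / 4) (by positivity)
  filter_upwards [(tendsto_atTop_add_const_right _ (δ / 2) tendsto_id).eventually hc,
    (tendsto_atTop_add_const_right _ (-(δ / 2)) tendsto_id).eventually hc,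
    eventually_gt_atTop δ] with T a1 a2 hT
  simp only [dist_zero_right, Real.norm_eq_abs, id] at a1 a2 ⊢
  have hfT := abs_le.1 (hbd T (by linarith))
  have b1 := window gm gbd hk.nonneg hk.int h1 h2 (c := T + δ / 2) (a := f T - ε / 4)
    (by linarith) fun t ht => by
      have := abs_le.1 ht
      rw [gpos t (by linarith)]
      exact hs T t (by linarith) (by linarith) (by linarith)
  have b2 := window gm.neg (M := M) (fun t => by simpa using gbd t) hk.nonneg hk.int h1 h2
    (c := T + -(δ / 2)) (a := -f T - ε / 4) (by linarith) fun t ht => by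
      have := abs_le.1 ht
      have h3 := hs t T (by linarith) (by linarith) (by linarith)
      simp only [Pi.neg_apply]
      rw [gpos t (by linarith)]
      linarith
  simp only [Pi.neg_apply, neg_mul, integral_neg] at b2
  have c1 := abs_lt.1 a1
  have c2 := abs_lt.1 a2
  rw [abs_lt]
  constructor <;> linarith

end Crest.Agent.R20
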