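import Crest.Agent.R20.WBound

/-!
# R20: level zero of a typical totient value

`x = EE B`, `log x = e^B`, `E = U^7`, `Y = U^11`, `R = 10 Y`.  Let `v ≤ x`, `v = φ(n)`.  Discard:
* (a) `v ≤ x / e^B` (count `≤ x/e^B + 1 ≤ 2x/e^B`);
* (b) `Om v > R` (count `≤ x C e^{-2Y}`: `recBd_Om_large`, `RecBd.cnt`, `hq v ≤ ell v ≤ B`);
* (c) `¬ NoSq E n`: `p(p-1) ∣ v` for a prime `p > Z = EE E`, count `≤ ∑ x/(p(p-1)) ≤ 2x/Z`.
Otherwise `v > x/e^B ≥ √x`, `q = gpf n ≥ gpf v`, `log q ≥ log v/R ≥ e^B/(2R)`, so `ell q > E`,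
`top n = q`, `v = (q-1) φ(s)` with `s = rest n`, and every prime `p ∣ n` has `p - 1 ≤ v ≤ x`, so
`ell p ≤ B + 1 ≤ Y`.  Discard further:
* (d) `q` non-normal: for `w = φ(s)` the number of such `q ≤ X' = x/w + 1 ≤ 2x/w`
  (`log X' ≥ e^B/(2R)`) is `≤ (2x/w)(2R/e^B) exp (-2U²)` (`nonnormal_count`); sum with `W_bound`
  (`cntBd_values`);
* (e) `¬ AllNormal E s`: `φ(s)` lies in a set of reciprocal sum `≤ exp (-U)` (`beta_bound`),
  `cnt_prime_cheb` with `log z = e^B/(2R)`;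
* (f) violation: `violation_count` (note `ht n i = ht s (i-1)` for `i ≥ 1`).
For the remaining `v`: `∑_{i=1}^K a_i ht n i ≤ B + U^9` gives
`ht n 2 ≤ (B + U^9)/(a₁ + a₂) ≤ 0.8 B`.  Let `q₁ = gpf s`, `D' = v/((q-1) φ(q₁))`
(`= q₁^{e-1} φ(tail n 2)`, or `1`): its primes have height `≤ max E (ht n 2) ≤ 0.8 B`
(if `e ≥ 2` then `ell q₁ ≤ E`), `Om D' ≤ R`, so `log D' ≤ R e^{0.8 B} ≤ e^B/20`
(`log_le_Om_mul`; `B ≥ U^10`), whence `q² ≥ v/D'`, `2 log q ≥ e^B - B - e^B/20 ≥ 0.8 e^B`.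
-/

set_option autoImplicit false

open Finset Filter Topology
open Crest.NumberTheoryR.TotientScale

noncomputable section

namespace Crest.Agent.R20

namespace ZeroAux

theorem sq_le_exp {t : ℝ} (ht : 0 ≤ t) : t ^ 2 / 2 ≤ Real.exp t := by
  have := Real.quadratic_le_exp_of_nonneg ht
  linarith

theorem num1 {U : ℝ} (hU : 40 ≤ U) : U ^ 11 ≤ Real.exp (U ^ 7) := by
  have h0 : 0 ≤ U := by linarith
  refine le_trans ?_ (sq_le_exp (by positivity))
  have h3 : (2 : ℝ) ≤ U ^ 3 := le_trans (by norm_num) (pow_le_pow_left₀ (by norm_num) hU 3)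
  have : (U ^ 7) ^ 2 / 2 = U ^ 11 * (U ^ 3 / 2) := by ring
  rw [this]
  exact le_mul_of_one_le_right (by positivity) (by linarith)

theorem num2 {U B : ℝ} (hU : 40 ≤ U) (hB : U ^ 10 ≤ B) :
    20 * U ^ 11 * Real.exp (U ^ 7) < Real.exp B := by
  have h0 : 0 < U := by linarith
  have h3 : (2 : ℝ) ≤ U ^ 3 := le_trans (by norm_num) (pow_le_pow_left₀ (by norm_num) hU 3)
  have h9 : (200 : ℝ) ≤ U ^ 9 := le_trans (by norm_num) (pow_le_pow_left₀ (by norm_num) hU 9)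
  have h7 : U ^ 7 ≤ U ^ 10 / 2 := by
    have : U ^ 10 / 2 = U ^ 7 * (U ^ 3 / 2) := by ring
    rw [this]
    exact le_mul_of_one_le_right (by positivity) (by linarith)
  have h1 : 20 * U ^ 11 < Real.exp (U ^ 10 / 2) := by
    refine lt_of_lt_of_le ?_ (sq_le_exp (by positivity))
    have : (U ^ 10 / 2) ^ 2 / 2 = U ^ 11 * (U ^ 9 / 8) := by ring
    rw [this]
    have : 0 < U ^ 11 := by positivity
    nlinarith
  calc 20 * U ^ 11 * Real.exp (U ^ 7) < Real.exp (U ^ 10 / 2) * Real.exp (U ^ 7) :=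
        mul_lt_mul_of_pos_right h1 (Real.exp_pos _)
    _ = Real.exp (U ^ 10 / 2 + U ^ 7) := (Real.exp_add _ _).symm
    _ ≤ Real.exp B := Real.exp_le_exp.2 (by linarith)

theorem num3 {U B : ℝ} (hU : 40 ≤ U) (hB : U ^ 10 ≤ B) :
    200 * U ^ 11 * Real.exp (4 / 5 * B) ≤ Real.exp B := by
  have h0 : 0 < U := by linarith
  have h9 : (10000 : ℝ) ≤ U ^ 9 := le_trans (by norm_num) (pow_le_pow_left₀ (by norm_num) hU 9)
  have h1 : 200 * U ^ 11 ≤ Real.exp (U ^ 10 / 5) := by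
    refine le_trans ?_ (sq_le_exp (by positivity))
    have : (U ^ 10 / 5) ^ 2 / 2 = U ^ 11 * (U ^ 9 / 50) := by ring
    rw [this]
    have : 0 < U ^ 11 := by positivity
    nlinarith
  calc 200 * U ^ 11 * Real.exp (4 / 5 * B) ≤ Real.exp (U ^ 10 / 5) * Real.exp (4 / 5 * B) :=
        mul_le_mul_of_nonneg_right h1 (Real.exp_pos _).le
    _ = Real.exp (U ^ 10 / 5 + 4 / 5 * B) := (Real.exp_add _ _).symm
    _ ≤ Real.exp B := Real.exp_le_exp.2 (by linarith)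

theorem num4 {B : ℝ} (hB : 14 ≤ B) : B ≤ 3 / 20 * Real.exp B := by
  have := sq_le_exp (t := B) (by linarith)
  nlinarith

theorem num5 {C U : ℝ} (hC : 0 < C) (hU : 484 * C + 51 ≤ U) :
    40 * U ^ 11 * Real.exp (-(2 * U ^ 2)) * Real.exp (C * Real.log (U ^ 11) ^ 2) ≤ 1 := by
  have h0 : 0 < U := by linarith
  have h1 : (1 : ℝ) ≤ U := by linarith
  have hl : Real.log U ≤ 2 * Real.sqrt U := by
    have h := Real.log_le_sub_one_of_pos (Real.sqrt_pos.2 h0)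
    rw [Real.log_sqrt h0.le] at h
    linarith
  have hl0 : 0 ≤ Real.log U := Real.log_nonneg h1
  have hl2 : Real.log U ^ 2 ≤ 4 * U := by
    have := pow_le_pow_left₀ hl0 hl 2
    rw [mul_pow, Real.sq_sqrt h0.le] at this
    linarith
  have h11 : U ^ 11 ≤ Real.exp (11 * U) := by
    have : U ≤ Real.exp U := by linarith [Real.add_one_le_exp U]
    calc U ^ 11 ≤ Real.exp U ^ 11 := pow_le_pow_left₀ h0.le this 11
      _ = Real.exp (11 * U) := by rw [← Real.exp_nat_mul]; norm_num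
  have h40 : (40 : ℝ) ≤ Real.exp (40 * U) := by linarith [Real.add_one_le_exp (40 * U)]
  have hlog : C * Real.log (U ^ 11) ^ 2 ≤ 484 * C * U := by
    rw [Real.log_pow]
    have : C * (((11 : ℕ) : ℝ) * Real.log U) ^ 2 = 121 * C * Real.log U ^ 2 := by
      push_cast; ring
    rw [this]
    nlinarith
  calc 40 * U ^ 11 * Real.exp (-(2 * U ^ 2)) * Real.exp (C * Real.log (U ^ 11) ^ 2)
      ≤ Real.exp (40 * U) * Real.exp (11 * U) * Real.exp (-(2 * U ^ 2)) *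
          Real.exp (484 * C * U) := by
        gcongr
    _ = Real.exp (40 * U + 11 * U + -(2 * U ^ 2) + 484 * C * U) := by
        simp only [Real.exp_add]
    _ ≤ 1 := by
        rw [Real.exp_le_one_iff]
        nlinarith

theorem num6 {U : ℝ} (hU : 0 ≤ U) : U ^ 11 * Real.exp (-U) ≤ Nat.factorial 11 := by
  have h := Real.pow_div_factorial_le_exp U hU 11
  rw [div_le_iff₀ (by positivity)] at h
  rw [Real.exp_neg, ← div_eq_mul_inv, div_le_iff₀ (Real.exp_pos _)]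
  linarith

theorem exp_le_EE (B : ℝ) : Real.exp B ≤ EE B :=
  Real.exp_le_exp.2 (by linarith [Real.add_one_le_exp B])

theorem EE_add_one_le {B : ℝ} (hB : 0 ≤ B) : EE B + 1 ≤ EE (B + 1) := by
  have h1 : 1 ≤ Real.exp B := Real.one_le_exp hB
  have h2 : (2 : ℝ) ≤ Real.exp 1 := by linarith [Real.add_one_le_exp (1 : ℝ)]
  have h3 : Real.exp B + 1 ≤ Real.exp (B + 1) := by rw [Real.exp_add]; nlinarith
  have h4 : 1 ≤ EE B := h1.trans (exp_le_EE B)
  calc EE B + 1 ≤ EE B * Real.exp 1 := by nlinarith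
    _ = Real.exp (Real.exp B + 1) := by rw [EE, Real.exp_add]
    _ ≤ EE (B + 1) := Real.exp_le_exp.2 h3

/-- (a) -/
theorem cnt_le {y : ℝ} (hy : 0 ≤ y) : CntBd {v : ℕ | (v : ℝ) ≤ y} (y + 1) := by
  refine (SumBd.of_card (range (⌊y⌋₊ + 1)) (M := 1) (fun v hv => ?_) zero_le_one
    fun _ _ => le_rfl).mono_bd ?_
  · simp only [coe_range, Set.mem_Iio]
    exact Nat.lt_succ_of_le (Nat.le_floor hv)
  · rw [card_range]
    push_cast
    linarith [Nat.floor_le hy]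

theorem cnt_mult {x : ℝ} (hx : 0 ≤ x) {d : ℕ} (hd : 0 < d) :
    CntBd {v : ℕ | 0 < v ∧ (v : ℝ) ≤ x ∧ d ∣ v} (x / d) := by
  have hd' : (0 : ℝ) < d := by exact_mod_cast hd
  have h : CntBd {k : ℕ | 0 < k ∧ (k : ℝ) ≤ x / d} (x / d) := by
    refine (SumBd.of_card (Icc 1 ⌊x / d⌋₊) (M := 1) (fun v hv => ?_) zero_le_one
      fun _ _ => le_rfl).mono_bd ?_
    · simp only [coe_Icc, Set.mem_Icc]
      exact ⟨hv.1, Nat.le_floor hv.2⟩
    · rw [Nat.card_Icc]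
      simp only [add_tsub_cancel_right, mul_one]
      exact Nat.floor_le (by positivity)
  refine h.of_map (fun k => d * k) ?_
  rintro v ⟨hv, hvx, k, rfl⟩
  refine ⟨k, ⟨Nat.pos_of_mul_pos_left hv, ?_⟩, rfl, le_rfl⟩
  rw [le_div_iff₀ hd']
  push_cast at hvx
  linarith

/-- (c) -/
theorem cnt_sq {x Z : ℝ} (hx : 0 ≤ x) (hZ : 1 ≤ Z) :
    CntBd {v : ℕ | 0 < v ∧ (v : ℝ) ≤ x ∧ ∃ p : ℕ, Z < p ∧ p * (p - 1) ∣ v} (x * (2 / Z)) := by
  have h : CntBd {o : ℕ × ℕ | Z < o.1 ∧ 0 < o.2 ∧ (o.2 : ℝ) ≤ x ∧ o.1 * (o.1 - 1) ∣ o.2}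
      (x * (2 / Z)) := by
    refine SumBd.sigma (fun p hp => hp.1) (fun p hp => ?_) ((sumBd_inv_mul_pred hZ).const_mul hx)
    have hp1 : 1 < p := by
      have : (1 : ℝ) < p := hZ.trans_lt hp
      exact_mod_cast this
    refine ((cnt_mult hx (d := p * (p - 1)) (Nat.mul_pos (by omega) (by omega))).mono_set
      fun v hv => hv.2).mono_bd (le_of_eq ?_)
    rw [Nat.cast_mul, Nat.cast_sub hp1.le]
    push_cast
    ring
  refine h.of_map Prod.snd ?_
  rintro v ⟨hv, hvx, p, hp, hd⟩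
  exact ⟨(p, v), ⟨hp, hv, hvx, hd⟩, rfl, le_rfl⟩

/-- (d), fixed cofactor. -/
theorem cnt_nonnormal {E x z ε X₀ : ℝ} (hz : 1 < z) (hε : 0 ≤ ε) (hx : 0 ≤ x) (hX : x + 1 ≤ X₀)
    (h : ∀ X : ℝ, 2 ≤ X → X ≤ X₀ →
      CntBd {p : ℕ | p.Prime ∧ (p : ℝ) ≤ X ∧ ¬ Normal E p} (X / Real.log X * ε))
    {w : ℕ} (hw : 0 < w) :
    CntBd {q : ℕ | q.Prime ∧ z ≤ q ∧ (((q - 1) * w : ℕ) : ℝ) ≤ x ∧ ¬ Normal E q}
      (2 * x / Real.log z * ε / w) := by
  have hw' : (1 : ℝ) ≤ w := by exact_mod_cast hw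
  have hlz : 0 < Real.log z := Real.log_pos hz
  have key : ∀ q : ℕ, q.Prime → (((q - 1) * w : ℕ) : ℝ) ≤ x → (q : ℝ) ≤ x / w + 1 := by
    intro q hq h1
    rw [Nat.cast_mul, Nat.cast_sub hq.one_le, ← le_div_iff₀ (by linarith)] at h1
    push_cast at h1
    linarith
  rcases Set.eq_empty_or_nonempty
    {q : ℕ | q.Prime ∧ z ≤ q ∧ (((q - 1) * w : ℕ) : ℝ) ≤ x ∧ ¬ Normal E q} with he | ⟨q, hq⟩
  · rw [he]
    exact SumBd.empty _ (by positivity)
  have h1 := key q hq.1 hq.2.2.1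
  have h2 : (2 : ℝ) ≤ q := by exact_mod_cast hq.1.two_le
  have h3 : x / w ≤ x := div_le_self hx hw'
  refine ((h (x / w + 1) (by linarith) (by linarith)).mono_set
    fun p hp => ⟨hp.1, key p hp.1 hp.2.2.1, hp.2.2.2⟩).mono_bd ?_
  have h4 : Real.log z ≤ Real.log (x / w + 1) :=
    Real.log_le_log (by linarith) (hq.2.1.trans h1)
  calc (x / w + 1) / Real.log (x / w + 1) * ε ≤ (2 * (x / w)) / Real.log z * ε := by
        gcongr
        linarith
    _ = 2 * x / Real.log z * ε / w := by ring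

theorem noSq_of {E : ℝ} (hE : 0 ≤ E) {n : ℕ}
    (h : ¬ ∃ p : ℕ, EE E < p ∧ p * (p - 1) ∣ Nat.totient n) : NoSq E n := by
  intro p hp hd
  by_contra hc
  refine h ⟨p, (lt_ell_iff hE).1 (not_le.1 hc), ?_⟩
  have := Nat.totient_dvd_of_dvd hd
  rwa [Nat.totient_prime_pow hp (by norm_num), show 2 - 1 = 1 from rfl, pow_one] at this

theorem hq_le_of_totient {B : ℝ} (hB : 0 ≤ B) {n : ℕ} (hn : 0 < n)
    (h : (Nat.totient n : ℝ) ≤ EE B) : hq n ≤ B + 1 := by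
  rw [hq_le_iff hn (by linarith)]
  intro p hp hd
  rw [ell_le_iff (by linarith)]
  have h1 : p - 1 ≤ Nat.totient n := by
    have := Nat.totient_dvd_of_dvd hd
    rw [Nat.totient_prime hp] at this
    exact Nat.le_of_dvd (Nat.totient_pos.2 hn) this
  have h2 : ((p - 1 : ℕ) : ℝ) ≤ Nat.totient n := by exact_mod_cast h1
  rw [Nat.cast_sub hp.one_le] at h2
  push_cast at h2
  linarith [EE_add_one_le hB]

theorem log_le_Om_log {n : ℕ} (hn : 0 < n) :
    Real.log (Nat.totient n) ≤ Om (Nat.totient n) * Real.log (gpf n) := by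
  have hv : 0 < Nat.totient n := Nat.totient_pos.2 hn
  have h1 : Nat.totient n ≤ gpf n ^ Om (Nat.totient n) :=
    (le_gpf_pow_Om hv).trans (Nat.pow_le_pow_left (gpf_totient_le hn) _)
  rw [← Real.log_pow]
  exact Real.log_le_log (by exact_mod_cast hv) (by exact_mod_cast h1)

/-- The small cofactor `D'`. -/
theorem exists_cofactor {E H : ℝ} (hE : 0 ≤ E) (hEH : E ≤ H) {q s : ℕ} (hs : 0 < s)
    (hq1 : 1 ≤ q) (hsq : gpf s ≤ q) (hN : NoSq E s) (h1 : ht s 1 ≤ H) :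
    ∃ D : ℕ, 0 < D ∧ D ∣ Nat.totient s ∧ hq D ≤ H ∧ Nat.totient s ≤ q * D := by
  rcases le_or_gt (ht s 0) E with h | h
  · exact ⟨Nat.totient s, Nat.totient_pos.2 hs, dvd_rfl,
      (hq_totient_le hs).trans (h.trans hEH), Nat.le_mul_of_pos_left _ hq1⟩
  · obtain ⟨hp, he⟩ := hN.lev_eq hs hE h
    have ht1 := totient_tail hs 0
    rw [he, Nat.totient_prime hp, zero_add, tail_zero] at ht1
    have hpos := tail_pos hs 1
    refine ⟨Nat.totient (tail s 1), Nat.totient_pos.2 hpos, Dvd.intro_left _ ht1.symm,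
      (hq_totient_le hpos).trans h1, ?_⟩
    rw [ht1]
    exact Nat.mul_le_mul_right _ (by omega)

theorem ht_one_le {K s : ℕ} (hK : 2 ≤ K) {T : ℝ}
    (h : ∑ i ∈ Icc 1 K, aCoef i * ht s (i - 1) ≤ T) : 1.29 * ht s 1 ≤ T := by
  have h1 : ∑ i ∈ ({1, 2} : Finset ℕ), aCoef i * ht s (i - 1) ≤
      ∑ i ∈ Icc 1 K, aCoef i * ht s (i - 1) := by
    refine sum_le_sum_of_subset_of_nonneg (fun i hi => ?_) fun i hi _ =>
      mul_nonneg (aCoef_pos (mem_Icc.1 hi).1).le (ht_nonneg _ _)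
    simp only [mem_insert, mem_singleton] at hi
    rw [mem_Icc]
    omega
  rw [sum_pair (by norm_num)] at h1
  have h2 : ht s 1 ≤ ht s 0 := ht_anti s zero_le_one
  have h3 := aCoef_one_add_two
  have h4 := aCoef_pos (j := 1) le_rfl
  have h5 := ht_nonneg s 1
  simp only [Nat.sub_self, show 2 - 1 = 1 from rfl] at h1
  nlinarith

/-- The final size estimate for the top prime. -/
theorem top_large {U B : ℝ} (hU : 40 ≤ U) (hB : U ^ 10 ≤ B) {K q s : ℕ} (hK : 2 ≤ K)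
    (hq : q.Prime) (hs : 0 < s) (hsq : gpf s ≤ q) (hN : NoSq (U ^ 7) s)
    (hsum : ∑ i ∈ Icc 1 K, aCoef i * ht s (i - 1) ≤ B + U ^ 9)
    (hOm : (Om ((q - 1) * Nat.totient s) : ℝ) ≤ 10 * U ^ 11)
    (hlow : Real.exp B - B ≤ Real.log (((q - 1) * Nat.totient s : ℕ) : ℝ)) :
    Real.exp (2 / 5 * Real.exp B) ≤ q := by
  have h0 : 0 < U := by linarith
  have h9 : 40 * U ^ 9 ≤ B := by
    refine le_trans ?_ hB
    rw [show U ^ 10 = U * U ^ 9 by ring]
    exact mul_le_mul_of_nonneg_right hU (by positivity)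
  have h7 : U ^ 7 ≤ U ^ 9 := pow_le_pow_right₀ (by linarith) (by norm_num)
  have h99 : (1 : ℝ) ≤ U ^ 9 := one_le_pow₀ (by linarith)
  have h1 := ht_one_le hK hsum
  obtain ⟨D, hD, hdvd, hqD, hle⟩ := exists_cofactor (H := 4 / 5 * B) (by positivity)
    (by linarith) hs hq.one_le hsq hN (by linarith)
  have hq0 : (0 : ℝ) < q := by exact_mod_cast hq.pos
  have hv : 0 < (q - 1) * Nat.totient s :=
    Nat.mul_pos (by have := hq.two_le; omega) (Nat.totient_pos.2 hs)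
  have h2 : (q - 1) * Nat.totient s ≤ q * (q * D) := Nat.mul_le_mul (by omega) hle
  have h3 : Real.log (((q - 1) * Nat.totient s : ℕ) : ℝ) ≤
      Real.log q + (Real.log q + Real.log D) := by
    have hD' : (0 : ℝ) < D := by exact_mod_cast hD
    rw [← Real.log_mul hq0.ne' hD'.ne', ← Real.log_mul hq0.ne' (by positivity)]
    exact Real.log_le_log (by exact_mod_cast hv) (by exact_mod_cast h2)
  have h4 : (Om D : ℝ) ≤ 10 * U ^ 11 :=
    le_trans (by exact_mod_cast Om_le_of_dvd hv (hdvd.mul_left _)) hOm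
  have h5 : Real.log D ≤ 10 * U ^ 11 * Real.exp (4 / 5 * B) :=
    (log_le_Om_mul hD).trans (by gcongr)
  have h6 := num3 hU hB
  have h8 := num4 (B := B) (by linarith)
  rw [← Real.le_log_iff_exp_le hq0]
  linarith

end ZeroAux

open ZeroAux in
theorem zero_count : ∃ C U₀ : ℝ, 0 < C ∧ ∀ U : ℝ, U₀ ≤ U → ∀ K : ℕ, 2 ≤ K → (K : ℝ) ^ 4 ≤ U →
    ∀ B : ℝ, U ^ 10 ≤ B → B ≤ U ^ 11 - 1 →
    CntBd {v : ℕ | v ∈ Vset (EE B) ∧ ¬ ZeroOK U K B v} (C * (EE B / Real.exp B)) := by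
  obtain ⟨Cb, hCb, hb⟩ := recBd_Om_large
  obtain ⟨Ud, hd⟩ := nonnormal_count
  obtain ⟨CW, hCW, hW⟩ := W_bound
  obtain ⟨Ue, he⟩ := beta_bound
  obtain ⟨Cc, hCc, hc⟩ := cnt_prime_cheb
  obtain ⟨Uf, hf⟩ := violation_count
  refine ⟨2 + Cb + 2 + 1 + 20 * Cc * Nat.factorial 11 + 1,
    max (max 40 (484 * CW + 51)) (max Ud (max Ue Uf)), by positivity, ?_⟩
  intro U hU K hK hKU B hB hB'
  simp only [max_le_iff] at hU
  obtain ⟨⟨hU, hUW⟩, hUd, hUe, hUf⟩ := hU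
  have h0 : 0 < U := by linarith
  have h10 : (14 : ℝ) ≤ U ^ 10 := le_trans (by norm_num) (pow_le_pow_left₀ (by norm_num) hU 10)
  have hB0 : 0 ≤ B := by linarith
  have hY2 : (2 : ℝ) ≤ U ^ 11 := by linarith
  have hY0 : 0 < U ^ 11 := by positivity
  have hE0 : (0 : ℝ) ≤ U ^ 7 := by positivity
  have hx := EE_pos B
  have hL := Real.exp_pos B
  have hxL : 1 ≤ EE B / Real.exp B := (one_le_div hL).2 (exp_le_EE B)
  obtain ⟨z, hz⟩ : ∃ z, z = Real.exp (Real.exp B / (20 * U ^ 11)) := ⟨_, rfl⟩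
  have hlz : Real.log z = Real.exp B / (20 * U ^ 11) := by rw [hz, Real.log_exp]
  have hz1 : 1 < z := by rw [hz]; exact Real.one_lt_exp_iff.2 (by positivity)
  have hzE : EE (U ^ 7) < z := by
    rw [hz]
    refine Real.exp_lt_exp.2 ?_
    rw [lt_div_iff₀ (by positivity)]
    linarith [num2 hU hB]
  have hZ1 : 1 ≤ EE (U ^ 7) := (Real.one_le_exp hE0).trans (exp_le_EE _)
  -- the six exceptional sets
  have Sa := (cnt_le (y := EE B / Real.exp B) (by linarith)).mono_bd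
    (b' := 2 * (EE B / Real.exp B)) (by linarith)
  have Sb := ((hb (U ^ 11) hY0.le).cnt hx.le).mono_bd (b' := Cb * (EE B / Real.exp B)) (by
    have : Real.exp (-(2 * U ^ 11)) ≤ (Real.exp B)⁻¹ := by
      rw [← Real.exp_neg]
      exact Real.exp_le_exp.2 (by linarith)
    calc EE B * (Cb * Real.exp (-(2 * U ^ 11))) ≤ EE B * (Cb * (Real.exp B)⁻¹) := by gcongr
      _ = Cb * (EE B / Real.exp B) := by ring)
  have Sc := (cnt_sq hx.le hZ1).mono_bd (b' := 2 * (EE B / Real.exp B)) (by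
    have : Real.exp B ≤ EE (U ^ 7) := Real.exp_le_exp.2 (by linarith [num1 hU])
    calc EE B * (2 / EE (U ^ 7)) ≤ EE B * (2 / Real.exp B) := by gcongr
      _ = 2 * (EE B / Real.exp B) := by ring)
  have hpos : ∀ {P : ℕ → Prop} {w : ℕ}, w ∈ phiSet P → 0 < w := by
    rintro P w ⟨s, hs, -, rfl⟩
    exact Nat.totient_pos.2 hs
  have Sd := (cntBd_values (D := fun w => w)
    (Q := fun w => {q : ℕ | q.Prime ∧ z ≤ q ∧ (((q - 1) * w : ℕ) : ℝ) ≤ EE B ∧
      ¬ Normal (U ^ 7) q})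
    (Λ := 2 * EE B / Real.log z * Real.exp (-(2 * U ^ 2))) (by rw [hlz]; positivity) (hW _ hY2)
    fun w hw => cnt_nonnormal hz1 (Real.exp_pos _).le hx.le
      ((EE_add_one_le hB0).trans (EE_mono (by linarith))) (hd U hUd) (hpos hw)).2.mono_bd
    (b' := 1 * (EE B / Real.exp B)) (by
      have := num5 hCW hUW
      rw [hlz]
      calc 2 * EE B / (Real.exp B / (20 * U ^ 11)) * Real.exp (-(2 * U ^ 2)) *
            Real.exp (CW * Real.log (U ^ 11) ^ 2)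
          = 40 * U ^ 11 * Real.exp (-(2 * U ^ 2)) * Real.exp (CW * Real.log (U ^ 11) ^ 2) *
            (EE B / Real.exp B) := by field_simp; ring
        _ ≤ 1 * (EE B / Real.exp B) := by gcongr)
  have Se := (cntBd_values (D := fun w => w)
    (Q := fun w => {q : ℕ | q.Prime ∧ z ≤ q ∧ (((q - 1) * w : ℕ) : ℝ) ≤ EE B})
    (Λ := Cc * EE B / Real.log z) (by rw [hlz]; positivity) (he U hUe K hKU)
    fun w hw => hc _ _ hx.le hz1 w (hpos hw)).2.mono_bd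
    (b' := 20 * Cc * Nat.factorial 11 * (EE B / Real.exp B)) (by
      have := num6 h0.le
      rw [hlz]
      calc Cc * EE B / (Real.exp B / (20 * U ^ 11)) * Real.exp (-U)
          = 20 * Cc * (U ^ 11 * Real.exp (-U)) * (EE B / Real.exp B) := by field_simp
        _ ≤ 20 * Cc * Nat.factorial 11 * (EE B / Real.exp B) := by gcongr)
  have Sf := hf U hUf K hKU B hB hB'
  refine ((((((Sa.union Sb).union Sc).union Sd).union Se).union Sf).mono_set ?_).mono_bd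
    (le_of_eq (by ring))
  rintro v ⟨⟨hvx, n, hn, rfl⟩, hZ⟩
  by_contra hcon
  simp only [Set.mem_union, not_or] at hcon
  obtain ⟨⟨⟨⟨⟨na, nb⟩, nc⟩, nd⟩, ne⟩, nf⟩ := hcon
  have hv : 0 < Nat.totient n := Nat.totient_pos.2 hn
  have hv' : (0 : ℝ) < Nat.totient n := by exact_mod_cast hv
  have hlow : Real.exp B - B ≤ Real.log (Nat.totient n) := by
    have := Real.log_le_log (by linarith) (not_le.1 na).le
    rwa [Real.log_div hx.ne' hL.ne', log_EE, Real.log_exp] at this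
  have hhalf : Real.exp B / 2 ≤ Real.log (Nat.totient n) := by
    linarith [num4 (B := B) (by linarith)]
  have hhq : hq n ≤ U ^ 11 := (hq_le_of_totient hB0 hn hvx).trans (by linarith)
  have hOm : (Om (Nat.totient n) : ℝ) ≤ 10 * U ^ 11 := by
    by_contra h
    exact nb ⟨⟨hv, (hq_totient_le hn).trans hhq, not_le.1 h⟩, hv, hvx⟩
  have hN : NoSq (U ^ 7) n := noSq_of hE0 fun h => nc ⟨hv, hvx, h⟩
  have hg1 : (1 : ℝ) ≤ gpf n := by exact_mod_cast one_le_gpf n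
  have hzq : z ≤ gpf n := by
    have h1 := log_le_Om_log hn
    have h2 := mul_le_mul_of_nonneg_right hOm (Real.log_nonneg hg1)
    rw [hz, ← Real.le_log_iff_exp_le (by linarith), div_le_iff₀ (by positivity)]
    linarith
  have hE : U ^ 7 < ht n 0 := (lt_ell_iff hE0).2 (hzE.trans_le hzq)
  obtain ⟨hq, htop⟩ := hN.lev_eq hn hE0 hE
  rw [tail_zero] at hq htop
  change top n = gpf n at htop
  have hs := rest_pos hn
  have hphi : Nat.totient n = (gpf n - 1) * Nat.totient (rest n) := by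
    rw [totient_top_rest hn, htop, Nat.totient_prime hq]
  have hns : gpf n * rest n = n := by rw [← htop]; exact top_mul_rest n
  have hdvd : rest n ∣ n := Dvd.intro_left _ hns
  have hhs : ht (rest n) 0 ≤ U ^ 11 := (hq_le_of_dvd hn hdvd).trans hhq
  have hnq : Normal (U ^ 7) (gpf n) := by
    by_contra h
    exact nd ⟨_, ⟨_, hs, hhs, rfl⟩, _, ⟨hq, hzq, hphi ▸ hvx, h⟩, hphi⟩
  have hG : Good U K (rest n) := by
    by_contra h
    exact ne ⟨_, ⟨_, hs, ⟨hhs, h⟩, rfl⟩, _, ⟨hq, hzq, hphi ▸ hvx⟩, hphi⟩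
  have hAN : AllNormal (U ^ 7) n := by
    intro p hp hpd
    rw [← hns] at hpd
    rcases (Nat.Prime.dvd_mul hp).1 hpd with h | h
    · rw [(Nat.prime_dvd_prime_iff_eq hp hq).1 h]
      exact hnq
    · exact hG.2.1 p hp h
  have hsum : ∑ i ∈ Icc 1 K, aCoef i * ht (rest n) (i - 1) ≤ B + U ^ 9 := by
    by_contra h
    refine nf ⟨(Real.le_log_iff_exp_le hv').1 hhalf, hvx, hOm, n, hn, rfl, hAN,
      (not_le.1 h).trans_le (le_of_eq (sum_congr rfl fun i hi => ?_))⟩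
    obtain ⟨j, rfl⟩ : ∃ j, i = j + 1 := ⟨i - 1, by have := (mem_Icc.1 hi).1; omega⟩
    rfl
  exact hZ ⟨gpf n, rest n, hq, hs, hphi, top_large hU hB hK hq hs (gpf_rest_le n)
    (hN.of_dvd hdvd) hsum (hphi ▸ hOm) (hphi ▸ hlow), hhs, hsum⟩

end Crest.Agent.R20
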