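import Crest.Agent.R20.Upper
import Crest.Agent.R20.Zero

/-!
# R20: upper bound for `V(x)` by the weight of the nice objects

Every `v ∈ Vset x` is (i) not `ZeroOK (θ^m) m B` (count `≤ C x/e^B ≤ (ε/2) G x/e^B` by `zero_count`,
`X.GG_large`), or (ii) `v = (q-1) φ(s)` with `q ≥ x^{2/5}` and `s` not nice (count
`≤ C (5/2) (x/e^B) · ε' G` by `cnt_prime_cheb`, `cntBd_values`, `not_nice_rec`), or (iii)
`v = (q-1) oval o` with `o = obj (m-k) s ∈ NiceT` (count `≤ (1+ε') (x/e^B) β` by `nice_size`,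
`cnt_prime_upper`, `cntBd_values`, `owt_eq_inv_oval`).  `totientCount x = (Vset x).ncard` is `rfl`.
-/

set_option autoImplicit false

open Finset Filter Topology
open Crest.NumberTheoryR.TotientScale

noncomputable section

namespace Crest.Agent.R20

theorem thmA (X : Ctx) {ε : ℝ} (hε : 0 < ε) : ∃ k₁ : ℕ, ∀ k, k₁ ≤ k → ∀ ε' : ℝ, 0 < ε' →
    ∀ᶠ m : ℕ in atTop, ∀ t ∈ Set.Icc X.t₁ X.t₂, ∀ β : ℝ,
    SumBd (NiceT X.θ (X.B m t) m k) (owt (m - k)) β →
    (totientCount (EE (X.B m t)) : ℝ) ≤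
      EE (X.B m t) / Real.exp (X.B m t) * ((1 + ε') * β + ε * GG (X.B m t) m) := by
  obtain ⟨C₀, U₀, hC₀, hz⟩ := zero_count
  obtain ⟨C₁, hC₁, hcheb⟩ := cnt_prime_cheb
  have hC₁' : 0 < C₁ := by linarith
  obtain ⟨k₁, hk₁⟩ := not_nice_rec X (ε := ε / (5 * C₁)) (by positivity)
  obtain ⟨J₀, hJ₀⟩ := X.eventually_pow U₀
  refine ⟨max k₁ 1, fun k hk ε' hε' => ?_⟩
  filter_upwards [hk₁ k (le_of_max_le_left hk), nice_size X (le_of_max_le_right hk),
    X.eventually_B (cnt_prime_upper hε'), X.GG_large (2 * C₀ / ε), X.B_bounds,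
    eventually_ge_atTop (max J₀ 2)] with m hnn hsize hpnt hG hB hm t ht β hβ
  set B := X.B m t with hBdef
  set G := GG B m with hGdef
  have hx : 0 < EE B := EE_pos B
  have hxe : 0 < EE B / Real.exp B := div_pos hx (Real.exp_pos B)
  -- (i) level zero is atypical
  have h1 := hz (X.θ ^ m) (hJ₀ m (le_of_max_le_left hm)).1 m (le_of_max_le_right hm)
    (hJ₀ m (le_of_max_le_left hm)).2 B (hB t ht).1 (hB t ht).2
  -- (ii) not nice
  have hz1 : 1 < Real.exp (2 / 5 * Real.exp B) := Real.one_lt_exp_iff.2 (by positivity)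
  have h2 := (cntBd_values (D := fun w : ℕ => w)
    (Q := fun w => {q : ℕ | q.Prime ∧ Real.exp (2 / 5 * Real.exp B) ≤ q ∧
      (((q - 1) * w : ℕ) : ℝ) ≤ EE B})
    (Λ := C₁ * EE B / Real.log (Real.exp (2 / 5 * Real.exp B)))
    (div_nonneg (by positivity) (Real.log_pos hz1).le) (hnn t ht) (by
      rintro w ⟨s, hs, -, rfl⟩
      exact hcheb _ _ hx.le hz1 _ (Nat.totient_pos.2 hs))).2
  -- (iii) nice
  have h3 := (cntBd_values (A := NiceT X.θ B m k) (D := oval (m - k))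
    (Q := fun o => {q : ℕ | q.Prime ∧ (((q - 1) * oval (m - k) o : ℕ) : ℝ) ≤ EE B})
    (Λ := (1 + ε') * (EE B / Real.exp B)) (β := β) (by positivity)
    (hβ.mono_fun fun o _ => (owt_eq_inv_oval _ o).ge) (by
      rintro o ⟨s, hs, rfl⟩
      have hs0 : 0 < s := hs.1.1
      rw [oval_obj hs0]
      exact hpnt t ht _ (Nat.totient_pos.2 hs0) (hsize t ht s hs))).2
  have h4 := ((h1.union h2).union h3).mono_set (A' := Vset (EE B)) (by
    intro v hv
    by_cases hZ : ZeroOK (X.θ ^ m) m B v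
    · obtain ⟨q, s, hq, hs, rfl, hq', hs1, hs2⟩ := hZ
      by_cases hN : Nice X.θ B m k s
      · refine Or.inr ⟨obj (m - k) s, ⟨s, hN, rfl⟩, q, ⟨hq, ?_⟩, ?_⟩
        · rw [oval_obj hs]
          exact hv.1
        · rw [oval_obj hs]
      · exact Or.inl (Or.inr ⟨Nat.totient s, ⟨s, hs, ⟨hs1, hs2, hN⟩, rfl⟩, q, ⟨hq, hq', hv.1⟩, rfl⟩)
    · exact Or.inl (Or.inl ⟨hv, hZ⟩))
  refine (CntBd.ncard_le h4).trans ?_
  have e1 : C₀ ≤ ε / 2 * G := by
    have := hG t ht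
    rw [div_le_iff₀ hε] at this
    linarith
  have e2 : C₁ * EE B / Real.log (Real.exp (2 / 5 * Real.exp B)) * (ε / (5 * C₁) * G) =
      EE B / Real.exp B * (ε / 2 * G) := by
    rw [Real.log_exp]
    field_simp
  rw [e2]
  have e3 := mul_le_mul_of_nonneg_right e1 hxe.le
  nlinarith

end Crest.Agent.R20
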