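import Crest.Agent.R20.GRatio

/-!
# R20: the limiting volume of the top simplex
-/

set_option autoImplicit false

open Finset Filter Topology
open Crest.NumberTheoryR.TotientScale

noncomputable section

namespace Crest.Agent.R20

variable (X : Ctx)

private theorem renew_tendsto (j : ℕ) :
    Tendsto (fun M : ℕ => X.ρ ^ (M + (j + 1)) *
      ∑ l ∈ range (M + 1), gSeq l * aCoef (M + (j + 1) - l)) atTop
      (𝓝 (X.γ * (1 - ∑ r ∈ Ico 1 (j + 1), aCoef r * X.ρ ^ r))) := by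
  have h1 : ∀ M : ℕ, X.ρ ^ (M + (j + 1)) * ∑ l ∈ range (M + 1), gSeq l * aCoef (M + (j + 1) - l) =
      gSeq (M + (j + 1)) * X.ρ ^ (M + (j + 1)) - ∑ x ∈ range j,
        gSeq (M + (1 + x)) * X.ρ ^ (M + (1 + x)) * (aCoef (j - x) * X.ρ ^ (j - x)) := by
    intro M
    have h2 := gSeq_rec (j := M + (j + 1)) (by omega)
    rw [show range (M + (j + 1)) = range (M + 1 + j) by congr 1; omega, sum_range_add] at h2
    rw [eq_sub_iff_add_eq]
    conv_rhs => rw [h2, add_mul, mul_comm, sum_mul]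
    congr 1
    refine sum_congr rfl fun x hx => ?_
    have hx' := mem_range.1 hx
    rw [show M + (j + 1) - (M + 1 + x) = j - x by omega, show M + 1 + x = M + (1 + x) by omega,
      show M + (j + 1) = M + (1 + x) + (j - x) by omega, pow_add X.ρ (M + (1 + x))]
    ring
  have h3 : ∑ r ∈ Ico 1 (j + 1), aCoef r * X.ρ ^ r =
      ∑ x ∈ range j, aCoef (j - x) * X.ρ ^ (j - x) := by
    rw [sum_Ico_eq_sum_range, Nat.add_sub_cancel, ← sum_range_reflect]
    refine sum_congr rfl fun x hx => ?_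
    have hx' := mem_range.1 hx
    rw [show 1 + (j - 1 - x) = j - x by omega]
  simp only [h1]
  rw [h3, mul_sub, mul_one, mul_sum]
  refine (X.hγ.comp (tendsto_add_atTop_nat (j + 1))).sub (tendsto_finsetSum _ fun x _ => ?_)
  exact (X.hγ.comp (tendsto_add_atTop_nat (1 + x))).mul_const _

private theorem GG_add (B : ℝ) (D n : ℕ) :
    GG B (D + n) = GG B D * ∏ j ∈ range n, B / (((D + j + 1 : ℕ) : ℝ) * gSeq (D + j + 1)) := by
  induction n with
  | zero => simp
  | succ n ih => rw [← add_assoc, GG_succ, ih, prod_range_succ]; push_cast; ring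

private theorem abs_log_add_le {u : ℝ} (hu : |u| ≤ 1 / 2) : |Real.log (1 - u) + u| ≤ 2 * u ^ 2 := by
  have h := Real.abs_log_sub_add_sum_range_le (x := u) (by linarith) 1
  simp only [range_one, sum_singleton, zero_add, pow_one, CharP.cast_eq_zero, div_one] at h
  rw [add_comm]
  refine h.trans ?_
  rw [div_le_iff₀ (by linarith), show (1 + 1 : ℕ) = 2 from rfl, sq_abs]
  nlinarith [sq_nonneg u]

private theorem tendsto_ratio (a b : ℕ) :
    Tendsto (fun M : ℕ => ((M + a : ℕ) : ℝ) / ((M + b + 1 : ℕ) : ℝ)) atTop (𝓝 1) := by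
  have h1 : Tendsto (fun M : ℕ => ((M + b + 1 : ℕ) : ℝ)) atTop atTop :=
    tendsto_natCast_atTop_atTop.comp (tendsto_add_atTop_nat (b + 1))
  have h2 := (h1.const_div_atTop ((a : ℝ) - b - 1)).const_add 1
  rw [add_zero] at h2
  refine h2.congr fun M => ?_
  push_cast
  field_simp
  ring

/-- With `M = m - K - 1` and `1 ≤ i ≤ d ≤ K + 1`: by the renewal recursion
`∑_{l ≤ M} g_l a_{M+i-l} = g_{M+i} - ∑_{r=1}^{i-1} a_r g_{M+i-r}`, and
`ρ^m = ρ^{K+1-i} ρ^{M+i}`, `ρ^{M+i} g_{M+i-r} a_r = (a_r ρ^r)(g_{M+i-r} ρ^{M+i-r}) → γ a_r ρ^r`;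
`1/(θ^m)^10 = ρ^m`. -/
theorem cost_tendsto {K d : ℕ} (hd : d ≤ K + 1) (σ : ℕ → ℕ) :
    Tendsto (fun m : ℕ => (∑ l ∈ range (m - K - 1 + 1), gSeq l * lowShift (m - K - 1) d σ l) /
      (X.θ ^ m) ^ 10) atTop (𝓝 (X.zlim K d σ)) := by
  rw [← tendsto_add_atTop_iff_nat (K + 1)]
  have h1 : ∀ M : ℕ, (∑ l ∈ range (M + (K + 1) - K - 1 + 1),
      gSeq l * lowShift (M + (K + 1) - K - 1) d σ l) / (X.θ ^ (M + (K + 1))) ^ 10 =
      ∑ i ∈ Icc 1 d, hq (σ i) * X.ρ ^ (K + 1 - i) *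
        (X.ρ ^ (M + i) * ∑ l ∈ range (M + 1), gSeq l * aCoef (M + i - l)) := by
    intro M
    have h2 := X.pow_mul_rho (M + (K + 1))
    have h3 : (X.θ ^ (M + (K + 1))) ^ 10 ≠ 0 := (pow_pos (pow_pos X.θ_pos _) _).ne'
    rw [show M + (K + 1) - K - 1 = M by omega, div_eq_mul_inv,
      inv_eq_of_mul_eq_one_right h2]
    simp only [lowShift, mul_sum, sum_mul]
    rw [sum_comm]
    refine sum_congr rfl fun i hi => sum_congr rfl fun l _ => ?_
    have hi' := (mem_Icc.1 hi).2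
    rw [show M + (K + 1) = K + 1 - i + (M + i) by omega, pow_add]
    ring
  simp only [h1]
  refine tendsto_finsetSum _ fun i hi => Tendsto.const_mul _ ?_
  obtain ⟨j, rfl⟩ : ∃ j, i = j + 1 := ⟨i - 1, by have := (mem_Icc.1 hi).1; omega⟩
  exact renew_tendsto X j

/-- With `T = (θ^m)^10`, `B = t m T`, `M = m - K - 1`: the ratio of
`(B - z T)^M/(M! ∏_{l ≤ M} g_l)` to `G_m(B)` is
`(1 - z/(t m))^M ∏_{J=0}^K ((m-J) g_{m-J}/B)`, and `(m-J) g_{m-J}/B = ((m-J)/m) (g_{m-J} ρ^{m-J}) ρ^J/t`.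
The second factor divided by `∏ γ ρ^J/t` does not depend on `t` and tends to `1`; for the first,
`|M log (1 - u) + z₀/t| → 0` uniformly in `t ≥ t₁` (`u = z/(t m)`, `|log (1-u) + u| ≤ 2u²` for
`|u| ≤ 1/2`, e.g. `Real.abs_log_sub_add_sum_range_le`). -/
theorem top_limit (K : ℕ) {z : ℕ → ℝ} {z₀ : ℝ} (hz : Tendsto z atTop (𝓝 z₀)) {ε : ℝ} (hε : 0 < ε) :
    ∀ᶠ m : ℕ in atTop, ∀ t ∈ Set.Icc X.t₁ X.t₂,
      (1 - ε) * X.Phi K t z₀ * GG (X.B m t) m ≤
        pp (X.B m t - z m * (X.θ ^ m) ^ 10) (m - K - 1) /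
          (((m - K - 1).factorial : ℝ) * ∏ l ∈ Icc 1 (m - K - 1), gSeq l) ∧
      pp (X.B m t - z m * (X.θ ^ m) ^ 10) (m - K - 1) /
          (((m - K - 1).factorial : ℝ) * ∏ l ∈ Icc 1 (m - K - 1), gSeq l) ≤
        (1 + ε) * X.Phi K t z₀ * GG (X.B m t) m := by
  rw [← map_add_atTop_eq_nat (K + 1), eventually_map]
  set η := Real.log (1 + ε) / 2 with hη
  have hη0 : 0 < η := half_pos (Real.log_pos (by linarith))
  have hηe : Real.exp η * Real.exp η = 1 + ε := by
    rw [← Real.exp_add, hη, add_halves, Real.exp_log (by linarith)]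
  have ht1 := X.t₁_pos
  -- the `t`-independent factor
  set P : ℕ → ℝ := fun M => ∏ j ∈ range (K + 1),
    ((M + (K + 1) : ℕ) : ℝ) / ((M + j + 1 : ℕ) : ℝ) *
      (X.γ / (gSeq (M + (j + 1)) * X.ρ ^ (M + (j + 1)))) with hP
  have hP1 : Tendsto P atTop (𝓝 1) := by
    have := tendsto_finsetProd (range (K + 1)) fun j _ => (tendsto_ratio (K + 1) j).mul
      ((tendsto_const_nhds (x := X.γ)).div (X.hγ.comp (tendsto_add_atTop_nat (j + 1))) X.γ_pos.ne')
    rw [div_self X.γ_pos.ne', mul_one, prod_const_one] at this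
    exact this
  have hPl : ∀ᶠ M in atTop, Real.exp (-η) < P M :=
    hP1.eventually (lt_mem_nhds (Real.exp_lt_one_iff.2 (by linarith)))
  have hPu : ∀ᶠ M in atTop, P M < Real.exp η :=
    hP1.eventually (gt_mem_nhds (Real.one_lt_exp_iff.2 hη0))
  have hz' : Tendsto (fun M => z (M + (K + 1))) atTop (𝓝 z₀) :=
    hz.comp (tendsto_add_atTop_nat (K + 1))
  have hm : Tendsto (fun M : ℕ => ((M + (K + 1) : ℕ) : ℝ)) atTop atTop :=
    tendsto_natCast_atTop_atTop.comp (tendsto_add_atTop_nat (K + 1))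
  have hu : ∀ᶠ M : ℕ in atTop, |z (M + (K + 1))| / X.t₁ / ((M + (K + 1) : ℕ) : ℝ) < 1 / 2 :=
    ((hz'.abs.div_const X.t₁).div_atTop hm).eventually (gt_mem_nhds (by norm_num))
  have he : ∀ᶠ M : ℕ in atTop, 2 * z (M + (K + 1)) ^ 2 / X.t₁ ^ 2 / ((M + (K + 1) : ℕ) : ℝ) +
      |z₀ - z (M + (K + 1)) * (((M + 0 : ℕ) : ℝ) / ((M + K + 1 : ℕ) : ℝ))| / X.t₁ < η := by
    have := ((((hz'.pow 2).const_mul 2).div_const (X.t₁ ^ 2)).div_atTop hm).add
      (((hz'.mul (tendsto_ratio 0 K)).const_sub z₀).abs.div_const X.t₁)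
    refine this.eventually (gt_mem_nhds ?_)
    simpa using hη0
  filter_upwards [hPl, hPu, hu, he] with M hPl hPu hu he t ht
  have ht0 : 0 < t := ht1.trans_le ht.1
  rw [show M + (K + 1) - K - 1 = M by omega]
  have hB := X.B_pos (m := M + (K + 1)) (by omega) ht
  have hT := X.pow_mul_rho (M + (K + 1))
  set m : ℝ := ((M + (K + 1) : ℕ) : ℝ) with hmdef
  have hm0 : 0 < m := by rw [hmdef]; positivity
  have hMm : (M : ℝ) ≤ m := by rw [hmdef]; exact_mod_cast Nat.le_add_right _ _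
  set w := z (M + (K + 1)) with hw
  set T := (X.θ ^ (M + (K + 1))) ^ 10 with hTdef
  have hBe : X.B (M + (K + 1)) t = t * m * T := rfl
  set B := X.B (M + (K + 1)) t with hBdef
  set u := w / (t * m) with hudef
  have hu' : |u| ≤ 1 / 2 := by
    refine le_trans ?_ hu.le
    rw [hudef, abs_div, abs_of_pos (mul_pos ht0 hm0), div_div]
    gcongr
    exact ht.1
  have hu1 : 0 < 1 - u := by linarith [le_abs_self u]
  have h1 : B - w * T = B * (1 - u) := by
    rw [hBe, hudef]; field_simp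
  have h2 : pp (B - w * T) M / ((M.factorial : ℝ) * ∏ l ∈ Icc 1 M, gSeq l) =
      GG B M * Real.exp (M * Real.log (1 - u)) := by
    rw [h1, pp_of_nonneg (mul_pos hB hu1).le, GG_eq, mul_pow, ← Real.log_pow,
      Real.exp_log (pow_pos hu1 _)]
    ring
  have h3 : X.Phi K t z₀ * GG B (M + (K + 1)) = GG B M * (P M * Real.exp (-(z₀ / t))) := by
    have h4 : (∏ J ∈ range (K + 1), X.γ * X.ρ ^ J / t) *
        ∏ j ∈ range (K + 1), B / (((M + j + 1 : ℕ) : ℝ) * gSeq (M + j + 1)) = P M := by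
      rw [← prod_range_reflect, ← prod_mul_distrib]
      refine prod_congr rfl fun j hj => ?_
      have hj' := mem_range.1 hj
      have h5 : T * X.ρ ^ (K + 1 - 1 - j) * X.ρ ^ (M + (j + 1)) = 1 := by
        rw [mul_assoc, ← pow_add, show K + 1 - 1 - j + (M + (j + 1)) = M + (K + 1) by omega, hT]
      have h6 := gSeq_pos (M + (j + 1))
      have h7 := pow_pos X.ρ_pos (M + (j + 1))
      have h8 : (0 : ℝ) < ((M + j + 1 : ℕ) : ℝ) := by positivity
      rw [hBe, ← hmdef, add_assoc M j 1]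
      rw [add_assoc M j 1] at h8
      field_simp
      linear_combination X.γ * h5
    rw [GG_add, Ctx.Phi, ← h4]
    ring
  have h4 : |M * Real.log (1 - u) + z₀ / t| ≤ η := by
    have e1 : M * Real.log (1 - u) + z₀ / t =
        M * (Real.log (1 - u) + u) + (z₀ - w * (M / m)) / t := by
      rw [hudef]; field_simp; ring
    rw [e1]
    refine (abs_add_le _ _).trans (le_trans (add_le_add ?_ ?_) he.le)
    · rw [abs_mul, Nat.abs_cast]
      calc (M : ℝ) * |Real.log (1 - u) + u| ≤ m * (2 * u ^ 2) := by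
            gcongr; exact abs_log_add_le hu'
        _ = 2 * w ^ 2 / t ^ 2 / m := by rw [hudef]; field_simp
        _ ≤ _ := by gcongr; exact ht.1
    · rw [abs_div, abs_of_pos ht0, add_zero, add_assoc, ← hmdef]
      gcongr
      exact ht.1
  have hG := GG_pos hB M
  have hE := Real.exp_pos (-(z₀ / t))
  have hE1 := Real.exp_pos η
  have hE2 := Real.exp_pos (-η)
  have hE3 : Real.exp η * Real.exp (-η) = 1 := by rw [← Real.exp_add]; simp
  have h5 := abs_le.1 h4
  rw [h2, mul_assoc, mul_assoc, h3]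
  constructor
  · have a1 : Real.exp (-η) * Real.exp (-(z₀ / t)) ≤ Real.exp (M * Real.log (1 - u)) := by
      rw [← Real.exp_add]; exact Real.exp_le_exp.2 (by linarith)
    have a2 : (1 - ε) * P M ≤ Real.exp (-η) := by
      rcases le_total 0 (1 - ε) with h | h
      · refine (mul_le_mul_of_nonneg_left hPu.le h).trans ?_
        rw [Real.exp_neg, ← one_div, le_div_iff₀ hE1, mul_assoc, hηe]
        nlinarith [sq_nonneg ε]
      · exact (mul_nonpos_of_nonpos_of_nonneg h (hE2.trans hPl).le).trans hE2.le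
    calc (1 - ε) * (GG B M * (P M * Real.exp (-(z₀ / t))))
        = GG B M * ((1 - ε) * P M * Real.exp (-(z₀ / t))) := by ring
      _ ≤ GG B M * (Real.exp (-η) * Real.exp (-(z₀ / t))) := by gcongr
      _ ≤ _ := by gcongr
  · have a1 : Real.exp (M * Real.log (1 - u)) ≤ Real.exp η * Real.exp (-(z₀ / t)) := by
      rw [← Real.exp_add]; exact Real.exp_le_exp.2 (by linarith)
    have a2 : Real.exp η ≤ (1 + ε) * P M := by
      calc Real.exp η = (1 + ε) * Real.exp (-η) := by rw [← hηe, mul_assoc, hE3, mul_one]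
        _ ≤ _ := by gcongr
    calc GG B M * Real.exp (M * Real.log (1 - u))
        ≤ GG B M * (Real.exp η * Real.exp (-(z₀ / t))) := by gcongr
      _ ≤ GG B M * ((1 + ε) * P M * Real.exp (-(z₀ / t))) := by gcongr
      _ = _ := by ring

theorem Phi_pos (K : ℕ) {t : ℝ} (ht : 0 < t) (z : ℝ) : 0 < X.Phi K t z :=
  mul_pos (prod_pos fun J _ => div_pos (mul_pos X.γ_pos (pow_pos X.ρ_pos J)) ht) (Real.exp_pos _)

theorem Phi_add (K : ℕ) (t z w : ℝ) : X.Phi K t (z + w) = X.Phi K t z * Real.exp (-(w / t)) := by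
  rw [Ctx.Phi, Ctx.Phi, mul_assoc, ← Real.exp_add, add_div, neg_add]

theorem Afun_nonneg (k K : ℕ) (S₀ : Finset ((ℕ → ℕ) × ℕ)) {t : ℝ} (ht : 0 < t) :
    0 ≤ X.Afun k K S₀ t :=
  sum_nonneg fun _ _ => mul_nonneg (owt_nonneg _ _) (Phi_pos X K ht _).le

theorem continuousOn_Afun (k K : ℕ) (S₀ : Finset ((ℕ → ℕ) × ℕ)) :
    ContinuousOn (X.Afun k K S₀) (Set.Icc X.t₁ X.t₂) := by
  have h : ∀ t ∈ Set.Icc X.t₁ X.t₂, t ≠ 0 := fun t ht => (X.t₁_pos.trans_le ht.1).ne'
  unfold Ctx.Afun Ctx.Phi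
  refine continuousOn_finsetSum _ fun o _ => continuousOn_const.mul (ContinuousOn.mul ?_ ?_)
  · exact continuousOn_finsetProd _ fun J _ => continuousOn_const.div continuousOn_id h
  · exact (continuousOn_const.div continuousOn_id h).neg.rexp

end Crest.Agent.R20
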