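import Crest.Agent.R20.Events1
import Crest.Agent.R20.WBound
import Crest.Agent.R20.NiceFacts

/-!
# R20: almost all of the reciprocal weight is carried by nice integers

Fix `k₀ ≥ 1` such that for `J ≥ k₀`: `θ^J ≥ U₀` (for `beta_bound`), `J^4 ≤ θ^J`, `(θ^J)^11 ≥ 2`, and
`W_{J+1} exp (-c θ^J) ≤ exp (-c θ^J/2)` for both constants `c` of `ev_b1`, `ev_II`, where
`W_J = exp (C (log (θ^J)^11)²)` is the bound of `W_bound` (an `exp (O(J²))`).  Let `k ≥ 2 k₀ + 2`.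
The level `l ≥ 1` of the tuple `tup D s` is `lev s (l-1)`, of index `J = m - l`.
For `s` as in the statement let `d₀ ≤ m - k₀` be least such that `d₀ = m - k₀` or
`¬ Good (θ^J) J (tail s d₀)` for `J = m - 1 - d₀`.  Define the *type* `(D, σ, ℬ)`:
* terminal (`d₀ = m - k₀`): `D = d₀`, `σ = -δ_{m-D}`, `ℬ = phiSet (ht · 0 ≤ Y_{k₀})`;
* b1 (`ht s d₀ > Y_J`): `D = d₀ + 1`, `σ = Y_J`, `ℬ = phiSet (ht · 0 ≤ Y_{J+1})`
  (`ht s D ≤ ht s (d₀ - 1) ≤ Y_{J+1}`, or the hypothesis if `d₀ = 0`);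
* b2 (otherwise): `D = d₀`, `σ = -δ_{m-D}`, `ℬ = phiSet (ht · 0 ≤ Y_J ∧ ¬ Good)` of weight `≤ exp (-θ^J)`.
In all cases `tup D s ∈ Adm astd B (update (cneg m) D σ) D` (`psl_tup`, `psl_tup_zero`, `slack_anti`) and
`φ(tail s D) ∈ ℬ`, so `recBd_of_obj` applies.
* Case I: not terminal and `J ≥ k/2`: total `≤ ∑_{J ≥ k/2} C G_m (exp (-cθ^J/2) + exp (-θ^J))`
  (`ev_total`, `ev_b1`, `X.GG_le`), small for large `k`.
* Case II: `s` is good at all indices in `[k/2, m-1]` (so `D ≥ m - k/2`) but not nice: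
  either `Om φ(tail s (m-k)) > 10 Y_k` — then use depth `m - k` directly, `ev_total` and
  `recBd_Om_large`, weight `≤ C G_m e^{-2 Y_k}` — or the tuple `tup D s` satisfies the event of `ev_II`:
  if the full slack at level `l ≤ m - k` (index `J₁ = m - l ≥ k`; for `l = 0` the top slack) is `< δ_{J₁}`
  then the partial slack exceeds it by `∑_{D < l' ≤ m} a_{l'-l} ht s (l'-1) ≤ (k/2) J₁ Y_{k/2} ≤ δ_{J₁}`
  (as `J₁² ≤ θ^{J₁}`, `11 (k/2) + J₁ ≤ 9 J₁`).  Summing over the types,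
  total `≤ (C/θ^k) ∑_D G_D · max (1, W_{k₀}) e^{c} ≤ C' G_m/θ^k`.
-/

set_option autoImplicit false

open Finset Filter Topology
open Crest.NumberTheoryR.TotientScale

noncomputable section

namespace Crest.Agent.R20

/-! ### Auxiliary definitions -/

/-- The level-0 information. -/
def UBase (θ B : ℝ) (m s : ℕ) : Prop :=
  ht s 0 ≤ (θ ^ m) ^ 11 ∧ ∑ i ∈ Icc 1 m, aCoef i * ht s (i - 1) ≤ B + (θ ^ m) ^ 9

/-- The first `d` levels are good. -/
def GoodTo (θ : ℝ) (m d s : ℕ) : Prop :=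
  ∀ i < d, Good (θ ^ (m - 1 - i)) (m - 1 - i) (tail s i)

/-- The event of `ev_II`. -/
def EvII (θ B : ℝ) (m k D : ℕ) (τ : ℕ → ℕ) : Prop :=
  (∃ l ≤ m - k, psl astd B D τ l ≤ 2 * (θ ^ (m - l)) ^ 9) ∨ 9 / 10 * B < hq (τ 1)

theorem GoodTo.mono {θ : ℝ} {m d d' s : ℕ} (h : GoodTo θ m d s) (hd : d' ≤ d) :
    GoodTo θ m d' s := fun i hi => h i (lt_of_lt_of_le hi hd)

theorem sum_tail_le (y : ℕ → ℝ) (hy : Antitone y) (h0 : ∀ i, 0 ≤ y i) {K' K : ℕ} (hK : K' ≤ K) :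
    ∑ i ∈ Icc 1 K, aCoef i * y i ≤
      ∑ i ∈ Icc 1 K', aCoef i * y i + ((K - K' : ℕ) : ℝ) * (K * y (K' + 1)) := by
  have hsplit : Icc 1 K = Icc 1 K' ∪ Ioc K' K := by
    ext i; simp only [mem_union, mem_Icc, mem_Ioc]; omega
  have hdisj : Disjoint (Icc 1 K') (Ioc K' K) := by
    rw [disjoint_left]; intro i h1 h2; simp only [mem_Icc, mem_Ioc] at h1 h2; omega
  rw [hsplit, sum_union hdisj]
  have : ∑ i ∈ Ioc K' K, aCoef i * y i ≤ (Ioc K' K).card • ((K : ℝ) * y (K' + 1)) := by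
    refine sum_le_card_nsmul _ _ _ fun i hi => ?_
    simp only [mem_Ioc] at hi
    have h1 : aCoef i ≤ K := (aCoef_le_self (by omega)).trans (by exact_mod_cast hi.2)
    have h2 : y i ≤ y (K' + 1) := hy (by omega)
    exact mul_le_mul h1 h2 (h0 i) (by positivity)
  rw [Nat.card_Ioc, nsmul_eq_mul] at this
  linarith

theorem sum_Icc_mono (y : ℕ → ℝ) (h0 : ∀ i, 0 ≤ y i) {K' K : ℕ} (hK : K' ≤ K) :
    ∑ i ∈ Icc 1 K', aCoef i * y i ≤ ∑ i ∈ Icc 1 K, aCoef i * y i := by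
  refine sum_le_sum_of_subset_of_nonneg (Icc_subset_Icc_right hK) fun i hi _ => ?_
  exact mul_nonneg (aCoef_pos (mem_Icc.1 hi).1).le (h0 i)

theorem adm_cneg (X : Ctx) {B : ℝ} {m d D s : ℕ} (hb : UBase X.θ B m s) (hg : GoodTo X.θ m d s)
    (hD : D ≤ d) (hDm : D ≤ m) : Adm astd B (X.cneg m) D (tup D s) := by
  refine ⟨tup_Tup D s, fun l hl => ?_⟩
  rcases Nat.eq_zero_or_pos l with rfl | hl0
  · rw [psl_tup_zero]
    have := sum_Icc_mono (fun i => ht s (i - 1)) (fun i => ht_nonneg _ _) hDm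
    have h2 := hb.2
    simp only [Ctx.cneg, Nat.sub_zero]
    linarith
  · rw [psl_tup B s (mem_Icc.2 ⟨hl0, hl⟩)]
    have h1 := (hg (l - 1) (by omega)).2.2.2
    have e : m - 1 - (l - 1) = m - l := by omega
    rw [e] at h1
    have h2 := slack_anti (tail s (l - 1)) (show D - l ≤ m - l by omega)
    simp only [Ctx.cneg]
    linarith

theorem adm_update (X : Ctx) {B σ : ℝ} {m d s : ℕ} (hb : UBase X.θ B m s) (hg : GoodTo X.θ m d s)
    (hDm : d + 1 ≤ m) (hσ : σ ≤ ht s d) :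
    Adm astd B (Function.update (X.cneg m) (d + 1) σ) (d + 1) (tup (d + 1) s) := by
  refine ⟨tup_Tup _ s, fun l hl => ?_⟩
  rcases eq_or_lt_of_le hl with rfl | hlt
  · rw [Function.update_self, psl_tup B s (mem_Icc.2 ⟨by omega, le_rfl⟩)]
    simp only [Nat.sub_self, Nat.add_sub_cancel, slack]
    rw [ht_tail]
    simpa using hσ
  · rw [Function.update_of_ne (by omega)]
    rcases Nat.eq_zero_or_pos l with rfl | hl0
    · rw [psl_tup_zero]
      have := sum_Icc_mono (fun i => ht s (i - 1)) (fun i => ht_nonneg _ _) hDm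
      have h2 := hb.2
      simp only [Ctx.cneg, Nat.sub_zero]
      linarith
    · rw [psl_tup B s (mem_Icc.2 ⟨hl0, hl⟩)]
      have h1 := (hg (l - 1) (by omega)).2.2.2
      have e : m - 1 - (l - 1) = m - l := by omega
      rw [e] at h1
      have h2 := slack_anti (tail s (l - 1)) (show d + 1 - l ≤ m - l by omega)
      simp only [Ctx.cneg]
      linarith

theorem small_part_le {θ : ℝ} (hθ : 1 < θ) {k J n : ℕ} (hk : 1 ≤ k) (hJ : k ≤ J)
    (h4 : (J : ℝ) ^ 4 ≤ θ ^ J) (hn : n ≤ k / 2) {y : ℝ} (hy0 : 0 ≤ y) (hy : y ≤ (θ ^ (k / 2)) ^ 11) :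
    (n : ℝ) * (J * y) ≤ (θ ^ J) ^ 9 := by
  have hJ1 : (1 : ℝ) ≤ J := by exact_mod_cast hk.trans hJ
  have hnJ : (n : ℝ) ≤ J := by exact_mod_cast (show n ≤ J by omega)
  have h1 : (n : ℝ) * J ≤ θ ^ J := by
    calc (n : ℝ) * J ≤ J * J := by gcongr
      _ = (J : ℝ) ^ 2 := by ring
      _ ≤ (J : ℝ) ^ 4 := pow_le_pow_right₀ hJ1 (by norm_num)
      _ ≤ θ ^ J := h4
  have h2 : (θ ^ (k / 2)) ^ 11 ≤ (θ ^ J) ^ 8 := by
    rw [← pow_mul, ← pow_mul]
    exact pow_le_pow_right₀ hθ.le (by omega)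
  calc (n : ℝ) * (J * y) = (n * J) * y := by ring
    _ ≤ θ ^ J * (θ ^ J) ^ 8 := mul_le_mul h1 (hy.trans h2) hy0 (by positivity)
    _ = (θ ^ J) ^ 9 := by ring

theorem event_of_not_nice {θ B : ℝ} (hθ : 1 < θ) {m k s : ℕ} (hk : 1 ≤ k) (hm : k + 1 ≤ m)
    (h4 : ∀ J, k ≤ J → (J : ℝ) ^ 4 ≤ θ ^ J) (hs : 0 < s) (hg : GoodTo θ m (m - k / 2) s)
    (hn : ¬ Nice θ B m k s)
    (hΩ : (Om (Nat.totient (tail s (m - k))) : ℝ) ≤ 10 * (θ ^ k) ^ 11) {D : ℕ}
    (hD : m - k / 2 ≤ D) (hDm : D ≤ m) : EvII θ B m k D (tup D s) := by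
  have hyD : ht s D ≤ (θ ^ (k / 2)) ^ 11 := by
    have h1 := (hg (m - 1 - k / 2) (by omega)).1
    have e : m - 1 - (m - 1 - k / 2) = k / 2 := by omega
    rw [e, ht_tail] at h1
    exact (ht_anti s (by omega)).trans h1
  by_contra hE
  unfold EvII at hE
  push Not at hE
  obtain ⟨hE1, hE2⟩ := hE
  apply hn
  refine ⟨⟨hs, fun J hJ hJm => ?_, fun J hJ hJm => ?_, ?_⟩, ?_, ?_⟩
  · have h1 := hg (m - 1 - J) (by omega)
    have e : m - 1 - (m - 1 - J) = J := by omega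
    rwa [e] at h1
  · have h1 := hE1 (m - J) (by omega)
    have e : m - (m - J) = J := by omega
    rw [e, psl_tup B s (mem_Icc.2 ⟨by omega, by omega⟩)] at h1
    have e2 : m - J - 1 = m - 1 - J := by omega
    rw [e2] at h1
    have h2 := sum_tail_le (ht (tail s (m - 1 - J))) (ht_anti _) (fun i => ht_nonneg _ _)
      (show D - (m - J) ≤ J by omega)
    have e3 : ht (tail s (m - 1 - J)) (D - (m - J) + 1) = ht s D := by
      rw [ht_tail]; congr 1; omega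
    rw [e3] at h2
    have h3 := small_part_le hθ hk hJ (h4 J hJ) (show J - (D - (m - J)) ≤ k / 2 by omega)
      (ht_nonneg s D) hyD
    unfold slack at h1 ⊢
    linarith
  · have e : m - 1 + 1 - k = m - k := by omega
    rwa [e]
  · have h1 := hE1 0 (by omega)
    rw [psl_tup_zero, Nat.sub_zero] at h1
    have h2 := sum_tail_le (fun i => ht s (i - 1))
      (fun i j hij => ht_anti s (by omega)) (fun i => ht_nonneg _ _) hDm
    simp only [Nat.add_sub_cancel] at h2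
    have h3 := small_part_le hθ hk (show k ≤ m by omega) (h4 m (by omega))
      (show m - D ≤ k / 2 by omega) (ht_nonneg s D) hyD
    linarith
  · rw [hq_tup s (mem_Icc.2 ⟨le_rfl, by omega⟩)] at hE2
    exact hE2

theorem first_bad (θ : ℝ) (m n s : ℕ) : GoodTo θ m n s ∨ ∃ d < n, GoodTo θ m d s ∧
    ¬ Good (θ ^ (m - 1 - d)) (m - 1 - d) (tail s d) := by
  classical
  by_cases h : ∃ d, d < n ∧ ¬ Good (θ ^ (m - 1 - d)) (m - 1 - d) (tail s d)
  · right
    refine ⟨Nat.find h, (Nat.find_spec h).1, fun i hi => ?_, (Nat.find_spec h).2⟩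
    have := Nat.find_min h hi
    push Not at this
    exact this (hi.trans (Nat.find_spec h).1)
  · left
    push Not at h
    exact h

theorem W_small (X : Ctx) (C : ℝ) {c : ℝ} (hc : 0 < c) : ∃ J₀ : ℕ, ∀ J, J₀ ≤ J →
    Real.exp (-(c * X.θ ^ J)) * Real.exp (C * Real.log ((X.θ ^ (J + 1)) ^ 11) ^ 2) ≤
      1 / X.θ ^ J := by
  have hθ := X.θ_gt
  have hL : 0 < Real.log X.θ := Real.log_pos hθ
  set L := Real.log X.θ with hLdef
  set M : ℝ := |C| * 484 * L ^ 2 + L with hM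
  have hM0 : 0 < M := by positivity
  have ht : Tendsto (fun n : ℕ => (n : ℝ) ^ 2 / X.θ ^ n) atTop (𝓝 0) :=
    tendsto_pow_const_div_const_pow_of_one_lt 2 hθ
  obtain ⟨J₀, hJ₀⟩ := eventually_atTop.1 (ht.eventually (gt_mem_nhds (show 0 < c / M by positivity)))
  refine ⟨max J₀ 1, fun J hJ => ?_⟩
  have h1 := hJ₀ J (le_of_max_le_left hJ)
  have hJ1 : (1 : ℝ) ≤ J := by exact_mod_cast le_of_max_le_right hJ
  have hp : 0 < X.θ ^ J := pow_pos X.θ_pos J
  rw [div_lt_div_iff₀ hp hM0] at h1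
  have e1 : (1 : ℝ) / X.θ ^ J = Real.exp (-(J * L)) := by
    rw [Real.exp_neg, hLdef, ← Real.log_pow, Real.exp_log hp, one_div]
  rw [e1, ← Real.exp_add, Real.exp_le_exp]
  have e2 : Real.log ((X.θ ^ (J + 1)) ^ 11) = 11 * (J + 1) * L := by
    rw [Real.log_pow, Real.log_pow]; push_cast; ring
  rw [e2]
  have h2 : C * (11 * (J + 1) * L) ^ 2 ≤ |C| * 484 * L ^ 2 * J ^ 2 := by
    have a : C * (11 * (J + 1) * L) ^ 2 ≤ |C| * (11 * (J + 1) * L) ^ 2 :=
      mul_le_mul_of_nonneg_right (le_abs_self C) (by positivity)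
    have b : (11 * ((J : ℝ) + 1) * L) ^ 2 ≤ (22 * J * L) ^ 2 := by
      apply pow_le_pow_left₀ (by positivity)
      nlinarith
    calc _ ≤ |C| * (11 * (J + 1) * L) ^ 2 := a
      _ ≤ |C| * (22 * J * L) ^ 2 := mul_le_mul_of_nonneg_left b (abs_nonneg C)
      _ = _ := by ring
  have h3 : (J : ℝ) * L ≤ L * J ^ 2 := by
    have : (J : ℝ) ≤ J ^ 2 := by nlinarith
    nlinarith
  have h4 : (J : ℝ) ^ 2 * M = |C| * 484 * L ^ 2 * J ^ 2 + L * J ^ 2 := by rw [hM]; ring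
  linarith

theorem sum_GG_le (X : Ctx) : ∃ C : ℝ, 0 < C ∧ ∀ m : ℕ, 1 ≤ m → ∀ t ∈ Set.Icc X.t₁ X.t₂,
    ∑ D ∈ range (m + 1), GG (X.B m t) D ≤ C * GG (X.B m t) m := by
  obtain ⟨C, hC, h⟩ := X.GG_le
  refine ⟨2 * C, by positivity, fun m hm t ht => ?_⟩
  have hG := GG_pos (X.B_pos hm ht) m
  have h1 : ∑ D ∈ range (m + 1), GG (X.B m t) D ≤
      ∑ D ∈ range (m + 1), C * GG (X.B m t) m * (1 / 2) ^ (m - D) := by
    refine sum_le_sum fun D hD => ?_
    have := h m hm t ht D (by simpa [Nat.lt_succ_iff] using hD)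
    linarith
  have h2 : ∑ D ∈ range (m + 1), ((1 : ℝ) / 2) ^ (m - D) ≤ 2 := by
    have := sum_range_reflect (fun i => ((1 : ℝ) / 2) ^ i) (m + 1)
    simp only [Nat.add_sub_cancel] at this
    rw [this]
    exact sum_geometric_two_le _
  rw [← mul_sum] at h1
  nlinarith [mul_pos hC hG]

theorem exp_neg_le_inv {u : ℝ} (hu : 0 < u) : Real.exp (-u) ≤ 1 / u := by
  rw [Real.exp_neg, one_div]
  exact inv_anti₀ hu (by linarith [Real.add_one_le_exp u])

theorem not_nice_rec (X : Ctx) {ε : ℝ} (hε : 0 < ε) : ∃ k₁ : ℕ, ∀ k, k₁ ≤ k →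
    ∀ᶠ m : ℕ in atTop, ∀ t ∈ Set.Icc X.t₁ X.t₂,
    RecBd (phiSet fun s => ht s 0 ≤ (X.θ ^ m) ^ 11 ∧
        ∑ i ∈ Icc 1 m, aCoef i * ht s (i - 1) ≤ X.B m t + (X.θ ^ m) ^ 9 ∧
        ¬ Nice X.θ (X.B m t) m k s)
      (ε * GG (X.B m t) m) := by
  obtain ⟨C₀, hC₀, h₀⟩ := ev_total X
  obtain ⟨C₁, c₁, hC₁, hc₁, h₁⟩ := ev_b1 X
  obtain ⟨C₂, c₂, hC₂, hc₂, h₂⟩ := ev_II X
  obtain ⟨CG, hCG, hG⟩ := sum_GG_le X
  obtain ⟨CW, hCW, hW⟩ := W_bound
  obtain ⟨U₀, hβ⟩ := beta_bound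
  obtain ⟨CΩ, hCΩ, hΩ⟩ := recBd_Om_large
  obtain ⟨J₁, hJ₁⟩ := W_small X CW hc₁
  obtain ⟨J₂, hJ₂⟩ := W_small X CW hc₂
  obtain ⟨J₃, hJ₃⟩ := X.eventually_pow (max U₀ 2)
  set k₀ : ℕ := max (max J₁ J₂) (max J₃ 1) with hk₀
  have hk₀1 : J₁ ≤ k₀ := by omega
  have hk₀2 : J₂ ≤ k₀ := by omega
  have hk₀3 : J₃ ≤ k₀ := by omega
  have hk₀4 : 1 ≤ k₀ := by omega
  set W₀ : ℝ := Real.exp (CW * Real.log ((X.θ ^ k₀) ^ 11) ^ 2) with hW₀
  have hW₀0 : 0 < W₀ := Real.exp_pos _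
  set M : ℝ := C₀ + C₁ + C₂ * Real.exp c₂ * (1 + W₀) + C₀ * CΩ with hM
  have hθ := X.θ_gt
  have hθ0 := X.θ_pos
  have hA : 0 < C₂ * Real.exp c₂ := by positivity
  have hB' : 0 < C₀ * CΩ := by positivity
  have hAW : 0 < C₂ * Real.exp c₂ * W₀ := by positivity
  have hM0 : 0 < M := by positivity
  have hM1 : C₀ ≤ M := by rw [hM]; nlinarith
  have hM2 : C₁ ≤ M := by rw [hM]; nlinarith
  have hM3 : C₂ * Real.exp c₂ ≤ M := by rw [hM]; nlinarith
  have hM4 : C₂ * Real.exp c₂ * W₀ ≤ M := by rw [hM]; nlinarith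
  have hM5 : C₀ * CΩ ≤ M := by rw [hM]; nlinarith
  have hM6 : C₂ ≤ M := by
    have := Real.one_le_exp hc₂.le
    nlinarith
  obtain ⟨J₄, hJ₄⟩ := X.eventually_pow (4 * M * CG / ε)
  refine ⟨2 * k₀ + 2 * J₄ + 2, fun k hk => ?_⟩
  have hkk : k₀ ≤ k / 2 := by omega
  have hk1 : 1 ≤ k := by omega
  set ζ : ℝ := M / X.θ ^ (k / 2) with hζ
  have hpk : 0 < X.θ ^ (k / 2) := pow_pos hθ0 _
  have hζ0 : 0 < ζ := by positivity
  have hζε : 4 * ζ * CG ≤ ε := by
    have := (hJ₄ (k / 2) (by omega)).1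
    rw [div_le_iff₀ hε] at this
    rw [hζ, show 4 * (M / X.θ ^ (k / 2)) * CG = 4 * M * CG / X.θ ^ (k / 2) by ring, div_le_iff₀ hpk]
    linarith
  -- comparison of the small factors
  have hsm : ∀ {C : ℝ} {J : ℕ}, 0 ≤ C → C ≤ M → k / 2 ≤ J → C * (1 / X.θ ^ J) ≤ ζ := by
    intro C J hC hCM hJ
    rw [hζ, mul_one_div]
    exact div_le_div₀ hM0.le hCM hpk (pow_le_pow_right₀ hθ.le hJ)
  have hY2 : ∀ J, k₀ ≤ J → (2 : ℝ) ≤ (X.θ ^ J) ^ 11 := by
    intro J hJ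
    have a := (hJ₃ J (by omega)).1
    have b : (2 : ℝ) ≤ X.θ ^ J := le_of_max_le_right a
    calc (2 : ℝ) ≤ X.θ ^ J := b
      _ = (X.θ ^ J) ^ 1 := (pow_one _).symm
      _ ≤ _ := pow_le_pow_right₀ (by linarith) (by norm_num)
  filter_upwards [h₁, h₂ k hk1, eventually_ge_atTop (k + 1)] with m hb1 hII hm
  intro t htI
  have hm1 : 1 ≤ m := by omega
  set B := X.B m t with hB
  have hBpos : 0 < B := X.B_pos hm1 htI
  have hGp : ∀ D, 0 < GG B D := GG_pos hBpos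
  -- the pieces
  let POm : ℕ → Prop := fun s => (Om (Nat.totient (tail s (m - k))) : ℝ) ≤ 10 * (X.θ ^ k) ^ 11
  let AΩ : Set ℕ := phiSet fun s => UBase X.θ B m s ∧ GoodTo X.θ m (m - k / 2) s ∧ ¬ POm s
  let Rest : ℕ → Prop := fun s => UBase X.θ B m s ∧ ¬ Nice X.θ B m k s ∧
    (GoodTo X.θ m (m - k / 2) s → POm s)
  let A1 : ℕ → Set ℕ := fun d => phiSet fun s => Rest s ∧ GoodTo X.θ m d s ∧
    (X.θ ^ (m - 1 - d)) ^ 11 < ht s d
  let A2 : ℕ → Set ℕ := fun d => phiSet fun s => Rest s ∧ GoodTo X.θ m d s ∧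
    ht s d ≤ (X.θ ^ (m - 1 - d)) ^ 11 ∧ ¬ Good (X.θ ^ (m - 1 - d)) (m - 1 - d) (tail s d)
  let A3 : Set ℕ := phiSet fun s => Rest s ∧ GoodTo X.θ m (m - k₀) s
  have h4 : ∀ J, k ≤ J → (J : ℝ) ^ 4 ≤ X.θ ^ J := fun J hJ => (hJ₃ J (by omega)).2
  have hEv : ∀ s D, 0 < s → Rest s → GoodTo X.θ m (m - k / 2) s → m - k / 2 ≤ D → D ≤ m →
      EvII X.θ B m k D (tup D s) := fun s D hs hr hg hD hDm =>
    event_of_not_nice hθ hk1 hm h4 hs hg hr.2.1 (hr.2.2 hg) hD hDm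
  have hexp : ∀ J : ℕ, Real.exp (-(c₂ * (-(X.θ ^ J) ^ 9) / (X.θ ^ J) ^ 10)) ≤ Real.exp c₂ := by
    intro J
    rw [Real.exp_le_exp]
    have hp : 0 < X.θ ^ J := pow_pos hθ0 J
    have h1 : 1 ≤ X.θ ^ J := X.one_le_pow J
    have : -(c₂ * (-(X.θ ^ J) ^ 9) / (X.θ ^ J) ^ 10) = c₂ / X.θ ^ J := by
      field_simp
    rw [this]
    exact div_le_self hc₂.le h1
  have bΩ : RecBd AΩ (ζ * GG B (m - k)) := by
    refine (recBd_of_obj (h₀ m hm1 t htI (m - k) (by omega))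
      (hΩ ((X.θ ^ k) ^ 11) (by positivity)) fun s hs hP => ⟨?_, ?_, ?_, ?_⟩).mono_bd ?_
    · exact adm_cneg X hP.1 hP.2.1 (by omega) (by omega)
    · exact Nat.totient_pos.2 (tail_pos hs _)
    · have h1 := (hP.2.1 (m - 1 - k) (by omega)).1
      have e : m - 1 - (m - 1 - k) = k := by omega
      rw [e, ht_tail] at h1
      exact (hq_totient_le (tail_pos hs _)).trans ((ht_anti s (by omega)).trans h1)
    · exact not_le.1 hP.2.2
    · have a : Real.exp (-(2 * (X.θ ^ k) ^ 11)) ≤ 1 / X.θ ^ k := by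
        refine le_trans ?_ (exp_neg_le_inv (pow_pos hθ0 k))
        rw [Real.exp_le_exp]
        have h1 : 1 ≤ X.θ ^ k := X.one_le_pow k
        have : X.θ ^ k ≤ (X.θ ^ k) ^ 11 := by
          calc X.θ ^ k = (X.θ ^ k) ^ 1 := (pow_one _).symm
            _ ≤ _ := pow_le_pow_right₀ h1 (by norm_num)
        linarith
      have b := hsm hB'.le hM5 (show k / 2 ≤ k by omega)
      calc C₀ * GG B (m - k) * (CΩ * Real.exp (-(2 * (X.θ ^ k) ^ 11)))
          ≤ C₀ * GG B (m - k) * (CΩ * (1 / X.θ ^ k)) := by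
            have := hGp (m - k)
            gcongr
        _ = (C₀ * CΩ * (1 / X.θ ^ k)) * GG B (m - k) := by ring
        _ ≤ ζ * GG B (m - k) := mul_le_mul_of_nonneg_right b (hGp _).le
  have b1 : ∀ d ∈ range (m - k₀), RecBd (A1 d) (ζ * GG B (d + 1)) := by
    intro d hd
    have hd' : d < m - k₀ := mem_range.1 hd
    have e : m - (d + 1) = m - 1 - d := by omega
    have hJ : k₀ ≤ m - 1 - d := by omega
    have hmem : ∀ s, 0 < s → UBase X.θ B m s → GoodTo X.θ m d s →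
        Nat.totient (tail s (d + 1)) ∈ phiSet fun r => ht r 0 ≤ (X.θ ^ (m - 1 - d + 1)) ^ 11 := by
      intro s hs hb hg
      refine ⟨tail s (d + 1), tail_pos hs _, ?_, rfl⟩
      show ht (tail s (d + 1)) 0 ≤ _
      rw [ht_tail]
      rcases Nat.eq_zero_or_pos d with rfl | hd0
      · have e' : m - 1 - 0 + 1 = m := by omega
        rw [e']
        exact (ht_anti s (by omega)).trans hb.1
      · have h1 := (hg (d - 1) (by omega)).1
        have e' : m - 1 - (d - 1) = m - 1 - d + 1 := by omega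
        rw [e', ht_tail] at h1
        exact (ht_anti s (by omega)).trans h1
    by_cases hc : k / 2 ≤ m - 1 - d
    · refine (recBd_of_obj (hb1 t htI (d + 1) (by omega) (by omega))
        (hW _ (hY2 (m - 1 - d + 1) (by omega))) fun s hs hP => ⟨?_, hmem s hs hP.1.1 hP.2.1⟩).mono_bd ?_
      · rw [e]
        exact adm_update X hP.1.1 hP.2.1 (by omega) hP.2.2.le
      · rw [e]
        have a := hJ₁ (m - 1 - d) (by omega)
        have b := hsm hC₁.le hM2 hc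
        calc C₁ * GG B (d + 1) * Real.exp (-(c₁ * X.θ ^ (m - 1 - d))) *
              Real.exp (CW * Real.log ((X.θ ^ (m - 1 - d + 1)) ^ 11) ^ 2)
            = C₁ * GG B (d + 1) * (Real.exp (-(c₁ * X.θ ^ (m - 1 - d))) *
              Real.exp (CW * Real.log ((X.θ ^ (m - 1 - d + 1)) ^ 11) ^ 2)) := by ring
          _ ≤ C₁ * GG B (d + 1) * (1 / X.θ ^ (m - 1 - d)) := by
              have := hGp (d + 1)
              gcongr
          _ = (C₁ * (1 / X.θ ^ (m - 1 - d))) * GG B (d + 1) := by ring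
          _ ≤ ζ * GG B (d + 1) := mul_le_mul_of_nonneg_right b (hGp _).le
    · refine (recBd_of_obj (hII t htI (d + 1) (by omega) (by omega) ((X.θ ^ (m - (d + 1))) ^ 11)
        (le_trans (neg_nonpos.2 (by positivity)) (by positivity)))
        (hW _ (hY2 (m - 1 - d + 1) (by omega))) fun s hs hP =>
          ⟨⟨?_, ?_⟩, hmem s hs hP.1.1 hP.2.1⟩).mono_bd ?_
      · rw [e]
        exact adm_update X hP.1.1 hP.2.1 (by omega) hP.2.2.le
      · exact hEv s (d + 1) hs hP.1 (hP.2.1.mono (by omega)) (by omega) (by omega)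
      · rw [e]
        have a := hJ₂ (m - 1 - d) (by omega)
        have a' : (1 : ℝ) / X.θ ^ (m - 1 - d) ≤ 1 := by
          rw [div_le_one (pow_pos hθ0 _)]; exact X.one_le_pow _
        have e2 : c₂ * (X.θ ^ (m - 1 - d)) ^ 11 / (X.θ ^ (m - 1 - d)) ^ 10 =
            c₂ * X.θ ^ (m - 1 - d) := by
          have hp : 0 < X.θ ^ (m - 1 - d) := pow_pos hθ0 _
          field_simp
        rw [e2]
        have b := hsm hC₂.le hM6 (show k / 2 ≤ k by omega)
        calc C₂ / X.θ ^ k * GG B (d + 1) * Real.exp (-(c₂ * X.θ ^ (m - 1 - d))) *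
              Real.exp (CW * Real.log ((X.θ ^ (m - 1 - d + 1)) ^ 11) ^ 2)
            = C₂ / X.θ ^ k * GG B (d + 1) * (Real.exp (-(c₂ * X.θ ^ (m - 1 - d))) *
              Real.exp (CW * Real.log ((X.θ ^ (m - 1 - d + 1)) ^ 11) ^ 2)) := by ring
          _ ≤ C₂ / X.θ ^ k * GG B (d + 1) * 1 := by
              have := hGp (d + 1)
              have := a.trans a'
              gcongr
          _ = (C₂ * (1 / X.θ ^ k)) * GG B (d + 1) := by ring
          _ ≤ ζ * GG B (d + 1) := mul_le_mul_of_nonneg_right b (hGp _).le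
  have b2 : ∀ d ∈ range (m - k₀), RecBd (A2 d) (ζ * GG B d) := by
    intro d hd
    have hd' : d < m - k₀ := mem_range.1 hd
    have hJ : k₀ ≤ m - 1 - d := by omega
    have hβ' := hβ (X.θ ^ (m - 1 - d)) (le_of_max_le_left (hJ₃ _ (by omega)).1) (m - 1 - d)
      (hJ₃ _ (by omega)).2
    have hmem : ∀ s, 0 < s → ht s d ≤ (X.θ ^ (m - 1 - d)) ^ 11 →
        ¬ Good (X.θ ^ (m - 1 - d)) (m - 1 - d) (tail s d) →
        Nat.totient (tail s d) ∈ phiSet fun r => ht r 0 ≤ (X.θ ^ (m - 1 - d)) ^ 11 ∧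
          ¬ Good (X.θ ^ (m - 1 - d)) (m - 1 - d) r := by
      intro s hs h1 h2
      exact ⟨tail s d, tail_pos hs _, ⟨by rw [ht_tail]; exact h1, h2⟩, rfl⟩
    have a := exp_neg_le_inv (pow_pos hθ0 (m - 1 - d))
    by_cases hc : k / 2 ≤ m - 1 - d
    · refine (recBd_of_obj (h₀ m hm1 t htI d (by omega)) hβ' fun s hs hP =>
        ⟨adm_cneg X hP.1.1 hP.2.1 le_rfl (by omega), hmem s hs hP.2.2.1 hP.2.2.2⟩).mono_bd ?_
      have b := hsm hC₀.le hM1 hc
      calc C₀ * GG B d * Real.exp (-X.θ ^ (m - 1 - d))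
          ≤ C₀ * GG B d * (1 / X.θ ^ (m - 1 - d)) := by
            have := hGp d
            gcongr
        _ = (C₀ * (1 / X.θ ^ (m - 1 - d))) * GG B d := by ring
        _ ≤ ζ * GG B d := mul_le_mul_of_nonneg_right b (hGp _).le
    · refine (recBd_of_obj (hII t htI d (by omega) (by omega) (-(X.θ ^ (m - d)) ^ 9) le_rfl)
        hβ' fun s hs hP => ⟨⟨?_, ?_⟩, hmem s hs hP.2.2.1 hP.2.2.2⟩).mono_bd ?_
      · have : Function.update (X.cneg m) d (-(X.θ ^ (m - d)) ^ 9) = X.cneg m :=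
          Function.update_eq_self d (X.cneg m)
        rw [this]
        exact adm_cneg X hP.1.1 hP.2.1 le_rfl (by omega)
      · exact hEv s d hs hP.1 (hP.2.1.mono (by omega)) (by omega) (by omega)
      · have a' : Real.exp (-X.θ ^ (m - 1 - d)) ≤ 1 :=
          Real.exp_le_one_iff.2 (neg_nonpos.2 (by positivity))
        have b := hsm hA.le hM3 (show k / 2 ≤ k by omega)
        calc C₂ / X.θ ^ k * GG B d *
              Real.exp (-(c₂ * (-(X.θ ^ (m - d)) ^ 9) / (X.θ ^ (m - d)) ^ 10)) *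
              Real.exp (-X.θ ^ (m - 1 - d))
            ≤ C₂ / X.θ ^ k * GG B d * Real.exp c₂ * 1 := by
              have := hGp d
              have := hexp (m - d)
              gcongr
          _ = (C₂ * Real.exp c₂ * (1 / X.θ ^ k)) * GG B d := by ring
          _ ≤ ζ * GG B d := mul_le_mul_of_nonneg_right b (hGp _).le
  have b3 : RecBd A3 (ζ * GG B (m - k₀)) := by
    refine (recBd_of_obj (hII t htI (m - k₀) (by omega) (by omega)
      (-(X.θ ^ (m - (m - k₀))) ^ 9) le_rfl) (hW _ (hY2 k₀ le_rfl)) fun s hs hP =>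
        ⟨⟨?_, ?_⟩, ?_⟩).mono_bd ?_
    · have : Function.update (X.cneg m) (m - k₀) (-(X.θ ^ (m - (m - k₀))) ^ 9) = X.cneg m :=
        Function.update_eq_self (m - k₀) (X.cneg m)
      rw [this]
      exact adm_cneg X hP.1.1 hP.2 le_rfl (by omega)
    · exact hEv s _ hs hP.1 (hP.2.mono (by omega)) (by omega) (by omega)
    · refine ⟨tail s (m - k₀), tail_pos hs _, ?_, rfl⟩
      have h1 := (hP.2 (m - 1 - k₀) (by omega)).1
      have e : m - 1 - (m - 1 - k₀) = k₀ := by omega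
      rw [e, ht_tail] at h1
      show ht (tail s (m - k₀)) 0 ≤ _
      rw [ht_tail]
      exact (ht_anti s (by omega)).trans h1
    · have b := hsm hAW.le hM4 (show k / 2 ≤ k by omega)
      calc C₂ / X.θ ^ k * GG B (m - k₀) *
            Real.exp (-(c₂ * (-(X.θ ^ (m - (m - k₀))) ^ 9) / (X.θ ^ (m - (m - k₀))) ^ 10)) * W₀
          ≤ C₂ / X.θ ^ k * GG B (m - k₀) * Real.exp c₂ * W₀ := by
            have := hGp (m - k₀)
            have := hexp (m - (m - k₀))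
            gcongr
        _ = (C₂ * Real.exp c₂ * W₀ * (1 / X.θ ^ k)) * GG B (m - k₀) := by ring
        _ ≤ ζ * GG B (m - k₀) := mul_le_mul_of_nonneg_right b (hGp _).le
  have hall := ((bΩ.union (SumBd.biUnion _ b1)).union (SumBd.biUnion _ b2)).union b3
  refine (hall.mono_set ?_).mono_bd ?_
  · rintro w ⟨s, hs, ⟨hb1', hb2', hn⟩, rfl⟩
    have hb : UBase X.θ B m s := ⟨hb1', hb2'⟩
    by_cases hΩ' : GoodTo X.θ m (m - k / 2) s → POm s
    · have hr : Rest s := ⟨hb, hn, hΩ'⟩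
      rcases first_bad X.θ m (m - k₀) s with hg | ⟨d, hd, hg, hbad⟩
      · exact Or.inr ⟨s, hs, ⟨hr, hg⟩, rfl⟩
      · by_cases hy : ht s d ≤ (X.θ ^ (m - 1 - d)) ^ 11
        · refine Or.inl (Or.inr ?_)
          simp only [Set.mem_iUnion]
          exact ⟨d, mem_range.2 hd, s, hs, ⟨hr, hg, hy, hbad⟩, rfl⟩
        · refine Or.inl (Or.inl (Or.inr ?_))
          simp only [Set.mem_iUnion]
          exact ⟨d, mem_range.2 hd, s, hs, ⟨hr, hg, not_le.1 hy⟩, rfl⟩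
    · push Not at hΩ'
      exact Or.inl (Or.inl (Or.inl ⟨s, hs, ⟨hb, hΩ'.1, hΩ'.2⟩, rfl⟩))
  · have hS := hG m hm1 t htI
    set SG := ∑ D ∈ range (m + 1), GG B D with hSG
    have s1 : GG B (m - k) ≤ SG :=
      single_le_sum (f := fun D => GG B D) (fun D _ => (hGp D).le) (mem_range.2 (by omega))
    have s4 : GG B (m - k₀) ≤ SG :=
      single_le_sum (f := fun D => GG B D) (fun D _ => (hGp D).le) (mem_range.2 (by omega))
    have s3 : ∑ d ∈ range (m - k₀), GG B d ≤ SG :=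
      sum_le_sum_of_subset_of_nonneg (range_subset_range.2 (by omega)) fun D _ _ => (hGp D).le
    have s2 : ∑ d ∈ range (m - k₀), GG B (d + 1) ≤ SG := by
      have : ∑ d ∈ range (m - k₀), GG B (d + 1) ≤ ∑ d ∈ range m, GG B (d + 1) :=
        sum_le_sum_of_subset_of_nonneg (range_subset_range.2 (by omega)) fun D _ _ => (hGp _).le
      rw [hSG, sum_range_succ']
      linarith [hGp 0]
    rw [← mul_sum, ← mul_sum]
    have hGm := hGp m
    calc ζ * GG B (m - k) + ζ * ∑ d ∈ range (m - k₀), GG B (d + 1) +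
          ζ * ∑ d ∈ range (m - k₀), GG B d + ζ * GG B (m - k₀)
        ≤ ζ * SG + ζ * SG + ζ * SG + ζ * SG := by gcongr
      _ = 4 * ζ * SG := by ring
      _ ≤ 4 * ζ * (CG * GG B m) := by gcongr
      _ = (4 * ζ * CG) * GG B m := by ring
      _ ≤ ε * GG B m := by gcongr

end Crest.Agent.R20
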