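import Crest.Agent.R20.Collision
import Crest.Agent.R20.Events1
import Crest.Agent.R20.NiceFacts
import Crest.Agent.R20.PrimeCount

/-!
# R20: nice tuples have almost distinct totient values
-/

set_option autoImplicit false

open Finset Filter Topology
open Crest.NumberTheoryR.TotientScale

noncomputable section

namespace Crest.Agent.R20

open Classical in
/-- One merging step. -/
private theorem values_step (𝒩 : Finset ℕ) (i : ℕ) (hpos : ∀ n ∈ 𝒩, 0 < n)
    (hlev : ∀ n ∈ 𝒩, lev n i = gpf (tail n i)) {b : ℝ}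
    (hb : CntBd {a : (ℕ → ℕ) × ℕ | ∃ n ∈ 𝒩, ∃ n' ∈ 𝒩, a = obj (i + 1) n ∧
      Nat.totient (tail n' i) = Nat.totient (tail n i) ∧ gpf (tail n' i) < gpf (tail n i)} b) :
    ((𝒩.image (obj (i + 1))).card : ℝ) ≤ (𝒩.image (obj i)).card + b := by
  let f : (ℕ → ℕ) × ℕ → (ℕ → ℕ) × ℕ := fun o =>
    (Function.update o.1 (i + 1) 1, Nat.totient (o.1 (i + 1)) * o.2)
  have hkey : ∀ n, (obj (i + 1) n).1 (i + 1) = lev n i := fun n =>
    tup_apply n (mem_Icc.2 ⟨by omega, le_rfl⟩)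
  have hf : ∀ n ∈ 𝒩, f (obj (i + 1) n) = obj i n := by
    intro n hn
    refine Prod.ext ?_ ?_
    · funext l
      simp only [f, obj, tup, mem_Icc]
      by_cases hl : l = i + 1
      · subst hl
        simp
      · rw [Function.update_of_ne hl]
        simp only [tup, mem_Icc]
        by_cases h1 : 1 ≤ l ∧ l ≤ i
        · rw [if_pos h1, if_pos ⟨h1.1, by omega⟩]
        · rw [if_neg h1, if_neg (by omega)]
    · simp only [f]
      rw [hkey]
      exact (totient_tail (hpos n hn) i).symm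
  have h := card_le_card_image_add (𝒩.image (obj (i + 1))) f (fun o => o.1 (i + 1)) ?_ (b := b) ?_
  · rwa [image_image, image_congr (f := f ∘ obj (i + 1)) (g := obj i) fun n hn => hf n hn] at h
  · intro a ha a' _ hff hk
    obtain ⟨n, -, rfl⟩ := mem_image.1 ha
    have h1 := congrArg Prod.fst hff
    have h2 := congrArg Prod.snd hff
    simp only [f] at h1 h2 hk
    refine Prod.ext ?_ ?_
    · funext l
      by_cases hl : l = i + 1
      · rw [hl]
        exact hk
      · have := congrFun h1 l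
        rwa [Function.update_of_ne hl, Function.update_of_ne hl] at this
    · rw [← hk] at h2
      refine Nat.eq_of_mul_eq_mul_left ?_ h2
      rw [hkey]
      exact Nat.totient_pos.2 (top_pos _)
  · refine hb.mono_set ?_
    rintro a ⟨ha, a', ha', hff, hk⟩
    obtain ⟨n, hn, rfl⟩ := mem_image.1 ha
    obtain ⟨n', hn', rfl⟩ := mem_image.1 ha'
    rw [hf n hn, hf n' hn'] at hff
    simp only [hkey] at hk
    rw [hlev n hn, hlev n' hn'] at hk
    exact ⟨n, hn, n', hn', rfl, congrArg Prod.snd hff, hk⟩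

open Classical in
private theorem values_zero (𝒩 : Finset ℕ) {x : ℝ}
    (h : ∀ n ∈ 𝒩, 0 < n ∧ (Nat.totient n : ℝ) ≤ x) :
    (𝒩.image (obj 0)).card ≤ totientCount x := by
  have hfin : {v : ℕ | (v : ℝ) ≤ x ∧ ∃ n : ℕ, 0 < n ∧ Nat.totient n = v}.Finite :=
    (Set.finite_le_nat ⌈x⌉₊).subset fun v hv => by
      have : (v : ℝ) ≤ ⌈x⌉₊ := hv.1.trans (Nat.le_ceil x)
      exact_mod_cast this
  rw [← Set.ncard_coe_finset, totientCount]
  refine Set.ncard_le_ncard_of_injOn (fun o => o.2) ?_ ?_ hfin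
  · intro o ho
    obtain ⟨n, hn, rfl⟩ := mem_image.1 (mem_coe.1 ho)
    exact ⟨(h n hn).2, n, (h n hn).1, rfl⟩
  · intro o ho o' ho' e
    obtain ⟨n, -, rfl⟩ := mem_image.1 (mem_coe.1 ho)
    obtain ⟨n', -, rfl⟩ := mem_image.1 (mem_coe.1 ho')
    refine Prod.ext ?_ e
    funext l
    simp [obj, tup]

private theorem values_oval_pos {d w : ℕ} {τ : ℕ → ℕ} (hτ : Tup d τ) (hw : 0 < w) :
    0 < oval d (τ, w) :=
  Nat.mul_pos (prod_pos fun l hl => Nat.totient_pos.2 (hτ.2 l hl).pos) hw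

/-- Reconstruction of an object from the top prime, the middle tuple and the collision pair. -/
private def valuesRec (j : ℕ) (p : ((ℕ → ℕ) × ℕ × ℕ) × ℕ) : (ℕ → ℕ) × ℕ :=
  (fun l => if l = 1 then p.2 else if l = j + 2 then p.1.2.1 else p.1.1 (l - 1),
    p.1.2.2 / Nat.totient p.1.2.1)

private theorem valuesRec_eq {j q s : ℕ} (hq : q.Prime) (hs : 0 < s) (hqs : gpf s < q)
    (hl : lev s j = gpf (tail s j)) :
    valuesRec j ((tup j s, gpf (tail s j), Nat.totient (tail s j)), q) = obj (j + 2) (q * s) := by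
  obtain ⟨-, h2, h3⟩ := top_prime_mul hq hs hqs
  have ht : ∀ i, tail (q * s) (i + 1) = tail s i := fun i => by rw [tail_succ', h3]
  have hv : ∀ i, lev (q * s) (i + 1) = lev s i := fun i => by rw [lev, ht, lev]
  refine Prod.ext ?_ ?_
  · funext l
    simp only [valuesRec, obj, tup, mem_Icc]
    by_cases h1 : l = 1
    · subst h1
      rw [if_pos rfl, if_pos (by omega)]
      exact h2.symm
    rw [if_neg h1]
    by_cases h4 : l = j + 2
    · subst h4
      rw [if_pos rfl, if_pos (by omega), ← hl]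
      exact (hv j).symm
    rw [if_neg h4]
    by_cases h5 : 1 ≤ l - 1 ∧ l - 1 ≤ j
    · rw [if_pos h5, if_pos (by omega), ← hv]
      congr 1
      omega
    · rw [if_neg h5, if_neg (by omega)]
  · simp only [valuesRec, obj]
    rw [ht, totient_tail hs, ← hl]
    exact Nat.mul_div_cancel_left _ (Nat.totient_pos.2 (top_pos _))

/-- Merging levels one at a time.  Let `N_i = #(𝒩.image (obj i))`; `N_0 = #φ(𝒩) ≤ V(x)`.  Apply
`card_le_card_image_add` to `𝒩.image (obj (i+1))`, `f o = (update o.1 (i+1) 1, φ(o.1 (i+1)) · o.2)`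
(so `f (obj (i+1) n) = obj i n` by `totient_tail`), `key o = o.1 (i+1) = lev n i`, a prime for
`i ≤ m - k` (`nice_top`, `top_prime_mul`, `Low.lev_prime`; `tail (q s) (j+1) = tail s j`).
An element `obj (i+1) n` with a partner `n'` has `φ(tail n' i) = φ(tail n i)` and
`gpf (tail n' i) < gpf (tail n i)`, so `(gpf (tail n i), φ(tail n i)) ∈ CollSet (θ^J) J H` with
`J = m - i ≥ k` (`H = B - 1` for `i = 0` by `nice_top`, `H = 0` for `i ≥ 1` by `Low.niceAt`).
For `i = 0` the element is determined by this pair: `coll_count`.  For `i ≥ 1` it is determined by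
`q`, `tup (i-1) s ∈ Adm astd B (cneg m) (i-1)` (`Nice.adm`, `Adm.mono`) and the pair; `SumBd.prod` of
`ev_total` and `coll_rec`, then `cntBd_values` with `cnt_prime_cheb` (`log z = e^B/2`) give the count
`≤ C (x/e^B) G_{i-1} exp (-θ^{2J})`.  Sum over `i` with `X.GG_le` (`∑ 2^{-(m-i)} ≤ C`,
`exp (-θ^{2J}) ≤ exp (-θ^k)`), and `G_m ≥ 1` for `i = 0`. -/
theorem values_ge (X : Ctx) : ∃ C : ℝ, 0 < C ∧ ∃ k₁ : ℕ, ∀ k, k₁ ≤ k →
    ∀ᶠ m : ℕ in atTop, ∀ t ∈ Set.Icc X.t₁ X.t₂, ∀ 𝒩 : Finset ℕ,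
    (∀ n ∈ 𝒩, TopNice X.θ (X.B m t) m k n) →
    (Set.ncard (obj (m - k + 1) '' (↑𝒩 : Set ℕ)) : ℝ) ≤ totientCount (EE (X.B m t)) +
      EE (X.B m t) / Real.exp (X.B m t) * (C * Real.exp (-X.θ ^ k) * GG (X.B m t) m) := by
  classical
  obtain ⟨U₁, hrec⟩ := coll_rec
  obtain ⟨U₂, hcnt⟩ := coll_count
  obtain ⟨J₀, hJ₀⟩ := X.eventually_pow (max U₁ U₂)
  obtain ⟨Ce, hCe, hev⟩ := ev_total X
  obtain ⟨Cg, hCg, hGG⟩ := X.GG_le
  obtain ⟨Cc, hCc, hch⟩ := cnt_prime_cheb
  have hC₂ : 0 < 2 * Cc * Ce * Cg := by positivity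
  refine ⟨1 + 2 * Cc * Ce * Cg, by positivity, max 4 J₀, fun k hk => ?_⟩
  have hk4 : 4 ≤ k := le_of_max_le_left hk
  have hkJ : J₀ ≤ k := le_of_max_le_right hk
  filter_upwards [nice_top X hk4, X.B_bounds, X.GG_large 1, eventually_ge_atTop k] with m h1 h2 h3 hm
  intro t ht 𝒩 h𝒩
  have hm1 : 1 ≤ m := by omega
  set B := X.B m t with hB
  have hBpos : 0 < B := X.B_pos hm1 ht
  have hG1 : 1 ≤ GG B m := h3 t ht
  have hx : 0 < EE B / Real.exp B := div_pos (EE_pos B) (Real.exp_pos B)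
  set W := EE B / Real.exp B * (Real.exp (-X.θ ^ k) * GG B m) with hW
  have hWpos : 0 < W := by positivity
  have hexp : ∀ J, k ≤ J → Real.exp (-(X.θ ^ J) ^ 2) ≤ Real.exp (-X.θ ^ k) := by
    intro J hJ
    refine Real.exp_le_exp.2 (neg_le_neg ?_)
    have h4 : X.θ ^ k ≤ X.θ ^ J := pow_le_pow_right₀ X.θ_gt.le hJ
    have h5 := X.one_le_pow J
    nlinarith
  -- structure of the elements
  have hN : ∀ n ∈ 𝒩, ∃ q s : ℕ, q.Prime ∧ Nice X.θ B m k s ∧ Real.exp (Real.exp B / 2) ≤ q ∧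
      (((q - 1) * Nat.totient s : ℕ) : ℝ) ≤ EE B ∧ n = q * s ∧ gpf s < q ∧
      NiceAt (X.θ ^ m) m n ∧ (X.θ ^ m) ^ 9 / 2 ≤ slack m n ∧ B - 1 ≤ Crest.Agent.R20.ht n 0 := by
    intro n hn
    obtain ⟨q, s, a1, a2, a3, a4, a5, rfl⟩ := h𝒩 n hn
    exact ⟨q, s, a1, a2, a3, a5, rfl, h1 t ht q s a1 a2 a3 a4 a5⟩
  have hpos : ∀ n ∈ 𝒩, 0 < n := fun n hn => by
    obtain ⟨q, s, -, -, -, -, -, -, a, -⟩ := hN n hn
    exact a.1
  have hphi : ∀ n ∈ 𝒩, (Nat.totient n : ℝ) ≤ EE B := fun n hn => by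
    obtain ⟨q, s, a1, a2, -, a4, rfl, a6, -⟩ := hN n hn
    obtain ⟨-, b2, b3⟩ := top_prime_mul a1 a2.1.1 a6
    rw [totient_top_rest (hpos _ hn), b2, b3, Nat.totient_prime a1]
    exact a4
  have htail : ∀ {q s : ℕ}, q.Prime → 0 < s → gpf s < q → ∀ i, tail (q * s) (i + 1) = tail s i :=
    fun a1 a2 a3 i => by rw [tail_succ', (top_prime_mul a1 a2 a3).2.2]
  -- level `0`
  have step0 : ((𝒩.image (obj 1)).card : ℝ) ≤ (𝒩.image (obj 0)).card + W := by
    have hlev : ∀ n ∈ 𝒩, lev n 0 = gpf (tail n 0) := fun n hn => by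
      obtain ⟨q, s, a1, a2, -, -, rfl, a6, -⟩ := hN n hn
      obtain ⟨b1, b2, -⟩ := top_prime_mul a1 a2.1.1 a6
      exact b2.trans b1.symm
    refine values_step 𝒩 0 hpos hlev ?_
    have hc := hcnt (X.θ ^ m) (le_of_max_le_right (hJ₀ m (by omega)).1) m (hJ₀ m (by omega)).2 B
      (h2 t ht).1 (h2 t ht).2
    refine SumBd.mono_bd (hc.of_map
      (fun o => (fun l => if l = 1 then o.1 else 1, o.2 / Nat.totient o.1)) ?_) ?_
    · rintro a ⟨n, hn, n', hn', rfl, e1, e2⟩
      obtain ⟨q, s, -, -, -, -, -, -, a7, a8, a9⟩ := hN n hn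
      obtain ⟨q', s', -, -, -, -, -, -, a7', -⟩ := hN n' hn'
      refine ⟨(gpf n, Nat.totient n), ⟨⟨n, n', a7, a7', a8, a9, e1, e2, rfl⟩, hphi n hn⟩, ?_, le_rfl⟩
      have hl : lev n 0 = gpf n := hlev n hn
      refine Prod.ext ?_ ?_
      · funext l
        simp only [obj, tup, mem_Icc]
        by_cases hl1 : l = 1
        · subst hl1
          simp [hl]
        · rw [if_neg hl1, if_neg (by omega)]
      · simp only [obj]
        have := totient_tail (hpos n hn) 0
        rw [tail_zero] at this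
        rw [this, ← hl]
        exact Nat.mul_div_cancel_left _ (Nat.totient_pos.2 (top_pos _))
    · refine mul_le_mul_of_nonneg_left ((hexp m hm).trans ?_) hx.le
      exact le_mul_of_one_le_right (Real.exp_pos _).le hG1
  -- the levels `j + 1`
  have stepS : ∀ j, j + 1 + k ≤ m → ((𝒩.image (obj (j + 2))).card : ℝ) ≤
      (𝒩.image (obj (j + 1))).card + 2 * Cc * Ce * Cg * (1 / 2) ^ (m - j) * W := by
    intro j hj
    obtain ⟨J, hJ⟩ : ∃ J, J = m - 1 - j := ⟨_, rfl⟩
    have hkJ' : k ≤ J := by omega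
    have hJm : J ≤ m - 1 := by omega
    have hjJ : m - 1 - J = j := by omega
    have hlevs : ∀ {s : ℕ}, Nice X.θ B m k s → lev s j = gpf (tail s j) := fun a2 =>
      (a2.1.lev_prime X.θ_gt (by omega) (by omega)).2
    have hnice : ∀ {s : ℕ}, Nice X.θ B m k s → NiceAt (X.θ ^ J) J (tail s j) := fun a2 =>
      hjJ ▸ a2.1.niceAt X.θ_gt hk4 hkJ' hJm
    refine values_step 𝒩 (j + 1) hpos (fun n hn => ?_) ?_
    · obtain ⟨q, s, a1, a2, -, -, rfl, a6, -⟩ := hN n hn
      rw [lev, htail a1 a2.1.1 a6]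
      exact hlevs a2
    have hA := (hev m hm1 t ht j (by omega)).prod
      (hrec (X.θ ^ J) (le_of_max_le_left (hJ₀ J (by omega)).1) J (hJ₀ J (by omega)).2)
      fun τ _ => wt_nonneg j τ
    have hz : 1 < Real.exp (Real.exp B / 2) := Real.one_lt_exp_iff.2 (by positivity)
    have hv := (cntBd_values (D := fun a : (ℕ → ℕ) × ℕ × ℕ => oval j (a.1, a.2.2))
      (Q := fun a => {q : ℕ | q.Prime ∧ Real.exp (Real.exp B / 2) ≤ q ∧
        (((q - 1) * oval j (a.1, a.2.2) : ℕ) : ℝ) ≤ EE B})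
      (Λ := Cc * EE B / Real.log (Real.exp (Real.exp B / 2)))
      (by rw [Real.log_exp]; have := EE_pos B; positivity)
      (hA.mono_fun fun a _ => (owt_eq_inv_oval j (a.1, a.2.2)).ge) ?_).1
    · refine SumBd.mono_bd (hv.of_map (valuesRec j) ?_) ?_
      · rintro a ⟨n, hn, n', hn', rfl, e1, e2⟩
        obtain ⟨q, s, a1, a2, a3, a4, rfl, a6, -⟩ := hN n hn
        obtain ⟨q', s', a1', a2', -, -, rfl, a6', -⟩ := hN n' hn'
        rw [htail a1 a2.1.1 a6, htail a1' a2'.1.1 a6'] at e1 e2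
        refine ⟨((tup j s, gpf (tail s j), Nat.totient (tail s j)), q), ⟨⟨?_, ?_⟩, a1, a3, ?_⟩,
          valuesRec_eq a1 a2.1.1 a6 (hlevs a2), le_rfl⟩
        · refine (a2.adm X (by omega) (by omega)).mono fun l _ => ?_
          have := pow_pos (pow_pos X.θ_pos (m - l)) 9
          simp only [Ctx.cneg, Ctx.cpos]
          linarith
        · refine ⟨tail s j, tail s' j, hnice a2, hnice a2', ?_, ht_nonneg _ _, e1, e2, rfl⟩
          have h4 := a2.1.2.2.1 J hkJ' hJm
          have h5 := pow_pos (pow_pos X.θ_pos J) 9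
          rw [hjJ] at h4
          linarith
        · have := oval_obj a2.1.1 j
          simp only [obj] at this
          simp only [this]
          exact a4
      · rw [Real.log_exp]
        have h4 := hGG m hm1 t ht j (by omega)
        have h5 := hexp J hkJ'
        have h6 := GG_pos hBpos m
        calc Cc * EE B / (Real.exp B / 2) * (Ce * GG B j * Real.exp (-(X.θ ^ J) ^ 2))
            = 2 * Cc * Ce * (EE B / Real.exp B) * (GG B j * Real.exp (-(X.θ ^ J) ^ 2)) := by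
              field_simp
          _ ≤ 2 * Cc * Ce * (EE B / Real.exp B) *
              (Cg * (1 / 2) ^ (m - j) * GG B m * Real.exp (-X.θ ^ k)) := by gcongr
          _ = _ := by rw [hW]; ring
    · rintro a ⟨ha1, s, s', a1, -, -, -, -, -, ha2⟩
      refine hch _ _ (EE_pos B).le hz _ (values_oval_pos ha1.1 ?_)
      rw [ha2]
      exact Nat.totient_pos.2 a1.1
  have hV : ((𝒩.image (obj 0)).card : ℝ) ≤ totientCount (EE B) := by
    exact_mod_cast values_zero 𝒩 fun n hn => ⟨hpos n hn, hphi n hn⟩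
  have main : ∀ j, j + k ≤ m → ((𝒩.image (obj (j + 1))).card : ℝ) ≤
      totientCount (EE B) + W + 2 * Cc * Ce * Cg * (1 / 2) ^ (m - j) * W := by
    intro j
    induction j with
    | zero =>
      intro _
      have : 0 ≤ 2 * Cc * Ce * Cg * (1 / 2) ^ (m - 0) * W := by positivity
      linarith
    | succ j ih =>
      intro hj
      have h4 := ih (by omega)
      have h5 := stepS j hj
      have h6 : ((1 : ℝ) / 2) ^ (m - j) = (1 / 2) ^ (m - (j + 1)) * (1 / 2) := by
        rw [← pow_succ]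
        congr 1
        omega
      rw [h6] at h4 h5
      linarith
  have h4 := main (m - k) (by omega)
  have h5 : ((1 : ℝ) / 2) ^ (m - (m - k)) ≤ 1 := pow_le_one₀ (by norm_num) (by norm_num)
  have h6 := mul_le_mul_of_nonneg_right (mul_le_mul_of_nonneg_left h5 hC₂.le) hWpos.le
  rw [← coe_image, Set.ncard_coe_finset]
  have h7 : EE B / Real.exp B * ((1 + 2 * Cc * Ce * Cg) * Real.exp (-X.θ ^ k) * GG B m) =
      W + 2 * Cc * Ce * Cg * 1 * W := by rw [hW]; ring
  rw [h7]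
  linarith

end Crest.Agent.R20
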