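import Crest.Agent.R20.Euler
import Crest.Agent.R20.Coef

/-!
# R20: violation of the simplex inequality — the pattern functional

Notation: `E = U^7`, `e = ⌊E⌋`, `λ_j = log ((j+1)/j)`; for a *pattern* `b : ℕ → ℕ` (antitone on
`[1,K]`, `e ≤ b j`) put `Φ_b(w) = ∑_{j=1}^K λ_j (OmB (b j) w - OmB e w)` (`patPhi`).
-/

set_option autoImplicit false

open Finset Filter Topology
open Crest.NumberTheoryR.TotientScale

noncomputable section

namespace Crest.Agent.R20

/-- The pattern functional. -/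
def patPhi (K e : ℕ) (b : ℕ → ℕ) (w : ℕ) : ℝ :=
  ∑ j ∈ Icc 1 K, Real.log (((j : ℝ) + 1) / j) * ((OmB (b j) w : ℝ) - OmB e w)

theorem vc_prod_ite (K : ℕ) (P : ℕ → Prop) [DecidablePred P]
    (hP : ∀ i j, 1 ≤ i → i ≤ j → j ≤ K → P j → P i) :
    ∏ j ∈ Icc 1 K, (if P j then ((j : ℝ) + 1) / j else 1) =
      1 + ∑ j ∈ Icc 1 K, if P j then (1 : ℝ) else 0 := by
  induction K with
  | zero => simp
  | succ K ih =>
    rw [prod_Icc_succ_top (by omega), sum_Icc_succ_top (by omega),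
      ih fun i j hi hij hj => hP i j hi hij (by omega)]
    by_cases h : P (K + 1)
    · have : ∑ j ∈ Icc 1 K, (if P j then (1 : ℝ) else 0) = K := by
        rw [sum_congr rfl fun j hj => if_pos (hP j (K + 1) (mem_Icc.1 hj).1
          ((mem_Icc.1 hj).2.trans (Nat.le_succ K)) le_rfl h)]
        simp
      rw [this, if_pos h, if_pos h]
      push_cast
      field_simp
      ring
    · rw [if_neg h, if_neg h, mul_one, add_zero]

theorem vc_cm_prod {ι : Type*} (I : Finset ι) (f : ι → ℕ → ℝ) (n : ℕ) :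
    cm (fun p => ∏ j ∈ I, f j p) n = ∏ j ∈ I, cm (f j) n := by
  simp only [cm, ← prod_pow]
  exact prod_comm

theorem vc_cm_ite {z : ℝ} (hz : 0 < z) {e b : ℕ} (h : e ≤ b) (w : ℕ) :
    cm (fun p => if e < win p ∧ win p ≤ b then z else 1) w =
      Real.exp (Real.log z * ((OmB b w : ℝ) - OmB e w)) := by
  have h1 : (fun p => if win p ≤ b then z else 1) =
      fun p => (if e < win p ∧ win p ≤ b then z else 1) * (if win p ≤ e then z else 1) := by
    funext p
    by_cases h1 : win p ≤ e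
    · simp [h1, h1.trans h]
    · simp [h1, not_le.1 h1]
  have h2 := cm_ite z b w
  rw [h1, cm_mul_fun, cm_ite] at h2
  rw [mul_sub, Real.exp_sub, mul_comm, mul_comm (Real.log z), Real.exp_nat_mul, Real.exp_nat_mul,
    Real.exp_log hz, eq_div_iff (by positivity), h2]

/-- Rankin.  Let `fw n = ∏_{j=1}^K (if e < n ≤ b j then (j+1)/j else 1)`; by antitonicity the `j`
with `n ≤ b j` form an initial segment, so `fw n = 1 + #{j ∈ [1,K] : e < n ≤ b j} ≤ K + 1`,
`∑_{n=1}^N fw n = N + ∑_j (b j - e)`, and `cm (fw ∘ win) w = exp (patPhi K e b w)` (`cm_ite`,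
`cm_mul_fun`).  A prime with `fw (win p) > 1` has `win p > e`, so `p > EE e ≥ 2 (K+1)`.
Apply `euler_win` with `F = K + 1`. -/
theorem recBd_pattern : ∃ C : ℝ, 0 < C ∧ ∀ (K e N : ℕ) (b : ℕ → ℕ) (Φ : ℝ),
    2 * ((K : ℝ) + 1) ≤ EE e → (∀ i j, 1 ≤ i → i ≤ j → j ≤ K → b j ≤ b i) →
    (∀ j ∈ Icc 1 K, e ≤ b j ∧ b j ≤ N) →
    RecBd {w : ℕ | 0 < w ∧ hq w ≤ N ∧ Φ ≤ patPhi K e b w}
      (Real.exp (N + ∑ j ∈ Icc 1 K, ((b j : ℝ) - e) - Φ + C * ((K : ℝ) + 1) ^ 2)) := by
  obtain ⟨C, hC, H⟩ := euler_win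
  refine ⟨C, hC, fun K e N b Φ hE hanti hb => ?_⟩
  let fw : ℕ → ℝ := fun n => ∏ j ∈ Icc 1 K, if e < n ∧ n ≤ b j then ((j : ℝ) + 1) / j else 1
  have hfw : ∀ n, fw n = 1 + ∑ j ∈ Icc 1 K, if e < n ∧ n ≤ b j then (1 : ℝ) else 0 := fun n =>
    vc_prod_ite K (fun j => e < n ∧ n ≤ b j)
      fun i j hi hij hj h => ⟨h.1, h.2.trans (hanti i j hi hij hj)⟩
  have hK0 : (0 : ℝ) ≤ K := Nat.cast_nonneg K
  have h0 : ∀ n, 0 ≤ fw n := fun n => by rw [hfw]; positivity
  have h1 : ∀ n, fw n ≤ K + 1 := fun n => by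
    rw [hfw]
    have : ∑ j ∈ Icc 1 K, (if e < n ∧ n ≤ b j then (1 : ℝ) else 0) ≤ ∑ _j ∈ Icc 1 K, (1 : ℝ) :=
      sum_le_sum fun j _ => by split_ifs <;> norm_num
    simp only [sum_const, Nat.card_Icc, add_tsub_cancel_right, nsmul_eq_mul, mul_one] at this
    linarith
  have h2 : ∀ p : ℕ, p.Prime → fw (win p) ≤ 3 / 4 * p := by
    intro p hp
    by_cases hw : e < win p
    · have h3 := (lt_ell_iff (Nat.cast_nonneg e)).1 (lt_win_iff.1 hw)
      linarith [h1 (win p)]
    · have h3 : (2 : ℝ) ≤ p := by exact_mod_cast hp.two_le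
      rw [hfw]
      simp only [hw, false_and, if_false, sum_const_zero]
      linarith
  have h3 : ∑ n ∈ Icc 1 N, fw n = N + ∑ j ∈ Icc 1 K, ((b j : ℝ) - e) := by
    simp only [hfw]
    rw [sum_add_distrib, sum_comm]
    congr 1
    · simp
    · refine sum_congr rfl fun j hj => ?_
      obtain ⟨h4, h5⟩ := hb j hj
      rw [sum_boole]
      have : (Icc 1 N).filter (fun n => e < n ∧ n ≤ b j) = Ioc e (b j) := by
        ext n
        simp only [mem_filter, mem_Icc, mem_Ioc]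
        omega
      rw [this, Nat.card_Ioc, Nat.cast_sub h4]
  have h4 : ∀ w, cm (fun p => fw (win p)) w = Real.exp (patPhi K e b w) := by
    intro w
    rw [patPhi, Real.exp_sum, vc_cm_prod]
    refine prod_congr rfl fun j hj => ?_
    have hj1 : (0 : ℝ) < j := by exact_mod_cast (mem_Icc.1 hj).1
    exact vc_cm_ite (by positivity) (hb j hj).1 w
  have h5 := (H fw (K + 1) N (by linarith) h0 h1 h2).const_mul (Real.exp_pos (-Φ)).le
  rw [h3, ← Real.exp_add] at h5
  refine ((h5.mono_set ?_).mono_fun ?_).mono_bd (le_of_eq ?_)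
  · rintro w ⟨hw, hq', -⟩
    exact ⟨hw, fun p hp hd => win_le_iff.2 ((ell_le_hq hw hp hd).trans hq')⟩
  · rintro w ⟨hw, -, hΦ⟩
    rw [h4, ← mul_div_assoc, ← Real.exp_add]
    exact div_le_div_of_nonneg_right (Real.one_le_exp (by linarith)) (Nat.cast_nonneg w)
  · congr 1
    ring

theorem vc_sum_log (K : ℕ) :
    ∑ j ∈ Icc 1 K, Real.log (((j : ℝ) + 1) / j) = Real.log ((K : ℝ) + 1) := by
  induction K with
  | zero => simp
  | succ K ih =>
    rw [sum_Icc_succ_top (by omega), ih]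
    push_cast
    rw [Real.log_div (by positivity) (by positivity)]
    ring

theorem vc_sum_max (K : ℕ) (β : ℕ → ℝ) :
    ∑ j ∈ Icc 1 K, Real.log (((j : ℝ) + 1) / j) * ∑ i ∈ range (K + 1), β (max i j) =
      ∑ l ∈ Icc 1 K, (aCoef l + 1) * β l := by
  induction K with
  | zero => simp
  | succ K ih =>
    rw [sum_Icc_succ_top (by omega), sum_Icc_succ_top (by omega), ← ih]
    have h1 : ∑ j ∈ Icc 1 K, Real.log (((j : ℝ) + 1) / j) * ∑ i ∈ range (K + 1 + 1), β (max i j) =
        ∑ j ∈ Icc 1 K, Real.log (((j : ℝ) + 1) / j) * ∑ i ∈ range (K + 1), β (max i j) +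
          Real.log ((K : ℝ) + 1) * β (K + 1) := by
      rw [← vc_sum_log, sum_mul, ← sum_add_distrib]
      refine sum_congr rfl fun j hj => ?_
      rw [sum_range_succ _ (K + 1), max_eq_left (by have := (mem_Icc.1 hj).2; omega), mul_add]
    have h2 : ∑ i ∈ range (K + 1 + 1), β (max i (K + 1)) = ((K : ℝ) + 1 + 1) * β (K + 1) := by
      rw [sum_congr rfl fun i hi => by rw [max_eq_right (by have := mem_range.1 hi; omega)]]
      simp
    rw [h1, h2, aCoef]
    push_cast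
    rw [Real.log_div (by positivity) (by positivity)]
    ring

/-- The pattern of a normal integer: `b j = max ⌊ht s j⌋ e`.  With `q_i = gpf (tail s i)`,
`∏_{i ≤ K} φ(q_i) ∣ φ(s)` (`prod_totient_gpf_dvd`), and `patPhi` is additive and monotone under
divisibility, so `patPhi (φ s) ≥ ∑_{i=0}^K ∑_{j=1}^K λ_j (OmB (b j) (q_i - 1) - OmB e (q_i - 1))`.
If `y_i = ht s i > E` then `q_i` is a normal prime, and the bracket is
`≥ min (b j) y_i - e - 2E ≥ b (max i j) - e - 2E`; if `y_i ≤ E` it is `≥ 0 = b (max i j) - e`.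
With `β_l = b l - e`: `∑_i ∑_j λ_j β_{max i j} = ∑_l β_l ((l+1) λ_l + ∑_{j<l} λ_j)
= ∑_l β_l ((l+1) log (l+1) - l log l) = ∑_l β_l (a_l + 1)`, and `∑_j λ_j = log (K+1)`. -/
theorem patPhi_ge {E : ℝ} (hE : 0 ≤ E) {K s : ℕ} (hs : 0 < s) (hn : AllNormal E s) :
    ∑ l ∈ Icc 1 K, (aCoef l + 1) * (((max ⌊ht s l⌋₊ ⌊E⌋₊ : ℕ) : ℝ) - ⌊E⌋₊) -
        2 * E * ((K : ℝ) + 1) * Real.log ((K : ℝ) + 1) ≤
      patPhi K ⌊E⌋₊ (fun l => max ⌊ht s l⌋₊ ⌊E⌋₊) (Nat.totient s) := by
  set e := ⌊E⌋₊ with he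
  set b : ℕ → ℕ := fun l => max ⌊ht s l⌋₊ e with hb
  have heE : (e : ℝ) ≤ E := Nat.floor_le hE
  have heb : ∀ l, e ≤ b l := fun l => le_max_right _ _
  have hanti : Antitone b := fun i j hij => max_le_max_right _ (Nat.floor_mono (ht_anti s hij))
  have hlam : ∀ j ∈ Icc 1 K, 0 ≤ Real.log (((j : ℝ) + 1) / j) := by
    intro j hj
    have hj1 : (0 : ℝ) < j := by exact_mod_cast (mem_Icc.1 hj).1
    exact Real.log_nonneg ((one_le_div hj1).2 (by linarith))
  have hD : ∀ j w, (0 : ℝ) ≤ (OmB (b j) w : ℝ) - OmB e w := fun j w =>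
    sub_nonneg.2 (Nat.cast_le.2 (OmB_mono w (heb j)))
  have hq0 : ∀ i, 0 < Nat.totient (gpf (tail s i)) := fun i =>
    Nat.totient_pos.2 (one_le_gpf _)
  obtain ⟨r, hr⟩ := prod_totient_gpf_dvd hs (K + 1)
  have hr0 : 0 < r := Nat.pos_of_ne_zero fun h => by
    rw [h, mul_zero] at hr
    exact (Nat.totient_pos.2 hs).ne' hr
  have key : ∀ i j, ((b (max i j) : ℝ) - e) - 2 * E ≤
      (OmB (b j) (Nat.totient (gpf (tail s i))) : ℝ) - OmB e (Nat.totient (gpf (tail s i))) := by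
    intro i j
    have hi : (b (max i j) : ℝ) ≤ b i := Nat.cast_le.2 (hanti (le_max_left i j))
    have hj : (b (max i j) : ℝ) ≤ b j := Nat.cast_le.2 (hanti (le_max_right i j))
    by_cases hy : ht s i ≤ E
    · have h1 : b i = e := max_eq_right (Nat.floor_mono hy)
      rw [h1] at hi
      linarith [hD j (Nat.totient (gpf (tail s i)))]
    · push Not at hy
      have h1 : 1 < tail s i := by
        by_contra h
        have h2 : tail s i = 1 := by have := tail_pos hs i; omega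
        rw [ht, h2, hq_one] at hy
        linarith
      have hp := gpf_prime h1
      have hy' : ht s i = ell (gpf (tail s i)) := rfl
      rcases hn _ hp ((gpf_dvd _).trans (tail_dvd s i)) with h2 | h2
      · linarith
      · rw [Nat.totient_prime hp]
        have h3 := (abs_le.1 (h2 (b j))).1
        have h4 := (abs_le.1 (h2 e)).2
        have h5 : (b i : ℝ) ≤ ht s i := by
          simp only [hb, Nat.cast_max]
          exact max_le (Nat.floor_le (ht_nonneg s i)) (by linarith)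
        have h6 : (b (max i j) : ℝ) ≤ min (b j : ℝ) (ell (gpf (tail s i))) :=
          le_min hj (by linarith)
        have h7 := min_le_left (e : ℝ) (ell (gpf (tail s i)))
        linarith
  calc _ = ∑ j ∈ Icc 1 K, Real.log (((j : ℝ) + 1) / j) *
        ∑ i ∈ range (K + 1), (((b (max i j) : ℝ) - e) - 2 * E) := by
        have e1 : ∀ j : ℕ, Real.log (((j : ℝ) + 1) / j) *
            ∑ i ∈ range (K + 1), (((b (max i j) : ℝ) - e) - 2 * E) =
            Real.log (((j : ℝ) + 1) / j) * ∑ i ∈ range (K + 1), ((b (max i j) : ℝ) - e) -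
              Real.log (((j : ℝ) + 1) / j) * (2 * E * ((K : ℝ) + 1)) := by
          intro j
          rw [sum_sub_distrib, sum_const, card_range, nsmul_eq_mul]
          push_cast
          ring
        rw [sum_congr rfl fun j _ => e1 j, sum_sub_distrib, vc_sum_max K fun l => (b l : ℝ) - e,
          ← sum_mul, vc_sum_log]
        ring
    _ ≤ _ := by
        refine sum_le_sum fun j hj => mul_le_mul_of_nonneg_left ?_ (hlam j hj)
        have hpos : 0 < ∏ i ∈ range (K + 1), Nat.totient (gpf (tail s i)) :=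
          prod_pos fun i _ => hq0 i
        rw [hr, OmB_mul _ hpos hr0, OmB_mul _ hpos hr0, OmB_prod _ _ _ fun i _ => hq0 i,
          OmB_prod _ _ _ fun i _ => hq0 i]
        push_cast
        have h1 := sum_le_sum fun i (_ : i ∈ range (K + 1)) => key i j
        rw [sum_sub_distrib (f := fun i => (OmB (b j) (Nat.totient (gpf (tail s i))) : ℝ))] at h1
        linarith [hD j r]

end Crest.Agent.R20
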